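import Vale.Agent.P292.Bn.N3

/-! # Degrees of line bundles in different charts. -/

namespace Vale.Agent.P292.Dv

open Vale.Agent.P292.Mo Module

universe u v w

section

variable {k : Type u} [Field k] {K : Type w} [Field K] [Algebra k K]
  {A₀ A₁ B₀ B₁ : Subalgebra k K} {w w' : K}

/-- Powers of a section bound the first cohomology of the powers of a line bundle. -/
theorem chart_h1_le (h : IsCD B₀ B₁) {w s : K} {m : ℕ} (hs : s ∈ Sec B₀ B₁ w m)
    (hs0 : s ≠ 0) (j : ℕ) :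
    finrank k (K ⧸ (Subalgebra.toSubmodule B₀ ⊔
      (Subalgebra.toSubmodule B₁).comap (LinearMap.mulLeft k (w ^ (m * j))))) ≤
    finrank k (K ⧸ (Subalgebra.toSubmodule B₀ ⊔ Subalgebra.toSubmodule B₁)) := by
  have hfin := h.fin1
  have hle : (Subalgebra.toSubmodule B₀ ⊔ Subalgebra.toSubmodule B₁) ≤
      (Subalgebra.toSubmodule B₀ ⊔ (Subalgebra.toSubmodule B₁).comap
        (LinearMap.mulLeft k (w ^ (m * j)))).comap (LinearMap.mulLeft k (s ^ j)) := by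
    refine sup_le ?_ ?_
    · intro x hx
      exact Submodule.mem_sup_left (B₀.mul_mem (B₀.pow_mem (mem_Sec.1 hs).1 j) hx)
    · intro x hx
      refine Submodule.mem_sup_right ?_
      change w ^ (m * j) * (s ^ j * x) ∈ B₁
      have h1 : w ^ (m * j) * (s ^ j * x) = (w ^ m * s) ^ j * x := by
        rw [pow_mul, mul_pow]; ring
      rw [h1]
      exact B₁.mul_mem (B₁.pow_mem (mem_Sec.1 hs).2 j) hx
  let T : (K ⧸ (Subalgebra.toSubmodule B₀ ⊔ Subalgebra.toSubmodule B₁)) →ₗ[k]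
      (K ⧸ (Subalgebra.toSubmodule B₀ ⊔ (Subalgebra.toSubmodule B₁).comap
        (LinearMap.mulLeft k (w ^ (m * j))))) :=
    Submodule.mapQ _ _ (LinearMap.mulLeft k (s ^ j)) hle
  have hT : Function.Surjective T := by
    intro y
    obtain ⟨y, rfl⟩ := Submodule.mkQ_surjective _ y
    refine ⟨Submodule.mkQ _ ((s ^ j)⁻¹ * y), ?_⟩
    change Submodule.mapQ _ _ _ hle (Submodule.Quotient.mk _) = _
    rw [Submodule.mapQ_apply, LinearMap.mulLeft_apply, mul_inv_cancel_left₀ (pow_ne_zero j hs0)]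
    rfl
  exact LinearMap.finrank_le_finrank_of_surjective hT

/-- **Comparison of degrees.** If all sections of the powers of `(A, w)` are sections of the powers
of `(B, w')`, and `w` has positive degree, then `deg w ≤ deg w'`. -/
theorem chart_idx_le (hA : IsCD A₀ A₁) (hB : IsCD B₀ B₁) {w w' a : K} (hw : w ≠ 0) (hw' : w' ≠ 0)
    (ha : a ≠ 0) (hpos : 0 < idx A₁ w)
    (hin : ∀ n, ∀ x ∈ Sec A₀ A₁ w n, a ^ n * x ∈ Sec B₀ B₁ w' n) :
    idx A₁ w ≤ idx B₁ w' := by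
  have hle : ∀ n, finrank k ↥(Sec A₀ A₁ w n) ≤ finrank k ↥(Sec B₀ B₁ w' n) := by
    intro n
    have := (hB.chi_Sec hw' n).1
    let T : ↥(Sec A₀ A₁ w n) →ₗ[k] ↥(Sec B₀ B₁ w' n) :=
      ((LinearMap.mulLeft k (a ^ n)).comp (Sec A₀ A₁ w n).subtype).codRestrict _
        fun x => hin n x x.2
    refine LinearMap.finrank_le_finrank_of_injective (f := T) ?_
    intro x y hxy
    have h1 : a ^ n * (x : K) = a ^ n * (y : K) := congrArg Subtype.val hxy
    exact Subtype.ext (mul_left_cancel₀ (pow_ne_zero n ha) h1)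
  -- a nonzero section of some positive power
  have hex : ∃ m : ℕ, 0 < m ∧ ∃ s ∈ Sec B₀ B₁ w' m, s ≠ 0 := by
    obtain ⟨m, hm⟩ : ∃ m : ℕ, 0 < chi0 A₀ A₁ + m * idx A₁ w ∧ 0 < m := by
      refine ⟨(|chi0 A₀ A₁| + 1).toNat, ?_, ?_⟩
      · have h1 : ((|chi0 A₀ A₁| + 1).toNat : ℤ) = |chi0 A₀ A₁| + 1 :=
          Int.toNat_of_nonneg (by positivity)
        rw [h1]
        have h2 := neg_abs_le (chi0 A₀ A₁)
        have h3 : |chi0 A₀ A₁| + 1 ≤ (|chi0 A₀ A₁| + 1) * idx A₁ w := by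
          have := abs_nonneg (chi0 A₀ A₁)
          nlinarith
        linarith
      · have := abs_nonneg (chi0 A₀ A₁)
        omega
    refine ⟨m, hm.2, ?_⟩
    have h1 := (hA.chi_Sec hw m).2.2
    have h2 : 0 < finrank k ↥(Sec A₀ A₁ w m) := by
      have : (0 : ℤ) ≤ finrank k (K ⧸ (Subalgebra.toSubmodule A₀ ⊔
        (Subalgebra.toSubmodule A₁).comap (LinearMap.mulLeft k (w ^ m)))) := Int.natCast_nonneg _
      have h3 : (0 : ℤ) < finrank k ↥(Sec A₀ A₁ w m) := by linarith [hm.1]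
      exact_mod_cast h3
    have h3 := h2.trans_le (hle m)
    have := (hB.chi_Sec hw' m).1
    obtain ⟨s, hs⟩ := Module.finrank_pos_iff_exists_ne_zero.1 h3
    exact ⟨s, s.2, fun h => hs (Subtype.ext h)⟩
  obtain ⟨m, hm, s, hs, hs0⟩ := hex
  by_contra hcon
  push Not at hcon
  -- growth
  have key : ∀ j : ℕ, (j : ℤ) ≤ chi0 B₀ B₁ - chi0 A₀ A₁ +
      finrank k (K ⧸ (Subalgebra.toSubmodule B₀ ⊔ Subalgebra.toSubmodule B₁)) := by
    intro j
    have h1 := (hA.chi_Sec hw (m * j)).2.2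
    have h2 := (hB.chi_Sec hw' (m * j)).2.2
    have h3 := chart_h1_le hB hs hs0 j
    have h4 : ((finrank k ↥(Sec A₀ A₁ w (m * j)) : ℕ) : ℤ) ≤
        finrank k ↥(Sec B₀ B₁ w' (m * j)) := by exact_mod_cast hle (m * j)
    have h5 : ((finrank k (K ⧸ (Subalgebra.toSubmodule B₀ ⊔
      (Subalgebra.toSubmodule B₁).comap (LinearMap.mulLeft k (w' ^ (m * j))))) : ℕ) : ℤ) ≤
      finrank k (K ⧸ (Subalgebra.toSubmodule B₀ ⊔ Subalgebra.toSubmodule B₁)) := by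
        exact_mod_cast h3
    have h6 : (0 : ℤ) ≤ finrank k (K ⧸ (Subalgebra.toSubmodule A₀ ⊔
      (Subalgebra.toSubmodule A₁).comap (LinearMap.mulLeft k (w ^ (m * j))))) :=
        Int.natCast_nonneg _
    have h7 : ((m * j : ℕ) : ℤ) * idx B₁ w' + (m * j : ℕ) ≤ ((m * j : ℕ) : ℤ) * idx A₁ w := by
      have : ((m * j : ℕ) : ℤ) * (idx B₁ w' + 1) ≤ ((m * j : ℕ) : ℤ) * idx A₁ w :=
        mul_le_mul_of_nonneg_left (by omega) (Int.natCast_nonneg _)
      linarith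
    have h8 : (j : ℤ) ≤ (m * j : ℕ) := by exact_mod_cast Nat.le_mul_of_pos_left j hm
    linarith
  have h1 := key ((chi0 B₀ B₁ - chi0 A₀ A₁ +
      finrank k (K ⧸ (Subalgebra.toSubmodule B₀ ⊔ Subalgebra.toSubmodule B₁))).toNat + 1)
  have h2 := Int.self_le_toNat (chi0 B₀ B₁ - chi0 A₀ A₁ +
      finrank k (K ⧸ (Subalgebra.toSubmodule B₀ ⊔ Subalgebra.toSubmodule B₁)))
  push_cast at h1
  linarith

/-- The line bundle of the cocycle `w` is contained in the line bundle of the cocycle `w'`. -/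
structure IsDom (A₀ A₁ : Subalgebra k K) (w : K) (B₀ B₁ : Subalgebra k K) (w' : K) : Prop where
  c10 : ∀ V : ValuationSubring K, (∀ x ∈ A₁, x ∈ V) → (∀ x ∈ B₀, x ∈ V) → w⁻¹ ∈ V
  c01 : ∀ V : ValuationSubring K, (∀ x ∈ A₀, x ∈ V) → (∀ x ∈ B₁, x ∈ V) → w' ∈ V
  c11 : ∀ V : ValuationSubring K, (∀ x ∈ A₁, x ∈ V) → (∀ x ∈ B₁, x ∈ V) → w' * w⁻¹ ∈ V

/-- The first place condition. -/
def HasP1 (A₀ A₁ : Subalgebra k K) : Prop :=
  ∀ V : ValuationSubring K, (∀ c : k, algebraMap k K c ∈ V) → (∀ a ∈ A₀, a ∈ V) ∨ (∀ a ∈ A₁, a ∈ V)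

/-- `B` is an intersection of valuation rings. -/
def IsNor (B : Subalgebra k K) : Prop :=
  ∀ x : K, (∀ V : ValuationSubring K, (∀ b ∈ B, b ∈ V) → x ∈ V) → x ∈ B

theorem isNor_of_isIntegrallyClosedIn {B : Subalgebra k K}
    (h : ∀ x : K, IsIntegral B x → x ∈ B) : IsNor B := by
  intro x hx
  have : IsIntegrallyClosedIn B.toSubring K := by
    rw [isIntegrallyClosedIn_iff]
    refine ⟨Subtype.val_injective, fun {y} hy => ?_⟩
    exact ⟨⟨y, h y hy⟩, rfl⟩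
  have h1 := Subring.eq_iInf_of_isIntegrallyClosedIn (R := B.toSubring)
  have h2 : x ∈ B.toSubring := by
    rw [h1, Subring.mem_iInf]
    intro V
    exact hx V.1 fun b hb => V.2 hb
  exact h2

theorem IsDom.sec (hw : w ≠ 0)
    (hP : HasP1 A₀ A₁) (h0 : IsNor B₀) (h1 : IsNor B₁) (h : IsDom A₀ A₁ w B₀ B₁ w') (n : ℕ)
    (x : K) (hx : x ∈ Sec A₀ A₁ w n) : x ∈ Sec B₀ B₁ w' n := by
  have hk : ∀ (B : Subalgebra k K) (V : ValuationSubring K), (∀ b ∈ B, b ∈ V) →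
      ∀ c : k, algebraMap k K c ∈ V := fun B V hV c => hV _ (B.algebraMap_mem c)
  refine mem_Sec.2 ⟨h0 x fun V hV => ?_, h1 _ fun V hV => ?_⟩
  · rcases hP V (hk _ V hV) with hA | hA
    · exact hA x (mem_Sec.1 hx).1
    · have h2 := V.mul_mem _ _ (pow_mem (h.c10 V hA hV) n) (hA _ (mem_Sec.1 hx).2)
      rwa [← mul_assoc, ← mul_pow, inv_mul_cancel₀ hw, one_pow, one_mul] at h2
  · rcases hP V (hk _ V hV) with hA | hA
    · exact V.mul_mem _ _ (pow_mem (h.c01 V hA hV) n) (hA x (mem_Sec.1 hx).1)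
    · have h2 := V.mul_mem _ _ (pow_mem (h.c11 V hA hV) n) (hA _ (mem_Sec.1 hx).2)
      have h3 : (w' * w⁻¹) ^ n * (w ^ n * x) = w' ^ n * x := by
        rw [← mul_assoc, ← mul_pow, mul_assoc, inv_mul_cancel₀ hw, mul_one]
      rwa [h3] at h2

/-- **Comparison of degrees**, local form. -/
theorem IsDom.idx_le (hA : IsCD A₀ A₁) (hB : IsCD B₀ B₁) (hw : w ≠ 0) (hw' : w' ≠ 0)
    (hP : HasP1 A₀ A₁) (h0 : IsNor B₀) (h1 : IsNor B₁) (h : IsDom A₀ A₁ w B₀ B₁ w')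
    (hpos : 0 < idx A₁ w) : idx A₁ w ≤ idx B₁ w' :=
  chart_idx_le hA hB (a := 1) hw hw' one_ne_zero hpos fun n x hx => by
    rw [one_pow, one_mul]
    exact h.sec hw hP h0 h1 n x hx

theorem mem_of_pow_mem {V : ValuationSubring K} {x : K} {n : ℕ} (hn : 0 < n) (h : x ^ n ∈ V) :
    x ∈ V := by
  rcases V.mem_or_inv_mem x with h1 | h1
  · exact h1
  · by_cases hx : x = 0
    · rw [hx]; exact V.zero_mem
    obtain ⟨m, rfl⟩ : ∃ m, n = m + 1 := ⟨n - 1, by omega⟩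
    have h2 := V.mul_mem _ _ h (pow_mem h1 m)
    have h3 : x ^ (m + 1) * x⁻¹ ^ m = x := by
      rw [pow_succ, mul_comm (x ^ m) x, mul_assoc, ← mul_pow, mul_inv_cancel₀ hx, one_pow, mul_one]
    rwa [h3] at h2

end

end Vale.Agent.P292.Dv
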