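import Vale.Agent.P292.D.T2Defs

/-! # The charts of the twisted field are twists of charts (C2, helper784). -/

namespace Vale.Agent.P292.Dv

open Vale.Agent.P292.Mo Polynomial

universe u v w

namespace TwC

section sl

variable {k : Type u} [Field k] {K L : Type w} [Field K] [Algebra k K] [Field L] [Algebra k L]
  {σ : k ≃+* k} {τ : L ≃+* K} (hτ : IsSl σ τ)

include hτ

theorem aeval_tw (f : k[X]) (t : L) :
    τ (Polynomial.aeval t f) = Polynomial.aeval (τ t) (f.map (σ : k →+* k)) := by
  induction f using Polynomial.induction_on' with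
  | add a b ha hb => rw [map_add, map_add, ha, hb, Polynomial.map_add, map_add]
  | monomial n c =>
    rw [Polynomial.aeval_monomial, Polynomial.map_monomial, Polynomial.aeval_monomial, map_mul,
      map_pow, hτ.al]
    rfl

omit hτ in
theorem map_symm_map (f : k[X]) : (f.map (σ.symm : k →+* k)).map (σ : k →+* k) = f := by
  rw [Polynomial.map_map]
  have : (σ : k →+* k).comp (σ.symm : k →+* k) = RingHom.id k := by
    ext c
    simp
  rw [this, Polynomial.map_id]

theorem B0_tw (t : L) (g : k[X]) : B0 t g = hτ.A (B0 (τ t) (g.map (σ : k →+* k))) := by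
  apply le_antisymm
  · rw [B0, Algebra.adjoin_le_iff]
    rintro x (rfl | rfl)
    · change τ _ ∈ B0 _ _
      exact Algebra.subset_adjoin (Set.mem_insert _ _)
    · change τ _ ∈ B0 _ _
      rw [map_inv₀, aeval_tw hτ]
      exact Algebra.subset_adjoin (Set.mem_insert_of_mem _ rfl)
  · intro x hx
    change τ x ∈ B0 _ _ at hx
    obtain ⟨y, rfl⟩ : ∃ y, x = τ.symm y := ⟨τ x, (τ.symm_apply_apply x).symm⟩
    rw [τ.apply_symm_apply] at hx
    induction hx using Algebra.adjoin_induction with
    | mem y hy =>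
      rcases hy with rfl | rfl
      · rw [τ.symm_apply_apply]
        exact Algebra.subset_adjoin (Set.mem_insert _ _)
      · rw [← aeval_tw hτ, ← map_inv₀, τ.symm_apply_apply]
        exact Algebra.subset_adjoin (Set.mem_insert_of_mem _ rfl)
    | algebraMap c =>
      have := hτ.sm (σ.symm c)
      rw [σ.apply_symm_apply] at this
      rw [this]
      exact Subalgebra.algebraMap_mem _ _
    | add x y _ _ h1 h2 => rw [map_add]; exact add_mem h1 h2
    | mul x y _ _ h1 h2 => rw [map_mul]; exact mul_mem h1 h2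

theorem B1_tw (t : L) (g : k[X]) : B1 t g = hτ.A (B1 (τ t) (g.map (σ : k →+* k))) := by
  have hdeg : ∀ f : k[X], (f.map (σ : k →+* k)).natDegree = f.natDegree := fun f =>
    Polynomial.natDegree_map _
  ext x
  rw [hτ.mem_A]
  constructor
  · rintro ⟨a, b, hb, hc, hd, rfl⟩
    have hc' : IsCoprime (b.map (σ : k →+* k)) (g.map (σ : k →+* k)) := by
      have h1 := hc.map (Polynomial.mapRingHom (σ : k →+* k))
      rwa [Polynomial.coe_mapRingHom] at h1
    refine ⟨a.map (σ : k →+* k), b.map (σ : k →+* k), ?_, hc', ?_, ?_⟩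
    · rw [← aeval_tw hτ]
      exact (map_ne_zero τ).2 hb
    · rw [hdeg, hdeg]
      exact hd
    · rw [map_div₀, aeval_tw hτ, aeval_tw hτ]
  · rintro ⟨a, b, hb, hc, hd, hx⟩
    refine ⟨a.map (σ.symm : k →+* k), b.map (σ.symm : k →+* k), ?_, ?_, ?_, ?_⟩
    · rw [← map_ne_zero τ, aeval_tw hτ, map_symm_map]
      exact hb
    · have h1 := hc.map (Polynomial.mapRingHom (σ.symm : k →+* k))
      rw [Polynomial.coe_mapRingHom] at h1
      have h2 : (g.map (σ : k →+* k)).map (σ.symm : k →+* k) = g := by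
        rw [Polynomial.map_map]
        have h3 : (σ.symm : k →+* k).comp (σ : k →+* k) = RingHom.id k := by
          ext c
          simp
        rw [h3, Polynomial.map_id]
      rw [h2] at h1
      exact h1
    · rw [Polynomial.natDegree_map, Polynomial.natDegree_map]
      exact hd
    · apply τ.injective
      rw [hx, map_div₀, aeval_tw hτ, aeval_tw hτ, map_symm_map, map_symm_map]

theorem IC_tw (B : Subalgebra k K) : IC (hτ.A B) = hτ.A (IC B) := by
  have key : ∀ (x : L), x ∈ IC (hτ.A B) ↔ τ x ∈ IC B := by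
    intro x
    change IsIntegral (hτ.A B) x ↔ IsIntegral B (τ x)
    constructor
    · rintro ⟨P, hP, hx⟩
      let ρ : hτ.A B →+* B :=
        { toFun := fun y => ⟨τ y.1, y.2⟩
          map_one' := Subtype.ext (map_one τ)
          map_mul' := fun a b => Subtype.ext (map_mul τ _ _)
          map_zero' := Subtype.ext (map_zero τ)
          map_add' := fun a b => Subtype.ext (map_add τ _ _) }
      refine ⟨P.map ρ, hP.map ρ, ?_⟩
      rw [Polynomial.eval₂_map]
      have h1 : (algebraMap B K).comp ρ = (τ : L →+* K).comp (algebraMap (hτ.A B) L) := rfl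
      rw [h1, ← RingHom.coe_coe τ, ← Polynomial.hom_eval₂, hx, map_zero]
    · rintro ⟨P, hP, hx⟩
      let ρ : B →+* hτ.A B :=
        { toFun := fun y => ⟨τ.symm y.1, by rw [hτ.mem_A, τ.apply_symm_apply]; exact y.2⟩
          map_one' := Subtype.ext (map_one τ.symm)
          map_mul' := fun a b => Subtype.ext (map_mul τ.symm _ _)
          map_zero' := Subtype.ext (map_zero τ.symm)
          map_add' := fun a b => Subtype.ext (map_add τ.symm _ _) }
      refine ⟨P.map ρ, hP.map ρ, ?_⟩
      rw [Polynomial.eval₂_map]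
      have h1 : (algebraMap (hτ.A B) L).comp ρ = (τ.symm : K →+* L).comp (algebraMap B K) := rfl
      have h2 : x = (τ.symm : K →+* L) (τ x) := (τ.symm_apply_apply x).symm
      rw [h1, h2, ← Polynomial.hom_eval₂, hx, map_zero]
  ext x
  exact key x

end sl

end TwC

/-- C2. The Euler characteristic is bounded below, uniformly in the charts (and in the twist). -/
theorem exists_chi_bound_of {k : Type u} [Field k] {K : Type w} [Field K] [Algebra k K]
    [IsAlgClosed k] {t : K} (p : ℕ) [Fact p.Prime] [CharP k p]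
    (h0 : ∃ C : ℕ, ∀ g : Polynomial k, g ≠ 0 → - (C : ℤ) ≤ chi0 (IC (B0 t g)) (IC (B1 t g))) :
    ∃ C : ℕ, ∀ (j : ℕ) (A₀ A₁ : Subalgebra k (Tw p j K)), IsCh (K := Tw p j K) t A₀ A₁ →
      - (C : ℤ) ≤ chi0 A₀ A₁ := by
  obtain ⟨C, hC⟩ := h0
  refine ⟨C, fun j A₀ A₁ h => ?_⟩
  obtain ⟨g, hg, rfl, rfl⟩ := h
  have hq0 : 0 < p ^ j := pow_pos (Fact.out : p.Prime).pos j
  have hs : Function.Surjective (iterateFrobenius k p j) := by
    intro c
    obtain ⟨z, hz⟩ := IsAlgClosed.exists_pow_nat_eq c hq0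
    exact ⟨z, by rw [iterateFrobenius_def, hz]⟩
  let σ : k ≃+* k := RingEquiv.ofBijective (iterateFrobenius k p j)
    ⟨(iterateFrobenius k p j).injective, hs⟩
  let τ : Tw p j K ≃+* K := RingEquiv.refl K
  have hτ : IsSl σ τ := ⟨fun c => rfl⟩
  have h1 := TwC.B0_tw hτ (L := Tw p j K) t g
  have h2 := TwC.B1_tw hτ (L := Tw p j K) t g
  rw [h1, h2, TwC.IC_tw hτ, TwC.IC_tw hτ, hτ.chi0]
  exact hC _ (by rwa [Ne, Polynomial.map_eq_zero])

end Vale.Agent.P292.Dv
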