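import Vale.Agent.P292.D.GapC
import Vale.Agent.P292.D.ChiTw

/-! # C2: the Euler characteristic is bounded below, uniformly in the charts and in the twist. -/

namespace Vale.Agent.P292.Dv

open Vale.Agent.P292.Mo

universe u v w

/-- C2. The Euler characteristic is bounded below, uniformly in the charts (and in the twist). -/
theorem exists_chi_bound {k : Type u} [Field k] {K : Type w} [Field K] [Algebra k K]
    [IsAlgClosed k] {t : K} (ht : Transcendental k t)
    [FiniteDimensional (IntermediateField.adjoin k {t}) K]
    [Algebra.IsSeparable (IntermediateField.adjoin k {t}) K] (p : ℕ) [Fact p.Prime] [CharP k p] :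
    ∃ C : ℕ, ∀ (j : ℕ) (A₀ A₁ : Subalgebra k (Tw p j K)), IsCh (K := Tw p j K) t A₀ A₁ →
      - (C : ℤ) ≤ chi0 A₀ A₁ :=
  exists_chi_bound_of p (gap_chi ht)

end Vale.Agent.P292.Dv
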