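import Vale.Agent.P292.Bn.N9

/-! # R7: the Euler characteristic of the functions vanishing at the marks. -/

namespace Vale.Agent.P292.Dv

open Module Submodule Vale.Agent.P292.Mo

universe u v w

/-- R7. -/
theorem chi_markI {k : Type u} [Field k] {K : Type w} [Field K] [Algebra k K]
    {A₀ A₁ : Subalgebra k K}
    (cd : IsCD A₀ A₁) {m : ℕ} {c : Fin m → (A₀ →ₐ[k] k)} (hc : Function.Injective c) :
    FiniteDimensional k ↥(markI c ⊓ Subalgebra.toSubmodule A₁) ∧
    FiniteDimensional k (K ⧸ (markI c ⊔ Subalgebra.toSubmodule A₁)) ∧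
    (Module.finrank k ↥(markI c ⊓ Subalgebra.toSubmodule A₁) : ℤ) -
        Module.finrank k (K ⧸ (markI c ⊔ Subalgebra.toSubmodule A₁)) = chi0 A₀ A₁ - m := by
  have h1 := cod_markI hc
  have h2 := chi_of_le (M := Subalgebra.toSubmodule A₁) (markI_le c) h1.1
  have h3 : Fred (markI c) (Subalgebra.toSubmodule A₁) := h2.1.1 (Fred.comm cd.fred)
  refine ⟨h3.1, h3.2, ?_⟩
  have h4 := h2.2 h3
  rw [chi0_eq, chi_comm, h4, h1.2]
  change _ = chi _ _ + _ - _
  rw [chi]
  ring

end Vale.Agent.P292.Dv
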