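import Vale.Agent.P292.Bn.N16

/-! # The starting curve: a function field point through a given closed point. -/

namespace Vale.Agent.P292.Dv

open MvPolynomial Vale.Agent.P292 Vale.Agent.P292.Mo

universe u v w

/-- A prime below the point modulo which the frame is independent. -/
theorem cp_prime {k : Type u} [Field k] [IsAlgClosed k] {R : Type v} [CommRing R]
    [Algebra k R] {𝒜 : ℕ → Submodule k R} [GradedAlgebra 𝒜] {P : R →ₗ[k] R →ₗ[k] R}
    (hPM : IsPM 𝒜 P) {n : ℕ} (x : Fin n → R) (w : R →ₐ[k] k) (hw : Mo.NV 𝒜 w)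
    (hdet : w (brM P x).det ≠ 0) : ∃ 𝔓 : Ideal R, 𝔓.IsPrime ∧ (∀ r ∈ 𝔓, w r = 0) ∧
      AlgebraicIndependent k fun i => Ideal.Quotient.mk 𝔓 (x i) := by
  have : Infinite k := IsAlgClosed.instInfinite
  obtain ⟨e, he, s, hs, hws⟩ := hw
  -- the multiplicative set
  have key : ∀ (b : R) (G : MvPolynomial (Fin n) k), w b ≠ 0 → G ≠ 0 → b * aeval x G ≠ 0 := by
    intro b G hb hne hbG
    obtain ⟨m, a, hma⟩ := indep_poly G hne (fun i => w (x i))
    obtain ⟨δ, hδ1, hδ2⟩ := indep_vec hPM.leibniz x w hdet a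
    obtain ⟨γ, hγ⟩ := indep_arc w δ hδ1 s hws (hPM.smooth e he s hs) (m + 1)
    choose q hq using hγ
    refine hma (fun i => Polynomial.C (a i) + Polynomial.X * q (x i)) (fun i => by simp) ?_
    rw [← Ideal.mem_span_singleton, ← Ideal.Quotient.eq_zero_iff_mem]
    have h2 : ∀ H : MvPolynomial (Fin n) k,
        Ideal.Quotient.mk (Ideal.span {(Polynomial.X : Polynomial k) ^ (m + 1)})
          (aeval (fun i => Polynomial.C (w (x i)) + Polynomial.X *
            (Polynomial.C (a i) + Polynomial.X * q (x i))) H) = γ (aeval x H) := by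
      intro H
      have h3 : (Ideal.Quotient.mkₐ k (Ideal.span {(Polynomial.X : Polynomial k) ^ (m + 1)})).comp
          (aeval (fun i => Polynomial.C (w (x i)) + Polynomial.X *
            (Polynomial.C (a i) + Polynomial.X * q (x i)))) = γ.comp (aeval x) := by
        refine MvPolynomial.algHom_ext fun i => ?_
        rw [AlgHom.comp_apply, AlgHom.comp_apply, aeval_X, aeval_X, hq (x i), hδ2 i,
          Ideal.Quotient.mkₐ_eq_mk]
        congr 1
        ring
      exact DFunLike.congr_fun h3 H
    rw [h2]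
    -- `γ b` is a unit
    have hu : IsUnit (γ b) := by
      have hnil : IsNilpotent (γ b - algebraMap k _ (w b)) := by
        refine ⟨m + 1, ?_⟩
        have h4 : γ b - algebraMap k _ (w b) = Ideal.Quotient.mk _
            (Polynomial.X * (Polynomial.C (δ b) + Polynomial.X * q b)) := by
          rw [hq b]
          have h5 : algebraMap k (Polynomial k ⧸ Ideal.span {(Polynomial.X : Polynomial k) ^ (m + 1)})
              (w b) = Ideal.Quotient.mk _ (Polynomial.C (w b)) := rfl
          rw [h5, ← map_sub]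
          congr 1
          ring
        rw [h4, ← map_pow, Ideal.Quotient.eq_zero_iff_mem, mul_pow]
        exact Ideal.mul_mem_right _ _ (Ideal.mem_span_singleton_self _)
      have h6 : IsUnit (algebraMap k (Polynomial k ⧸
          Ideal.span {(Polynomial.X : Polynomial k) ^ (m + 1)}) (w b)) :=
        (IsUnit.mk0 _ hb).map _
      have h7 := hnil.isUnit_add_left_of_commute h6 (Commute.all _ _)
      rwa [add_sub_cancel] at h7
    have h8 : γ b * γ (aeval x G) = 0 := by rw [← map_mul, hbG, map_zero]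
    exact (hu.mul_right_eq_zero).mp h8
  let M : Submonoid R :=
    { carrier := {z | ∃ (b : R) (G : MvPolynomial (Fin n) k), w b ≠ 0 ∧ G ≠ 0 ∧
        z = b * aeval x G}
      one_mem' := ⟨1, 1, by rw [map_one]; exact one_ne_zero, one_ne_zero, by
        rw [map_one, one_mul]⟩
      mul_mem' := by
        rintro _ _ ⟨b, G, hb, hG, rfl⟩ ⟨b', G', hb', hG', rfl⟩
        exact ⟨b * b', G * G', by rw [map_mul]; exact mul_ne_zero hb hb',
          mul_ne_zero hG hG', by rw [map_mul]; ring⟩ }
  obtain ⟨𝔓, h𝔓, -, hdisj⟩ := Ideal.exists_le_prime_disjoint (⊥ : Ideal R) M (by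
    rw [Set.disjoint_left]
    rintro z hz ⟨b, G, hb, hG, hz'⟩
    have hz0 : z = 0 := hz
    exact key b G hb hG (by rw [← hz', hz0]))
  rw [Set.disjoint_left] at hdisj
  refine ⟨𝔓, h𝔓, fun r hr => ?_, ?_⟩
  · by_contra hne
    exact hdisj hr ⟨r, 1, hne, one_ne_zero, by rw [map_one, mul_one]⟩
  · rw [algebraicIndependent_iff]
    intro G hG
    by_contra hne
    have h1 : aeval x G ∈ 𝔓 := by
      rw [← Ideal.Quotient.eq_zero_iff_mem]
      have h2 : (Ideal.Quotient.mkₐ k 𝔓).comp (aeval x) =
          aeval fun i => Ideal.Quotient.mk 𝔓 (x i) := by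
        refine MvPolynomial.algHom_ext fun i => ?_
        rw [AlgHom.comp_apply, aeval_X, aeval_X]
        rfl
      have h3 := DFunLike.congr_fun h2 G
      rw [← hG, ← h3]
      rfl
    exact hdisj h1 ⟨1, G, by rw [map_one]; exact one_ne_zero, hne, by rw [one_mul]⟩

/-- Independence of generators of a ring with enough independent elements. -/
theorem cp_indep {k : Type u} [Field k] {R : Type v} [CommRing R] [IsDomain R] [Algebra k R]
    {N n : ℕ} (hNn : n ≤ N) (x : Fin N → R) (y : Fin n → R) (hx : AlgebraicIndependent k x)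
    (hy : ∀ r : R, IsIntegral (Algebra.adjoin k (Set.range y)) r) : AlgebraicIndependent k y := by
  have h1 : Algebra.IsIntegral (Algebra.adjoin k (Set.range y)) R := ⟨hy⟩
  have h2 : Algebra.IsAlgebraic (Algebra.adjoin k (Set.range y)) R :=
    Algebra.IsIntegral.isAlgebraic
  have h3 := hx.lift_cardinalMk_le_trdeg
  have h4 : (n : Cardinal.{v}) ≤ N := by exact_mod_cast hNn
  exact (Algebra.IsAlgebraic.isTranscendenceBasis_of_lift_le_trdeg_of_finite k y
    (by
      have h5 : (N : Cardinal.{v}) ≤ Algebra.trdeg k R := by simpa using h3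
      simpa using h4.trans h5)).1

/-- Noether parameters do not vanish simultaneously at a non-vertex point. -/
theorem cp_nv {k : Type u} [Field k] {R : Type v} [CommRing R] [Algebra k R]
    {𝒜 : ℕ → Submodule k R} [GradedAlgebra 𝒜] {e n : ℕ} {y : Fin n → R} (_ : 0 < e)
    (hy : ∀ i, y i ∈ 𝒜 e) (hint : ∀ r : R, IsIntegral (Algebra.adjoin k (Set.range y)) r)
    (w : R →ₐ[k] k) (hw : Mo.NV 𝒜 w) : ∃ i, w (y i) ≠ 0 := by
  classical
  by_contra hcon
  push Not at hcon
  obtain ⟨m, hm, r, hr, hwr⟩ := hw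
  have claim : ∀ b ∈ Algebra.adjoin k (Set.range y), ∀ M, 0 < M →
      w (DirectSum.decompose 𝒜 b M : R) = 0 := by
    intro b hb M hM
    rw [Algebra.adjoin_range_eq_range_aeval] at hb
    obtain ⟨P, rfl⟩ := hb
    change w (DirectSum.decompose 𝒜 (aeval y P) M : R) = 0
    induction P using MvPolynomial.induction_on' with
    | monomial s c =>
      have hmem : aeval y (monomial s c) ∈ 𝒜 (e * (∑ i ∈ s.support, s i)) := by
        rw [aeval_monomial, ← Algebra.smul_def]
        refine Submodule.smul_mem _ _ ?_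
        have h1 : (s.prod fun i k => y i ^ k) ∈ 𝒜 (∑ i ∈ s.support, s i • e) :=
          SetLike.prod_mem_graded _ _ _ fun i _ => SetLike.pow_mem_graded _ (hy i)
        have h2 : ∑ i ∈ s.support, s i • e = e * (∑ i ∈ s.support, s i) := by
          rw [Finset.mul_sum]
          exact Finset.sum_congr rfl fun i _ => by rw [smul_eq_mul, mul_comm]
        rwa [h2] at h1
      by_cases hN : e * (∑ i ∈ s.support, s i) = M
      · rw [hN] at hmem
        rw [DirectSum.decompose_of_mem_same 𝒜 hmem, aeval_monomial, map_mul, Finsupp.prod, map_prod]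
        have hs : s ≠ 0 := by
          rintro rfl
          simp at hN
          omega
        obtain ⟨i, hi⟩ := Finsupp.support_nonempty_iff.mpr hs
        rw [Finset.prod_eq_zero hi, mul_zero]
        rw [map_pow, hcon, zero_pow (Finsupp.mem_support_iff.mp hi)]
      · rw [DirectSum.decompose_of_mem_ne 𝒜 hmem hN, map_zero]
    | add P Q hP hQ =>
      rw [map_add, DirectSum.decompose_add, DirectSum.add_apply, Submodule.coe_add, map_add, hP,
        hQ, add_zero]
  obtain ⟨p, hp, hpr⟩ := hint r
  set N := p.natDegree with hN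
  rw [Polynomial.eval₂_eq_sum_range] at hpr
  have h1 : ∀ i ∈ Finset.range (N + 1),
      (DirectSum.decompose 𝒜 ((algebraMap (Algebra.adjoin k (Set.range y)) R) (p.coeff i) * r ^ i)
        (m * N) : R) = (DirectSum.decompose 𝒜 ((p.coeff i : R)) (m * N - m * i) : R) * r ^ i := by
    intro i hi
    have h2 : r ^ i ∈ 𝒜 (m * i) := by
      have := SetLike.pow_mem_graded i hr
      rwa [smul_eq_mul, mul_comm] at this
    exact DirectSum.coe_decompose_mul_of_right_mem_of_le 𝒜 h2
      (Nat.mul_le_mul_left m (Nat.lt_succ_iff.mp (Finset.mem_range.mp hi)))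
  have h2 := congrArg (fun z => w (DirectSum.decompose 𝒜 z (m * N) : R)) hpr
  simp only [DirectSum.decompose_zero, DirectSum.zero_apply, ZeroMemClass.coe_zero, map_zero] at h2
  rw [DirectSum.decompose_sum, DFinsupp.finsetSum_apply, AddSubmonoidClass.coe_finsetSum,
    Finset.sum_congr rfl h1, map_sum, Finset.sum_range_succ] at h2
  rw [Finset.sum_eq_zero, zero_add] at h2
  · have h3 : p.coeff N = 1 := hp
    rw [h3, Nat.sub_self] at h2
    have h4 : (DirectSum.decompose 𝒜 (((1 : Algebra.adjoin k (Set.range y)) : R)) 0 : R) = 1 :=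
      DirectSum.decompose_of_mem_same 𝒜 SetLike.GradedOne.one_mem
    rw [h4, one_mul, map_pow] at h2
    exact hwr (eq_zero_of_pow_eq_zero h2)
  · intro i hi
    rw [map_mul, claim _ (p.coeff i).2 _ ?_, zero_mul]
    rw [Finset.mem_range] at hi
    rw [← Nat.mul_sub]
    exact Nat.mul_pos hm (Nat.sub_pos_of_lt hi)

attribute [local instance] Polynomial.algebra in
/-- Extension of a homomorphism to the polynomial ring, through a point. -/
theorem cp_ext {k : Type u} [Field k] {R : Type v} [CommRing R] [IsDomain R] [Algebra k R]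
    (B : Subalgebra k R) [IsIntegrallyClosed B] [Algebra.IsIntegral B R] (σ : B →ₐ[k] Polynomial k)
    (w : R →ₐ[k] k) (hw : ∀ b : B, w b = (σ b).eval 0) :
    ∃ (D : Type v) (_ : CommRing D) (_ : IsDomain D) (_ : Algebra k D) (t : D)
      (φ : R →ₐ[k] D), Transcendental k t ∧ (∀ b : B, φ b = Polynomial.aeval t (σ b)) ∧
      (∀ d : D, ∃ g : Polynomial R, d = g.sum fun i r => φ r * t ^ i) ∧
      ∃ χ : D →ₐ[k] k, χ t = 0 ∧ ∀ r, χ (φ r) = w r := by
  let Ψ : Polynomial B →+* Polynomial k :=
    Polynomial.eval₂RingHom (σ : B →+* Polynomial k) Polynomial.X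
  have hprime : (RingHom.ker Ψ).IsPrime := RingHom.ker_isPrime Ψ
  have hinj : Function.Injective (algebraMap (Polynomial B) (Polynomial R)) :=
    Polynomial.map_injective _ Subtype.val_injective
  let W : Polynomial R →ₐ[k] k := (Polynomial.aeval (0 : k)).comp (Polynomial.mapAlgHom w)
  have hWX : W Polynomial.X = 0 := by
    change Polynomial.aeval (0 : k) (Polynomial.map _ Polynomial.X) = 0
    rw [Polynomial.map_X, Polynomial.aeval_X]
  have hWC : ∀ r, W (Polynomial.C r) = w r := by
    intro r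
    change Polynomial.aeval (0 : k) (Polynomial.map _ (Polynomial.C r)) = _
    rw [Polynomial.map_C, Polynomial.aeval_C]
    rfl
  have hWΨ : ∀ x : Polynomial B, W (x.map (algebraMap B R)) = (Ψ x).eval 0 := by
    intro x
    have h1 : (W : Polynomial R →+* k).comp (Polynomial.mapRingHom (algebraMap B R)) =
        (Polynomial.evalRingHom 0).comp Ψ := by
      refine Polynomial.ringHom_ext (fun b => ?_) ?_
      · simp only [RingHom.comp_apply, Polynomial.coe_mapRingHom, Polynomial.map_C]
        have h2 : Ψ (Polynomial.C b) = σ b := Polynomial.eval₂_C _ _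
        rw [h2]
        exact (hWC _).trans (hw b)
      · simp only [RingHom.comp_apply, Polynomial.coe_mapRingHom, Polynomial.map_X]
        have h2 : Ψ Polynomial.X = Polynomial.X := Polynomial.eval₂_X _ _
        rw [h2]
        exact hWX.trans (by simp)
    exact RingHom.congr_fun h1 x
  have hWp : (RingHom.ker W).IsPrime := RingHom.ker_isPrime W
  have hfaith : FaithfulSMul (Polynomial B) (Polynomial R) :=
    (faithfulSMul_iff_algebraMap_injective _ _).mpr hinj
  have hle : RingHom.ker Ψ ≤ (RingHom.ker W).under (Polynomial B) := by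
    intro x hx
    rw [Ideal.mem_comap, RingHom.mem_ker]
    have h1 := hWΨ x
    rw [RingHom.mem_ker] at hx
    rw [hx, Polynomial.eval_zero] at h1
    exact h1
  obtain ⟨P, hPW, hP, hPo⟩ := Ideal.exists_ideal_le_liesOver_of_le (p := RingHom.ker Ψ)
    (q := (RingHom.ker W).under (Polynomial B)) (RingHom.ker W) hle
  have hPc : P.comap (algebraMap (Polynomial B) (Polynomial R)) = RingHom.ker Ψ :=
    hPo.over.symm
  have hmem : ∀ x : Polynomial B, Ψ x = 0 → x.map (algebraMap B R) ∈ P := by
    intro x hx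
    have h1 : x ∈ P.comap (algebraMap (Polynomial B) (Polynomial R)) := by
      rw [hPc]; exact hx
    exact h1
  have hmem' : ∀ x : Polynomial B, x.map (algebraMap B R) ∈ P → Ψ x = 0 := by
    intro x hx
    have h1 : x ∈ P.comap (algebraMap (Polynomial B) (Polynomial R)) := hx
    rw [hPc] at h1
    exact h1
  have hΨ : ∀ g : Polynomial k, Ψ (g.map (algebraMap k B)) = g := by
    intro g
    show Polynomial.eval₂ (σ : B →+* Polynomial k) Polynomial.X (g.map (algebraMap k B)) = g
    rw [Polynomial.eval₂_map]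
    have h1 : (σ : B →+* Polynomial k).comp (algebraMap k B) = Polynomial.C := by
      ext c
      simp
    rw [h1, Polynomial.eval₂_C_X]
  have hmap : ∀ g : Polynomial k, (g.map (algebraMap k B)).map (algebraMap B R) =
      g.map (algebraMap k R) := by
    intro g
    rw [Polynomial.map_map]
    rfl
  let mk : Polynomial R →ₐ[k] (Polynomial R ⧸ P) := Ideal.Quotient.mkₐ k P
  have haev : ∀ g : Polynomial k, Polynomial.aeval (mk Polynomial.X) g =
      mk (g.map (algebraMap k R)) := by
    intro g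
    rw [Polynomial.aeval_algHom_apply, ← Polynomial.aeval_map_algebraMap R,
      Polynomial.aeval_X_left_apply]
  have hz : ∀ x : Polynomial R, mk x = 0 ↔ x ∈ P := fun x => Ideal.Quotient.eq_zero_iff_mem
  refine ⟨Polynomial R ⧸ P, inferInstance, Ideal.Quotient.isDomain P, inferInstance,
    mk Polynomial.X, mk.comp Polynomial.CAlgHom, ?_, ?_, ?_,
    Ideal.Quotient.liftₐ P W (fun a ha => hPW ha), hWX, fun r => hWC r⟩
  · rw [transcendental_iff]
    intro g hg
    rw [haev, hz, ← hmap] at hg
    have h1 := hmem' _ hg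
    rwa [hΨ] at h1
  · intro b
    rw [haev]
    have h1 : Ψ (Polynomial.C b - (σ b).map (algebraMap k B)) = 0 := by
      rw [map_sub, hΨ]
      show Polynomial.eval₂ (σ : B →+* Polynomial k) Polynomial.X (Polynomial.C b) - σ b = 0
      rw [Polynomial.eval₂_C]
      exact sub_self _
    have h2 := hmem _ h1
    rw [Polynomial.map_sub, Polynomial.map_C, hmap] at h2
    have h3 := (hz _).2 h2
    rw [map_sub, sub_eq_zero] at h3
    exact h3
  · intro d
    obtain ⟨g, hg⟩ := Ideal.Quotient.mk_surjective d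
    refine ⟨g, ?_⟩
    have h1 : mk g = d := hg
    rw [← h1]
    conv_lhs => rw [← Polynomial.sum_C_mul_X_pow_eq g]
    rw [Polynomial.sum_def, Polynomial.sum_def, map_sum]
    refine Finset.sum_congr rfl fun i _ => ?_
    rw [map_mul, map_pow]
    rfl

/-- Choice of the direction of the line. -/
theorem cp_line {k : Type u} [Field k] [Infinite k] {n : ℕ} (hn : 2 ≤ n) (a : Fin n → k)
    (ha : ∃ i, a i ≠ 0) {G : MvPolynomial (Fin n) k} (hG : G ≠ 0) :
    ∃ b : Fin n → k, LinearIndependent k ![a, b] ∧ MvPolynomial.eval (fun i => a i + b i) G ≠ 0 := by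
  obtain ⟨i, hi⟩ := ha
  obtain ⟨j, hj⟩ : ∃ j, j ≠ i := by
    have : Nontrivial (Fin n) := Fin.nontrivial_iff_two_le.mpr hn
    exact exists_ne i
  have hH : (C (a i) * X j - C (a j) * X i : MvPolynomial (Fin n) k) ≠ 0 := by
    intro h
    have h1 := congrArg (MvPolynomial.coeff (Finsupp.single j 1)) h
    rw [coeff_sub, coeff_C_mul, coeff_C_mul, coeff_X, coeff_zero, coeff_X,
      if_neg (fun h2 => hj (Finsupp.single_left_injective one_ne_zero h2).symm)] at h1
    apply hi
    simpa using h1
  obtain ⟨c, hc⟩ : ∃ c, MvPolynomial.eval c (G * (C (a i) * X j - C (a j) * X i)) ≠ 0 := by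
    by_contra h
    push Not at h
    exact mul_ne_zero hG hH (MvPolynomial.funext fun a => (h a).trans (map_zero _).symm)
  rw [map_mul] at hc
  have hc1 := left_ne_zero_of_mul hc
  have hc2 := right_ne_zero_of_mul hc
  simp only [map_sub, map_mul, eval_C, eval_X] at hc2
  refine ⟨fun l => c l - a l, ?_, ?_⟩
  · rw [LinearIndependent.pair_iff]
    intro s t hst
    have h1 := congrFun hst i
    have h2 := congrFun hst j
    simp only [Pi.add_apply, Pi.smul_apply, smul_eq_mul, Pi.zero_apply] at h1 h2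
    have ht : t * (a i * c j - a j * c i) = 0 := by linear_combination a i * h2 - a j * h1
    have ht0 : t = 0 := (mul_eq_zero.1 ht).resolve_right hc2
    rw [ht0, zero_mul, add_zero] at h1
    exact ⟨(mul_eq_zero.1 h1).resolve_right hi, ht0⟩
  · have : (fun l => a l + (c l - a l)) = c := by
      funext l
      ring
    rw [this]
    exact hc1

theorem cp_top {F : Type u} [Field F] {K : Type v} [Field K] [Algebra F K] (W : Submodule F K)
    (hW : FiniteDimensional F W) (s : Set K)
    (hs : ∀ x ∈ Submonoid.closure s, x ∈ W) (X : Set K) (hX : ∀ x ∈ X, x ∈ Algebra.adjoin F s)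
    (hfrac : ∀ x : K, ∃ a ∈ X, ∃ b ∈ X, x = a / b) : W = ⊤ := by
  have hAW : Subalgebra.toSubmodule (Algebra.adjoin F s) ≤ W := by
    rw [Algebra.adjoin_eq_span, Submodule.span_le]
    exact fun x hx => hs x hx
  have hAfin : FiniteDimensional F (Subalgebra.toSubmodule (Algebra.adjoin F s)) :=
    Submodule.finiteDimensional_of_le hAW
  have hAfin' : FiniteDimensional F (Algebra.adjoin F s) := hAfin
  have hinv : ∀ x ∈ Algebra.adjoin F s, x⁻¹ ∈ Algebra.adjoin F s := by
    intro x hx
    have h1 : IsAlgebraic F (⟨x, hx⟩ : Algebra.adjoin F s) := Algebra.IsAlgebraic.isAlgebraic _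
    exact (Algebra.adjoin F s).inv_mem_of_algebraic (x := ⟨x, hx⟩)
      (h1.algHom (Algebra.adjoin F s).val)
  rw [eq_top_iff]
  intro x _
  refine hAW ?_
  obtain ⟨a, ha, b, hb, rfl⟩ := hfrac x
  change a / b ∈ Algebra.adjoin F s
  rw [div_eq_mul_inv]
  exact (Algebra.adjoin F s).mul_mem (hX a ha) (hinv _ (hX b hb))

theorem cp_rank {F : Type u} [Field F] {K : Type v} [Field K] [Algebra F K] [DecidableEq K]
    (T : Finset K) (h : Submodule.span F (T : Set K) = ⊤) :
    FiniteDimensional F K ∧ Module.finrank F K ≤ T.card := by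
  have h1 : FiniteDimensional F K := Module.finite_def.2 (by rw [← h]; exact ⟨T, rfl⟩)
  refine ⟨h1, ?_⟩
  calc Module.finrank F K = Module.finrank F (⊤ : Submodule F K) := (_root_.finrank_top F K).symm
    _ = Module.finrank F (Submodule.span F (T : Set K)) := by rw [h]
    _ ≤ T.card := finrank_span_finset_le_card _

/-- A function field point of the variety through a given closed point, outside `f = 0`. -/
theorem exists_ff_pt {k : Type u} [Field k] [IsAlgClosed k] {R : Type v} [CommRing R]
    [Algebra k R] {𝒜 : ℕ → Submodule k R} [GradedAlgebra 𝒜] {P : R →ₗ[k] R →ₗ[k] R}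
    (hPM : IsPM 𝒜 P) {p e n : ℕ} {y : Fin n → R} (hN : IsNoe 𝒜 p e y) (w : R →ₐ[k] k)
    (hw : Mo.NV 𝒜 w) (hrk : ∃ N, n ≤ N ∧ HasRk 𝒜 P w N) (f : R)
    (hf : ∃ h : R, ∃ G : MvPolynomial (Fin n) k, G ≠ 0 ∧ f * h = aeval y G) :
    ∃ (K : Type v) (_ : Field K) (_ : Algebra k K) (t : K) (φ : R →ₐ[k] K) (a b : Fin n → k),
      IsFF e y t φ a b ∧ Module.finrank (IntermediateField.adjoin k {t}) K < p ∧ φ f ≠ 0 ∧
      ∃ V : ValuationSubring K, (∀ c : k, algebraMap k K c ∈ V) ∧ (∀ r, φ r ∈ V) ∧
        ∀ r, w r = 0 → V.valuation (φ r) < 1 := by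
  classical
  obtain ⟨h, G, hG, hfh⟩ := hf
  have : Infinite k := IsAlgClosed.instInfinite
  obtain ⟨N₁, hnN, x, dx, gx, -, hgx⟩ := hrk
  rw [map_mul] at hgx
  obtain ⟨S, hSp, hS⟩ := hN.gens
  let B₀ : Subalgebra k R := Algebra.adjoin k (Set.range y)
  have hB₀fin : Module.Finite B₀ R := ⟨⟨S, hS⟩⟩
  have hint₀ : ∀ r : R, IsIntegral B₀ r := fun r => IsIntegral.of_finite B₀ r
  obtain ⟨𝔓, h𝔓, h𝔓w, hxi⟩ := cp_prime hPM x w hw (right_ne_zero_of_mul hgx)
  let m : R →ₐ[k] R ⧸ 𝔓 := Ideal.Quotient.mkₐ k 𝔓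
  have hm : Function.Surjective m := Ideal.Quotient.mk_surjective
  let y' : Fin n → R ⧸ 𝔓 := fun i => m (y i)
  let B : Subalgebra k (R ⧸ 𝔓) := Algebra.adjoin k (Set.range y')
  have hmB : ∀ b ∈ B₀, m b ∈ B := by
    intro b hb
    have h1 : B₀ ≤ B.comap m := Algebra.adjoin_le (by
      rintro _ ⟨i, rfl⟩
      exact Algebra.subset_adjoin ⟨i, rfl⟩)
    exact h1 hb
  let mB : B₀ →ₐ[k] B := (m.comp B₀.val).codRestrict B fun b => hmB b b.2
  have hint : ∀ r : R ⧸ 𝔓, IsIntegral B r := by
    intro r
    obtain ⟨r, rfl⟩ := hm r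
    exact (hint₀ r).map_of_comp_eq (mB : B₀ →+* B) (m : R →+* R ⧸ 𝔓) rfl
  have hyi : AlgebraicIndependent k y' := cp_indep hnN _ y' hxi hint
  let w' : R ⧸ 𝔓 →ₐ[k] k := Ideal.Quotient.liftₐ 𝔓 w h𝔓w
  have hw' : ∀ r, w' (m r) = w r := fun r => rfl
  let a : Fin n → k := fun i => w (y i)
  obtain ⟨b, hab, hGb⟩ := cp_line hN.two_le a (cp_nv hN.e_pos hN.hom hint₀ w hw) hG
  -- the homomorphism to the polynomial ring
  let E : MvPolynomial (Fin n) k ≃ₐ[k] B := hyi.aevalEquiv
  have hE : ∀ G, (E G : R ⧸ 𝔓) = aeval y' G := fun G => hyi.algebraMap_aevalEquiv G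
  let τ : MvPolynomial (Fin n) k →ₐ[k] Polynomial k :=
    aeval fun i => Polynomial.C (a i) + Polynomial.C (b i) * Polynomial.X ^ e
  let σ : B →ₐ[k] Polynomial k := τ.comp E.symm.toAlgHom
  have hσ : ∀ G, σ (E G) = τ G := fun G => by
    show τ (E.symm (E G)) = τ G
    rw [AlgEquiv.symm_apply_apply]
  have : IsIntegrallyClosed B := IsIntegrallyClosed.of_equiv E.toRingEquiv
  have : Algebra.IsIntegral B (R ⧸ 𝔓) := ⟨hint⟩
  have hwσ : ∀ b : B, w' b = (σ b).eval 0 := by
    intro b
    obtain ⟨H, rfl⟩ := E.surjective b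
    rw [hσ, hE]
    have h1 : w'.comp (aeval y') = (Polynomial.aeval (0 : k)).comp τ := by
      refine MvPolynomial.algHom_ext fun i => ?_
      simp only [AlgHom.comp_apply, aeval_X, τ, map_add, map_mul, map_pow, Polynomial.aeval_C,
        Polynomial.aeval_X, zero_pow hN.e_pos.ne', mul_zero, add_zero]
      exact hw' (y i)
    have h2 := DFunLike.congr_fun h1 H
    rw [← Polynomial.coe_aeval_eq_eval]
    exact h2
  obtain ⟨D, _, _, _, t, φ, ht, hφB, hgen, χ, hχt, hχ⟩ := cp_ext B σ w' hwσ
  let K := FractionRing D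
  let ι : D →ₐ[k] K := Algebra.algHom k D K
  have hι : Function.Injective ι := IsFractionRing.injective D K
  let φ' : R →ₐ[k] K := (ι.comp φ).comp m
  have ht' : Transcendental k (ι t) := by
    rw [transcendental_iff] at ht ⊢
    intro g hg
    apply ht
    rw [Polynomial.aeval_algHom_apply] at hg
    exact hι (by rw [hg, map_zero])
  have hφB' : ∀ b : B, ι (φ b) = Polynomial.aeval (ι t) (σ b) := by
    intro b
    rw [hφB, Polynomial.aeval_algHom_apply]
  have hval : ∀ G, φ' (aeval y G) = Polynomial.aeval (ι t) (τ G) := by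
    intro G
    rw [← hσ, ← hφB', hE]
    have h1 : m.comp (aeval y) = aeval y' := by
      refine MvPolynomial.algHom_ext fun i => ?_
      rw [AlgHom.comp_apply, aeval_X, aeval_X]
    rw [← h1]
    rfl
  have hφB₀ : ∀ b : B₀, φ' b = Polynomial.aeval (ι t) (σ (mB b)) := fun b => hφB' (mB b)
  let F := IntermediateField.adjoin k {ι t}
  have htF : ι t ∈ F := IntermediateField.mem_adjoin_simple_self k _
  have hpF : ∀ g : Polynomial k, Polynomial.aeval (ι t) g ∈ F := by
    intro g
    have h1 : Algebra.adjoin k {ι t} ≤ F.toSubalgebra :=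
      Algebra.adjoin_le (Set.singleton_subset_iff.2 htF)
    exact h1 (Polynomial.aeval_mem_adjoin_singleton k (ι t))
  -- the span of the images of the generators
  let W : Submodule F K := Submodule.span F ((S.image φ' : Finset K) : Set K)
  have hW : ∀ r, φ' r ∈ W := by
    intro r
    have hr : r ∈ Submodule.span B₀ (S : Set R) := by
      rw [show Submodule.span B₀ (S : Set R) = ⊤ from hS]
      trivial
    induction hr using Submodule.span_induction with
    | mem x hx => exact Submodule.subset_span (by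
        rw [Finset.coe_image]; exact Set.mem_image_of_mem _ hx)
    | zero => rw [map_zero]; exact W.zero_mem
    | add x y _ _ hx hy => rw [map_add]; exact W.add_mem hx hy
    | smul c x _ hx =>
      have h1 : φ' (c • x) = (⟨Polynomial.aeval (ι t) (σ (mB c)), hpF _⟩ : F) • φ' x := by
        rw [Algebra.smul_def, map_mul]
        show φ' (c : R) * φ' x = _
        rw [hφB₀]
        rfl
      rw [h1]
      exact W.smul_mem _ hx
  have htop : W = ⊤ := by
    refine cp_top W (FiniteDimensional.span_finset F _) (Set.range φ') ?_ (Set.range ι) ?_ ?_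
    · intro x hx
      have h1 : Submonoid.closure (Set.range φ') ≤ MonoidHom.mrange (φ' : R →* K) := by
        rw [Submonoid.closure_le]
        rintro _ ⟨r, rfl⟩
        exact ⟨r, rfl⟩
      obtain ⟨r, rfl⟩ := h1 hx
      exact hW r
    · rintro _ ⟨d, rfl⟩
      obtain ⟨g, rfl⟩ := hgen d
      rw [Polynomial.sum_def, map_sum]
      refine Subalgebra.sum_mem _ fun i _ => ?_
      rw [map_mul, map_pow]
      obtain ⟨r, hr⟩ := hm (g.coeff i)
      rw [← hr]
      refine Subalgebra.mul_mem _ (Algebra.subset_adjoin ⟨r, rfl⟩) (Subalgebra.pow_mem _ ?_ _)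
      exact Subalgebra.algebraMap_mem _ (⟨ι t, htF⟩ : F)
    · intro x
      obtain ⟨d₁, d₂, -, rfl⟩ := IsFractionRing.div_surjective (A := D) x
      exact ⟨_, ⟨d₁, rfl⟩, _, ⟨d₂, rfl⟩, rfl⟩
  obtain ⟨hfin, hrank⟩ := cp_rank (S.image φ') htop
  -- the valuation ring
  obtain ⟨V, hV1, hV2⟩ : ∃ V : ValuationSubring K, (∀ d, ι d ∈ V) ∧
      ∀ d, χ d = 0 → V.valuation (ι d) < 1 := by
    let A' : Subring K := (ι : D →+* K).range
    let I : Ideal A' := (RingHom.ker χ).map (ι : D →+* K).rangeRestrict
    have hI : I ≠ ⊤ := by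
      intro hI
      have h1 : (1 : A') ∈ I := by rw [hI]; trivial
      rw [Ideal.mem_map_iff_of_surjective _ (ι : D →+* K).rangeRestrict_surjective] at h1
      obtain ⟨d, hd, hd1⟩ := h1
      have h2 : ι d = ι 1 := by
        rw [map_one]
        exact congrArg Subtype.val hd1
      rw [hι h2, RingHom.mem_ker, map_one] at hd
      exact one_ne_zero hd
    obtain ⟨V, hAV, hIV⟩ := Ideal.image_subset_nonunits_valuationSubring I hI
    refine ⟨V, fun d => hAV ⟨d, rfl⟩, fun d hd => ?_⟩
    have h1 : ι d ∈ V.nonunits := hIV ⟨(ι : D →+* K).rangeRestrict d,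
      Ideal.mem_map_of_mem _ hd, rfl⟩
    exact h1
  refine ⟨K, inferInstance, inferInstance, ι t, φ', a, b, ⟨ht', ?_, ?_, hab⟩, ?_, ?_, V, ?_, ?_, ?_⟩
  · exact hfin
  · intro i
    have h1 := hval (X i)
    rw [aeval_X] at h1
    rw [h1]
    show Polynomial.aeval (ι t) (aeval _ (X i)) = _
    rw [aeval_X, map_add, map_mul, map_pow, Polynomial.aeval_C, Polynomial.aeval_C,
      Polynomial.aeval_X]
  · exact (hrank.trans Finset.card_image_le).trans_lt hSp
  · intro h0
    have h1 : φ' (f * h) = 0 := by rw [map_mul, h0, zero_mul]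
    rw [hfh, hval] at h1
    rw [transcendental_iff] at ht'
    have h2 := ht' _ h1
    apply hGb
    have h3 : Polynomial.aeval (1 : k) (τ G) = MvPolynomial.eval (fun i => a i + b i) G := by
      show Polynomial.aeval (1 : k) (aeval _ G) = _
      rw [← AlgHom.comp_apply, MvPolynomial.comp_aeval]
      have h4 : (fun i => Polynomial.aeval (1 : k)
          (Polynomial.C (a i) + Polynomial.C (b i) * Polynomial.X ^ e)) =
          fun i => a i + b i := by
        funext i
        rw [map_add, map_mul, map_pow, Polynomial.aeval_C, Polynomial.aeval_C,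
          Polynomial.aeval_X, one_pow, mul_one]
        rfl
      rw [h4, MvPolynomial.aeval_eq_eval]
    rw [← h3, h2, map_zero]
  · intro c
    have h1 := hV1 (algebraMap k D c)
    rwa [AlgHom.commutes] at h1
  · intro r
    exact hV1 (φ (m r))
  · intro r hr
    exact hV2 (φ (m r)) (by rw [hχ, hw', hr])

end Vale.Agent.P292.Dv
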