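import Vale.Agent.P292.D.T2Defs

/-! # P292, Part III, T2, leaf Q5: the rank of the frames is at least the dimension. -/

namespace Vale.Agent.P292.Dv

open TensorProduct
open Vale.Agent.P292.Mo

universe u v w

variable {k : Type u} [Field k] {R : Type v} [CommRing R] [Algebra k R]
  {𝒜 : ℕ → Submodule k R}

private theorem lerk_field {F : Type*} [Field F] (a b c : F) (hb : b ≠ 0) (hc : c ≠ 0) :
    a / b = (b * c)⁻¹ * (a * c) := by
  field_simp

/-- Q5. The rank of the frames is at least the dimension. -/
theorem le_rk [IsDomain R] (p : ℕ) [Fact p.Prime] [CharP k p] {e n : ℕ} {y : Fin n → R}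
    (hN : IsNoe 𝒜 p e y) {N : ℕ} {x : Fin N → R} {d : Fin N → ℕ} {g : R} (h : IsFr 𝒜 x d g)
    (hg : g ≠ 0) : n ≤ N := by
  classical
  obtain ⟨T, hT, hspan⟩ := hN.gens
  let K := FractionRing R
  let S := MvPolynomial (Fin n) k
  have hinj : Function.Injective (MvPolynomial.aeval (R := k) y) := hN.indep
  let _ : Algebra S R := (MvPolynomial.aeval (R := k) y).toRingHom.toAlgebra
  have halgR : ∀ s : S, algebraMap S R s = MvPolynomial.aeval y s := fun s => rfl
  have : IsScalarTower k S R := IsScalarTower.of_algebraMap_eq fun x => by
    change _ = MvPolynomial.aeval y (algebraMap k S x)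
    rw [MvPolynomial.algebraMap_eq, MvPolynomial.aeval_C]
  have halg : ∀ s : S, algebraMap S K s = algebraMap R K (MvPolynomial.aeval y s) := fun s =>
    IsScalarTower.algebraMap_apply S R K s
  have : IsScalarTower k S K := IsScalarTower.of_algebraMap_eq fun x => by
    rw [halg, MvPolynomial.algebraMap_eq, MvPolynomial.aeval_C]
    exact (IsScalarTower.algebraMap_apply k R K x)
  have hinjK : Function.Injective (algebraMap S K) := by
    intro a b hab
    rw [halg, halg] at hab
    exact hinj (IsFractionRing.injective R K hab)
  have : FaithfulSMul S K := (faithfulSMul_iff_algebraMap_injective S K).mpr hinjK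
  let L := FractionRing S
  let _ : Algebra L K := FractionRing.liftAlgebra S K
  have : IsScalarTower S L K := FractionRing.isScalarTower_liftAlgebra S K
  -- the image of `R` lies in the span of `T`
  let T' : Finset K := T.image (algebraMap R K)
  have hRT : ∀ r : R, algebraMap R K r ∈ Submodule.span L (T' : Set K) := by
    intro r
    have hr : r ∈ Submodule.span (Algebra.adjoin k (Set.range y)) (T : Set R) := by
      rw [hspan]; trivial
    refine Submodule.span_induction ?_ ?_ ?_ ?_ hr
    · intro t ht
      refine Submodule.subset_span ?_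
      rw [Finset.coe_image]
      exact ⟨t, ht, rfl⟩
    · rw [map_zero]; exact zero_mem _
    · intro a b _ _ ha hb
      rw [map_add]; exact add_mem ha hb
    · rintro ⟨c, hc⟩ a _ ha
      rw [Algebra.adjoin_range_eq_range_aeval] at hc
      obtain ⟨s, hs⟩ := hc
      have h1 : algebraMap R K ((⟨c, by rw [Algebra.adjoin_range_eq_range_aeval]; exact ⟨s, hs⟩⟩ :
          Algebra.adjoin k (Set.range y)) • a) = (algebraMap S L s) • algebraMap R K a := by
        change algebraMap R K (c * a) = _
        rw [map_mul, Algebra.smul_def, ← IsScalarTower.algebraMap_apply S L K, halg]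
        congr 2
        exact hs.symm
      rw [h1]
      exact Submodule.smul_mem _ _ ha
  have hSR : Algebra.IsAlgebraic S R := by
    have : Module.Finite (Algebra.adjoin k (Set.range y)) R := ⟨⟨T, hspan⟩⟩
    have h1 : Algebra.IsIntegral (Algebra.adjoin k (Set.range y)) R := inferInstance
    have h2 : Algebra.IsAlgebraic (Algebra.adjoin k (Set.range y)) R := inferInstance
    refine Algebra.IsAlgebraic.of_ringHom_of_comp_eq (S := Algebra.adjoin k (Set.range y)) (B := R)
      (hN.indep.aevalEquiv : S ≃ₐ[k] Algebra.adjoin k (Set.range y)).toRingEquiv.toRingHom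
      (RingHom.id R) (hN.indep.aevalEquiv).surjective Function.injective_id ?_
    ext x
    · simp [RingHom.algebraMap_toAlgebra]
    · simp [RingHom.algebraMap_toAlgebra]
  have htop : Submodule.span L (T' : Set K) = ⊤ := by
    rw [eq_top_iff]
    intro z _
    obtain ⟨a, b, hb, rfl⟩ := IsFractionRing.div_surjective (A := R) z
    have hb0 : b ≠ 0 := nonZeroDivisors.ne_zero hb
    obtain ⟨s, hs0, b', hb'⟩ := (Algebra.IsAlgebraic.isAlgebraic (R := S) b).exists_nonzero_dvd hb
    have hs1 : algebraMap S L s ≠ 0 := by
      intro h0
      exact hs0 ((map_eq_zero_iff _ (IsFractionRing.injective S L)).mp h0)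
    have h1 : algebraMap R K a / algebraMap R K b =
        (algebraMap S L s)⁻¹ • algebraMap R K (a * b') := by
      have h2 : algebraMap L K (algebraMap S L s) = algebraMap R K b * algebraMap R K b' := by
        rw [← IsScalarTower.algebraMap_apply S L K, IsScalarTower.algebraMap_apply S R K, hb',
          map_mul]
      have h3 : algebraMap R K b ≠ 0 := fun h0 => hb0
        ((map_eq_zero_iff _ (IsFractionRing.injective R K)).mp h0)
      have h4 : algebraMap R K b' ≠ 0 := by
        intro h0
        rw [h0, mul_zero] at h2
        exact hs1 ((map_eq_zero_iff _ (algebraMap L K).injective).mp h2)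
      rw [Algebra.smul_def, map_inv₀, h2, map_mul]
      exact lerk_field _ _ _ h3 h4
    rw [h1]
    exact Submodule.smul_mem _ _ (hRT _)
  have hfinite : FiniteDimensional L K := ⟨⟨T', htop⟩⟩
  have hlt : Module.finrank L K < p := by
    have h1 := finrank_span_finset_le_card (R := L) T'
    rw [Set.finrank, htop, finrank_top] at h1
    exact lt_of_le_of_lt h1 (lt_of_le_of_lt Finset.card_image_le hT)
  have : CharP L p := by
    have : CharP S p := inferInstance
    exact charP_of_injective_algebraMap (IsFractionRing.injective S L) p
  have hsep : Algebra.IsSeparable L K := Mo.ec_separable p hlt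
  have : Algebra.FormallyEtale L K := Algebra.FormallyEtale.of_isSeparable L K
  have : Algebra.FormallyEtale S L := Algebra.FormallyEtale.of_isLocalization (nonZeroDivisors S)
  have : Algebra.FormallyEtale S K := Algebra.FormallyEtale.comp S L K
  let e := KaehlerDifferential.tensorKaehlerEquivOfFormallyEtale k S K
  let b := (KaehlerDifferential.mvPolynomialBasis k (Fin n)).baseChange K
  have hfr : Module.finrank K (Ω[K⁄k]) = n := by
    rw [← e.finrank_eq, Module.finrank_eq_card_basis b, Fintype.card_fin]
  -- the differentials of the frame span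
  have hsp := KaehlerDifferential.span_range_map_derivation_of_isLocalization k R K
    (nonZeroDivisors R)
  let W : Finset (Ω[K⁄k]) := Finset.univ.image fun i : Fin N =>
    KaehlerDifferential.map k k R K (KaehlerDifferential.D k R (x i))
  have hW : Submodule.span K (W : Set (Ω[K⁄k])) = ⊤ := by
    rw [eq_top_iff, ← hsp, Submodule.span_le]
    rintro _ ⟨r, rfl⟩
    obtain ⟨c, hc⟩ := h.gen r
    have h1 := congrArg (KaehlerDifferential.map k k R K) hc
    rw [map_smul, map_sum] at h1
    have h2 : algebraMap R K g ≠ 0 := fun h0 => hg
      ((map_eq_zero_iff _ (IsFractionRing.injective R K)).mp h0)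
    have h3 : (KaehlerDifferential.map k k R K ∘ KaehlerDifferential.D k R) r =
        (algebraMap R K g)⁻¹ • ∑ i, algebraMap R K (c i) •
          KaehlerDifferential.map k k R K (KaehlerDifferential.D k R (x i)) := by
      rw [eq_inv_smul_iff₀ h2, algebraMap_smul]
      change g • KaehlerDifferential.map k k R K (KaehlerDifferential.D k R r) = _
      rw [h1]
      exact Finset.sum_congr rfl fun i _ => by rw [map_smul, algebraMap_smul]
    rw [h3]
    refine Submodule.smul_mem _ _ (sum_mem fun i _ => Submodule.smul_mem _ _ ?_)
    refine Submodule.subset_span ?_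
    rw [Finset.coe_image]
    exact ⟨i, by simp, rfl⟩
  have h1 := finrank_span_finset_le_card (R := K) W
  rw [Set.finrank, hW, finrank_top, hfr] at h1
  exact h1.trans (Finset.card_image_le.trans (by simp))

end Vale.Agent.P292.Dv
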