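import Vale.Agent.P292.D.CurvePt
import Vale.Agent.P292.D.LeRk

/-! # A curve through a given point of the divisor. -/

namespace Vale.Agent.P292.Dv

open MvPolynomial Vale.Agent.P292 Vale.Agent.P292.Mo

universe u v w

/-- I1, with the rank condition at the point as a hypothesis. -/
theorem exists_curve_through_of_rk {k : Type u} [Field k] {R : Type v} [CommRing R] [Algebra k R]
    {𝒜 : ℕ → Submodule k R} [GradedAlgebra 𝒜] {P : R →ₗ[k] R →ₗ[k] R} {J : Ideal R}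
    [IsAlgClosed k] (p : ℕ) [Fact p.Prime] [CharP k p]
    (hP : IsPM 𝒜 P) {e n : ℕ} {y : Fin n → R} (hN : IsNoe 𝒜 p e y) (f : R) (hfJ : f ∈ J)
    (hf : ∃ h : R, ∃ G : MvPolynomial (Fin n) k, G ≠ 0 ∧ f * h = MvPolynomial.aeval y G)
    (w : R →ₐ[k] k) (hw : Mo.NV 𝒜 w) (hrk : ∃ N, n ≤ N ∧ HasRk 𝒜 P w N)
    (hwJ : ∀ x ∈ J, w x = 0) :
    ∃ (K : Type v) (_ : Field K) (_ : Algebra k K) (t : K) (φ : R →ₐ[k] K),
      Transcendental k t ∧ FiniteDimensional (IntermediateField.adjoin k {t}) K ∧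
      Algebra.IsSeparable (IntermediateField.adjoin k {t}) K ∧ Mo.NV 𝒜 φ ∧ φ f ≠ 0 ∧
      ∃ V : ValuationSubring K, V ≠ ⊤ ∧ (∀ c : k, algebraMap k K c ∈ V) ∧
        ∃ n > 0, ∃ s ∈ 𝒜 n, φ s ≠ 0 ∧ (∀ r ∈ 𝒜 n, φ r / φ s ∈ V) ∧
          ∀ i, ∀ x ∈ J, x ∈ 𝒜 i → V.valuation (φ x ^ n / φ s ^ i) < 1 := by
  obtain ⟨K, _, _, t, φ, a, b, hFF, hdeg, hφf, V, hVk, hVR, hVw⟩ :=
    exists_ff_pt hP hN w hw hrk f hf
  have := hFF.fin
  have : CharP (IntermediateField.adjoin k {t}) p :=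
    charP_of_injective_algebraMap (algebraMap k (IntermediateField.adjoin k {t})).injective p
  refine ⟨K, inferInstance, inferInstance, t, φ, hFF.transc, hFF.fin, ec_separable p hdeg, ?_,
    hφf, V, ?_, hVk, ?_⟩
  · obtain ⟨r, hr, hr1⟩ := F5a_exists_elem hN hFF 1 0
    refine ⟨e, hN.e_pos, r, hr, ?_⟩
    rw [hr1, map_one, map_zero, zero_mul, add_zero]
    exact one_ne_zero
  · intro hV
    have h1 := hVw f (hwJ f hfJ)
    have h2 : (φ f)⁻¹ ∈ V := by rw [hV]; trivial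
    have h3 : V.valuation (φ f)⁻¹ ≤ 1 := (ValuationSubring.valuation_le_one_iff V _).2 h2
    have h4 : V.valuation (φ f) * V.valuation (φ f)⁻¹ = 1 := by
      rw [← map_mul, mul_inv_cancel₀ hφf, map_one]
    have h5 := mul_lt_one_of_lt_of_le h1 h3
    rw [h4] at h5
    exact lt_irrefl _ h5
  · obtain ⟨m, hm, s, hs, hws⟩ := hw
    have hv1 : V.valuation (φ s) = 1 := by
      have h1 : w (s - algebraMap k R (w s)) = 0 := by
        rw [map_sub, AlgHom.commutes]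
        exact sub_self _
      have h2 := hVw _ h1
      rw [map_sub, AlgHom.commutes] at h2
      have h3 : V.valuation (algebraMap k K (w s)) = 1 := by
        refine le_antisymm ((ValuationSubring.valuation_le_one_iff V _).2 (hVk _)) ?_
        have h4 := (ValuationSubring.valuation_le_one_iff V _).2 (hVk (w s)⁻¹)
        rw [map_inv₀, map_inv₀] at h4
        have h5 : V.valuation (algebraMap k K (w s)) ≠ 0 := by
          rw [Valuation.ne_zero_iff]
          exact fun h => hws ((algebraMap k K).injective (by rw [h, map_zero]))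
        exact (inv_le_one₀ (zero_lt_iff.2 h5)).1 h4
      have h6 : φ s = (φ s - algebraMap k K (w s)) + algebraMap k K (w s) := by ring
      rw [h6, Valuation.map_add_eq_of_lt_right _ (by rw [h3]; exact h2), h3]
    have hφs : φ s ≠ 0 := by
      intro h
      rw [h, map_zero] at hv1
      exact zero_ne_one hv1
    refine ⟨m, hm, s, hs, hφs, fun r _ => ?_, fun i x hx _ => ?_⟩
    · rw [← ValuationSubring.valuation_le_one_iff, map_div₀, hv1, div_one]
      exact (ValuationSubring.valuation_le_one_iff V _).2 (hVR r)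
    · rw [map_div₀, map_pow, map_pow, hv1, one_pow, div_one]
      exact pow_lt_one₀ zero_le (hVw x (hwJ x hx)) hm.ne'

/-- I1. A curve through a given point of the divisor, which is not contained in it. -/
theorem exists_curve_through {k : Type u} [Field k] {R : Type v} [CommRing R] [Algebra k R]
    {𝒜 : ℕ → Submodule k R} [GradedAlgebra 𝒜] {P : R →ₗ[k] R →ₗ[k] R} {J : Ideal R}
    [IsAlgClosed k] [IsDomain R] (p : ℕ) [Fact p.Prime] [CharP k p]
    (hP : IsPM 𝒜 P) {e n : ℕ} {y : Fin n → R} (hN : IsNoe 𝒜 p e y) (f : R) (hfJ : f ∈ J)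
    (hf : ∃ h : R, ∃ G : MvPolynomial (Fin n) k, G ≠ 0 ∧ f * h = MvPolynomial.aeval y G)
    (w : R →ₐ[k] k) (hw : Mo.NV 𝒜 w) (hwJ : ∀ x ∈ J, w x = 0) :
    ∃ (K : Type v) (_ : Field K) (_ : Algebra k K) (t : K) (φ : R →ₐ[k] K),
      Transcendental k t ∧ FiniteDimensional (IntermediateField.adjoin k {t}) K ∧
      Algebra.IsSeparable (IntermediateField.adjoin k {t}) K ∧ Mo.NV 𝒜 φ ∧ φ f ≠ 0 ∧
      ∃ V : ValuationSubring K, V ≠ ⊤ ∧ (∀ c : k, algebraMap k K c ∈ V) ∧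
        ∃ n > 0, ∃ s ∈ 𝒜 n, φ s ≠ 0 ∧ (∀ r ∈ 𝒜 n, φ r / φ s ∈ V) ∧
          ∀ i, ∀ x ∈ J, x ∈ 𝒜 i → V.valuation (φ x ^ n / φ s ^ i) < 1 := by
  obtain ⟨N, x, d, g, hfr, hg⟩ := hP.frame w hw
  have hg0 : g ≠ 0 := by
    rintro rfl
    rw [zero_mul, map_zero] at hg
    exact hg rfl
  exact exists_curve_through_of_rk p hP hN f hfJ hf w hw
    ⟨N, le_rk p hN hfr hg0, x, d, g, hfr, hg⟩ hwJ

end Vale.Agent.P292.Dv
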