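import Mathlib

/-! # Rational curves positive on a divisor: common definitions of Part III. -/

namespace Vale.Agent.P292.Dv

open MvPolynomial

universe u v w

/-- The ideal `p` is locally principal outside the vertex, with finitely many homogeneous
local generators `a t` (on `b t ≠ 0`): the `b t` have no common zero outside the vertex. -/
def IsInv {k : Type u} [Field k] {R : Type v} [CommRing R] [Algebra k R]
    (𝒜 : ℕ → Submodule k R) (p : Ideal R) : Prop :=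
  ∃ (T : ℕ) (a b : Fin T → R) (da db : Fin T → ℕ), (∀ t, a t ∈ 𝒜 (da t)) ∧ (∀ t, b t ∈ 𝒜 (db t)) ∧
    (∀ t, a t ∈ p) ∧ (∀ t, ∀ x ∈ p, ∃ r, b t * x = r * a t) ∧
    ∀ n, 0 < n → ∀ r ∈ 𝒜 n, ∃ N, r ^ N ∈ Ideal.span (Set.range b)

/-- A closed rational curve `φ` of degree `e` over the field `K`, together with the pull back `η`
of the invertible ideal `p`, of degree `- δ`. -/
structure IsPair {k : Type u} [Field k] {R : Type v} [CommRing R] [Algebra k R]
    (𝒜 : ℕ → Submodule k R) (p : Ideal R) {K : Type w} [Field K] [Algebra k K] (e δ : ℕ)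
    (φ : R →ₐ[k] MvPolynomial (Fin 2) K) (η : p →ₗ[k] MvPolynomial (Fin 2) K) : Prop where
  deg : ∀ j, ∀ r ∈ 𝒜 j, (φ r).IsHomogeneous (e * j)
  bpf : ∀ a : Fin 2 → K, a ≠ 0 → ∃ j > 0, ∃ r ∈ 𝒜 j, eval a (φ r) ≠ 0
  lin : ∀ (r : R) (x : p), η (r • x) = φ r * η x
  degη : ∀ j, ∀ x : p, (x : R) ∈ 𝒜 j → ∀ m, m + δ = e * j → (η x).IsHomogeneous m
  zeroη : ∀ j, ∀ x : p, (x : R) ∈ 𝒜 j → e * j < δ → η x = 0
  bpfη : ∀ a : Fin 2 → K, a ≠ 0 → ∃ x : p, eval a (η x) ≠ 0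

/-- There is a closed rational curve of degree one or two which is positive on the divisor. -/
def Pos {k : Type u} [Field k] {R : Type v} [CommRing R] [Algebra k R]
    (𝒜 : ℕ → Submodule k R) (p : Ideal R) (K : Type w) [Field K] [Algebra k K] : Prop :=
  ∃ (e δ : ℕ) (φ : R →ₐ[k] MvPolynomial (Fin 2) K) (η : p →ₗ[k] MvPolynomial (Fin 2) K),
    (e = 1 ∨ e = 2) ∧ 0 < δ ∧ IsPair 𝒜 p e δ φ η

end Vale.Agent.P292.Dv
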