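import Vale.Agent.P292.Bn.N16

/-! # Comparison of degrees of line bundles given in different charts. -/

namespace Vale.Agent.P292.Dv

open Module Submodule Vale.Agent.P292.Mo

universe u w

variable {k : Type u} [Field k] {K : Type w} [Field K] [Algebra k K]

/-- Sections exist only in nonnegative degree. -/
theorem dc_eq_zero {A₀ A₁ : Subalgebra k K} (h : IsCD A₀ A₁) {w : K} (hw : w ≠ 0)
    (hneg : idx A₁ w < 0) {n : ℕ} (hn : 0 < n) {a : K} (ha : a ∈ Sec A₀ A₁ w n) : a = 0 := by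
  by_contra h0
  rw [mem_Sec] at ha
  have h1 := h.idx_le ha.1 h0
  have h2 : 0 ≤ idx A₁ (w ^ n * a) := by
    rw [h.idx_of_mem ha.2]
    exact_mod_cast Nat.zero_le _
  rw [h.idx_mul (pow_ne_zero n hw) h0, h.idx_pow hw] at h2
  have h3 : (n : ℤ) * idx A₁ w < 0 := mul_neg_of_pos_of_neg (by exact_mod_cast hn) hneg
  linarith

/-- The growth of the spaces of sections. -/
theorem dc_finrank_le {A₀ A₁ : Subalgebra k K} (h : IsCD A₀ A₁) {w : K} (hw : w ≠ 0)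
    (hpos : 0 ≤ idx A₁ w) (n : ℕ) : (finrank k ↥(Sec A₀ A₁ w n) : ℤ) ≤
      finrank k ↥(Subalgebra.toSubmodule A₀ ⊓ Subalgebra.toSubmodule A₁) + n * idx A₁ w := by
  by_cases hz : ∃ a ∈ Sec A₀ A₁ w n, a ≠ 0
  · obtain ⟨a, ha, ha0⟩ := hz
    rw [mem_Sec] at ha
    obtain ⟨h1, h2, h3⟩ := h.chi_Sec hw n
    have h4 : finrank k (K ⧸ (Subalgebra.toSubmodule A₀ ⊔
        (Subalgebra.toSubmodule A₁).comap (LinearMap.mulLeft k (w ^ n)))) ≤
        finrank k (K ⧸ (Subalgebra.toSubmodule A₀ ⊔ Subalgebra.toSubmodule A₁)) := by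
      have hle : (Subalgebra.toSubmodule A₀ ⊔ Subalgebra.toSubmodule A₁) ≤
          (Subalgebra.toSubmodule A₀ ⊔
            (Subalgebra.toSubmodule A₁).comap (LinearMap.mulLeft k (w ^ n))).comap
            (LinearMap.mulLeft k a) := by
        rw [sup_le_iff]
        constructor
        · intro x hx
          exact mem_sup_left (A₀.mul_mem ha.1 hx)
        · intro x hx
          refine mem_sup_right ?_
          change w ^ n * (a * x) ∈ A₁
          rw [← mul_assoc]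
          exact A₁.mul_mem ha.2 hx
      have := h.fin1
      refine LinearMap.finrank_le_finrank_of_surjective (f := Submodule.mapQ _ _ _ hle) ?_
      intro x
      obtain ⟨x, rfl⟩ := mkQ_surjective _ x
      refine ⟨mkQ _ (a⁻¹ * x), ?_⟩
      change Submodule.mapQ _ _ _ hle (mkQ _ (a⁻¹ * x)) = _
      rw [mkQ_apply, Submodule.mapQ_apply, LinearMap.mulLeft_apply, mul_inv_cancel_left₀ ha0, mkQ_apply]
    have h5 : chi0 A₀ A₁ =
        (finrank k ↥(Subalgebra.toSubmodule A₀ ⊓ Subalgebra.toSubmodule A₁) : ℤ) -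
          finrank k (K ⧸ (Subalgebra.toSubmodule A₀ ⊔ Subalgebra.toSubmodule A₁)) := rfl
    rw [h5] at h3
    have h6 : (finrank k (K ⧸ (Subalgebra.toSubmodule A₀ ⊔
        (Subalgebra.toSubmodule A₁).comap (LinearMap.mulLeft k (w ^ n)))) : ℤ) ≤
        finrank k (K ⧸ (Subalgebra.toSubmodule A₀ ⊔ Subalgebra.toSubmodule A₁)) := by
      exact_mod_cast h4
    linarith
  · push Not at hz
    have h1 : Sec A₀ A₁ w n = ⊥ := by
      rw [eq_bot_iff]
      exact fun a ha => hz a ha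
    rw [h1, finrank_bot]
    have h2 : 0 ≤ (n : ℤ) * idx A₁ w := mul_nonneg (by exact_mod_cast Nat.zero_le n) hpos
    have h3 : (0 : ℤ) ≤ finrank k ↥(Subalgebra.toSubmodule A₀ ⊓ Subalgebra.toSubmodule A₁) := by
      exact_mod_cast Nat.zero_le _
    push_cast
    linarith

/-- An integrally closed subalgebra is the intersection of the valuation rings above it. -/
theorem dc_mem {A : Subalgebra k K} (hA : ∀ x : K, IsIntegral A x → x ∈ A) {x : K}
    (hx : ∀ V : ValuationSubring K, (∀ a ∈ A, a ∈ V) → x ∈ V) : x ∈ A := by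
  have h1 : IsIntegrallyClosedIn A.toSubring K := Subring.isIntegrallyClosedIn_iff.mpr
    (fun {x} hx => hA x hx)
  by_contra hxA
  obtain ⟨V, hV, hxV⟩ := Subring.exists_le_valuationSubring_of_isIntegrallyClosedIn
    (R := A.toSubring) (x := x) hxA
  exact hxV (hx V fun a ha => hV ha)

/-- Comparison of degrees, first case. -/
theorem dc_idx_le_aux {A₀ A₁ A₀' A₁' : Subalgebra k K} (h : IsCD A₀ A₁) (h' : IsCD A₀' A₁')
    (hA₀ : ∀ x : K, IsIntegral A₀ x → x ∈ A₀) (hA₁ : ∀ x : K, IsIntegral A₁ x → x ∈ A₁)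
    (hP : ∀ V : ValuationSubring K, (∀ c : k, algebraMap k K c ∈ V) →
      (∀ a ∈ A₀', a ∈ V) ∨ (∀ a ∈ A₁', a ∈ V)) {w w' : K} (hw : w ≠ 0) (hw' : w' ≠ 0)
    (h01 : ∀ V : ValuationSubring K, (∀ a ∈ A₀, a ∈ V) → (∀ a ∈ A₁', a ∈ V) → w'⁻¹ ∈ V)
    (h10 : ∀ V : ValuationSubring K, (∀ a ∈ A₁, a ∈ V) → (∀ a ∈ A₀', a ∈ V) → w ∈ V)
    (h11 : ∀ V : ValuationSubring K, (∀ a ∈ A₁, a ∈ V) → (∀ a ∈ A₁', a ∈ V) → w * w'⁻¹ ∈ V)
    (hpos : 0 ≤ idx A₁ w) : idx A₁' w' ≤ idx A₁ w := by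
  by_contra hlt
  push Not at hlt
  have hsub : ∀ n, Sec A₀' A₁' w' n ≤ Sec A₀ A₁ w n := by
    intro n a ha
    rw [mem_Sec] at ha ⊢
    constructor
    · refine dc_mem hA₀ fun V hV => ?_
      rcases hP V (fun c => hV _ (A₀.algebraMap_mem c)) with h1 | h1
      · exact h1 a ha.1
      · have h2 := mul_mem (pow_mem (h01 V hV h1) n) (h1 _ ha.2)
        rwa [inv_pow, inv_mul_cancel_left₀ (pow_ne_zero n hw')] at h2
    · refine dc_mem hA₁ fun V hV => ?_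
      rcases hP V (fun c => hV _ (A₁.algebraMap_mem c)) with h1 | h1
      · exact mul_mem (pow_mem (h10 V hV h1) n) (h1 a ha.1)
      · have h2 := mul_mem (pow_mem (h11 V hV h1) n) (h1 _ ha.2)
        rwa [mul_pow, mul_assoc, inv_pow, inv_mul_cancel_left₀ (pow_ne_zero n hw')] at h2
  have hn : ∀ n : ℕ, chi0 A₀' A₁' + n * idx A₁' w' ≤
      finrank k ↥(Subalgebra.toSubmodule A₀ ⊓ Subalgebra.toSubmodule A₁) + n * idx A₁ w := by
    intro n
    obtain ⟨h1, h2, h3⟩ := h'.chi_Sec hw' n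
    have h4 := (h.chi_Sec hw n).1
    have h5 : finrank k ↥(Sec A₀' A₁' w' n) ≤ finrank k ↥(Sec A₀ A₁ w n) :=
      Submodule.finrank_mono (hsub n)
    have h6 := dc_finrank_le h hw hpos n
    have h7 : (0 : ℤ) ≤ finrank k (K ⧸ (Subalgebra.toSubmodule A₀' ⊔
        (Subalgebra.toSubmodule A₁').comap (LinearMap.mulLeft k (w' ^ n)))) := by
      exact_mod_cast Nat.zero_le _
    have h8 : (finrank k ↥(Sec A₀' A₁' w' n) : ℤ) ≤ finrank k ↥(Sec A₀ A₁ w n) := by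
      exact_mod_cast h5
    linarith
  set F : ℤ := ((finrank k ↥(Subalgebra.toSubmodule A₀ ⊓ Subalgebra.toSubmodule A₁) : ℕ) : ℤ)
  have h1 := hn ((F - chi0 A₀' A₁').toNat + 1)
  have h2 : F - chi0 A₀' A₁' ≤ ((F - chi0 A₀' A₁').toNat : ℤ) := Int.self_le_toNat _
  push_cast at h1
  nlinarith

/-- Comparison of degrees: a subsheaf of a line bundle has smaller degree. -/
theorem dc_idx_le {A₀ A₁ A₀' A₁' : Subalgebra k K} (h : IsCD A₀ A₁) (h' : IsCD A₀' A₁')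
    (hA₀ : ∀ x : K, IsIntegral A₀ x → x ∈ A₀) (hA₁ : ∀ x : K, IsIntegral A₁ x → x ∈ A₁)
    (hA₀' : ∀ x : K, IsIntegral A₀' x → x ∈ A₀') (hA₁' : ∀ x : K, IsIntegral A₁' x → x ∈ A₁')
    (hP : ∀ V : ValuationSubring K, (∀ c : k, algebraMap k K c ∈ V) →
      (∀ a ∈ A₀, a ∈ V) ∨ (∀ a ∈ A₁, a ∈ V))
    (hP' : ∀ V : ValuationSubring K, (∀ c : k, algebraMap k K c ∈ V) →
      (∀ a ∈ A₀', a ∈ V) ∨ (∀ a ∈ A₁', a ∈ V)) {w w' : K} (hw : w ≠ 0) (hw' : w' ≠ 0)
    (h01 : ∀ V : ValuationSubring K, (∀ a ∈ A₀, a ∈ V) → (∀ a ∈ A₁', a ∈ V) → w'⁻¹ ∈ V)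
    (h10 : ∀ V : ValuationSubring K, (∀ a ∈ A₁, a ∈ V) → (∀ a ∈ A₀', a ∈ V) → w ∈ V)
    (h11 : ∀ V : ValuationSubring K, (∀ a ∈ A₁, a ∈ V) → (∀ a ∈ A₁', a ∈ V) → w * w'⁻¹ ∈ V) :
    idx A₁' w' ≤ idx A₁ w := by
  by_cases hpos : 0 ≤ idx A₁ w
  · exact dc_idx_le_aux h h' hA₀ hA₁ hP' hw hw' h01 h10 h11 hpos
  push Not at hpos
  -- the degree of the subsheaf is not positive
  have hsub : ∀ n, Sec A₀' A₁' w' n ≤ Sec A₀ A₁ w n := by
    intro n a ha
    rw [mem_Sec] at ha ⊢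
    constructor
    · refine dc_mem hA₀ fun V hV => ?_
      rcases hP' V (fun c => hV _ (A₀.algebraMap_mem c)) with h1 | h1
      · exact h1 a ha.1
      · have h2 := mul_mem (pow_mem (h01 V hV h1) n) (h1 _ ha.2)
        rwa [inv_pow, inv_mul_cancel_left₀ (pow_ne_zero n hw')] at h2
    · refine dc_mem hA₁ fun V hV => ?_
      rcases hP' V (fun c => hV _ (A₁.algebraMap_mem c)) with h1 | h1
      · exact mul_mem (pow_mem (h10 V hV h1) n) (h1 a ha.1)
      · have h2 := mul_mem (pow_mem (h11 V hV h1) n) (h1 _ ha.2)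
        rwa [mul_pow, mul_assoc, inv_pow, inv_mul_cancel_left₀ (pow_ne_zero n hw')] at h2
  have hneg : idx A₁' w' ≤ 0 := by
    by_contra hlt
    push Not at hlt
    have hn : ∀ n : ℕ, chi0 A₀' A₁' + (n + 1 : ℕ) * idx A₁' w' ≤ 0 := by
      intro n
      obtain ⟨h1, h2, h3⟩ := h'.chi_Sec hw' (n + 1)
      have h4 : Sec A₀' A₁' w' (n + 1) = ⊥ := by
        rw [eq_bot_iff]
        exact fun a ha => dc_eq_zero h hw hpos (Nat.succ_pos n) (hsub _ ha)
      rw [h4, finrank_bot] at h3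
      have h7 : (0 : ℤ) ≤ finrank k (K ⧸ (Subalgebra.toSubmodule A₀' ⊔
          (Subalgebra.toSubmodule A₁').comap (LinearMap.mulLeft k (w' ^ (n + 1))))) := by
        exact_mod_cast Nat.zero_le _
      push_cast at h3 ⊢
      linarith
    have h1 := hn (-chi0 A₀' A₁').toNat
    have h2 : -chi0 A₀' A₁' ≤ ((-chi0 A₀' A₁').toNat : ℤ) := Int.self_le_toNat _
    push_cast at h1
    nlinarith
  have h1 := dc_idx_le_aux h' h hA₀' hA₁' hP (inv_ne_zero hw') (inv_ne_zero hw)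
    (fun V hV hV' => by rw [inv_inv]; exact h10 V hV' hV)
    (fun V hV hV' => h01 V hV' hV)
    (fun V hV hV' => by rw [inv_inv, mul_comm]; exact h11 V hV' hV)
    (by rw [h'.idx_inv hw']; linarith)
  rw [h.idx_inv hw, h'.idx_inv hw'] at h1
  linarith

end Vale.Agent.P292.Dv
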