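import Vale.Agent.P292.Bn.N16

/-! # Part III: the dimension lemma, commutative algebra -/

namespace Vale.Agent.P292.Dv

open TensorProduct MvPolynomial Vale.Agent.P292.Mo

section obs
variable {k : Type*} [Field k] {σ : Type*} [Fintype σ]

/-- A version of `exists_small_obs` with extra equations `g`. -/
theorem exists_small_obs' (J : Ideal (MvPolynomial σ k)) (hJ : J ≤ m0 k σ) {s : ℕ}
    (g : Fin s → MvPolynomial σ k) (hg : ∀ i, g i ∈ m0 k σ) {N : ℕ}
    (hN : 0 < N) (hart : m0 k σ ^ N ≤ (J ⊔ Ideal.span (Set.range g)) ⊔ m0 k σ ^ (N + 1)) :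
    ∃ L : Ideal (MvPolynomial σ k), J ≤ L ∧ L ≤ m0 k σ ∧
      ∃ e₁ : (MvPolynomial σ k ⧸ (m0 k σ * L)) →ₐ[k] k,
        (∀ f, e₁ (Ideal.Quotient.mk _ f) = MvPolynomial.constantCoeff f) ∧
        IsSmall (Ideal.Quotient.factorₐ k (Ideal.mul_le_right : m0 k σ * L ≤ L)) e₁ ∧
        ∀ {E : Type*} [AddCommGroup E] [Module k E] [Module.Finite k E]
          (obs : Module.Dual k (MvPolynomial σ k ⧸ (m0 k σ * L)) →ₗ[k] E),
          (∀ l, obs l = 0 → ∃ c : σ → k, ∀ f ∈ J,
            l (Ideal.Quotient.mk _ f) = - ∑ s, c s * coeff (Finsupp.single s 1) f) →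
          Module.finrank k (tanJ J) ≤ Module.finrank k E + s := by
  classical
  set J' : Ideal (MvPolynomial σ k) := J ⊔ Ideal.span (Set.range g) with hJ'
  have hgJ' : ∀ i, g i ∈ J' := fun i => Ideal.mem_sup_right (Ideal.subset_span ⟨i, rfl⟩)
  have hJ'm : J' ≤ m0 k σ := sup_le hJ (Ideal.span_le.2 (by rintro _ ⟨i, rfl⟩; exact hg i))
  let L : Ideal (MvPolynomial σ k) := J' ⊔ m0 k σ ^ N
  have hJ'L : J' ≤ L := le_sup_left
  have hJL : J ≤ L := le_sup_left.trans hJ'L
  have hNL : m0 k σ ^ N ≤ L := le_sup_right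
  have hL : L ≤ m0 k σ := sup_le hJ'm (Ideal.pow_le_self hN.ne')
  have hLJ : L ≤ J' ⊔ m0 k σ * L := by
    refine sup_le le_sup_left (hart.trans (sup_le_sup_left ?_ J'))
    rw [pow_succ']
    exact Ideal.mul_mono_right hNL
  refine ⟨L, hJL, hL, scE (m0 k σ * L) (Ideal.mul_le_right.trans hL), scE_mk _ _,
    sc_isSmall L hL hNL, ?_⟩
  intro E _ _ _ obs hobs
  have hfin := scW_finite L
  have hcard := card_le_scW L hL hNL
  obtain ⟨p, hp⟩ := (scW L).subtype.exists_leftInverse_of_injective (by simp)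
  have hp' : ∀ w : scW L, p (w : MvPolynomial σ k ⧸ (m0 k σ * L)) = w := fun w =>
    LinearMap.congr_fun hp w
  -- obstructions of functionals on `W`
  let obs' : Module.Dual k (scW L) →ₗ[k] E := obs ∘ₗ (Module.Dual.transpose p)
  -- restriction to `J`
  let Res : Module.Dual k (scW L) →ₗ[k] (↥(J.restrictScalars k) →ₗ[k] k) :=
    LinearMap.lcomp k k (scRes J L hJL)
  -- values at `g`
  let Ev : Module.Dual k (scW L) →ₗ[k] (Fin s → k) :=
    { toFun := fun l i => l ⟨_, mk_mem_scW (hJ'L (hgJ' i))⟩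
      map_add' := fun a b => rfl
      map_smul' := fun a b => rfl }
  have hinj : ∀ l, Res l = 0 → Ev l = 0 → l = 0 := by
    intro l h1 h2
    ext w
    obtain ⟨⟨y, hy⟩, rfl⟩ := scRes_surjective J' L hJ'L hLJ w
    obtain ⟨a, ha, b, hb, hab⟩ := Submodule.mem_sup.mp (show y ∈ J ⊔ Ideal.span (Set.range g)
      from hy)
    obtain ⟨c, hc⟩ := (Ideal.mem_span_range_iff_exists_fun).1 hb
    have h3 : ((scRes J' L hJ'L ⟨y, hy⟩ : scW L)) = (scRes J L hJL ⟨a, ha⟩) +
        ∑ i, constantCoeff (c i) • (⟨_, mk_mem_scW (hJ'L (hgJ' i))⟩ : scW L) := by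
      refine Subtype.ext ?_
      rw [Submodule.coe_add, scRes_coe, scRes_coe, AddSubmonoidClass.coe_finsetSum]
      simp only [Submodule.coe_smul]
      rw [← hab, map_add, ← hc, map_sum]
      congr 1
      refine Finset.sum_congr rfl fun i _ => ?_
      have h4 : constantCoeff (c i) • Ideal.Quotient.mk (m0 k σ * L) (g i) =
          Ideal.Quotient.mk (m0 k σ * L) (C (constantCoeff (c i)) * g i) := by
        rw [← MvPolynomial.smul_eq_C_mul]
        rfl
      rw [h4, Ideal.Quotient.mk_eq_mk_iff_sub_mem, ← sub_mul]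
      exact Ideal.mul_mem_mul (sc_sub_mem _) (hJ'L (hgJ' i))
    rw [h3, map_add, map_sum]
    have h5 : l (scRes J L hJL ⟨a, ha⟩) = 0 := LinearMap.congr_fun h1 ⟨a, ha⟩
    have h6 : ∀ i, l ⟨_, mk_mem_scW (hJ'L (hgJ' i))⟩ = 0 := fun i => congrFun h2 i
    rw [h5, zero_add, LinearMap.zero_apply]
    refine Finset.sum_eq_zero fun i _ => ?_
    rw [map_smul, h6, smul_zero]
  have hmap : ∀ l ∈ LinearMap.ker obs', Res l ∈ LinearMap.range (scPhi J) := by
    intro l hl
    obtain ⟨c, hc⟩ := hobs (l ∘ₗ p) hl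
    refine ⟨c, ?_⟩
    ext f
    rw [scPhi_apply, ← hc f f.2]
    change l (p (Ideal.Quotient.mk _ (f : MvPolynomial σ k))) = l (scRes J L hJL f)
    rw [← scRes_coe J L hJL f, hp']
  let ob2 : Module.Dual k (scW L) →ₗ[k] (E × (Fin s → k)) := obs'.prod Ev
  have hk1 : ∀ l ∈ LinearMap.ker ob2, l ∈ LinearMap.ker obs' := fun l hl => congrArg Prod.fst hl
  have hk2 : ∀ l ∈ LinearMap.ker ob2, Ev l = 0 := fun l hl => congrArg Prod.snd hl
  let F : LinearMap.ker ob2 →ₗ[k] ↥(LinearMap.range (scPhi J)) :=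
    (Res.domRestrict _).codRestrict (LinearMap.range (scPhi J))
      (fun l => hmap l.1 (hk1 _ l.2))
  have hF : Function.Injective F := by
    intro a b hab
    have h1 : Res a.1 = Res b.1 := congrArg Subtype.val hab
    have h2 : a.1 - b.1 = 0 := hinj _ (by rw [map_sub, h1, sub_self])
      (hk2 _ (sub_mem a.2 b.2))
    exact Subtype.ext (sub_eq_zero.1 h2)
  have e0 := LinearMap.finrank_le_finrank_of_injective hF
  have e1 := (LinearMap.ker ob2).finrank_quotient_add_finrank
  have e2 := ob2.quotKerEquivRange.finrank_eq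
  have e3 : Module.finrank k (LinearMap.range ob2) ≤ Module.finrank k (E × (Fin s → k)) :=
    Submodule.finrank_le _
  rw [Module.finrank_prod, Module.finrank_fin_fun] at e3
  have e4 := (scPhi J).finrank_range_add_finrank_ker
  rw [ker_scPhi, Module.finrank_fintype_fun_eq_card] at e4
  have e7 : Module.finrank k (Module.Dual k (scW L)) = Module.finrank k (scW L) :=
    Subspace.dual_finrank_eq
  omega

theorem exists_pow_le_of_minimal {A : Type*} [CommRing A] [IsNoetherianRing A] {I m : Ideal A}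
    (hm : m ∈ I.minimalPrimes) : ∃ N, 0 < N ∧ ∃ T, T ∉ m ∧ ∀ f ∈ m ^ N, T * f ∈ I := by
  have hmp : m.IsPrime := hm.1.1
  have h1 := IsLocalization.AtPrime.radical_map_of_mem_minimalPrimes (Localization.AtPrime m) m I hm
  have h2 : IsNoetherianRing (Localization.AtPrime m) :=
    IsLocalization.isNoetherianRing m.primeCompl _ inferInstance
  obtain ⟨N, hN⟩ := Ideal.exists_pow_le_of_le_radical_of_fg
    (I := IsLocalRing.maximalIdeal (Localization.AtPrime m))
    (J := I.map (algebraMap A (Localization.AtPrime m)))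
    (by rw [h1, Localization.AtPrime.map_eq_maximalIdeal])
    (IsNoetherian.noetherian _)
  have hfg : (m ^ (N + 1)).FG := IsNoetherian.noetherian _
  have h3 : ∀ f ∈ m ^ (N + 1), ∃ t, t ∉ m ∧ t * f ∈ I := by
    intro f hf
    have h4 : algebraMap A (Localization.AtPrime m) f ∈ I.map (algebraMap A _) := by
      refine hN (Ideal.pow_le_pow_right (Nat.le_succ N) ?_)
      rw [← Localization.AtPrime.map_eq_maximalIdeal, ← Ideal.map_pow]
      exact Ideal.mem_map_of_mem _ hf
    rw [IsLocalization.mem_map_algebraMap_iff m.primeCompl] at h4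
    obtain ⟨⟨i, t⟩, h5⟩ := h4
    simp only at h5
    rw [← map_mul, IsLocalization.eq_iff_exists m.primeCompl] at h5
    obtain ⟨c, h6⟩ := h5
    refine ⟨c * t, fun h => (hmp.mem_or_mem h).elim c.2 t.2, ?_⟩
    have h7 : (c * t : A) * f = c * (f * t) := by ring
    rw [h7, h6]
    exact I.mul_mem_left _ i.2
  obtain ⟨S, hS⟩ := hfg
  have h4 : ∀ f ∈ S, ∃ t, t ∉ m ∧ t * f ∈ I := fun f hf => h3 f (hS ▸ Ideal.subset_span hf)
  choose! t ht1 ht2 using h4
  refine ⟨N + 1, Nat.succ_pos N, ∏ f ∈ S, t f, ?_, ?_⟩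
  · intro h
    obtain ⟨f, hf, h5⟩ := (hmp.prod_mem_iff).1 h
    exact ht1 f hf h5
  · intro f hf
    rw [← hS] at hf
    induction hf using Submodule.span_induction with
    | mem x hx =>
      obtain ⟨c, hc⟩ := Finset.dvd_prod_of_mem t (Finset.mem_coe.1 hx)
      rw [hc, mul_comm (t x), mul_assoc]
      exact I.mul_mem_left _ (ht2 x hx)
    | zero => rw [mul_zero]; exact I.zero_mem
    | add x y _ _ hx hy => rw [mul_add]; exact I.add_mem hx hy
    | smul a x _ hx =>
      rw [smul_eq_mul, mul_left_comm]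
      exact I.mul_mem_left _ hx

/-- Artinian at the origin -/
theorem pow_le_of_minimal {k : Type*} [Field k] {σ : Type*} [Finite σ]
    (J : Ideal (MvPolynomial σ k)) (hm : m0 k σ ∈ J.minimalPrimes) :
    ∃ N, 0 < N ∧ m0 k σ ^ N ≤ J ⊔ m0 k σ ^ (N + 1) := by
  obtain ⟨N, hN, T, hT, h⟩ := exists_pow_le_of_minimal hm
  refine ⟨N, hN, fun g hg => ?_⟩
  have ht0 : constantCoeff T ≠ 0 := hT
  have h6 : T - C (constantCoeff T) ∈ m0 k σ := sc_sub_mem T
  have h7 : C (constantCoeff T) * g ∈ J ⊔ m0 k σ ^ (N + 1) := by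
    have h8 : C (constantCoeff T) * g = T * g - (T - C (constantCoeff T)) * g := by ring
    rw [h8]
    refine Ideal.sub_mem _ (Ideal.mem_sup_left (h g hg)) (Ideal.mem_sup_right ?_)
    rw [pow_succ' _ N]
    exact Ideal.mul_mem_mul h6 hg
  have h9 : g = C (constantCoeff T)⁻¹ * (C (constantCoeff T) * g) := by
    rw [← mul_assoc, ← C_mul, inv_mul_cancel₀ ht0, C_1, one_mul]
  rw [h9]
  exact Ideal.mul_mem_left _ _ h7

end obs

/-- equations cutting out the origin -/
theorem exists_eqs {k : Type*} [Field k] {σ : Type*} [Finite σ]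
    (J : Ideal (MvPolynomial σ k)) (m : Ideal (MvPolynomial σ k ⧸ J)) [m.IsPrime]
    (hm : m.comap (Ideal.Quotient.mk J) = m0 k σ) :
    ∃ (s : ℕ) (g : Fin s → MvPolynomial σ k), (s : ℕ∞) = m.height ∧ (∀ i, g i ∈ m0 k σ) ∧
      m0 k σ ∈ (J ⊔ Ideal.span (Set.range g)).minimalPrimes := by
  classical
  obtain ⟨S, hS, hcard⟩ := m.exists_finset_card_eq_height_of_isNoetherianRing
  let g : Fin S.card → MvPolynomial σ k := fun i =>
    (Ideal.Quotient.mk_surjective (S.equivFin.symm i : MvPolynomial σ k ⧸ J)).choose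
  have hg : ∀ i, Ideal.Quotient.mk J (g i) = S.equivFin.symm i := fun i =>
    (Ideal.Quotient.mk_surjective (S.equivFin.symm i : MvPolynomial σ k ⧸ J)).choose_spec
  have hgm : ∀ i, g i ∈ m0 k σ := by
    intro i
    rw [← hm, Ideal.mem_comap, hg]
    exact hS.1.2 (Ideal.subset_span (S.equivFin.symm i).2)
  refine ⟨S.card, g, hcard, hgm, ?_⟩
  have h1 : (Ideal.span (S : Set (MvPolynomial σ k ⧸ J))).comap (Ideal.Quotient.mk J) =
      J ⊔ Ideal.span (Set.range g) := by
    have h2 : Ideal.span (S : Set (MvPolynomial σ k ⧸ J)) =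
        (Ideal.span (Set.range g)).map (Ideal.Quotient.mk J) := by
      rw [Ideal.map_span, ← Set.range_comp]
      congr 1
      ext z
      constructor
      · intro hz
        exact ⟨S.equivFin ⟨z, hz⟩, by rw [Function.comp_apply, hg, Equiv.symm_apply_apply]⟩
      · rintro ⟨i, rfl⟩
        rw [Function.comp_apply, hg]
        exact (S.equivFin.symm i).2
    rw [h2, Ideal.comap_map_of_surjective _ Ideal.Quotient.mk_surjective, sup_comm]
    congr 1
    rw [← RingHom.ker_eq_comap_bot, Ideal.mk_ker]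
  rw [← h1, Ideal.comap_minimalPrimes_eq_of_surjective Ideal.Quotient.mk_surjective]
  exact ⟨m, hS, hm⟩

/-- a finite type domain with a chain of primes of length `h` has `h` independent elements -/
theorem exists_indep_of_chain {k : Type*} [Field k] {D : Type*} [CommRing D] [IsDomain D]
    [Algebra k D] [Algebra.FiniteType k D] {h : ℕ} (hh : (h : WithBot ℕ∞) ≤ ringKrullDim D) :
    ∃ (s : ℕ) (x : Fin s → D), h ≤ s ∧ AlgebraicIndependent k x := by
  obtain ⟨s, g, hg, hfin⟩ := exists_finite_inj_algHom_of_fg k D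
  refine ⟨s, fun i => g (X i), ?_, ?_⟩
  · let _ : Algebra (MvPolynomial (Fin s) k) D := g.toRingHom.toAlgebra
    have hint : Algebra.IsIntegral (MvPolynomial (Fin s) k) D := ⟨fun x =>
      (RingHom.Finite.to_isIntegral hfin) x⟩
    have h1 : ringKrullDim D ≤ ringKrullDim (MvPolynomial (Fin s) k) := by
      refine Order.krullDim_le_of_strictMono (PrimeSpectrum.comap (algebraMap _ D)) ?_
      intro a b hab
      obtain ⟨x, hxb, hxa⟩ := SetLike.exists_of_lt (show a.asIdeal < b.asIdeal from hab)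
      exact Ideal.comap_lt_comap_of_integral_mem_sdiff (le_of_lt (show a.asIdeal < b.asIdeal
        from hab)) ⟨hxb, hxa⟩ (hint.isIntegral x)
    rw [MvPolynomial.ringKrullDim_of_isNoetherianRing, ringKrullDim_eq_zero_of_field,
      zero_add, Nat.card_fin] at h1
    exact_mod_cast hh.trans h1
  · have h2 : (aeval fun i => g (X i) : MvPolynomial (Fin s) k →ₐ[k] D) = g := by
      refine MvPolynomial.algHom_ext fun i => ?_
      rw [aeval_X]
    rw [AlgebraicIndependent, h2]
    exact hg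

/-- the component with the longest chain -/
theorem exists_component_prime {D : Type*} [CommRing D] [IsNoetherianRing D] (m : Ideal D)
    [m.IsPrime] {h : ℕ} (hh : (h : ℕ∞) = m.height) :
    ∃ q : Ideal D, q.IsPrime ∧ q ≤ m ∧ (h : WithBot ℕ∞) ≤ ringKrullDim (D ⧸ q) := by
  obtain ⟨l, hl, hlen⟩ := m.exists_ltSeries_length_eq_height
  refine ⟨(RelSeries.head l).asIdeal, (RelSeries.head l).isPrime, ?_, ?_⟩
  · have := LTSeries.head_le_last l
    rw [hl] at this
    exact this
  · have hlen' : l.length = h := by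
      rw [← hh] at hlen
      exact_mod_cast hlen
    have h1 : ∀ i, (RelSeries.head l).asIdeal ≤ (l i).asIdeal := fun i => LTSeries.head_le l i
    let f : Fin (l.length + 1) → PrimeSpectrum (D ⧸ (RelSeries.head l).asIdeal) := fun i =>
      ⟨(l i).asIdeal.map (Ideal.Quotient.mk _), Ideal.map_isPrime_of_surjective
        Ideal.Quotient.mk_surjective (by rw [Ideal.mk_ker]; exact h1 i)⟩
    have hcomap : ∀ i, (f i).asIdeal.comap (Ideal.Quotient.mk _) = (l i).asIdeal := by
      intro i
      change ((l i).asIdeal.map (Ideal.Quotient.mk _)).comap (Ideal.Quotient.mk _) = _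
      rw [Ideal.comap_map_of_surjective _ Ideal.Quotient.mk_surjective, ← RingHom.ker_eq_comap_bot,
        Ideal.mk_ker, sup_eq_left]
      exact h1 i
    have hf : StrictMono f := by
      intro i j hij
      have h2 : (l i).asIdeal < (l j).asIdeal := l.strictMono hij
      refine lt_of_le_of_ne (Ideal.map_mono h2.le) fun h3 => ?_
      have h4 := hcomap i
      rw [h3, hcomap j] at h4
      exact h2.ne' h4
    let l' : LTSeries (PrimeSpectrum (D ⧸ (RelSeries.head l).asIdeal)) :=
      { length := l.length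
        toFun := f
        step := fun i => hf (Fin.castSucc_lt_succ) }
    rw [← hlen']
    exact Order.LTSeries.length_le_krullDim l'

end Vale.Agent.P292.Dv
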