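import Vale.Agent.P292.D.Dim1

/-! # Part III: the dimension lemma -/

namespace Vale.Agent.P292.Dv

open TensorProduct MvPolynomial Vale.Agent.P292.Mo

universe u v w

/-- **The dimension lemma.** -/
theorem exists_component {k : Type u} [Field k] {R : Type v} [CommRing R] [Algebra k R]
    (𝒜 : ℕ → Submodule k R) [GradedAlgebra 𝒜] [Algebra.FiniteType k R]
    {K : Type w} [Field K] [Algebra k K] {A₀ A₁ : Subalgebra k K} {u : K} {φ : R →ₐ[k] K}
    (mp : IsMp 𝒜 A₀ A₁ u φ)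
    (hsm : ∀ n, 0 < n → ∀ s ∈ 𝒜 n, Algebra.FormallySmooth k (Localization.Away s))
    (I : Submodule k K) (hI : ∀ a ∈ I, a ∈ A₀) (hIm : ∀ a ∈ A₀, ∀ b ∈ I, a * b ∈ I)
    (hfin : ∀ n, Module.Finite k (Sec A₀ A₁ u n))
    (hOb : Module.Finite k (ObS 𝒜 φ I A₁ u)) :
    ∃ (D : Type u) (_ : CommRing D) (_ : IsDomain D) (_ : Algebra k D)
      (_ : Algebra.FiniteType k D) (e : D →ₐ[k] k) (Ψ : R →ₐ[k] D ⊗[k] K) (s : ℕ)
      (z : Fin s → D), AlgebraicIndependent k z ∧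
      Module.finrank k (T0 𝒜 φ I A₁ u) ≤ Module.finrank k (ObS 𝒜 φ I A₁ u) + s ∧
      (∀ n, ∀ r ∈ 𝒜 n, Ψ r ∈ InB D (Sec A₀ A₁ u n)) ∧ (∀ r, Ψ r - 1 ⊗ₜ φ r ∈ InB D I) ∧
      (∀ r, ∀ l : K →ₗ[k] k, e (lamB D l (Ψ r)) = l (φ r)) ∧
      Algebra.adjoin k {a : D | ∃ r, ∃ l : K →ₗ[k] k, lamB D l (Ψ r) = a} = ⊤ := by
  classical
  obtain ⟨M, x, d, hx, hgen⟩ := exists_homog_gens (k := k) 𝒜
  have hVfin : ∀ i, Module.Finite k ↥(I ⊓ Sec A₀ A₁ u (d i)) := fun i => by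
    have := hfin (d i)
    exact Submodule.finiteDimensional_of_le (inf_le_right : I ⊓ Sec A₀ A₁ u (d i) ≤ _)
  set V : Fin M → Submodule k K := fun i => I ⊓ Sec A₀ A₁ u (d i) with hV
  have hVfin' : ∀ i, Module.Finite k (V i) := hVfin
  have hu := mp.u_ne
  have hφ := mp.sec
  have hφ0 : ∀ r, φ r ∈ A₀ := by
    intro r
    rw [← DirectSum.sum_support_decompose 𝒜 r, map_sum]
    exact sum_mem fun i _ => (mem_Sec.1 (hφ i _ (SetLike.coe_mem _))).1
  let P := MvPolynomial (Idx V) k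
  let τ₀ : P →ₐ[k] k := aeval (fun _ => (0 : k))
  have hτ₀X : ∀ s, τ₀ (X s) = 0 := fun s => aeval_X _ _
  have hτ₀ : ∀ f, τ₀ f = constantCoeff f := fun f => by
    have h1 : (τ₀ : P →+* k) = constantCoeff := by
      refine MvPolynomial.ringHom_ext (fun a => ?_) (fun s => ?_)
      · rw [constantCoeff_C]
        exact MvPolynomial.aeval_C _ a
      · rw [constantCoeff_X]
        exact MvPolynomial.aeval_X _ s
    exact DFunLike.congr_fun h1 f
  set J : Ideal P := eqs x V φ with hJd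
  have hJτ : J ≤ RingHom.ker τ₀ := by
    rw [hJd, eqs_le_iff]
    intro f hf
    rw [chg_pre_zero x V φ τ₀ hτ₀X, hf, map_zero, TensorProduct.tmul_zero]
  have hJ : J ≤ m0 k (Idx V) := by
    intro f hf
    have h1 : τ₀ f = 0 := hJτ hf
    rw [hτ₀] at h1
    exact h1
  let qJ : P →ₐ[k] P ⧸ J := Ideal.Quotient.mkₐ k J
  have hqJ : J ≤ RingHom.ker qJ := fun f hf => Ideal.Quotient.eq_zero_iff_mem.2 hf
  obtain ⟨Ψ, hΨ⟩ := exists_hom_of_point x hgen V φ qJ hqJ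
  let e : (P ⧸ J) →ₐ[k] k := Ideal.Quotient.liftₐ J τ₀ (fun f hf => hJτ hf)
  have he : ∀ f, e (Ideal.Quotient.mk J f) = constantCoeff f := fun f => hτ₀ f
  have hΨX : ∀ i, Ψ (x i) = chg K qJ (pre x V φ (X i)) := fun i => by
    rw [← hΨ, aeval_X]
  obtain ⟨a1, a2, a3⟩ := admissible (B := P ⧸ J) hx hgen hu hI hIm hφ hφ0 Ψ (fun i => by
    rw [hΨX]
    exact chg_pre_sub_mem x V φ qJ i)
  set m : Ideal (P ⧸ J) := RingHom.ker e with hmdef
  have hmp : m.IsPrime := RingHom.ker_isPrime _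
  have hm0 : m.comap (Ideal.Quotient.mk J) = m0 k (Idx V) := by
    ext f
    rw [Ideal.mem_comap, RingHom.mem_ker, RingHom.mem_ker, he]
  obtain ⟨s, g, hsh, hg, hmin⟩ := exists_eqs J m hm0
  have hineq : Module.finrank k (T0 𝒜 φ I A₁ u) ≤
      Module.finrank k (ObS 𝒜 φ I A₁ u) + s := by
    obtain ⟨N, hN, hart⟩ := pow_le_of_minimal (J ⊔ Ideal.span (Set.range g)) hmin
    obtain ⟨L, hJL, hLm, e₁, he₁, hs, hdim⟩ := exists_small_obs' J hJ g hg hN hart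
    set π := Ideal.Quotient.factorₐ k (Ideal.mul_le_right : m0 k (Idx V) * L ≤ L) with hπ
    let q1 : P →ₐ[k] P ⧸ (m0 k (Idx V) * L) := Ideal.Quotient.mkₐ k _
    have hq1 : ∀ s, e₁ (q1 (X s)) = 0 := fun s => by
      have h1 := he₁ (X s)
      rw [constantCoeff_X] at h1
      exact h1
    have hπq : ∀ f, π (q1 f) = Ideal.Quotient.mk L f := fun f => rfl
    have hπJ : ∀ f ∈ J, π (q1 f) = 0 := fun f hf => Ideal.Quotient.eq_zero_iff_mem.2 (hJL hf)
    obtain ⟨ΨO, hΨO⟩ := exists_hom_of_point x hgen V φ (π.comp q1) (fun f hf => hπJ f hf)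
    let eO : (P ⧸ L) →ₐ[k] k := Ideal.Quotient.liftₐ L τ₀ (fun f hf => by
      change τ₀ f = 0
      rw [hτ₀]
      exact hLm hf)
    have heO : ∀ a, eO (π a) = e₁ a := by
      intro a
      obtain ⟨f, rfl⟩ := Ideal.Quotient.mk_surjective a
      rw [he₁, ← hτ₀]
      rfl
    have heOe : eO.comp π = e₁ := AlgHom.ext heO
    have hΨOX : ∀ i, ΨO (x i) = chg K (π.comp q1) (pre x V φ (X i)) := fun i => by
      rw [← hΨO, aeval_X]
    obtain ⟨b1, b2, b3⟩ := admissible (B := P ⧸ L) hx hgen hu hI hIm hφ hφ0 ΨO (fun i => by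
      rw [hΨOX]
      exact chg_pre_sub_mem x V φ (π.comp q1) i)
    have hΨOe : ∀ r, ez K eO (ΨO r) = φ r := by
      intro r
      obtain ⟨f, rfl⟩ := hgen r
      rw [hΨO]
      refine ez_pre x V φ (π.comp q1) eO (fun s => ?_) f
      rw [AlgHom.comp_apply, heO, hq1]
    -- the two lifts
    obtain ⟨n0, hn0, s0, hs0A, hs0, hs0i⟩ := mp.unit0
    obtain ⟨n1, hn1, s1, hs1A, hs1, hs1i⟩ := mp.unit1
    obtain ⟨Ψ₀, c1, c2, c3⟩ := exists_lift0 (A₀ := A₀) (I := I) (φ := φ) hs hgen hI hIm hφ0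
      (hsm n0 hn0 s0 hs0A) hs0 hs0i ΨO ((chg K q1).comp (pre x V φ))
      (fun i => by
        rw [AlgHom.comp_apply]
        exact InB_mono _ inf_le_left (chg_pre_sub_mem x V φ q1 i))
      (fun i => by
        rw [AlgHom.comp_apply, ez_pre x V φ q1 e₁ hq1, aeval_X])
      (fun f => by
        rw [AlgHom.comp_apply, chg_comp, hΨO])
    obtain ⟨Ψ₁, d1, d2⟩ := exists_lift1 (φ := φ) hs hu hs1A (hsm n1 hn1 s1 hs1A) hs1 hs1i eO heO ΨO
      hΨOe b2
    have he0 : ∀ r, ez K e₁ (Ψ₀ r) = φ r := fun r => by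
      rw [← heOe, ← ez_chg, c2, hΨOe]
    have he1 : ∀ r, ez K e₁ (Ψ₁ r) = φ r := fun r => by
      rw [← heOe, ← ez_chg, d1, hΨOe]
    obtain ⟨ob, hob⟩ := exists_obs (𝒜 := 𝒜) (A₁ := A₁) (u := u) (I := I) hs c2 d1 he0 he1
    have h3 := hdim ob (fun l hl => key_claim hs hx hu hI hφ q1 hq1 hπJ
      (fun i => by
        rw [hΨOX, chg_comp]) c2 d1 he0 c3 d2 l (hob l hl))
    have h4 := finrank_T0_le (𝒜 := 𝒜) x d hx hgen A₀ A₁ u I hI φ
    exact h4.trans h3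
  have hval : ∀ r, ∀ l : K →ₗ[k] k, e (lamB (P ⧸ J) l (Ψ r)) = l (φ r) := by
    intro r l
    rw [lamB_ez]
    obtain ⟨f, rfl⟩ := hgen r
    rw [hΨ]
    congr 1
    exact ez_pre x V φ qJ e (fun s => by
      have h1 := he (X s)
      rw [constantCoeff_X] at h1
      exact h1) f
  have hadj : Algebra.adjoin k {a : P ⧸ J | ∃ r, ∃ l : K →ₗ[k] k,
      lamB (P ⧸ J) l (Ψ r) = a} = ⊤ := by
    set S := Algebra.adjoin k {a : P ⧸ J | ∃ r, ∃ l : K →ₗ[k] k, lamB (P ⧸ J) l (Ψ r) = a} with hS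
    rw [eq_top_iff]
    rintro a -
    obtain ⟨f, rfl⟩ := Ideal.Quotient.mk_surjective a
    change qJ f ∈ S
    induction f using MvPolynomial.induction_on with
    | C a =>
      rw [← MvPolynomial.algebraMap_eq, AlgHom.commutes]
      exact S.algebraMap_mem a
    | add p q hp hq => rw [map_add]; exact add_mem hp hq
    | mul_X p s hp =>
      rw [map_mul]
      refine mul_mem hp ?_
      obtain ⟨i, j⟩ := s
      obtain ⟨l, hl⟩ := exists_dual (Module.finBasis k (V i)) j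
      have h1 : lamB (P ⧸ J) l (Ψ (x i)) = l (φ (x i)) • 1 + qJ (X ⟨i, j⟩) := by
        rw [hΨX, chg_pre_X, map_add, map_sum, lamB_tmul]
        congr 1
        simp [hl]
      have h2 : qJ (X ⟨i, j⟩) = lamB (P ⧸ J) l (Ψ (x i)) - l (φ (x i)) • 1 := by
        rw [h1, add_sub_cancel_left]
      rw [h2]
      exact sub_mem (Algebra.subset_adjoin ⟨x i, l, rfl⟩) (S.smul_mem S.one_mem _)
  obtain ⟨q, hq, hqm, hqdim⟩ := exists_component_prime m hsh
  obtain ⟨s', z, hss', hz⟩ := exists_indep_of_chain (k := k) (D := (P ⧸ J) ⧸ q) hqdim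
  let ql : (P ⧸ J) →ₐ[k] ((P ⧸ J) ⧸ q) := Ideal.Quotient.mkₐ k q
  let e' : ((P ⧸ J) ⧸ q) →ₐ[k] k := Ideal.Quotient.liftₐ q e (fun a ha => hqm ha)
  have he' : ∀ a, e' (ql a) = e a := fun a => rfl
  refine ⟨(P ⧸ J) ⧸ q, inferInstance, inferInstance, inferInstance, inferInstance, e',
    (chg K ql).comp Ψ, s', z, hz, hineq.trans (by omega), ?_, ?_, ?_, ?_⟩
  · intro n r hr
    exact chg_mem_InB ql (a3 n r hr)
  · intro r
    have h1 := chg_mem_InB ql (a1 r)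
    rwa [map_sub, chg_tmul, map_one] at h1
  · intro r l
    rw [AlgHom.comp_apply, lamB_chg, he', hval]
  · rw [eq_top_iff]
    rintro a -
    obtain ⟨b, rfl⟩ := Ideal.Quotient.mk_surjective a
    have hb : b ∈ Algebra.adjoin k {a : P ⧸ J | ∃ r, ∃ l : K →ₗ[k] k,
      lamB (P ⧸ J) l (Ψ r) = a} := by
      rw [hadj]
      trivial
    change ql b ∈ _
    induction hb using Algebra.adjoin_induction with
    | mem x hx =>
      obtain ⟨r, l, rfl⟩ := hx
      refine Algebra.subset_adjoin ⟨r, l, ?_⟩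
      rw [AlgHom.comp_apply, lamB_chg]
    | algebraMap c => rw [AlgHom.commutes]; exact Subalgebra.algebraMap_mem _ c
    | add x y _ _ hx hy => rw [map_add]; exact add_mem hx hy
    | mul x y _ _ hx hy => rw [map_mul]; exact mul_mem hx hy

end Vale.Agent.P292.Dv
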