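import Vale.Agent.P292.Bn.N16

/-! # The component through a point is smooth. -/

namespace Vale.Agent.P292.Dv

universe u v

theorem dr_nullst {k : Type u} [Field k] [IsAlgClosed k] {R : Type v} [CommRing R] [Algebra k R]
    [Algebra.FiniteType k R] (I : Ideal R) (r : R)
    (h : ∀ y : R →ₐ[k] k, (∀ x ∈ I, y x = 0) → y r = 0) : r ∈ I.radical := by
  have hJ : IsJacobsonRing R := by
    have : IsJacobsonRing k := inferInstance
    exact isJacobsonRing_of_finiteType (A := k) (B := R)
  rw [Ideal.radical_eq_jacobson, Ideal.jacobson, Ideal.mem_sInf]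
  rintro M ⟨hIM, hM⟩
  have : Algebra.FiniteType k (R ⧸ M) :=
    Algebra.FiniteType.of_surjective (Ideal.Quotient.mkₐ k M) (Ideal.Quotient.mkₐ_surjective k M)
  let _ : Field (R ⧸ M) := Ideal.Quotient.field M
  have hfin : Module.Finite k (R ⧸ M) := finite_of_finite_type_of_isJacobsonRing k (R ⧸ M)
  have hsurj : Function.Bijective (algebraMap k (R ⧸ M)) :=
    IsAlgClosed.algebraMap_bijective_of_isIntegral
  let e : k ≃ₐ[k] (R ⧸ M) := AlgEquiv.ofBijective (Algebra.ofId k (R ⧸ M)) hsurj
  have h1 := h (e.symm.toAlgHom.comp (Ideal.Quotient.mkₐ k M)) (fun x hx => by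
    change e.symm (Ideal.Quotient.mk M x) = 0
    rw [Ideal.Quotient.eq_zero_iff_mem.2 (hIM hx), map_zero])
  have h2 : Ideal.Quotient.mk M r = 0 := by
    apply e.symm.injective
    rw [map_zero]
    exact h1
  exact Ideal.Quotient.eq_zero_iff_mem.1 h2

/-- The component of the closed point `w` is smooth. -/
theorem dr_smooth {k : Type u} [Field k] [IsAlgClosed k] {R : Type v} [CommRing R] [Algebra k R]
    [Algebra.FiniteType k R] (w : R →ₐ[k] k) (𝔫 : Ideal R)
    (h𝔫 : ∀ r, r ∈ 𝔫 ↔ ∃ c, w c ≠ 0 ∧ c * r = 0) (hpr : 𝔫.IsPrime) (s : R)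
    (hsm : Algebra.FormallySmooth k (Localization.Away s))
    (hdom : ∀ y : R →ₐ[k] k, y s ≠ 0 → ∀ a b, a * b = 0 → ∃ c, y c ≠ 0 ∧ (c * a = 0 ∨ c * b = 0)) :
    Algebra.FormallySmooth k (Localization.Away (Ideal.Quotient.mk 𝔫 s)) := by
  classical
  let A := Localization.Away s
  let B := Localization.Away (Ideal.Quotient.mk 𝔫 s)
  let f : A →+* B := IsLocalization.Away.map A B (Ideal.Quotient.mk 𝔫) s
  have hf : ∀ r, f (algebraMap R A r) = algebraMap (R ⧸ 𝔫) B (Ideal.Quotient.mk 𝔫 r) := fun r =>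
    IsLocalization.map_eq _ r
  let _ : Algebra A B := f.toAlgebra
  have hfA : ∀ z, algebraMap A B z = f z := fun _ => rfl
  have htow : IsScalarTower k A B := by
    refine IsScalarTower.of_algebraMap_eq fun c => ?_
    rw [hfA, IsScalarTower.algebraMap_apply k R A, hf,
      IsScalarTower.algebraMap_apply k (R ⧸ 𝔫) B]
    rfl
  have hsurj : Function.Surjective (algebraMap A B) := by
    intro z
    obtain ⟨⟨a, ⟨_, n, rfl⟩⟩, hz⟩ := IsLocalization.surj (Submonoid.powers (Ideal.Quotient.mk 𝔫 s)) z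
    obtain ⟨a, rfl⟩ := Ideal.Quotient.mk_surjective a
    refine ⟨IsLocalization.mk' A a (⟨s ^ n, n, rfl⟩ : Submonoid.powers s), ?_⟩
    have hu : IsUnit (algebraMap (R ⧸ 𝔫) B (Ideal.Quotient.mk 𝔫 s ^ n)) :=
      IsLocalization.map_units B (⟨_, n, rfl⟩ : Submonoid.powers (Ideal.Quotient.mk 𝔫 s))
    apply hu.mul_left_injective
    have h0 := IsLocalization.mk'_spec A a (⟨s ^ n, n, rfl⟩ : Submonoid.powers s)
    have h00 := congrArg f h0
    rw [map_mul, hf, hf, map_pow] at h00
    change _ * _ = _ * _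
    rw [hfA]
    exact h00.trans hz.symm
  have hsu : IsUnit (algebraMap R A s) := IsLocalization.Away.algebraMap_isUnit s
  set K : Ideal A := RingHom.ker (algebraMap A B) with hK
  -- elements of `𝔫`
  have h1 : ∀ a ∈ 𝔫, algebraMap R A a ∈ K := by
    intro a ha
    rw [hK, RingHom.mem_ker, hfA, hf, Ideal.Quotient.eq_zero_iff_mem.2 ha, map_zero]
  have h2 : ∀ a ∈ 𝔫, algebraMap R A a ∈ K * K := by
    intro a ha
    let T : Ideal R :=
      { carrier := {t | algebraMap R A (t * a) ∈ K * K}
        add_mem' := fun {x y} hx hy => by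
          change algebraMap R A ((x + y) * a) ∈ K * K
          rw [add_mul, map_add]
          exact add_mem hx hy
        zero_mem' := by
          change algebraMap R A (0 * a) ∈ K * K
          rw [zero_mul, map_zero]
          exact zero_mem _
        smul_mem' := fun c x hx => by
          change algebraMap R A (c * x * a) ∈ K * K
          rw [mul_assoc, map_mul]
          exact Ideal.mul_mem_left _ _ hx }
    have hT : ∀ t, t ∈ T ↔ algebraMap R A (t * a) ∈ K * K := fun t => Iff.rfl
    have h3 : s ∈ T.radical := by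
      refine dr_nullst (k := k) T s fun y hy => ?_
      by_contra hys
      by_cases hyn : ∀ b ∈ 𝔫, y b = 0
      · obtain ⟨c, hc, hca⟩ := (h𝔫 a).1 ha
        obtain ⟨t, ht, ht'⟩ := hdom y hys c a hca
        rcases ht' with ht' | ht'
        · have h4 : c ∉ 𝔫 := by
            intro hc'
            obtain ⟨c', hc1, hc2⟩ := (h𝔫 c).1 hc'
            have h5 := congrArg w hc2
            rw [map_mul, map_zero] at h5
            exact (mul_ne_zero hc1 hc) h5
          have h5 : t * c ∈ 𝔫 := by rw [ht']; exact zero_mem _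
          exact ht (hyn t ((hpr.mem_or_mem h5).resolve_right h4))
        · apply ht
          apply hy
          rw [hT, ht', map_zero]
          exact zero_mem _
      · push Not at hyn
        obtain ⟨b, hb, hb'⟩ := hyn
        apply hb'
        apply hy
        rw [hT, map_mul]
        exact Ideal.mul_mem_mul (h1 b hb) (h1 a ha)
    obtain ⟨N, hN⟩ := h3
    rw [hT, map_mul, map_pow] at hN
    exact (Ideal.unit_mul_mem_iff_mem _ (hsu.pow N)).1 hN
  have hid : IsIdempotentElem K := by
    change K * K = K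
    refine le_antisymm Ideal.mul_le_left fun z hz => ?_
    obtain ⟨⟨a, ⟨_, n, rfl⟩⟩, hz'⟩ := IsLocalization.surj (Submonoid.powers s) z
    have h3 : algebraMap R A a ∈ K := by
      rw [← hz']
      exact Ideal.mul_mem_right _ _ hz
    rw [hK, RingHom.mem_ker, hfA, hf] at h3
    obtain ⟨⟨_, m, rfl⟩, hm⟩ := (IsLocalization.map_eq_zero_iff
      (Submonoid.powers (Ideal.Quotient.mk 𝔫 s)) B _).1 h3
    have h4 : s ^ m * a ∈ 𝔫 := by
      rw [← Ideal.Quotient.eq_zero_iff_mem, map_mul, map_pow]
      exact hm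
    have h5 := h2 _ h4
    rw [map_mul, map_pow] at h5
    have h6 := (Ideal.unit_mul_mem_iff_mem _ (hsu.pow m)).1 h5
    rw [← hz'] at h6
    have h7 : z * algebraMap R A (s ^ n) ∈ K * K := h6
    rw [map_pow, mul_comm z] at h7
    exact (Ideal.unit_mul_mem_iff_mem _ (hsu.pow n)).1 h7
  have hAB : Algebra.FormallySmooth A B := (Algebra.FormallySmooth.iff_of_surjective hsurj).2 hid
  exact Algebra.FormallySmooth.comp k A B

end Vale.Agent.P292.Dv
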