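import Mathlib

/-! # Quotients of graded algebras by homogeneous ideals. -/

namespace Vale.Agent.P292.Dv

universe u v

variable {k : Type u} [Field k] {R : Type v} [CommRing R] [Algebra k R]

/-- The grading of the quotient by a homogeneous ideal. -/
theorem dr_graded (𝒜 : ℕ → Submodule k R) [GradedAlgebra 𝒜] (I : Ideal R)
    (hI : I.IsHomogeneous 𝒜) :
    Nonempty (GradedAlgebra (fun n => (𝒜 n).map (Ideal.Quotient.mkₐ k I).toLinearMap)) := by
  classical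
  let ℬ : ℕ → Submodule k (R ⧸ I) := fun n => (𝒜 n).map (Ideal.Quotient.mkₐ k I).toLinearMap
  have hmem : ∀ n, ∀ r ∈ 𝒜 n, Ideal.Quotient.mkₐ k I r ∈ ℬ n := fun n r hr => ⟨r, hr, rfl⟩
  have hgm : SetLike.GradedMonoid ℬ :=
    { one_mem := ⟨1, SetLike.GradedOne.one_mem, (Ideal.Quotient.mk I).map_one⟩
      mul_mem := by
        rintro i j _ _ ⟨a, ha, rfl⟩ ⟨b, hb, rfl⟩
        exact ⟨a * b, SetLike.GradedMul.mul_mem ha hb, map_mul (Ideal.Quotient.mkₐ k I) a b⟩ }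
  let g : (DirectSum ℕ fun i => 𝒜 i) →ₐ[k] DirectSum ℕ fun i => ℬ i :=
    DirectSum.toAlgebra k (fun i => 𝒜 i)
      (fun i => (DirectSum.lof k ℕ (fun i => ℬ i) i) ∘ₗ
        ((Ideal.Quotient.mkₐ k I).toLinearMap.restrict (p := 𝒜 i) (q := ℬ i) (hmem i)))
      (by
        change DirectSum.of (fun i => ℬ i) 0 _ = DirectSum.of (fun i => ℬ i) 0 _
        congr 1)
      (fun {i j} a b => by
        change DirectSum.of (fun i => ℬ i) _ _ =
          DirectSum.of (fun i => ℬ i) _ _ * DirectSum.of (fun i => ℬ i) _ _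
        rw [DirectSum.of_mul_of]
        congr 1)
  have hg : ∀ i (a : 𝒜 i), g (DirectSum.of (fun i => 𝒜 i) i a) =
      DirectSum.of (fun i => ℬ i) i ⟨Ideal.Quotient.mkₐ k I a, hmem i a a.2⟩ := by
    intro i a
    simp only [g, DirectSum.toAlgebra_apply]
    exact DirectSum.toSemiring_of _ _ _ _ _
  let F : R →ₐ[k] DirectSum ℕ fun i => ℬ i :=
    g.comp (DirectSum.decomposeAlgEquiv 𝒜 : R →ₐ[k] DirectSum ℕ fun i => 𝒜 i)
  have hF : ∀ i, ∀ r (hr : r ∈ 𝒜 i), F r =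
      DirectSum.of (fun i => ℬ i) i ⟨Ideal.Quotient.mkₐ k I r, hmem i r hr⟩ := by
    intro i r hr
    have h1 : (DirectSum.decomposeAlgEquiv 𝒜 : R →ₐ[k] DirectSum ℕ fun i => 𝒜 i) r =
        DirectSum.of (fun i => 𝒜 i) i ⟨r, hr⟩ := DirectSum.decompose_of_mem 𝒜 hr
    change g ((DirectSum.decomposeAlgEquiv 𝒜 : R →ₐ[k] DirectSum ℕ fun i => 𝒜 i) r) = _
    rw [h1, hg]
  have hFI : ∀ r ∈ I, F r = 0 := by
    intro r hr
    rw [← DirectSum.sum_support_decompose 𝒜 r, map_sum]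
    refine Finset.sum_eq_zero fun i _ => ?_
    rw [hF i _ (SetLike.coe_mem _)]
    have h2 : (Ideal.Quotient.mkₐ k I (DirectSum.decompose 𝒜 r i : R)) = 0 :=
      Ideal.Quotient.eq_zero_iff_mem.2 (hI i hr)
    have h3 : (⟨Ideal.Quotient.mkₐ k I (DirectSum.decompose 𝒜 r i : R),
        hmem i _ (SetLike.coe_mem _)⟩ : ℬ i) = 0 := Subtype.ext h2
    rw [h3, map_zero]
  let G : (R ⧸ I) →ₐ[k] DirectSum ℕ fun i => ℬ i := Ideal.Quotient.liftₐ I F hFI
  have hG : ∀ r, G (Ideal.Quotient.mkₐ k I r) = F r := fun r => rfl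
  refine ⟨GradedAlgebra.ofAlgHom ℬ G ?_ ?_⟩
  · refine Ideal.Quotient.algHom_ext _ ?_
    ext r
    change DirectSum.coeAlgHom ℬ (F r) = Ideal.Quotient.mkₐ k I r
    rw [← DirectSum.sum_support_decompose 𝒜 r, map_sum, map_sum, map_sum]
    refine Finset.sum_congr rfl fun i _ => ?_
    rw [hF i _ (SetLike.coe_mem _), DirectSum.coeAlgHom_of]
  · rintro i ⟨_, r, hr, rfl⟩
    exact hF i r hr

end Vale.Agent.P292.Dv
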