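import Mathlib

/-! # The component through a point is graded. -/

namespace Vale.Agent.P292.Dv

universe u v

theorem dr_homog {k : Type u} [Field k] {R : Type v} [CommRing R] [Algebra k R]
    (𝒜 : ℕ → Submodule k R) [GradedAlgebra 𝒜] (w : R →ₐ[k] k) (𝔫 : Ideal R)
    (h𝔫 : ∀ r, r ∈ 𝔫 ↔ ∃ c, w c ≠ 0 ∧ c * r = 0) (hpr : 𝔫.IsPrime) : 𝔫.IsHomogeneous 𝒜 := by
  classical
  have h1 : (𝔫.homogeneousCore 𝒜).toIdeal.IsPrime := hpr.homogeneousCore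
  have hle : (𝔫.homogeneousCore 𝒜).toIdeal ≤ 𝔫 := Ideal.toIdeal_homogeneousCore_le 𝒜 𝔫
  have h2 : (𝔫.homogeneousCore 𝒜).toIdeal = 𝔫 := by
    refine le_antisymm hle fun r hr => ?_
    obtain ⟨c, hc, hcr⟩ := (h𝔫 r).1 hr
    have h3 : c * r ∈ (𝔫.homogeneousCore 𝒜).toIdeal := by rw [hcr]; exact zero_mem _
    refine (h1.mem_or_mem h3).resolve_left fun h4 => ?_
    obtain ⟨c', hc1, hc2⟩ := (h𝔫 c).1 (hle h4)
    have h5 := congrArg w hc2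
    rw [map_mul, map_zero] at h5
    exact (mul_ne_zero hc1 hc) h5
  rw [← h2]
  exact (𝔫.homogeneousCore 𝒜).isHomogeneous

end Vale.Agent.P292.Dv
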