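import Vale.Agent.P292.Bn.N16
import Vale.Agent.P292.D.Defs

/-! # Passing to a quotient of a graded Poisson algebra. -/

namespace Vale.Agent.P292.Dv

open MvPolynomial Vale.Agent.P292 Vale.Agent.P292.Mo

universe u v w

variable {k : Type u} [Field k] {S : Type v} [CommRing S] [Algebra k S]
  {ℬ : ℕ → Submodule k S} {Q : S →ₗ[k] S →ₗ[k] S}
  {S' : Type v} [CommRing S'] [Algebra k S'] {Q' : S' →ₗ[k] S' →ₗ[k] S'}

/-- The bracket descends. -/
theorem dq_bracket (Q : S →ₗ[k] S →ₗ[k] S) (halt : ∀ a, Q a a = 0) (f : S →ₐ[k] S')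
    (hf : Function.Surjective f) (hQ : ∀ a r, f r = 0 → f (Q a r) = 0) :
    ∃ Q' : S' →ₗ[k] S' →ₗ[k] S', ∀ a b, Q' (f a) (f b) = f (Q a b) := by
  obtain ⟨σ, hσ⟩ := LinearMap.exists_rightInverse_of_surjective f.toLinearMap
    (LinearMap.range_eq_top.2 hf)
  have hσ' : ∀ a, f (σ a) = a := fun a => DFunLike.congr_fun hσ a
  refine ⟨(Q.compl₁₂ σ σ).compr₂ f.toLinearMap, fun a b => ?_⟩
  have hskew : ∀ a b, Q a b = - Q b a := by
    intro a b
    have h1 := halt (a + b)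
    rw [map_add, map_add, LinearMap.add_apply, LinearMap.add_apply, halt, halt, zero_add,
      add_zero] at h1
    exact eq_neg_of_add_eq_zero_right h1
  change f (Q (σ (f a)) (σ (f b))) = f (Q a b)
  have h1 : f (σ (f a) - a) = 0 := by rw [map_sub, hσ', sub_self]
  have h2 : f (σ (f b) - b) = 0 := by rw [map_sub, hσ', sub_self]
  have h3 : Q (σ (f a)) (σ (f b)) = Q a b + Q a (σ (f b) - b) - Q (σ (f b)) (σ (f a) - a) := by
    have h4 : Q (σ (f b)) (σ (f a) - a) = - (Q (σ (f a)) (σ (f b))) + Q a (σ (f b)) := by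
      rw [map_sub, hskew (σ (f b)) (σ (f a)), hskew (σ (f b)) a]
      ring
    rw [h4, map_sub]
    ring
  rw [h3, map_sub, map_add, hQ _ _ h1, hQ _ _ h2, add_zero, sub_zero]

/-- Frames map to frames. -/
theorem dq_frame {𝒢 : ℕ → Submodule k S'} (f : S →ₐ[k] S') (hf : Function.Surjective f)
    (h𝒢 : ∀ n, 𝒢 n = (ℬ n).map f.toLinearMap) {N : ℕ} {x : Fin N → S}
    {d : Fin N → ℕ} {g : S} (h : IsFr ℬ x d g) : IsFr 𝒢 (fun i => f (x i)) d (f g) := by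
  refine ⟨fun i => ?_, ?_, ?_⟩
  · rw [h𝒢]
    exact ⟨x i, h.hom i, rfl⟩
  · obtain ⟨l, hl⟩ := h.ghom
    refine ⟨l, ?_⟩
    rw [h𝒢]
    exact ⟨g, hl, rfl⟩
  · intro r'
    obtain ⟨r, rfl⟩ := hf r'
    obtain ⟨c, hc⟩ := h.gen r
    let _ : Algebra S S' := f.toRingHom.toAlgebra
    have : IsScalarTower k S S' := IsScalarTower.of_algebraMap_eq fun a => (f.commutes a).symm
    refine ⟨fun i => f (c i), ?_⟩
    have h1 := congrArg (KaehlerDifferential.map k k S S') hc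
    rw [map_smul, map_sum, KaehlerDifferential.map_D] at h1
    have h2 : ∀ (a : S) (m : KaehlerDifferential k S'), a • m = f a • m :=
      fun a m => (algebraMap_smul S' a m).symm
    rw [h2] at h1
    change f g • KaehlerDifferential.D k S' (f r) = _ at h1
    rw [h1]
    refine Finset.sum_congr rfl fun i _ => ?_
    rw [map_smul, KaehlerDifferential.map_D, h2]
    rfl

theorem dq_det (f : S →ₐ[k] S') (hQ' : ∀ a b, Q' (f a) (f b) = f (Q a b)) {N : ℕ}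
    (x : Fin N → S) : (brM Q' (fun i => f (x i))).det = f (brM Q x).det := by
  have h1 : (brM Q' (fun i => f (x i))) = (f : S →+* S').mapMatrix (brM Q x) := by
    ext i j
    exact hQ' _ _
  rw [h1, ← RingHom.map_det]
  rfl

theorem dq_nv {𝒢 : ℕ → Submodule k S'} (f : S →ₐ[k] S')
    (h𝒢 : ∀ n, 𝒢 n = (ℬ n).map f.toLinearMap) (y : S' →ₐ[k] k) :
    Mo.NV 𝒢 y ↔ Mo.NV ℬ (y.comp f) := by
  constructor
  · rintro ⟨n, hn, r, hr, hyr⟩
    rw [h𝒢] at hr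
    obtain ⟨r, hr, rfl⟩ := hr
    exact ⟨n, hn, r, hr, hyr⟩
  · rintro ⟨n, hn, r, hr, hyr⟩
    refine ⟨n, hn, f r, ?_, hyr⟩
    rw [h𝒢]
    exact ⟨r, hr, rfl⟩

/-- Ranks. -/
theorem dq_rk {𝒢 : ℕ → Submodule k S'} (f : S →ₐ[k] S') (hf : Function.Surjective f)
    (h𝒢 : ∀ n, 𝒢 n = (ℬ n).map f.toLinearMap) (hQ' : ∀ a b, Q' (f a) (f b) = f (Q a b))
    (y : S' →ₐ[k] k) {N : ℕ} (h : HasRk ℬ Q (y.comp f) N) : HasRk 𝒢 Q' y N := by
  obtain ⟨x, d, g, hx, hy⟩ := h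
  refine ⟨_, d, f g, dq_frame f hf h𝒢 hx, ?_⟩
  rw [dq_det f hQ', ← map_mul]
  exact hy

/-- A quotient of a graded Poisson algebra is one if it is smooth. -/
theorem dq_isPM [GradedAlgebra ℬ] {𝒢 : ℕ → Submodule k S'} [GradedAlgebra 𝒢] (f : S →ₐ[k] S')
    (hf : Function.Surjective f) (h𝒢 : ∀ n, 𝒢 n = (ℬ n).map f.toLinearMap)
    (hQ' : ∀ a b, Q' (f a) (f b) = f (Q a b)) (hPM : IsPM ℬ Q)
    (hsm : ∀ n : ℕ, 0 < n → ∀ s ∈ ℬ n, Algebra.FormallySmooth k (Localization.Away (f s))) :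
    IsPM 𝒢 Q' where
  finiteType := by
    have := hPM.finiteType
    exact Algebra.FiniteType.of_surjective f hf
  connected := by
    intro r hr
    rw [h𝒢] at hr
    obtain ⟨r, hr, rfl⟩ := hr
    obtain ⟨c, rfl⟩ := hPM.connected r hr
    exact ⟨c, f.commutes c⟩
  alternating := by
    intro a
    obtain ⟨a, rfl⟩ := hf a
    rw [hQ', hPM.alternating, map_zero]
  leibniz := by
    intro a b c
    obtain ⟨a, rfl⟩ := hf a
    obtain ⟨b, rfl⟩ := hf b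
    obtain ⟨c, rfl⟩ := hf c
    rw [← map_mul, hQ', hPM.leibniz, hQ', hQ', map_add, map_mul, map_mul]
  degree := by
    intro i j n hij a ha b hb
    rw [h𝒢] at ha hb
    obtain ⟨a, ha, rfl⟩ := ha
    obtain ⟨b, hb, rfl⟩ := hb
    rw [h𝒢]
    exact ⟨Q a b, hPM.degree i j n hij a ha b hb, (hQ' a b).symm⟩
  frame := by
    intro y hy
    obtain ⟨N, x, d, g, hx, hyx⟩ := hPM.frame (y.comp f) ((dq_nv f h𝒢 y).1 hy)
    refine ⟨N, _, d, f g, dq_frame f hf h𝒢 hx, ?_⟩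
    rw [dq_det f hQ', ← map_mul]
    exact hyx
  smooth := by
    intro n hn s hs
    rw [h𝒢] at hs
    obtain ⟨s, hs, rfl⟩ := hs
    exact hsm n hn s hs
  lineBundle := by
    intro y hy d hd
    refine hPM.lineBundle (y.comp f) ((dq_nv f h𝒢 y).1 hy) d fun n r hr hne => ?_
    refine hd n (f r) ?_ hne
    rw [h𝒢]
    exact ⟨r, hr, rfl⟩

/-- Noether normalisation. -/
theorem dq_isNoe {p e n : ℕ} {y : Fin n → S} {𝒢 : ℕ → Submodule k S'} (f : S →ₐ[k] S')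
    (hf : Function.Surjective f) (h𝒢 : ∀ n, 𝒢 n = (ℬ n).map f.toLinearMap)
    (hN : IsNoe ℬ p e y) (hi : AlgebraicIndependent k fun i => f (y i)) :
    IsNoe 𝒢 p e fun i => f (y i) where
  e_pos := hN.e_pos
  two_le := hN.two_le
  hom := fun i => by
    rw [h𝒢]
    exact ⟨y i, hN.hom i, rfl⟩
  indep := hi
  gens := by
    classical
    obtain ⟨T, hT, hspan⟩ := hN.gens
    refine ⟨T.image f, Finset.card_image_le.trans_lt hT, ?_⟩
    rw [eq_top_iff]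
    rintro r' -
    obtain ⟨r, rfl⟩ := hf r'
    have hr : r ∈ Submodule.span (Algebra.adjoin k (Set.range y)) (T : Set S) := by
      rw [hspan]
      exact Submodule.mem_top
    induction hr using Submodule.span_induction with
    | mem x hx =>
      exact Submodule.subset_span (Finset.mem_coe.2 (Finset.mem_image_of_mem f hx))
    | zero =>
      rw [map_zero]
      exact zero_mem _
    | add x x' _ _ h h' =>
      rw [map_add]
      exact add_mem h h'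
    | smul c x _ h =>
      have hc : f c ∈ Algebra.adjoin k (Set.range fun i => f (y i)) := by
        have h1 : (c : S) ∈ Algebra.adjoin k (Set.range y) := c.2
        have h2 : Set.range (fun i => f (y i)) = f '' Set.range y := by
          rw [← Set.range_comp]
          rfl
        rw [h2, ← AlgHom.map_adjoin]
        exact ⟨c, h1, rfl⟩
      have h3 : f (c • x) = (⟨f c, hc⟩ : Algebra.adjoin k (Set.range fun i => f (y i))) • f x := by
        change f ((c : S) * x) = f c * f x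
        exact map_mul f _ _
      rw [h3]
      exact Submodule.smul_mem _ _ h

/-- Invertible ideals. -/
theorem dq_isInv {𝒢 : ℕ → Submodule k S'} (f : S →ₐ[k] S')
    (hf : Function.Surjective f) (h𝒢 : ∀ n, 𝒢 n = (ℬ n).map f.toLinearMap) {𝔮 : Ideal S}
    (h : IsInv ℬ 𝔮) : IsInv 𝒢 (𝔮.map f) := by
  obtain ⟨T, a, b, da, db, ha, hb, haq, hab, hr⟩ := h
  refine ⟨T, fun t => f (a t), fun t => f (b t), da, db, fun t => ?_, fun t => ?_,
    fun t => Ideal.mem_map_of_mem f (haq t), ?_, ?_⟩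
  · rw [h𝒢]
    exact ⟨a t, ha t, rfl⟩
  · rw [h𝒢]
    exact ⟨b t, hb t, rfl⟩
  · intro t x' hx'
    obtain ⟨x, hx, rfl⟩ := (Ideal.mem_map_iff_of_surjective f hf).1 hx'
    obtain ⟨r, hr⟩ := hab t x hx
    exact ⟨f r, by rw [← map_mul, hr, map_mul]⟩
  · intro n hn r' hr'
    rw [h𝒢] at hr'
    obtain ⟨r, hr', rfl⟩ := hr'
    obtain ⟨N, hN⟩ := hr n hn r hr'
    refine ⟨N, ?_⟩
    have h1 := Ideal.mem_map_of_mem f hN
    rw [Ideal.map_span, ← Set.range_comp, map_pow] at h1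
    exact h1

/-- Homogeneous ideals. -/
theorem dq_hom [GradedAlgebra ℬ] {𝒢 : ℕ → Submodule k S'} [GradedAlgebra 𝒢] (f : S →ₐ[k] S')
    (h𝒢 : ∀ n, 𝒢 n = (ℬ n).map f.toLinearMap) {𝔮 : Ideal S} (h : 𝔮.IsHomogeneous ℬ) :
    (𝔮.map f).IsHomogeneous 𝒢 := by
  rw [Ideal.IsHomogeneous.iff_exists] at h ⊢
  obtain ⟨T, hT⟩ := h
  have hT' : ∀ x : T, f ((x : SetLike.homogeneousSubmonoid ℬ) : S) ∈
      SetLike.homogeneousSubmonoid 𝒢 := by
    rintro ⟨⟨x, i, hx⟩, -⟩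
    refine ⟨i, ?_⟩
    rw [h𝒢]
    exact ⟨x, hx, rfl⟩
  refine ⟨Set.range fun x : T => ⟨_, hT' x⟩, ?_⟩
  rw [hT, Ideal.map_span]
  congr 1
  ext z
  constructor
  · rintro ⟨x, ⟨x', hx', rfl⟩, rfl⟩
    exact ⟨_, ⟨⟨x', hx'⟩, rfl⟩, rfl⟩
  · rintro ⟨_, ⟨x, rfl⟩, rfl⟩
    exact ⟨x, ⟨_, x.2, rfl⟩, rfl⟩

/-- Curves positive on a divisor. -/
theorem dq_pos {𝒢 : ℕ → Submodule k S'} (f : S →ₐ[k] S')
    (hf : Function.Surjective f) (h𝒢 : ∀ n, 𝒢 n = (ℬ n).map f.toLinearMap) {𝔮 : Ideal S}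
    {K : Type w} [Field K] [Algebra k K] (h : Pos 𝒢 (𝔮.map f) K) : Pos ℬ 𝔮 K := by
  obtain ⟨e, δ, φ, η, he, hδ, hp⟩ := h
  let F : 𝔮 →ₗ[k] (𝔮.map f : Ideal S') :=
    { toFun := fun x => ⟨f x, Ideal.mem_map_of_mem f x.2⟩
      map_add' := fun x y => Subtype.ext (map_add f _ _)
      map_smul' := fun c x => Subtype.ext (map_smul f _ _) }
  have hF : ∀ x, ((F x : (𝔮.map f : Ideal S')) : S') = f x := fun x => rfl
  refine ⟨e, δ, φ.comp f, η.comp F, he, hδ, ?_, ?_, ?_, ?_, ?_, ?_⟩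
  · intro j r hr
    refine hp.deg j (f r) ?_
    rw [h𝒢]
    exact ⟨r, hr, rfl⟩
  · intro a ha
    obtain ⟨j, hj, r, hr, hne⟩ := hp.bpf a ha
    rw [h𝒢] at hr
    obtain ⟨r, hr, rfl⟩ := hr
    exact ⟨j, hj, r, hr, hne⟩
  · intro r x
    have h1 : F (r • x) = f r • F x := Subtype.ext (map_mul f _ _)
    change η (F (r • x)) = φ (f r) * η (F x)
    rw [h1, hp.lin]
  · intro j x hx m hm
    refine hp.degη j (F x) ?_ m hm
    rw [h𝒢]
    exact ⟨x, hx, rfl⟩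
  · intro j x hx hj
    refine hp.zeroη j (F x) ?_ hj
    rw [h𝒢]
    exact ⟨x, hx, rfl⟩
  · intro a ha
    obtain ⟨⟨x', hx'⟩, hne⟩ := hp.bpfη a ha
    obtain ⟨x, hx, rfl⟩ := (Ideal.mem_map_iff_of_surjective f hf).1 hx'
    exact ⟨⟨x, hx⟩, hne⟩

end Vale.Agent.P292.Dv
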