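import Vale.Agent.P292.D.SpInv

/-! # Spreading out a frame at a point. -/

namespace Vale.Agent.P292.Dv

open MvPolynomial Vale.Agent.P292 Vale.Agent.P292.Mo

universe u v w

section zero

variable {R : Type u} [CommRing R] [Algebra ℂ R] {𝒜 : ℕ → Submodule ℂ R} [GradedAlgebra 𝒜]
  {P : R →ₗ[ℂ] R →ₗ[ℂ] R}

/-- A frame at a point outside the vertex. -/
theorem sf_frame (hX : IsContactFano 𝒜 P) [IsDomain R]
    {M L : ℕ} {D : Dat ℂ M L} {ev : MvPolynomial (Fin M) ℂ →ₐ[ℂ] R} (hD : IsPres 𝒜 P D ev)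
    {n : ℕ} (y : Fin n → R) (hdet : (brM P y).det ≠ 0) (y₀ : R →ₐ[ℂ] ℂ) (i₁ : Fin M)
    (hi₁ : y₀ (ev (X i₁)) ≠ 0) :
    ∃ (N : ℕ) (x : Fin N → MvPolynomial (Fin M) ℂ) (dx : Fin N → ℕ)
      (g : MvPolynomial (Fin M) ℂ) (lg : ℕ), n ≤ N ∧
      (∀ i, IsWeightedHomogeneous D.d (x i) (dx i)) ∧ IsWeightedHomogeneous D.d g lg ∧
      IsFr 𝒜 (fun i => ev (x i)) dx (ev g) ∧ y₀ (ev (g * (D.pbrM x).det)) ≠ 0 := by
  classical
  obtain ⟨T, N, x, dx, g, hx, hfr, hcov⟩ := frame_cover hX hD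
  obtain ⟨m, hm⟩ := hcov i₁
  obtain ⟨a, ha⟩ : ∃ a, y₀ (ev (g a * (D.pbrM (x a)).det)) ≠ 0 := by
    by_contra hcon
    push Not at hcon
    have h1 : Ideal.span (Set.range (Sum.elim D.F fun a => g a * (D.pbrM (x a)).det)) ≤
        RingHom.ker (y₀.comp ev) := by
      rw [Ideal.span_le]
      rintro _ ⟨s, rfl⟩
      rw [SetLike.mem_coe, RingHom.mem_ker]
      rcases s with l | a
      · have h2 : ev (D.F l) = 0 := (hD.ker _).mpr (Ideal.subset_span ⟨l, rfl⟩)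
        change y₀ (ev (D.F l)) = 0
        rw [h2, map_zero]
      · exact hcon a
    have h2 := h1 hm
    rw [RingHom.mem_ker, map_pow] at h2
    have hm0 : m ≠ 0 := by
      rintro rfl
      rw [pow_zero] at h2
      exact one_ne_zero h2
    exact hi₁ ((pow_eq_zero_iff hm0).mp h2)
  obtain ⟨lg, hlg⟩ := (hfr a).ghom
  obtain ⟨g2, hg2, hg2e⟩ := hD.lift lg _ hlg
  have hne : y₀ (ev (g2 * (D.pbrM (x a)).det)) ≠ 0 := by
    rw [map_mul, hg2e, ← map_mul]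
    exact ha
  have hgne : ev (g a) ≠ 0 := by
    intro h
    apply ha
    rw [map_mul, h, zero_mul, map_zero]
  refine ⟨N a, x a, dx a, g2, lg, ?_, hx a, hg2, by rw [hg2e]; exact hfr a, hne⟩
  have hinj : Function.Injective (IsScalarTower.toAlgHom ℂ R (FractionRing R)) :=
    IsFractionRing.injective R (FractionRing R)
  exact frame_card_le hX.alternating hX.leibniz (IsScalarTower.toAlgHom ℂ R (FractionRing R))
    (hfr a) ((map_ne_zero_iff _ hinj).mpr hgne) ((map_ne_zero_iff _ hinj).mpr hdet)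

omit [GradedAlgebra 𝒜] in
/-- Spreading out a frame. -/
theorem sf_frame_spread {M L : ℕ} {D : Dat ℂ M L}
    {ev : MvPolynomial (Fin M) ℂ →ₐ[ℂ] R} (hD : IsPres 𝒜 P D ev) {N : ℕ}
    {x : Fin N → MvPolynomial (Fin M) ℂ} {dx : Fin N → ℕ} {g : MvPolynomial (Fin M) ℂ} {lg : ℕ}
    (hx : ∀ i, IsWeightedHomogeneous D.d (x i) (dx i)) (hg : IsWeightedHomogeneous D.d g lg)
    (hfr : IsFr 𝒜 (fun i => ev (x i)) dx (ev g)) :
    ∃ A₀ : Subalgebra ℤ ℂ, A₀.FG ∧ ∀ A : Subalgebra ℤ ℂ, A₀ ≤ A →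
      ∃ (x' : Fin N → MvPolynomial (Fin M) A) (g' : MvPolynomial (Fin M) A),
        (∀ i, MvPolynomial.map (algebraMap A ℂ) (x' i) = x i) ∧
        MvPolynomial.map (algebraMap A ℂ) g' = g ∧
      ∀ (D' : Dat A M L), D'.map (algebraMap A ℂ) = D →
        ∀ (k : Type v) [Field k] (j : A →+* k),
          IsFr (D'.map j).gr (fun i => (D'.map j).q (MvPolynomial.map j (x' i))) dx
            ((D'.map j).q (MvPolynomial.map j g')) := by
  obtain ⟨A₀, hfg, hA₀⟩ := pmspread_and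
    (frame_spread.{v} D.F g x (pmspread_frame_gen hD hfr))
    (pmspread_and (exists_lift_poly x) (exists_lift_poly fun _ : Unit => g))
  refine ⟨A₀, hfg, fun A hA => ?_⟩
  obtain ⟨h1, h2, h3⟩ := hA₀ A hA
  choose x1 hx1 using h2
  obtain ⟨g1, hg1⟩ := h3 ()
  refine ⟨x1, g1, hx1, hg1, fun D' hD' k _ j => ⟨fun i => ?_, ⟨lg, ?_⟩, fun r => ?_⟩⟩
  · exact Submodule.mem_map_of_mem (pmspread_hom hD' j (by rw [hx1]; exact hx i))
  · exact Submodule.mem_map_of_mem (pmspread_hom hD' j (by rw [hg1]; exact hg))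
  · exact h1 D'.F g1 x1 (fun l => by rw [← hD']; rfl) hg1 hx1 k j r

end zero

end Vale.Agent.P292.Dv
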