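import Vale.Agent.P292.D.SpInv
import Vale.Agent.P292.D.SpFrame

/-! # Spreading out: reductions with a divisor. -/

namespace Vale.Agent.P292.Dv

open MvPolynomial Vale.Agent.P292 Vale.Agent.P292.Mo

universe u v w

/-- The theorem in characteristic `p`. -/
def MoriD : Prop :=
  ∀ (k : Type) [Field k] [IsAlgClosed k] (p : ℕ) [CharP k p], p ≠ 2 → p ≠ 0 →
    ∀ (S : Type) [CommRing S] [Algebra k S] (ℬ : ℕ → Submodule k S) [GradedAlgebra ℬ]
      (Q : S →ₗ[k] S →ₗ[k] S), IsPM ℬ Q → ∀ (e n : ℕ) (y : Fin n → S), IsNoe ℬ p e y → 3 ≤ n →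
      ∀ 𝔮 : Ideal S, 𝔮.IsHomogeneous ℬ → IsInv ℬ 𝔮 →
        (∃ f ∈ 𝔮, ∃ h, ∃ G : MvPolynomial (Fin n) k, G ≠ 0 ∧ f * h = aeval y G) →
        (∃ w : S →ₐ[k] k, Mo.NV ℬ w ∧ (∀ x ∈ 𝔮, w x = 0) ∧ ∃ N, n ≤ N ∧ HasRk ℬ Q w N) →
          Pos ℬ 𝔮 k

section zero

variable {R : Type u} [CommRing R] [Algebra ℂ R] {𝒜 : ℕ → Submodule ℂ R} [GradedAlgebra 𝒜]
  {P : R →ₗ[ℂ] R →ₗ[ℂ] R}

theorem sf_reduction (hX : IsContactFano 𝒜 P) (hdim : 3 ≤ Algebra.trdeg ℂ R) (mori : MoriD)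
    {M L : ℕ} {D : Dat ℂ M L} {ev : MvPolynomial (Fin M) ℂ →ₐ[ℂ] R} (hD : IsPres 𝒜 P D ev)
    {N : ℕ} (g : Fin N → MvPolynomial (Fin M) ℂ) (jd : Fin N → ℕ)
    (hg : ∀ l, IsWeightedHomogeneous D.d (g l) (jd l)) (𝔭 : Ideal R)
    (hgp : 𝔭 = Ideal.span (Set.range fun l => ev (g l))) (hinv : IsInv 𝒜 𝔭) (h0 : 𝔭 ≠ ⊥)
    (hnv : ∃ y : R →ₐ[ℂ] ℂ, ¬ IsVertex 𝒜 y ∧ ∀ x ∈ 𝔭, y x = 0)
    (Z : Finset (Fin N → MvPolynomial (Fin M) ℂ))
    (hZ : ∀ z ∈ Z, ∑ l, ev (z l) * ev (g l) = 0) (T : Finset ℂ) :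
    ∃ (A : Subalgebra ℤ ℂ) (k : Type) (_ : Field k) (_ : IsAlgClosed k) (j : A →+* k) (d δ : ℕ)
      (ψ : Fin M → MvPolynomial (Fin 2) k) (η : Fin N → MvPolynomial (Fin 2) k),
      (T : Set ℂ) ⊆ A ∧ (d = 1 ∨ d = 2) ∧ 0 < δ ∧
      (∀ i, (ψ i).IsHomogeneous (d * D.d i)) ∧
      (∀ a : Fin 2 → k, a ≠ 0 → ∃ i, eval a (ψ i) ≠ 0) ∧
      (∀ l, ∀ G : MvPolynomial (Fin M) A, MvPolynomial.map (algebraMap A ℂ) G = D.F l →
        aeval ψ (MvPolynomial.map j G) = 0) ∧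
      (∀ l, ∀ m, m + δ = d * jd l → (η l).IsHomogeneous m) ∧
      (∀ l, d * jd l < δ → η l = 0) ∧
      (∀ a : Fin 2 → k, a ≠ 0 → ∃ l, eval a (η l) ≠ 0) ∧
      ∀ z ∈ Z, ∀ c : Fin N → MvPolynomial (Fin M) A,
        (∀ l, MvPolynomial.map (algebraMap A ℂ) (c l) = z l) →
        ∑ l, aeval ψ (MvPolynomial.map j (c l)) * η l = 0 := by
  classical
  have := hX.domain
  obtain ⟨e, n, y, he, hy, hyi, hyS⟩ := exists_noether hX
  choose Y hYh hYe using fun i => hD.lift e (y i) (hy i)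
  have hyY : (fun i => ev (Y i)) = y := funext hYe
  obtain ⟨hdet, hn⟩ := det_ne_zero_of_noether hX y hyi hyS
  -- a nonzero generator of the ideal
  obtain ⟨l₀, hl₀⟩ : ∃ l₀, ev (g l₀) ≠ 0 := by
    by_contra hcon
    push Not at hcon
    apply h0
    rw [hgp, Ideal.span_eq_bot]
    rintro _ ⟨l, rfl⟩
    exact hcon l
  -- the two points
  obtain ⟨i₀, hi₀⟩ := asm_exists_gen hX hD
  have := hX.finiteType
  obtain ⟨w, hw⟩ := Vale.Agent.P292.exists_point_ne_zero ((brM P y).det * ev (X i₀))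
    (mul_ne_zero hdet hi₀)
  rw [map_mul] at hw
  have hw1 : w (brM P y).det ≠ 0 := left_ne_zero_of_mul hw
  have hw2 : w (ev (X i₀)) ≠ 0 := right_ne_zero_of_mul hw
  obtain ⟨y₀, hy₀, hy₀p⟩ := hnv
  obtain ⟨i₁, hi₁⟩ : ∃ i₁, y₀ (ev (X i₁)) ≠ 0 := by
    by_contra hcon
    push Not at hcon
    apply hy₀
    intro n hn r hr
    obtain ⟨f, hf, rfl⟩ := hD.lift n r hr
    have h1 : y₀ (ev f) = aeval (fun i => y₀ (ev (X i))) f := by
      have : y₀.comp ev = aeval fun i => y₀ (ev (X i)) := by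
        refine MvPolynomial.algHom_ext fun i => ?_
        rw [aeval_X]
        rfl
      rw [← this]
      rfl
    rw [h1]
    exact asm_eval_zero (algebraMap ℂ ℂ) hn hf hcon
  obtain ⟨b, A4, hb, hA4, h4⟩ := divides_spread.{u, 0} hX hD Y (by rwa [hyY]) (by rwa [hyY])
    (g l₀) hl₀
  obtain ⟨Nf, xf, dxf, gf, lgf, hnN, hxf, hgf, hfrf, hfy⟩ := sf_frame hX hD y hdet y₀ i₁ hi₁
  obtain ⟨A10, hA10, h10f⟩ := sf_frame_spread.{u, 0} hD hxf hgf hfrf
  let T' : Finset ℂ := T ∪ (Finset.univ.image fun i => w (ev (X i))) ∪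
    (Finset.univ.image fun i => y₀ (ev (X i))) ∪
    {(w (brM P y).det)⁻¹, (w (ev (X i₀)))⁻¹, (y₀ (ev (X i₁)))⁻¹, b⁻¹,
      (y₀ (ev (gf * (D.pbrM xf).det)))⁻¹}
  obtain ⟨A1, hA1, h1⟩ := Dat.isOK_spread.{0} D hD.ok
  obtain ⟨A2, hA2, h2⟩ := isPM_spread.{u, 0} hX hD
  obtain ⟨s, A3, hA3, h3⟩ := noether_spread.{u, 0} hD Y (by rwa [hyY])
  obtain ⟨A5, hA5, h5⟩ := exists_lift_poly Y
  obtain ⟨A6, hA6, h6⟩ := exists_lift_poly g
  obtain ⟨A7, hA7, h7⟩ := exists_fg_of_finite (T' : Set ℂ) T'.finite_toSet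
  obtain ⟨A8, hA8, h8⟩ := si_inv_spread.{u, 0} hD g 𝔭 hgp hinv
  have hz : ∀ z : Z, ∑ l, z.1 l * g l ∈ Ideal.span (Set.range D.F) := by
    intro z
    change _ ∈ D.I
    rw [← hD.ker, map_sum, ← hZ z.1 z.2]
    exact Finset.sum_congr rfl fun l _ => by rw [map_mul]
  obtain ⟨A9, hA9, h9⟩ := exists_fg_of_forall _ fun z : Z => mem_spread.{_, 0, _} _ _ (hz z)
  obtain ⟨A, hA, hA1', hA2', hA3', hA4', hA5', hA6', hA7', hA8', hA9', hA10'⟩ :
      ∃ A : Subalgebra ℤ ℂ,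
      A.FG ∧ A1 ≤ A ∧ A2 ≤ A ∧ A3 ≤ A ∧ A4 ≤ A ∧ A5 ≤ A ∧ A6 ≤ A ∧ A7 ≤ A ∧ A8 ≤ A ∧ A9 ≤ A ∧
      A10 ≤ A := by
    let 𝓕 : Fin 10 → Subalgebra ℤ ℂ := ![A1, A2, A3, A4, A5, A6, A7, A8, A9, A10]
    have h𝓕 : ∀ i, (𝓕 i).FG := by
      intro i
      fin_cases i <;> assumption
    refine ⟨Finset.univ.sup 𝓕, ?_, ?_, ?_, ?_, ?_, ?_, ?_, ?_, ?_, ?_, ?_⟩
    · refine Finset.sup_induction (p := fun A : Subalgebra ℤ ℂ => A.FG) Subalgebra.fg_bot
        (fun a ha b hb => ha.sup hb) fun i _ => h𝓕 i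
    · exact Finset.le_sup (f := 𝓕) (Finset.mem_univ 0)
    · exact Finset.le_sup (f := 𝓕) (Finset.mem_univ 1)
    · exact Finset.le_sup (f := 𝓕) (Finset.mem_univ 2)
    · exact Finset.le_sup (f := 𝓕) (Finset.mem_univ 3)
    · exact Finset.le_sup (f := 𝓕) (Finset.mem_univ 4)
    · exact Finset.le_sup (f := 𝓕) (Finset.mem_univ 5)
    · exact Finset.le_sup (f := 𝓕) (Finset.mem_univ 6)
    · exact Finset.le_sup (f := 𝓕) (Finset.mem_univ 7)
    · exact Finset.le_sup (f := 𝓕) (Finset.mem_univ 8)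
    · exact Finset.le_sup (f := 𝓕) (Finset.mem_univ 9)
  obtain ⟨⟨D', hD'⟩, h1⟩ := h1 A hA1'
  have h1 := h1 D' hD'
  have h2 := h2 A hA2' D' hD'
  choose Y' hY' using h5 A hA5'
  choose g' hg' using h6 A hA6'
  have h3 := h3 A hA3' D' Y' hD' hY'
  obtain ⟨hbA, h4⟩ := h4 A hA4'
  have h4 := h4 D' Y' (g' l₀) hD' hY' (hg' l₀)
  have h7 := h7 A hA7'
  have h8 := h8 A hA8' D' g' hD' hg'
  have h9 := h9 A hA9'
  obtain ⟨xf', gf', hxf', hgf', h10f⟩ := h10f A hA10'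
  have h10f := h10f D' hD'
  have hinj := map_algebraMap_injective (σ := Fin M) A
  have hdD : D'.d = D.d := by rw [← hD']; rfl
  have hFD : ∀ l, MvPolynomial.map (algebraMap A ℂ) (D'.F l) = D.F l := by
    intro l
    rw [← hD']
    rfl
  have hTA : ∀ x ∈ T', x ∈ A := fun x hx => h7 hx
  have hwA : ∀ i, w (ev (X i)) ∈ A := fun i => hTA _ (by
    simp only [T', Finset.mem_union, Finset.mem_image, Finset.mem_univ, true_and]
    exact Or.inl (Or.inl (Or.inr ⟨i, rfl⟩)))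
  have hyA : ∀ i, y₀ (ev (X i)) ∈ A := fun i => hTA _ (by
    simp only [T', Finset.mem_union, Finset.mem_image, Finset.mem_univ, true_and]
    exact Or.inl (Or.inr ⟨i, rfl⟩))
  have hiA : ∀ x ∈ ({(w (brM P y).det)⁻¹, (w (ev (X i₀)))⁻¹, (y₀ (ev (X i₁)))⁻¹, b⁻¹,
      (y₀ (ev (gf * (D.pbrM xf).det)))⁻¹} : Finset ℂ),
      x ∈ A := fun x hx => hTA _ (Finset.mem_union_right _ hx)
  have hft : Algebra.FiniteType ℤ A := (Subalgebra.fg_iff_finiteType A).mp hA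
  obtain ⟨k, _, _, p, hp, hpp, _, ⟨j⟩⟩ :=
    exists_hom_large_char A ℂ (algebraMap A ℂ) (max s 2)
  -- units stay nonzero
  have hunit : ∀ a : A, (a : ℂ) ≠ 0 → (a : ℂ)⁻¹ ∈ A → j a ≠ 0 := by
    intro a ha ha'
    have h10 : a * ⟨_, ha'⟩ = 1 := Subtype.ext (mul_inv_cancel₀ ha)
    have h11 := congrArg j h10
    rw [map_mul, map_one] at h11
    exact left_ne_zero_of_mul (h11 ▸ one_ne_zero)
  -- points over the subring
  have hpt : ∀ (x : R →ₐ[ℂ] ℂ) (hx : ∀ i, x (ev (X i)) ∈ A),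
      ∃ x' : (D'.map j).Rg →ₐ[k] k, ∀ f : MvPolynomial (Fin M) A,
        ∃ c : A, (c : ℂ) = x (ev (MvPolynomial.map (algebraMap A ℂ) f)) ∧
          x' ((D'.map j).q (MvPolynomial.map j f)) = j c := by
    intro x hx
    let z : Fin M → A := fun i => ⟨x (ev (X i)), hx i⟩
    have hzv : ∀ f : MvPolynomial (Fin M) A, ((eval z f : A) : ℂ) =
        x (ev (MvPolynomial.map (algebraMap A ℂ) f)) := by
      intro f
      have h10 : (algebraMap A ℂ).comp (eval z) = ((x : R →+* ℂ).comp (ev : _ →+* R)).comp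
          (MvPolynomial.map (algebraMap A ℂ)) := by
        refine MvPolynomial.ringHom_ext (fun a => ?_) fun i => ?_
        · simp only [RingHom.comp_apply, eval_C, map_C]
          have h11 : ev (C ((algebraMap A ℂ) a)) = algebraMap ℂ R ((algebraMap A ℂ) a) :=
            ev.commutes _
          have h12 : x (algebraMap ℂ R ((algebraMap A ℂ) a)) = (algebraMap A ℂ) a := x.commutes _
          change _ = x (ev _)
          rw [h11, h12]
        · simp only [RingHom.comp_apply, eval_X, map_X]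
          rfl
      exact RingHom.congr_fun h10 f
    obtain ⟨x', hx'⟩ := asm_exists_point j D' (fun i => j (z i)) (by
      intro l
      have h10 : eval₂ j (fun i => j (z i)) (D'.F l) = j (eval z (D'.F l)) := by
        rw [eval, ← RingHom.comp_apply]
        have := MvPolynomial.comp_eval₂Hom (RingHom.id A) z j
        rw [this]
        rfl
      rw [h10]
      have h11 : eval z (D'.F l) = 0 := by
        apply Subtype.val_injective
        have h12 := hzv (D'.F l)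
        rw [hFD, (hD.ker _).mpr (Ideal.subset_span ⟨l, rfl⟩), map_zero] at h12
        exact h12
      rw [h11, map_zero])
    refine ⟨x', fun f => ⟨eval z f, hzv f, ?_⟩⟩
    rw [hx' f, eval, ← RingHom.comp_apply]
    have := MvPolynomial.comp_eval₂Hom (RingHom.id A) z j
    rw [this]
    rfl
  obtain ⟨w', hw'⟩ := hpt w hwA
  obtain ⟨y', hy'⟩ := hpt y₀ hyA
  -- the graded algebra over the field
  have hOK := h1 k j
  obtain ⟨_⟩ := Dat.nonempty_gradedAlgebra (D'.map j) hOK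
  obtain ⟨Q, hQ1, hQ2, hQ3, hQ4⟩ := Dat.exists_bracket (D'.map j) hOK
  have hPM := h2 k j Q hQ1 hQ2 hQ3 hQ4
  have hXgr : ∀ i, (D'.map j).q (X i) ∈ (D'.map j).gr (D'.d i) := fun i =>
    Submodule.mem_map_of_mem (isWeightedHomogeneous_X k (D'.map j).d i)
  have hNV : Mo.NV (D'.map j).gr w' := by
    refine ⟨D'.d i₀, hOK.pos i₀, _, hXgr i₀, ?_⟩
    obtain ⟨c, hc1, hc2⟩ := hw' (X i₀)
    rw [map_X] at hc1 hc2
    rw [hc2]
    refine hunit c ?_ ?_
    · rw [hc1]; exact hw2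
    · rw [hc1]; exact hiA _ (by simp)
  have hNV' : Mo.NV (D'.map j).gr y' := by
    refine ⟨D'.d i₁, hOK.pos i₁, _, hXgr i₁, ?_⟩
    obtain ⟨c, hc1, hc2⟩ := hy' (X i₁)
    rw [map_X] at hc1 hc2
    rw [hc2]
    refine hunit c ?_ ?_
    · rw [hc1]; exact hi₁
    · rw [hc1]; exact hiA _ (by simp)
  have hRk : HasRk (D'.map j).gr Q y' Nf := by
    refine ⟨fun i => (D'.map j).q (MvPolynomial.map j (xf' i)), dxf,
      (D'.map j).q (MvPolynomial.map j gf'), h10f k j, ?_⟩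
    rw [asm_det_q (D'.map j) Q hQ1, asm_det_map, ← map_mul, ← map_mul]
    obtain ⟨c, hc1, hc2⟩ := hy' (gf' * (D'.pbrM xf').det)
    rw [hc2]
    have h12 : MvPolynomial.map (algebraMap A ℂ) (gf' * (D'.pbrM xf').det) =
        gf * (D.pbrM xf).det := by
      rw [map_mul, hgf', ← asm_det_map, hD']
      have h8 : (fun i => MvPolynomial.map (algebraMap A ℂ) (xf' i)) = xf := funext hxf'
      rw [h8]
    rw [h12] at hc1
    refine hunit c ?_ ?_
    · rw [hc1]; exact hfy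
    · rw [hc1]; exact hiA _ (by simp)
  have hgr : ∀ {f : MvPolynomial (Fin M) A} {m : ℕ},
      IsWeightedHomogeneous D.d (MvPolynomial.map (algebraMap A ℂ) f) m →
      (D'.map j).q (MvPolynomial.map j f) ∈ (D'.map j).gr m := by
    intro f m hf
    refine Submodule.mem_map_of_mem ?_
    refine asm_wh_map j (asm_wh_of_map (j := algebraMap A ℂ) Subtype.val_injective ?_)
    have h10 : (D'.map j).d = D.d := hdD
    rw [h10]
    exact hf
  have hYgr : ∀ i, (D'.map j).q (MvPolynomial.map j (Y' i)) ∈ (D'.map j).gr e := by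
    intro i
    exact hgr (by rw [hY' i]; exact hYh i)
  have hn3 : 3 ≤ n := by
    have h10 := hdim
    rw [← hn] at h10
    exact_mod_cast h10
  have hNoe : IsNoe (D'.map j).gr p e fun i => (D'.map j).q (MvPolynomial.map j (Y' i)) := by
    refine ⟨he, by omega, hYgr, ?_, ?_⟩
    · refine indep_of_det hPM _ w' hNV ?_
      rw [asm_det_q (D'.map j) Q hQ1, asm_det_map]
      obtain ⟨c, hc1, hc2⟩ := hw' (D'.pbrM Y').det
      rw [hc2]
      have h12 : ev (MvPolynomial.map (algebraMap A ℂ) (D'.pbrM Y').det) = (brM P y).det := by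
        rw [← asm_det_map, hD']
        have h8 : (fun i => MvPolynomial.map (algebraMap A ℂ) (Y' i)) = Y := funext hY'
        rw [h8]
        have h10 : ev.toRingHom.mapMatrix (D.pbrM Y) = brM P y := by
          ext1 i i'
          change ev (D.pbr (Y i) (Y i')) = P (y i) (y i')
          rw [asm_ev_pbr hX.alternating hX.leibniz hD, hYe, hYe]
        rw [← h10, ← RingHom.map_det]
        rfl
      rw [h12] at hc1
      refine hunit c ?_ ?_
      · rw [hc1]; exact hw1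
      · rw [hc1]; exact hiA _ (by simp)
    · obtain ⟨S, hS1, hS2⟩ := h3 k j
      exact ⟨S, lt_of_le_of_lt (hS1.trans (le_max_left _ _)) hp, hS2⟩
  have hjb : j ⟨b, hbA⟩ ≠ 0 := hunit ⟨b, hbA⟩ hb (hiA _ (by simp))
  -- the ideal
  let 𝔮 : Ideal (D'.map j).Rg :=
    Ideal.span (Set.range fun l => (D'.map j).q (MvPolynomial.map j (g' l)))
  have hgen : ∀ l, (D'.map j).q (MvPolynomial.map j (g' l)) ∈ 𝔮 := fun l =>
    Ideal.subset_span ⟨l, rfl⟩
  have hggr : ∀ l, (D'.map j).q (MvPolynomial.map j (g' l)) ∈ (D'.map j).gr (jd l) := fun l =>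
    hgr (by rw [hg' l]; exact hg l)
  have h𝔮h : 𝔮.IsHomogeneous (D'.map j).gr := by
    refine Ideal.homogeneous_span _ _ ?_
    rintro _ ⟨l, rfl⟩
    exact ⟨jd l, hggr l⟩
  have h𝔮y : ∀ x ∈ 𝔮, y' x = 0 := by
    intro x hx
    have h10 : 𝔮 ≤ RingHom.ker y' := by
      rw [Ideal.span_le]
      rintro _ ⟨l, rfl⟩
      obtain ⟨c, hc1, hc2⟩ := hy' (g' l)
      rw [SetLike.mem_coe, RingHom.mem_ker, hc2]
      rw [hg' l, hy₀p _ (by rw [hgp]; exact Ideal.subset_span ⟨l, rfl⟩)] at hc1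
      have : c = 0 := Subtype.val_injective hc1
      rw [this, map_zero]
    exact h10 hx
  obtain ⟨d, δ, φ, η, hd, hδ, hpair⟩ := mori k p (by have := le_max_right s 2; omega)
    hpp.ne_zero (D'.map j).Rg (D'.map j).gr Q hPM e n _ hNoe hn3 𝔮 h𝔮h (h8 k j hOK)
    ⟨_, hgen l₀, h4 k j hjb⟩ ⟨y', hNV', h𝔮y, Nf, hnN, hRk⟩
  have hφa : (aeval fun i => φ ((D'.map j).q (X i)) :
      MvPolynomial (Fin M) k →ₐ[k] MvPolynomial (Fin 2) k) = φ.comp (D'.map j).q := by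
    refine MvPolynomial.algHom_ext fun i => ?_
    rw [aeval_X]
    rfl
  refine ⟨A, k, inferInstance, inferInstance, j, d, δ, fun i => φ ((D'.map j).q (X i)),
    fun l => η ⟨_, hgen l⟩, ?_, hd, hδ, ?_, ?_, ?_, ?_, ?_, ?_, ?_⟩
  · intro x hx
    apply h7
    have : x ∈ T := hx
    simp [T', this]
  · intro i
    rw [← hdD]
    exact hpair.deg _ _ (hXgr i)
  · intro a ha
    by_contra hcon
    push Not at hcon
    obtain ⟨m, hm, r, hr, hne⟩ := hpair.bpf a ha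
    obtain ⟨q, hq, rfl⟩ := hr
    apply hne
    have h8 : (MvPolynomial.eval a).comp ((φ : (D'.map j).Rg →+* MvPolynomial (Fin 2) k).comp
        ((D'.map j).q : MvPolynomial (Fin M) k →+* (D'.map j).Rg)) =
        eval₂Hom (RingHom.id k) fun i => eval a (φ ((D'.map j).q (X i))) := by
      refine MvPolynomial.ringHom_ext (fun c => ?_) fun i => ?_
      · rw [coe_eval₂Hom, eval₂_C]
        have h9 : (D'.map j).q (C c) = algebraMap k _ c := (D'.map j).q.commutes c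
        change eval a (φ ((D'.map j).q (C c))) = _
        rw [h9, AlgHom.commutes]
        exact eval_C c
      · rw [coe_eval₂Hom, eval₂_X]
        rfl
    have h9 := RingHom.congr_fun h8 q
    exact h9.trans (asm_eval_zero (RingHom.id k) hm hq hcon)
  · intro l G hG
    have h8 : G = D'.F l := hinj (by rw [hG, hFD])
    rw [h8, hφa, AlgHom.comp_apply]
    have h10 : (D'.map j).q (MvPolynomial.map j (D'.F l)) = 0 :=
      Ideal.Quotient.eq_zero_iff_mem.mpr (Ideal.subset_span ⟨l, rfl⟩)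
    rw [h10, map_zero]
  · intro l m hm
    exact hpair.degη (jd l) _ (hggr l) m hm
  · intro l hl
    exact hpair.zeroη (jd l) _ (hggr l) hl
  · intro a ha
    by_contra hcon
    push Not at hcon
    obtain ⟨x, hx⟩ := hpair.bpfη a ha
    apply hx
    have h10 : ∀ x (hx : x ∈ 𝔮), eval a (η ⟨x, hx⟩) = 0 := by
      intro x hx
      refine Submodule.span_induction (p := fun x hx => eval a (η ⟨x, hx⟩) = 0) ?_ ?_ ?_ ?_ hx
      · rintro _ ⟨l, rfl⟩
        exact hcon l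
      · have : (⟨0, Submodule.zero_mem _⟩ : 𝔮) = 0 := rfl
        rw [this, map_zero, map_zero]
      · intro x y hx hy h11 h12
        have : (⟨x + y, Submodule.add_mem _ hx hy⟩ : 𝔮) = ⟨x, hx⟩ + ⟨y, hy⟩ := rfl
        rw [this, map_add, map_add, h11, h12, add_zero]
      · intro r x hx h11
        have : (⟨r • x, Submodule.smul_mem _ r hx⟩ : 𝔮) = r • ⟨x, hx⟩ := rfl
        rw [this, hpair.lin, map_mul, h11, mul_zero]
    exact h10 x.1 x.2
  · intro z hz c hc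
    have h10 := (h9 ⟨z, hz⟩ D'.F (∑ l, c l * g' l) hFD (by
      rw [map_sum]
      exact Finset.sum_congr rfl fun l _ => by rw [map_mul, hc, hg'])).2 k j
    have h11 : (D'.map j).q (MvPolynomial.map j (∑ l, c l * g' l)) = 0 :=
      Ideal.Quotient.eq_zero_iff_mem.mpr h10
    have h12 : ∑ l, (D'.map j).q (MvPolynomial.map j (c l)) •
        (⟨_, hgen l⟩ : 𝔮) = 0 := by
      apply Subtype.val_injective
      rw [AddSubmonoidClass.coe_finsetSum]
      simp only [map_sum, map_mul] at h11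
      exact h11
    have h13 := congrArg η h12
    rw [map_sum, map_zero] at h13
    rw [← h13]
    refine Finset.sum_congr rfl fun l _ => ?_
    rw [hpair.lin, hφa]
    rfl

end zero

end Vale.Agent.P292.Dv
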