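import Vale.Agent.P292.D.RegDom
import Vale.Agent.P292.D.CurvePt
import Vale.Agent.P292.D.DomC
import Vale.Agent.P292.D.DomQ
import Vale.Agent.P292.D.DomB
import Vale.Agent.P292.D.SpFwd

/-! # Reduction to domains. -/

namespace Vale.Agent.P292.Dv

open MvPolynomial Vale.Agent.P292 Vale.Agent.P292.Mo

universe u v w

section

variable {k : Type u} [Field k] {S : Type v} [CommRing S] [Algebra k S]

/-- The elements which vanish near the point. -/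
def drI (w : S →ₐ[k] k) : Ideal S where
  carrier := {r | ∃ c, w c ≠ 0 ∧ c * r = 0}
  add_mem' := by
    rintro a b ⟨c, hc, hca⟩ ⟨c', hc', hcb⟩
    refine ⟨c * c', by rw [map_mul]; exact mul_ne_zero hc hc', ?_⟩
    have h1 : c * c' * (a + b) = c' * (c * a) + c * (c' * b) := by ring
    rw [h1, hca, hcb, mul_zero, mul_zero, add_zero]
  zero_mem' := ⟨1, by rw [map_one]; exact one_ne_zero, mul_zero _⟩
  smul_mem' := by
    rintro a r ⟨c, hc, hcr⟩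
    refine ⟨c, hc, ?_⟩
    have h1 : c * (a • r) = a * (c * r) := by rw [smul_eq_mul]; ring
    rw [h1, hcr, mul_zero]

theorem mem_drI {w : S →ₐ[k] k} {r : S} : r ∈ drI w ↔ ∃ c, w c ≠ 0 ∧ c * r = 0 := Iff.rfl

theorem drI_ker {w : S →ₐ[k] k} {r : S} (hr : r ∈ drI w) : w r = 0 := by
  obtain ⟨c, hc, hcr⟩ := hr
  have h1 := congrArg w hcr
  rw [map_mul, map_zero] at h1
  exact (mul_eq_zero.1 h1).resolve_left hc

theorem drI_le {w : S →ₐ[k] k} {𝔔 : Ideal S} (h𝔔 : 𝔔.IsPrime) (hle : ∀ r ∈ 𝔔, w r = 0) :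
    drI w ≤ 𝔔 := by
  rintro r ⟨c, hc, hcr⟩
  refine (h𝔔.mem_or_mem (hcr ▸ 𝔔.zero_mem : c * r ∈ 𝔔)).resolve_left fun h => hc (hle c h)

variable {ℬ : ℕ → Submodule k S} [GradedAlgebra ℬ] {Q : S →ₗ[k] S →ₗ[k] S}

theorem drI_prime [Infinite k] (hPM : IsPM ℬ Q) {w : S →ₐ[k] k} (hw : Mo.NV ℬ w) :
    (drI w).IsPrime := by
  have hft := hPM.finiteType
  have : IsNoetherianRing S := Algebra.FiniteType.isNoetherianRing k S
  obtain ⟨n, hn, s, hs, hws⟩ := hw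
  refine ⟨fun h => ?_, fun {a b} hab => ?_⟩
  · have h1 : (1 : S) ∈ drI w := by rw [h]; exact Submodule.mem_top
    have h2 := drI_ker h1
    rw [map_one] at h2
    exact one_ne_zero h2
  · obtain ⟨c, hc, hcr⟩ := hab
    rw [← mul_assoc] at hcr
    obtain ⟨c', hc', h | h⟩ := reg_dom w s hws (hPM.smooth n hn s hs) hcr
    · refine Or.inl ⟨c' * c, by rw [map_mul]; exact mul_ne_zero hc' hc, ?_⟩
      rw [mul_assoc, h]
    · exact Or.inr ⟨c', hc', h⟩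

theorem drI_hom [Infinite k] (hPM : IsPM ℬ Q) {w : S →ₐ[k] k} (hw : Mo.NV ℬ w) :
    (drI w).IsHomogeneous ℬ := by
  rw [Ideal.IsHomogeneous.iff_eq]
  have h1 : ((drI w).homogeneousCore ℬ).toIdeal.IsPrime := (drI_prime hPM hw).homogeneousCore
  have h2 := Ideal.toIdeal_homogeneousCore_le ℬ (drI w)
  exact le_antisymm h2 (drI_le h1 fun r hr => drI_ker (h2 hr))

omit [GradedAlgebra ℬ] in
theorem drI_bracket (hleib : ∀ a b c, Q a (b * c) = Q a b * c + b * Q a c) {w : S →ₐ[k] k}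
    (a : S) {r : S} (hr : r ∈ drI w) : Q a r ∈ drI w := by
  obtain ⟨c, hc, hcr⟩ := hr
  refine ⟨c * c, by rw [map_mul]; exact mul_ne_zero hc hc, ?_⟩
  have h1 := hleib a c r
  rw [hcr, map_zero] at h1
  have h2 : c * c * Q a r = c * (Q a c * r + c * Q a r) - Q a c * (c * r) := by ring
  rw [h2, ← h1, hcr, mul_zero, mul_zero, sub_zero]

theorem drI_indep [IsAlgClosed k] (hPM : IsPM ℬ Q) {w : S →ₐ[k] k} (hw : Mo.NV ℬ w)
    {p e n : ℕ} {y : Fin n → S} (hN : IsNoe ℬ p e y) {N : ℕ} (hnN : n ≤ N)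
    (hrk : HasRk ℬ Q w N) :
    AlgebraicIndependent k fun i => Ideal.Quotient.mkₐ k (drI w) (y i) := by
  have : Infinite k := IsAlgClosed.instInfinite
  have hp := drI_prime hPM hw
  obtain ⟨x, dx, gx, -, hgx⟩ := hrk
  rw [map_mul] at hgx
  obtain ⟨T, hTp, hT⟩ := hN.gens
  let B₀ : Subalgebra k S := Algebra.adjoin k (Set.range y)
  have hB₀fin : Module.Finite B₀ S := ⟨⟨T, hT⟩⟩
  have hint₀ : ∀ r : S, IsIntegral B₀ r := fun r => IsIntegral.of_finite B₀ r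
  obtain ⟨𝔓, h𝔓, h𝔓w, hxi⟩ := cp_prime hPM x w hw (right_ne_zero_of_mul hgx)
  let m : S →ₐ[k] S ⧸ drI w := Ideal.Quotient.mkₐ k (drI w)
  have hm : Function.Surjective m := Ideal.Quotient.mk_surjective
  let y' : Fin n → S ⧸ drI w := fun i => m (y i)
  let B : Subalgebra k (S ⧸ drI w) := Algebra.adjoin k (Set.range y')
  have hmB : ∀ b ∈ B₀, m b ∈ B := by
    intro b hb
    have h1 : B₀ ≤ B.comap m := Algebra.adjoin_le (by
      rintro _ ⟨i, rfl⟩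
      exact Algebra.subset_adjoin ⟨i, rfl⟩)
    exact h1 hb
  let mB : B₀ →ₐ[k] B := (m.comp B₀.val).codRestrict B fun b => hmB b b.2
  have hint : ∀ r : S ⧸ drI w, IsIntegral B r := by
    intro r
    obtain ⟨r, rfl⟩ := hm r
    exact (hint₀ r).map_of_comp_eq (mB : B₀ →+* B) (m : S →+* S ⧸ drI w) rfl
  have hle := drI_le h𝔓 h𝔓w
  let τ : S ⧸ drI w →ₐ[k] S ⧸ 𝔓 := Ideal.Quotient.factorₐ k hle
  have hxi' : AlgebraicIndependent k fun i => m (x i) := by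
    refine AlgebraicIndependent.of_comp τ ?_
    exact hxi
  exact cp_indep hnN _ y' hxi' hint

/-- Reduction to the component of the point. -/
theorem dr_main [IsAlgClosed k] (hPM : IsPM ℬ Q) {w : S →ₐ[k] k} (hw : Mo.NV ℬ w)
    (hsm : ∀ n : ℕ, 0 < n → ∀ s ∈ ℬ n,
      Algebra.FormallySmooth k (Localization.Away (Ideal.Quotient.mk (drI w) s)))
    {p e n : ℕ} {y : Fin n → S} (hN : IsNoe ℬ p e y) (𝔮 : Ideal S) (h𝔮 : 𝔮.IsHomogeneous ℬ)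
    (hinv : IsInv ℬ 𝔮)
    (hf : ∃ f ∈ 𝔮, ∃ h, ∃ G : MvPolynomial (Fin n) k, G ≠ 0 ∧ f * h = aeval y G)
    (hw𝔮 : ∀ x ∈ 𝔮, w x = 0) (hrk : ∃ N, n ≤ N ∧ HasRk ℬ Q w N) :
    ∃ (S' : Type v) (_ : CommRing S') (_ : IsDomain S') (_ : Algebra k S')
      (ℬ' : ℕ → Submodule k S') (_ : GradedAlgebra ℬ') (Q' : S' →ₗ[k] S' →ₗ[k] S')
      (y' : Fin n → S') (𝔮' : Ideal S'), IsPM ℬ' Q' ∧ IsNoe ℬ' p e y' ∧ 𝔮'.IsHomogeneous ℬ' ∧
      IsInv ℬ' 𝔮' ∧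
      (∃ f ∈ 𝔮', ∃ h, ∃ G : MvPolynomial (Fin n) k, G ≠ 0 ∧ f * h = aeval y' G) ∧
      (∃ w : S' →ₐ[k] k, Mo.NV ℬ' w ∧ (∀ x ∈ 𝔮', w x = 0) ∧
        ∃ N, n ≤ N ∧ HasRk ℬ' Q' w N) ∧ (Pos ℬ' 𝔮' k → Pos ℬ 𝔮 k) := by
  have : Infinite k := IsAlgClosed.instInfinite
  have hp := drI_prime hPM hw
  have hh := drI_hom hPM hw
  obtain ⟨N, hnN, hrk⟩ := hrk
  let f : S →ₐ[k] S ⧸ drI w := Ideal.Quotient.mkₐ k (drI w)
  have hfs : Function.Surjective f := Ideal.Quotient.mk_surjective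
  have hf0 : ∀ r, f r = 0 ↔ r ∈ drI w := fun r => Ideal.Quotient.eq_zero_iff_mem
  let 𝒢 : ℕ → Submodule k (S ⧸ drI w) := fun n => (ℬ n).map f.toLinearMap
  obtain ⟨inst⟩ := dr_graded ℬ (drI w) hh
  have inst' : GradedAlgebra 𝒢 := inst
  obtain ⟨Q', hQ'⟩ := dq_bracket Q hPM.alternating f hfs fun a r hr =>
    (hf0 _).2 (drI_bracket hPM.leibniz a ((hf0 _).1 hr))
  let w' : S ⧸ drI w →ₐ[k] k := Ideal.Quotient.liftₐ (drI w) w fun r hr => drI_ker hr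
  have hw' : w'.comp f = w := AlgHom.ext fun r => rfl
  refine ⟨S ⧸ drI w, inferInstance, Ideal.Quotient.isDomain _, inferInstance, 𝒢, inst', Q',
    fun i => f (y i), 𝔮.map f, dq_isPM f hfs (fun _ => rfl) hQ' hPM hsm,
    dq_isNoe f hfs (fun _ => rfl) hN (drI_indep hPM hw hN hnN hrk), dq_hom f (fun _ => rfl) h𝔮,
    dq_isInv f hfs (fun _ => rfl) hinv, ?_, ⟨w', ?_, ?_, N, hnN, ?_⟩,
    dq_pos f hfs (fun _ => rfl)⟩
  · obtain ⟨a, ha, b, G, hG, hab⟩ := hf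
    refine ⟨f a, Ideal.mem_map_of_mem f ha, f b, G, hG, ?_⟩
    have h1 : f.comp (aeval y) = aeval fun i => f (y i) :=
      MvPolynomial.algHom_ext fun i => by rw [AlgHom.comp_apply, aeval_X, aeval_X]
    rw [← map_mul, hab]
    exact DFunLike.congr_fun h1 G
  · rw [dq_nv f (fun _ => rfl), hw']
    exact hw
  · intro x' hx'
    obtain ⟨x, hx, rfl⟩ := (Ideal.mem_map_iff_of_surjective f hfs).1 hx'
    exact hw𝔮 x hx
  · refine dq_rk f hfs (fun _ => rfl) hQ' w' ?_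
    rw [hw']
    exact hrk

end

/-- The theorem in characteristic `p`, for domains. -/
def MoriDom : Prop :=
  ∀ (k : Type) [Field k] [IsAlgClosed k] (p : ℕ) [CharP k p], p ≠ 2 → p ≠ 0 →
    ∀ (S : Type) [CommRing S] [IsDomain S] [Algebra k S] (ℬ : ℕ → Submodule k S)
      [GradedAlgebra ℬ] (Q : S →ₗ[k] S →ₗ[k] S), IsPM ℬ Q →
      ∀ (e n : ℕ) (y : Fin n → S), IsNoe ℬ p e y → 3 ≤ n →
      ∀ 𝔮 : Ideal S, 𝔮.IsHomogeneous ℬ → IsInv ℬ 𝔮 →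
        (∃ f ∈ 𝔮, ∃ h, ∃ G : MvPolynomial (Fin n) k, G ≠ 0 ∧ f * h = aeval y G) →
        (∃ w : S →ₐ[k] k, Mo.NV ℬ w ∧ (∀ x ∈ 𝔮, w x = 0) ∧ ∃ N, n ≤ N ∧ HasRk ℬ Q w N) →
          Pos ℬ 𝔮 k

theorem moriD_of_domain (h : MoriDom) : MoriD := by
  intro k _ _ p _ hp2 hp0 S _ _ ℬ _ Q hPM e n y hN hn 𝔮 h𝔮 hinv hf ⟨w, hw, hw𝔮, hrk⟩
  have hft := hPM.finiteType
  have hnoe : IsNoetherianRing S := Algebra.FiniteType.isNoetherianRing k S
  have : Infinite k := IsAlgClosed.instInfinite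
  have hp := drI_prime hPM hw
  obtain ⟨S', _, _, _, ℬ', _, Q', y', 𝔮', hPM', hN', h𝔮', hinv', hf', hw', hpos⟩ :=
    dr_main hPM hw (fun m hm s hs => dr_smooth w (drI w) (fun r => Iff.rfl) hp s
      (hPM.smooth m hm s hs) fun y hy a b hab => reg_dom y s hy (hPM.smooth m hm s hs) hab)
      hN 𝔮 h𝔮 hinv hf hw𝔮 hrk
  exact hpos (h k p hp2 hp0 S' ℬ' Q' hPM' e n y' hN' hn 𝔮' h𝔮' hinv' hf' hw')

end Vale.Agent.P292.Dv
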