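import Vale.Agent.P292.Bn.N16

/-! # P292, Part III, GAP A (G1): the first chart of a curve -/

namespace Vale.Agent.P292.Mo

universe u v w

section
variable {k : Type u} [Field k] {K : Type w} [Field K] [Algebra k K]

theorem ga_B0_le {t : K} {g h : Polynomial k} (hgh : g ∣ h) (hh : Polynomial.aeval t h ≠ 0) :
    B0 t g ≤ B0 t h := by
  refine Algebra.adjoin_le ?_
  rintro x (rfl | hx)
  · exact Algebra.subset_adjoin (Set.mem_insert _ _)
  · rw [Set.mem_singleton_iff] at hx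
    subst hx
    obtain ⟨e, rfl⟩ := hgh
    have h1 : Polynomial.aeval t g ≠ 0 := by
      intro h0
      apply hh
      rw [map_mul, h0, zero_mul]
    have h2 : Polynomial.aeval t e ≠ 0 := by
      intro h0
      apply hh
      rw [map_mul, h0, mul_zero]
    have h3 : (Polynomial.aeval t g)⁻¹ =
        Polynomial.aeval t e * (Polynomial.aeval t (g * e))⁻¹ := by
      rw [map_mul]
      field_simp
    rw [h3]
    exact mul_mem (crv_aeval_mem (crv_t_mem_B0 t _) e) (crv_inv_mem_B0 t _)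

theorem ga_IC_mono {B B' : Subalgebra k K} (h : B ≤ B') : IC B ≤ IC B' := by
  intro x hx
  obtain ⟨p, hp, hpx⟩ := (hx : IsIntegral B x)
  refine (⟨p.map (Subalgebra.inclusion h).toRingHom, hp.map _, ?_⟩ : IsIntegral B' x)
  rw [Polynomial.eval₂_map]
  exact hpx

theorem ga_IC0_le {t : K} (ht : Transcendental k t) {g h : Polynomial k} (hgh : g ∣ h)
    (hh : h ≠ 0) : IC (B0 t g) ≤ IC (B0 t h) :=
  ga_IC_mono (ga_B0_le hgh (crv_ne ht hh))

theorem ga_B0_one_le {t : K} : B0 t (1 : Polynomial k) ≤ Algebra.adjoin k {t} := by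
  refine Algebra.adjoin_le ?_
  rintro x (rfl | hx)
  · exact Algebra.self_mem_adjoin_singleton k _
  · rw [Set.mem_singleton_iff] at hx
    subst hx
    rw [map_one, inv_one]
    exact one_mem _

/-- Every element is in the first chart if `g` is large enough. -/
theorem ga_mem {t : K} (ht : Transcendental k t)
    [FiniteDimensional (IntermediateField.adjoin k {t}) K] (x : K) :
    ∃ g : Polynomial k, g ≠ 0 ∧ x ∈ IC (B0 t g) := by
  obtain ⟨a, ha, b, hb, hb0, rfl⟩ := frac0_IC (k := k) (t := t) (1 : Polynomial k) x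
  have hb' : IsIntegral (Algebra.adjoin k {t}) b := by
    have h1 : b ∈ IC (Algebra.adjoin k {t}) := ga_IC_mono ga_B0_one_le hb
    exact h1
  obtain ⟨g, hg, hinv⟩ := exists_inv_mem ht hb0 hb'
  refine ⟨g, hg, ?_⟩
  rw [div_eq_mul_inv]
  exact mul_mem (ga_IC0_le ht (one_dvd g) hg ha) hinv

theorem ga_mem_finset {t : K} (ht : Transcendental k t)
    [FiniteDimensional (IntermediateField.adjoin k {t}) K] (S : Finset K) :
    ∃ g : Polynomial k, g ≠ 0 ∧ ∀ x ∈ S, x ∈ IC (B0 t g) := by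
  classical
  induction S using Finset.induction_on with
  | empty => exact ⟨1, one_ne_zero, by simp⟩
  | insert a s _ ih =>
    obtain ⟨g, hg, h⟩ := ih
    obtain ⟨g', hg', h'⟩ := ga_mem ht a
    refine ⟨g * g', mul_ne_zero hg hg', fun x hx => ?_⟩
    rcases Finset.mem_insert.1 hx with rfl | hx
    · exact ga_IC0_le ht (dvd_mul_left _ _) (mul_ne_zero hg hg') h'
    · exact ga_IC0_le ht (dvd_mul_right _ _) (mul_ne_zero hg hg') (h x hx)

/-- The first chart. -/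
theorem ga_chart0 {R : Type v} [CommRing R] [Algebra k R] {𝒜 : ℕ → Submodule k R}
    [GradedAlgebra 𝒜] {P : R →ₗ[k] R →ₗ[k] R} [IsAlgClosed k] (p : ℕ) [Fact p.Prime] [CharP k p]
    (hP : IsPM 𝒜 P) {t : K} (ht : Transcendental k t)
    [FiniteDimensional (IntermediateField.adjoin k {t}) K] (φ : R →ₐ[k] K) (hNV : NV 𝒜 φ) :
    ∃ (g₀ : Polynomial k) (N : ℕ) (x : Fin N → R) (d : Fin N → ℕ) (g : R),
      g₀ ≠ 0 ∧ 0 < N ∧ IsFr 𝒜 x d g ∧ φ (g * (brM P x).det) ≠ 0 ∧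
      ∀ h : Polynomial k, g₀ ∣ h → h ≠ 0 →
        (∀ r, φ r ∈ IC (B0 t h)) ∧
        (∃ n : ℕ, 0 < n ∧ ∃ r ∈ 𝒜 n, φ r ≠ 0 ∧ (φ r)⁻¹ ∈ IC (B0 t h)) ∧
        IsFr0 𝒜 P (IC (B0 t h)) φ x d g := by
  classical
  obtain ⟨n, hn, s0, hs0, hs0'⟩ := hNV
  obtain ⟨S, hS⟩ := hP.finiteType
  obtain ⟨g1, hg1, h1⟩ := ga_mem_finset ht (insert (φ s0)⁻¹ (S.image φ))
  have hR : ∀ h : Polynomial k, g1 ∣ h → h ≠ 0 → ∀ r, φ r ∈ IC (B0 t h) := by
    intro h hgh hh r
    have h2 : (⊤ : Subalgebra k R) ≤ (IC (B0 t h)).comap φ := by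
      rw [← hS]
      refine Algebra.adjoin_le fun s hs => ?_
      rw [SetLike.mem_coe, Subalgebra.mem_comap]
      exact ga_IC0_le ht hgh hh (h1 _ (Finset.mem_insert_of_mem (Finset.mem_image_of_mem _ hs)))
    exact h2 Algebra.mem_top
  have hs0i : (φ s0)⁻¹ ∈ IC (B0 t g1) := h1 _ (Finset.mem_insert_self _ _)
  -- a closed point
  have : Infinite k := IsAlgClosed.instInfinite
  obtain ⟨c0, hc0⟩ := (infinite_IC ht hg1 (1 : IC (B0 t g1)) one_ne_zero).nonempty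
  have hmem1 := hR g1 dvd_rfl hg1
  obtain ⟨y0, hy0⟩ : ∃ y0 : R →ₐ[k] k, ∀ r, y0 r = c0 ⟨φ r, hmem1 r⟩ :=
    ⟨c0.comp (φ.codRestrict (IC (B0 t g1)) hmem1), fun r => rfl⟩
  have hNV0 : NV 𝒜 y0 := by
    refine ⟨n, hn, s0, hs0, ?_⟩
    intro h
    have h2 : (⟨φ s0, hmem1 s0⟩ : IC (B0 t g1)) * ⟨(φ s0)⁻¹, hs0i⟩ = 1 :=
      Subtype.ext (mul_inv_cancel₀ hs0')
    have h3 := congrArg c0 h2
    rw [map_mul, ← hy0, h, zero_mul, map_one] at h3
    exact zero_ne_one h3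
  obtain ⟨N, x, d, g, hfr0, hy⟩ := hP.frame y0 hNV0
  have hNpos : 0 < N := rank_pos p hP hNV0 ⟨x, d, g, hfr0, hy⟩
  have hne : φ (g * (brM P x).det) ≠ 0 := by
    intro h
    apply hy
    rw [hy0]
    have h1 : (⟨φ (g * (brM P x).det), hmem1 _⟩ : IC (B0 t g1)) = 0 := Subtype.ext h
    rw [h1, map_zero]
  have hne' := hne
  rw [map_mul] at hne'
  have hg0 : φ g ≠ 0 := left_ne_zero_of_mul hne'
  have hdet : φ (brM P x).det ≠ 0 := right_ne_zero_of_mul hne'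
  obtain ⟨g2, hg2, hinv⟩ := ga_mem ht (φ (brM P x).det)⁻¹
  refine ⟨g1 * g2, N, x, d, g, mul_ne_zero hg1 hg2, hNpos, hfr0, hne, fun h hgh hh => ?_⟩
  have hd1 : g1 ∣ h := (dvd_mul_right _ _).trans hgh
  have hd2 : g2 ∣ h := (dvd_mul_left _ _).trans hgh
  exact ⟨hR h hd1 hh, ⟨n, hn, s0, hs0, hs0', ga_IC0_le ht hd1 hh hs0i⟩,
    hfr0, hg0, hdet, ga_IC0_le ht hd2 hh hinv⟩

end

end Vale.Agent.P292.Mo
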