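import Vale.Agent.P292.Bn.N16
import Vale.Agent.P292.D.Defs

/-! # Homogeneous local generators of an invertible ideal at finitely many points. -/

namespace Vale.Agent.P292.Dv

universe u v w

variable {k : Type u} [Field k] {R : Type v} [CommRing R] [Algebra k R]
  {𝒜 : ℕ → Submodule k R} [GradedAlgebra 𝒜]

/-- In all large degrees there is a form which does not vanish at the point. -/
theorem gp_large (y : R →ₐ[k] k)
    (hlb : ∀ d : ℕ, (∀ n, ∀ r ∈ 𝒜 n, y r ≠ 0 → d ∣ n) → d = 1) :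
    ∃ n : ℕ, ∀ m ≥ n, ∃ r ∈ 𝒜 m, y r ≠ 0 := by
  let S : AddSubmonoid ℕ :=
    { carrier := {n | ∃ r ∈ 𝒜 n, y r ≠ 0}
      zero_mem' := ⟨1, SetLike.GradedOne.one_mem, by rw [map_one]; exact one_ne_zero⟩
      add_mem' := by
        rintro a b ⟨r, hr, hr'⟩ ⟨s, hs, hs'⟩
        exact ⟨r * s, SetLike.mul_mem_graded hr hs, by rw [map_mul]; exact mul_ne_zero hr' hs'⟩ }
  have hS : Nat.setGcd (S : Set ℕ) = 1 := by
    refine hlb _ fun n r hr hr' => ?_
    exact Nat.setGcd_dvd_of_mem (show n ∈ (S : Set ℕ) from ⟨r, hr, hr'⟩)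
  obtain ⟨n, hn⟩ := Nat.exists_mem_closure_of_ge (S : Set ℕ)
  refine ⟨n, fun m hm => ?_⟩
  have := hn m hm (by rw [hS]; exact one_dvd _)
  rw [AddSubmonoid.closure_eq] at this
  exact this

/-- Homogeneous avoidance in an ideal. -/
theorem gp_avoid [Infinite k] {ι : Type w} [Finite ι] (y : ι → R →ₐ[k] k)
    (hlb : ∀ c, ∀ d : ℕ, (∀ n, ∀ r ∈ 𝒜 n, y c r ≠ 0 → d ∣ n) → d = 1)
    (I : Ideal R) (W : ι → Submodule k R)
    (hW : ∀ c, ∀ x ∈ I, x ∉ W c → ∀ r : R, y c r ≠ 0 → r * x ∉ W c)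
    (h : ∀ c, ∃ m, ∃ x ∈ 𝒜 m, x ∈ I ∧ x ∉ W c) :
    ∃ i, ∃ a ∈ 𝒜 i, a ∈ I ∧ ∀ c, a ∉ W c := by
  classical
  have : Fintype ι := Fintype.ofFinite ι
  choose n hn using fun c => gp_large (y c) (hlb c)
  choose m x hx hxI hxW using h
  have hle : ∀ c, n c + m c ≤ ∑ c, (n c + m c) := fun c =>
    Finset.single_le_sum (f := fun c => n c + m c) (fun _ _ => Nat.zero_le _) (Finset.mem_univ c)
  generalize (∑ c, (n c + m c)) = i at hle
  by_contra hcon
  push Not at hcon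
  let V : Submodule k R := 𝒜 i ⊓ I.restrictScalars k
  obtain ⟨c, hc⟩ := Subspace.exists_eq_top_of_iUnion_eq_univ
    (p := fun c => (W c).comap V.subtype) (by
      refine Set.eq_univ_of_forall fun a => ?_
      obtain ⟨c, hc⟩ := hcon i a a.2.1 a.2.2
      exact Set.mem_iUnion.2 ⟨c, hc⟩)
  obtain ⟨r, hr, hyr⟩ := hn c (i - m c) (by have := hle c; omega)
  have h1 : r * x c ∈ 𝒜 i := by
    have h2 := SetLike.mul_mem_graded hr (hx c)
    rwa [Nat.sub_add_cancel (by have := hle c; omega)] at h2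
  have h2 : (⟨r * x c, h1, I.mul_mem_left _ (hxI c)⟩ : V) ∈ (W c).comap V.subtype := by
    rw [hc]; trivial
  exact hW c _ (hxI c) (hxW c) r hyr h2

omit [GradedAlgebra 𝒜] in
/-- The cover of the nonvertex points. -/
theorem gp_cover {T : ℕ} {b : Fin T → R}
    (hb : ∀ n, 0 < n → ∀ r ∈ 𝒜 n, ∃ N, r ^ N ∈ Ideal.span (Set.range b))
    {E : Type w} [CommRing E] [IsDomain E] [Algebra k E] (y : R →ₐ[k] E) (hy : Mo.NV 𝒜 y) :
    ∃ t, y (b t) ≠ 0 := by
  by_contra hcon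
  push Not at hcon
  obtain ⟨n, hn, r, hr, hyr⟩ := hy
  obtain ⟨N, hN⟩ := hb n hn r hr
  have h1 : Ideal.span (Set.range b) ≤ RingHom.ker y := by
    rw [Ideal.span_le]
    rintro _ ⟨t, rfl⟩
    exact hcon t
  have h2 : y (r ^ N) = 0 := h1 hN
  rw [map_pow] at h2
  exact hyr (eq_zero_of_pow_eq_zero h2)

/-- A homogeneous quotient. -/
theorem gp_quot {i j : ℕ} {a x r : R} (ha : a ∈ 𝒜 i) (hx : x ∈ 𝒜 j) (h : x = r * a) :
    (i ≤ j ∧ ∃ r' ∈ 𝒜 (j - i), x = r' * a) ∨ x = 0 := by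
  classical
  have h1 : (DirectSum.decompose 𝒜 (r * a) j : R) = x := by
    rw [← h]
    exact DirectSum.decompose_of_mem_same 𝒜 hx
  rw [DirectSum.coe_decompose_mul_of_right_mem 𝒜 j ha] at h1
  split_ifs at h1 with h2
  · exact Or.inl ⟨h2, _, SetLike.coe_mem _, h1.symm⟩
  · exact Or.inr h1.symm

/-- A homogeneous local generator at finitely many points. -/
theorem gp_pair [Infinite k] {J : Ideal R} (hJ : IsInv 𝒜 J) {ι : Type w} [Finite ι]
    (y : ι → R →ₐ[k] k) (hNV : ∀ c, Mo.NV 𝒜 (y c))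
    (hlb : ∀ c, ∀ d : ℕ, (∀ n, ∀ r ∈ 𝒜 n, y c r ≠ 0 → d ∣ n) → d = 1)
    (hreg : ∀ c, ∀ i, ∀ a ∈ 𝒜 i, a ∈ J → ∀ j, ∀ b ∈ 𝒜 j, y c b ≠ 0 →
      (∀ x ∈ J, ∃ r, b * x = r * a) → ∀ z, y c z ≠ 0 → z * a ≠ 0) :
    ∃ i j, ∃ a ∈ 𝒜 i, a ∈ J ∧ ∃ b ∈ 𝒜 j, (∀ x ∈ J, ∃ r, b * x = r * a) ∧ ∀ c, y c b ≠ 0 := by
  classical
  obtain ⟨T, α, β, dα, dβ, hα, hβ, hαJ, hgen, hcov⟩ := hJ
  choose τ hτ using fun c => gp_cover hcov (y c) (hNV c)
  let W : ι → Submodule k R := fun c =>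
    { carrier := {x | ∃ s r, y c s ≠ 0 ∧ y c r = 0 ∧ s * x = r * α (τ c)}
      zero_mem' := ⟨1, 0, by rw [map_one]; exact one_ne_zero, map_zero _, by simp⟩
      add_mem' := by
        rintro x x' ⟨s, r, h1, h2, h3⟩ ⟨s', r', h1', h2', h3'⟩
        refine ⟨s * s', s' * r + s * r', by rw [map_mul]; exact mul_ne_zero h1 h1',
          by rw [map_add, map_mul, map_mul, h2, h2', mul_zero, mul_zero, add_zero], ?_⟩
        linear_combination s' * h3 + s * h3'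
      smul_mem' := by
        rintro κ x ⟨s, r, h1, h2, h3⟩
        refine ⟨s, κ • r, h1, by rw [map_smul, h2, smul_zero], ?_⟩
        rw [mul_smul_comm, h3, smul_mul_assoc] }
  obtain ⟨i, a, ha, haJ, haW⟩ := gp_avoid y hlb J W
    (by
      intro c x hxJ hx r hr hcon
      obtain ⟨s, r', h1, h2, h3⟩ := hcon
      exact hx ⟨s * r, r', by rw [map_mul]; exact mul_ne_zero h1 hr, h2, by
        rw [mul_assoc]; exact h3⟩)
    (by
      intro c
      refine ⟨dα (τ c), α (τ c), hα _, hαJ _, ?_⟩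
      rintro ⟨s, r, h1, h2, h3⟩
      exact hreg c _ _ (hα _) (hαJ _) _ _ (hβ _) (hτ c) (hgen _) (s - r)
        (by rw [map_sub, h2, sub_zero]; exact h1) (by rw [sub_mul, h3, sub_self]))
  let 𝔟 : Ideal R :=
    { carrier := {b | ∀ x ∈ J, ∃ r, b * x = r * a}
      zero_mem' := fun x _ => ⟨0, by simp⟩
      add_mem' := by
        intro b b' hb hb' x hx
        obtain ⟨r, hr⟩ := hb x hx
        obtain ⟨r', hr'⟩ := hb' x hx
        exact ⟨r + r', by rw [add_mul, hr, hr', add_mul]⟩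
      smul_mem' := by
        intro c b hb x hx
        obtain ⟨r, hr⟩ := hb x hx
        exact ⟨c * r, by rw [smul_eq_mul, mul_assoc, hr, mul_assoc]⟩ }
  obtain ⟨j, b, hb, hbI, hbW⟩ := gp_avoid y hlb 𝔟 (fun c => LinearMap.ker (y c).toLinearMap)
    (by
      intro c x _ hx r hr hcon
      have h1 : y c (r * x) = 0 := hcon
      rw [map_mul] at h1
      exact (mul_eq_zero.1 h1).elim hr fun h => hx h)
    (by
      intro c
      obtain ⟨r, hr⟩ := hgen (τ c) a haJ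
      have hdeg : β (τ c) * a ∈ 𝒜 (dβ (τ c) + i) := SetLike.mul_mem_graded (hβ _) ha
      rcases gp_quot (hα (τ c)) hdeg hr with ⟨hle, r', hr', h1⟩ | h1
      · have hyr' : y c r' ≠ 0 := fun h0 => haW c ⟨β (τ c), r', hτ c, h0, h1⟩
        refine ⟨_, r' * β (τ c), SetLike.mul_mem_graded hr' (hβ _), ?_, ?_⟩
        · intro x hx
          obtain ⟨s, hs⟩ := hgen (τ c) x hx
          refine ⟨s * β (τ c), ?_⟩
          linear_combination r' * hs - s * h1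
        · intro h0
          have h2 : y c (r' * β (τ c)) = 0 := h0
          rw [map_mul] at h2
          exact mul_ne_zero hyr' (hτ c) h2
      · exact absurd ⟨β (τ c), 0, hτ c, map_zero _, by rw [h1, zero_mul]⟩ (haW c))
  exact ⟨i, j, a, ha, haJ, b, hb, hbI, fun c => hbW c⟩

end Vale.Agent.P292.Dv
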