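import Vale.Agent.P292.Bn.N16

/-! # P292, Part III, GAP A (G2): the second chart of a curve -/

namespace Vale.Agent.P292.Mo

universe u v w

section avoid

/-- Finitely many nonvertex points have a common nonvanishing form of positive degree. -/
theorem ga_avoid {k : Type u} [Field k] [Infinite k] {R : Type v} [CommRing R] [Algebra k R]
    {𝒜 : ℕ → Submodule k R} [GradedAlgebra 𝒜] {ι : Type w} [Finite ι] (y : ι → R →ₐ[k] k)
    (hy : ∀ i, NV 𝒜 (y i)) : ∃ n : ℕ, 0 < n ∧ ∃ r ∈ 𝒜 n, ∀ i, y i r ≠ 0 := by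
  classical
  have : Fintype ι := Fintype.ofFinite ι
  choose n hn r hr hyr using hy
  have hD : 0 < ∏ i, n i := Finset.prod_pos fun i _ => hn i
  refine ⟨∏ i, n i, hD, ?_⟩
  by_contra hcon
  push Not at hcon
  have hcov : (⋃ i, (((LinearMap.ker (y i).toLinearMap).comap (𝒜 (∏ i, n i)).subtype :
      Submodule k (𝒜 (∏ i, n i))) : Set (𝒜 (∏ i, n i)))) = Set.univ := by
    rw [Set.eq_univ_iff_forall]
    intro s
    obtain ⟨i, hi⟩ := hcon s s.2
    exact Set.mem_iUnion.2 ⟨i, hi⟩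
  obtain ⟨i, hi⟩ := Subspace.exists_eq_top_of_iUnion_eq_univ hcov
  obtain ⟨e, he⟩ := Finset.dvd_prod_of_mem n (Finset.mem_univ i)
  have hmem : r i ^ e ∈ 𝒜 (∏ i, n i) := by
    rw [he, mul_comm]
    have h1 := SetLike.pow_mem_graded e (hr i)
    rwa [smul_eq_mul] at h1
  have h2 : (⟨r i ^ e, hmem⟩ : 𝒜 (∏ i, n i)) ∈
      (LinearMap.ker (y i).toLinearMap).comap (𝒜 (∏ i, n i)).subtype := by
    rw [hi]; trivial
  have h3 : y i (r i ^ e) = 0 := h2
  rw [map_pow] at h3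
  exact pow_ne_zero e (hyr i) h3

end avoid

section pid

variable {k : Type u} [Field k]

/-- A Dedekind domain with finitely many closed points, which detect the units. -/
theorem ga_pid {A : Type w} [CommRing A] [IsDedekindDomain A] [Algebra k A]
    [Finite (A →ₐ[k] k)] (hunit : ∀ a : A, (∀ c : A →ₐ[k] k, c a ≠ 0) → IsUnit a) :
    IsPrincipalIdealRing A := by
  classical
  have : Fintype (A →ₐ[k] k) := Fintype.ofFinite _
  have hmax : ∀ c : A →ₐ[k] k, (RingHom.ker c.toRingHom).IsPrime := fun c => RingHom.ker_isPrime _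
  have hne : Nonempty (A →ₐ[k] k) := by
    by_contra h
    rw [not_nonempty_iff] at h
    exact not_isUnit_zero (hunit 0 fun c => h.elim c)
  have key : ∀ I : Ideal A, I ≠ ⊤ → ∃ c : A →ₐ[k] k, I ≤ RingHom.ker c.toRingHom := by
    intro I hI
    have h1 : (I : Set A) ⊆ ⋃ c ∈ (↑(Finset.univ : Finset (A →ₐ[k] k)) : Set (A →ₐ[k] k)),
        ((RingHom.ker c.toRingHom : Ideal A) : Set A) := by
      intro a ha
      by_contra hcon
      apply hI
      refine Ideal.eq_top_of_isUnit_mem I ha (hunit a fun c hc => hcon ?_)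
      exact Set.mem_biUnion (Finset.mem_coe.2 (Finset.mem_univ c)) hc
    obtain ⟨c, -, hc⟩ := (Ideal.subset_union_prime (s := (Finset.univ : Finset (A →ₐ[k] k)))
      (f := fun c => RingHom.ker c.toRingHom) (Classical.arbitrary _) (Classical.arbitrary _)
      (fun c _ _ _ => hmax c)).1 h1
    exact ⟨c, hc⟩
  refine IsPrincipalIdealRing.of_finite_primes ?_
  refine ((Set.finite_range fun c : A →ₐ[k] k => RingHom.ker c.toRingHom).insert ⊥).subset ?_
  intro I hI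
  have hI' : I.IsPrime := hI
  by_cases h0 : I = ⊥
  · exact Or.inl h0
  · right
    obtain ⟨c, hc⟩ := key I hI'.ne_top
    have hm : I.IsMaximal := hI'.isMaximal h0
    exact ⟨c, (hm.eq_of_le (hmax c).ne_top hc).symm⟩

end pid

section scale

variable {k : Type u} [Field k] {R : Type v} [CommRing R] [Algebra k R] {𝒜 : ℕ → Submodule k R}
  [GradedAlgebra 𝒜]

/-- If all forms of positive degree vanish at a closed point, one can divide. -/
theorem ga_step {A : Type w} [CommRing A] [IsDomain A] [IsPrincipalIdealRing A] [Algebra k A]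
    (hLB : IsLB 𝒜) {n : ℕ} {x : Fin n → R} {d : Fin n → ℕ} (hx : ∀ i, x i ∈ 𝒜 (d i))
    (hgen : Algebra.adjoin k (Set.range x) = ⊤) (Φ : R →ₐ[k] A) (hΦ : NV 𝒜 Φ)
    (c : A →ₐ[k] k) (hc : ∃ a : A, a ≠ 0 ∧ c a = 0)
    (hcΦ : ∀ j : ℕ, 0 < j → ∀ r ∈ 𝒜 j, c (Φ r) = 0) :
    ∃ (ϖ : A) (F : R →ₐ[k] A), ϖ ≠ 0 ∧ ¬ IsUnit ϖ ∧ ∀ j, ∀ r ∈ 𝒜 j, Φ r = ϖ ^ j * F r := by
  classical
  set m : Ideal A := RingHom.ker c.toRingHom with hm
  have hmem : ∀ a, a ∈ m ↔ c a = 0 := fun a => Iff.rfl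
  have hmp : m.IsPrime := RingHom.ker_isPrime _
  have hm0 : m ≠ ⊥ := by
    obtain ⟨a, ha, hca⟩ := hc
    intro h
    apply ha
    have : a ∈ m := hca
    rw [h] at this
    exact this
  have : IsDiscreteValuationRing (Localization.AtPrime m) :=
    IsLocalization.AtPrime.isDiscreteValuationRing_of_dedekind_domain A hm0 _
  obtain ⟨ex, hinj, hcc, -, hpow⟩ := exists_expansion_at c m hmem
  obtain ⟨ν, G, hG, j0, hj0, r0, hr0, hG0⟩ := lead hLB hx hgen (ex.comp Φ) (by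
    obtain ⟨j, hj, r, hr, h⟩ := hΦ
    refine ⟨j, hj, r, hr, ?_⟩
    rw [AlgHom.comp_apply]
    intro h0
    exact h (hinj (h0.trans (map_zero _).symm)))
  have hν : 0 < ν := by
    rcases Nat.eq_zero_or_pos ν with h0 | h0
    · exfalso
      apply hG0
      have h1 := hG j0 r0 hr0
      rw [h0, zero_mul, pow_zero, one_mul, AlgHom.comp_apply] at h1
      rw [← h1, hcc]
      exact hcΦ j0 hj0 r0 hr0
    · exact h0
  obtain ⟨ϖ, hϖ⟩ := (IsPrincipalIdealRing.principal m).principal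
  rw [Ideal.submodule_span_eq] at hϖ
  have hϖ0 : ϖ ≠ 0 := by
    rintro rfl
    apply hm0
    rw [hϖ]
    exact Ideal.span_singleton_eq_bot.2 rfl
  have hϖu : ¬ IsUnit ϖ := by
    intro h
    exact hmp.ne_top (by rw [hϖ]; exact Ideal.span_singleton_eq_top.2 h)
  obtain ⟨F, hF⟩ := exists_untwist 𝒜 Φ ϖ hϖ0 hx hgen (fun i => by
    have h1 : PowerSeries.X ^ d i ∣ ex (Φ (x i)) := by
      have h2 := hG (d i) (x i) (hx i)
      rw [AlgHom.comp_apply] at h2
      rw [h2]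
      exact Dvd.dvd.mul_right (pow_dvd_pow _ (Nat.le_mul_of_pos_left _ hν)) _
    rw [hpow, hϖ, Ideal.span_singleton_pow, Ideal.mem_span_singleton] at h1
    exact h1)
  exact ⟨ϖ, F, hϖ0, hϖu, hF⟩

theorem ga_scale [Infinite k] {A : Type w} [CommRing A] [IsDomain A] [IsPrincipalIdealRing A]
    [Algebra k A] [Finite (A →ₐ[k] k)]
    (hunit : ∀ a : A, (∀ c : A →ₐ[k] k, c a ≠ 0) → IsUnit a)
    (hnf : ∀ c : A →ₐ[k] k, ∃ a : A, a ≠ 0 ∧ c a = 0)
    (hLB : IsLB 𝒜) {n : ℕ} {x : Fin n → R} {d : Fin n → ℕ} (hx : ∀ i, x i ∈ 𝒜 (d i))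
    (hgen : Algebra.adjoin k (Set.range x) = ⊤) (Φ : R →ₐ[k] A) (hΦ : NV 𝒜 Φ) :
    ∃ (v : A) (F : R →ₐ[k] A), v ≠ 0 ∧ (∀ j, ∀ r ∈ 𝒜 j, Φ r = v ^ j * F r) ∧
      ∃ j : ℕ, 0 < j ∧ ∃ r ∈ 𝒜 j, IsUnit (F r) := by
  classical
  obtain ⟨j0, hj0, r0, hr0, hne⟩ := hΦ
  have key : ∀ a : A, ∀ Φ : R →ₐ[k] A, Φ r0 = a → a ≠ 0 →
      ∃ (v : A) (F : R →ₐ[k] A), v ≠ 0 ∧ (∀ j, ∀ r ∈ 𝒜 j, Φ r = v ^ j * F r) ∧
      ∃ j : ℕ, 0 < j ∧ ∃ r ∈ 𝒜 j, IsUnit (F r) := by
    intro a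
    induction a using (wellFounded_dvdNotUnit (α := A)).induction with
    | _ a ih =>
      intro Φ hΦa ha
      by_cases hall : ∀ c : A →ₐ[k] k, NV 𝒜 (c.comp Φ)
      · obtain ⟨j, hj, r, hr, h⟩ := ga_avoid (fun c : A →ₐ[k] k => c.comp Φ) hall
        exact ⟨1, Φ, one_ne_zero, fun i s _ => by rw [one_pow, one_mul], j, hj, r, hr,
          hunit _ fun c => h c⟩
      · push Not at hall
        obtain ⟨c, hc⟩ := hall
        have hc' : ∀ j : ℕ, 0 < j → ∀ r ∈ 𝒜 j, c (Φ r) = 0 := by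
          intro j hj r hr
          by_contra h
          exact hc ⟨j, hj, r, hr, h⟩
        obtain ⟨ϖ, F, hϖ0, hϖu, hF⟩ := ga_step hLB hx hgen Φ
          ⟨j0, hj0, r0, hr0, by rw [hΦa]; exact ha⟩ c (hnf c) hc'
        have h1 : a = ϖ ^ j0 * F r0 := by rw [← hΦa, hF j0 r0 hr0]
        have h2 : F r0 ≠ 0 := by
          intro h
          rw [h, mul_zero] at h1
          exact ha h1
        have h3 : DvdNotUnit (F r0) a := by
          refine ⟨h2, ϖ ^ j0, ?_, by rw [h1, mul_comm]⟩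
          rw [isUnit_pow_iff hj0.ne']
          exact hϖu
        obtain ⟨v, F', hv, hF', hu⟩ := ih (F r0) h3 F rfl h2
        refine ⟨ϖ * v, F', mul_ne_zero hϖ0 hv, fun j r hr => ?_, hu⟩
        rw [hF j r hr, hF' j r hr, mul_pow, mul_assoc]
  exact key _ Φ rfl hne

end scale

section chart

variable {k : Type u} [Field k] {K : Type w} [Field K] [Algebra k K]

/-- The second chart. -/
theorem ga_chart1 {R : Type v} [CommRing R] [Algebra k R] {𝒜 : ℕ → Submodule k R}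
    [GradedAlgebra 𝒜] {P : R →ₗ[k] R →ₗ[k] R} [IsAlgClosed k]
    (hP : IsPM 𝒜 P) {t : K} (ht : Transcendental k t)
    [FiniteDimensional (IntermediateField.adjoin k {t}) K]
    [Algebra.IsSeparable (IntermediateField.adjoin k {t}) K] (φ : R →ₐ[k] K) (hNV : NV 𝒜 φ)
    {g : Polynomial k} (hg : g ≠ 0) :
    ∃ u : K, u ≠ 0 ∧ (∀ n, ∀ r ∈ 𝒜 n, u ^ n * φ r ∈ IC (B1 t g)) ∧
      ∃ n : ℕ, 0 < n ∧ ∃ r ∈ 𝒜 n, φ r ≠ 0 ∧ (u ^ n * φ r)⁻¹ ∈ IC (B1 t g) := by
  classical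
  have : Infinite k := IsAlgClosed.instInfinite
  have hcl := closed_IC1 (K := K) ht hg
  have : Finite (IC (B1 t g) →ₐ[k] k) := hcl.1
  have hded : IsDedekindDomain (IC (B1 t g)) := (crv_basis1 (K := K) ht hg).1
  have hpid : IsPrincipalIdealRing (IC (B1 t g)) := ga_pid (k := k) hcl.2
  obtain ⟨l, hl⟩ := crv_exists_l hg
  have hnf : ∀ c : IC (B1 t g) →ₐ[k] k, ∃ a : IC (B1 t g), a ≠ 0 ∧ c a = 0 := by
    intro c
    have h1 : (t - algebraMap k K l)⁻¹ ∈ IC (B1 t g) :=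
      le_IC _ (crv_s_mem_B1 ht hl)
    refine ⟨⟨_, h1⟩ - algebraMap k _ (c ⟨_, h1⟩), ?_, by rw [map_sub, AlgHom.commutes]; simp⟩
    intro h0
    have h2 : (t - algebraMap k K l)⁻¹ = algebraMap k K (c ⟨_, h1⟩) :=
      congrArg Subtype.val (sub_eq_zero.1 h0)
    apply ht
    have h3 : t = algebraMap k K (l + (c ⟨_, h1⟩)⁻¹) := by
      rw [map_add, map_inv₀, ← h2, inv_inv]
      ring
    rw [h3]
    exact isAlgebraic_algebraMap _
  have hLB : IsLB 𝒜 := fun q hq d hd => hP.lineBundle q hq d hd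
  have := hP.finiteType
  obtain ⟨n, x, d, hx, hgen⟩ := exists_gens 𝒜
  -- common denominators
  have hcd := isCD_IC (K := K) ht hg
  choose a ha b hb hb0 hab using fun i => hcd.frac (φ (x i))
  set w : K := ∏ i, b i with hw
  have hw0 : w ≠ 0 := Finset.prod_ne_zero_iff.2 fun i _ => hb0 i
  have hwx : ∀ i, w ^ d i * φ (x i) ∈ IC (B1 t g) := by
    intro i
    rcases Nat.eq_zero_or_pos (d i) with h0 | h0
    · have h1 := hx i
      rw [h0] at h1
      obtain ⟨c, hc⟩ := hP.connected _ h1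
      rw [h0, pow_zero, one_mul, hc, AlgHom.commutes]
      exact Subalgebra.algebraMap_mem _ c
    · obtain ⟨e, he⟩ := Nat.exists_eq_succ_of_ne_zero h0.ne'
      have h1 : w = b i * ∏ j ∈ Finset.univ.erase i, b j := by
        rw [hw, Finset.mul_prod_erase _ _ (Finset.mem_univ i)]
      have h2 : w ∈ IC (B1 t g) := prod_mem fun j _ => hb j
      have h3 : w ^ d i * φ (x i) = w ^ e * ((∏ j ∈ Finset.univ.erase i, b j) * a i) := by
        rw [he, pow_succ, hab i, mul_assoc]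
        congr 1
        conv_lhs => rw [h1]
        have := hb0 i
        field_simp
      rw [h3]
      exact mul_mem (pow_mem h2 _) (mul_mem (prod_mem fun j _ => hb j) (ha i))
  have hrange : ∀ r, Sc.twist 𝒜 φ w r ∈ IC (B1 t g) := by
    have h1 : Algebra.adjoin k (Set.range x) ≤ (IC (B1 t g)).comap (Sc.twist 𝒜 φ w) := by
      rw [Algebra.adjoin_le_iff]
      rintro _ ⟨i, rfl⟩
      rw [SetLike.mem_coe, Subalgebra.mem_comap, Sc.twist_apply 𝒜 φ w (hx i)]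
      exact hwx i
    intro r
    have h2 : r ∈ Algebra.adjoin k (Set.range x) := by rw [hgen]; trivial
    exact h1 h2
  obtain ⟨j0, hj0, r0, hr0, hne⟩ := hNV
  obtain ⟨v, F, hv, hF, j, hj, r, hr, hu⟩ := ga_scale (k := k) hcl.2 hnf hLB hx hgen
    ((Sc.twist 𝒜 φ w).codRestrict (IC (B1 t g)) hrange) ⟨j0, hj0, r0, hr0, by
      intro h
      have h1 : Sc.twist 𝒜 φ w r0 = 0 := congrArg Subtype.val h
      rw [Sc.twist_apply 𝒜 φ w hr0] at h1
      exact mul_ne_zero (pow_ne_zero _ hw0) hne h1⟩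
  have hv' : (v : K) ≠ 0 := fun h => hv (Subtype.ext h)
  have hF' : ∀ m, ∀ s ∈ 𝒜 m, (w / (v : K)) ^ m * φ s = (F s : K) := by
    intro m s hs
    have h1 := congrArg Subtype.val (hF m s hs)
    have h2 : w ^ m * φ s = (v : K) ^ m * (F s : K) := by
      rw [← Sc.twist_apply 𝒜 φ w hs]
      exact h1
    rw [div_pow]
    field_simp
    rw [h2]
  refine ⟨w / (v : K), div_ne_zero hw0 hv', fun m s hs => ?_, j, hj, r, hr, ?_, ?_⟩
  · rw [hF' m s hs]
    exact (F s).2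
  · intro h0
    have h1 := hF' j r hr
    rw [h0, mul_zero] at h1
    have h2 : F r = 0 := Subtype.ext h1.symm
    rw [h2] at hu
    exact not_isUnit_zero hu
  · rw [hF' j r hr]
    obtain ⟨e, he⟩ := hu.exists_right_inv
    have h1 : (F r : K) * (e : K) = 1 := congrArg Subtype.val he
    rw [← eq_inv_of_mul_eq_one_right h1]
    exact e.2

end chart

end Vale.Agent.P292.Mo
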