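import Vale.Agent.P292.D.T2Defs
import Vale.Agent.P292.D.GapA0
import Vale.Agent.P292.D.GapU1
import Vale.Agent.P292.D.GapP0

/-! # C1: every point over a function field of a curve, with the pull back of an invertible ideal,
has a geometric model. -/

namespace Vale.Agent.P292.Dv

open Vale.Agent.P292.Mo

universe u v w

variable {k : Type u} [Field k] {R : Type v} [CommRing R] [Algebra k R]
  {𝒜 : ℕ → Submodule k R} [GradedAlgebra 𝒜] {P : R →ₗ[k] R →ₗ[k] R} {J : Ideal R}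
  {K : Type w} [Field K] [Algebra k K]

omit [GradedAlgebra 𝒜] in
/-- Values at local generators. -/
theorem ExGP.ne {φ : R →ₐ[k] K} {η : J →ₗ[k] K}
    (hη : ∀ (r : R) (x : J), η (r • x) = φ r * η x) (hη0 : ∃ x, η x ≠ 0) (a : J) (b : R)
    (hb : φ b ≠ 0) (hab : ∀ x ∈ J, ∃ r, b * x = r * a) : η a ≠ 0 := by
  intro h0
  obtain ⟨x, hx⟩ := hη0
  obtain ⟨r, hr⟩ := hab x x.2
  have h2 : η (b • x) = η (r • a) := congrArg η (Subtype.ext hr)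
  rw [hη, hη, h0, mul_zero] at h2
  exact mul_ne_zero hb hx h2

/-- The second chart of a pair. -/
theorem ExGP.chart1 [IsAlgClosed k] (hP : IsPM 𝒜 P) (hinv : IsInv 𝒜 J) {A₀ A₁ : Subalgebra k K}
    {u : K} {φ : R →ₐ[k] K} (hmp : IsMp 𝒜 A₀ A₁ u φ) (hfin : Finite (A₁ →ₐ[k] k))
    (hunit : ∀ a : A₁, (∀ c : A₁ →ₐ[k] k, c a ≠ 0) → IsUnit a) (η : J →ₗ[k] K)
    (hη : ∀ (r : R) (x : J), η (r • x) = φ r * η x) (hη0 : ∃ x, η x ≠ 0) :
    ∃ v : K, v ≠ 0 ∧ (∀ n, ∀ x : J, (x : R) ∈ 𝒜 n → u ^ n * v * η x ∈ A₁) ∧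
      ∃ (i j : ℕ) (a : J) (b : R), 0 < j ∧ (a : R) ∈ 𝒜 i ∧ b ∈ 𝒜 j ∧
        (∀ x ∈ J, ∃ r, b * x = r * a) ∧ φ b ≠ 0 ∧ (u ^ j * φ b)⁻¹ ∈ A₁ ∧ η a ≠ 0 ∧
        (u ^ i * v * η a)⁻¹ ∈ A₁ := by
  classical
  have : Infinite k := IsAlgClosed.instInfinite
  have hu := hmp.u_ne
  have hηne := ExGP.ne hη hη0
  obtain ⟨i, j, a, ha, haJ, b, hb, hab, hyb⟩ := gp_pair hinv
    (fun c : A₁ →ₐ[k] k => pt1 hmp c) (fun c => pt1_NV hmp c)
    (fun c => hP.lineBundle _ (pt1_NV hmp c)) (by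
      intro c i a ha haJ j b hb hyb hab z hz hza
      have hφb : φ b ≠ 0 := by
        have h3 := pt1_ne hmp c hyb
        rw [Sc.twist_apply 𝒜 φ u hb] at h3
        exact right_ne_zero_of_mul h3
      have hηa := hηne ⟨a, haJ⟩ b hφb hab
      obtain ⟨n, hn⟩ : ∃ n, pt1 hmp c (DirectSum.decompose 𝒜 z n : R) ≠ 0 := by
        by_contra hcon
        push Not at hcon
        apply hz
        rw [← DirectSum.sum_support_decompose 𝒜 z, map_sum]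
        exact Finset.sum_eq_zero fun n _ => hcon n
      have h3 : (DirectSum.decompose 𝒜 z n : R) * a = 0 := by
        have h4 := DirectSum.coe_decompose_mul_of_right_mem_of_le 𝒜 (a := z) ha
          (Nat.le_add_left i n)
        rw [hza, Nat.add_sub_cancel, DirectSum.decompose_zero] at h4
        exact h4.symm
      have h5 := pt1_ne hmp c hn
      rw [Sc.twist_apply 𝒜 φ u (SetLike.coe_mem _)] at h5
      have h6 := right_ne_zero_of_mul h5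
      have h7 : η ((DirectSum.decompose 𝒜 z n : R) • (⟨a, haJ⟩ : J)) = 0 := by
        have h8 : ((DirectSum.decompose 𝒜 z n : R) • (⟨a, haJ⟩ : J)) = 0 := Subtype.ext h3
        rw [h8, map_zero]
      rw [hη] at h7
      exact mul_ne_zero h6 hηa h7)
  obtain ⟨c₁⟩ : Nonempty (A₁ →ₐ[k] k) := by
    by_contra hcon
    rw [not_nonempty_iff] at hcon
    exact not_isUnit_zero (hunit 0 fun c => isEmptyElim c)
  have hφb : φ b ≠ 0 := by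
    have h3 := pt1_ne hmp c₁ (hyb c₁)
    rw [Sc.twist_apply 𝒜 φ u hb] at h3
    exact right_ne_zero_of_mul h3
  have hηa := hηne ⟨a, haJ⟩ b hφb hab
  have hsec1 : ∀ n, ∀ r ∈ 𝒜 n, u ^ n * φ r ∈ A₁ := fun n r hr =>
    (mem_Sec.1 (hmp.sec n r hr)).2
  have hub : (u ^ j * φ b)⁻¹ ∈ A₁ := by
    have h3 : IsUnit (⟨u ^ j * φ b, hsec1 j b hb⟩ : A₁) := by
      refine hunit _ fun c h0 => hyb c ?_
      rw [pt1_apply]
      have h4 : (⟨Sc.twist 𝒜 φ u b, F5b_twist_mem hmp b⟩ : A₁) =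
          ⟨u ^ j * φ b, hsec1 j b hb⟩ := Subtype.ext (Sc.twist_apply 𝒜 φ u hb)
      rw [h4]
      exact h0
    obtain ⟨e, he⟩ := h3.exists_right_inv
    have h4 : u ^ j * φ b * (e : K) = 1 := congrArg Subtype.val he
    rw [← eq_inv_of_mul_eq_one_right h4]
    exact e.2
  have hvne : u ^ i * η ⟨a, haJ⟩ ≠ 0 := mul_ne_zero (pow_ne_zero _ hu) hηa
  obtain ⟨n₁, hn₁, r₁, hr₁, hr₁0, hr₁i⟩ := hmp.unit1
  refine ⟨(u ^ i * η ⟨a, haJ⟩)⁻¹, inv_ne_zero hvne, ?_,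
    ⟨i, j + n₁, ⟨a, haJ⟩, b * r₁, by omega, ha, SetLike.mul_mem_graded hb hr₁, ?_, ?_, ?_, hηa,
      ?_⟩⟩
  · intro m x hx
    obtain ⟨r, hr⟩ := hab x x.2
    have hdeg : b * (x : R) ∈ 𝒜 (j + m) := SetLike.mul_mem_graded hb hx
    rcases gp_quot ha hdeg hr with ⟨hle, r', hr', h3⟩ | h3
    · have h4 : η (b • x) = η (r' • ⟨a, haJ⟩) := congrArg η (Subtype.ext h3)
      rw [hη, hη] at h4
      have h5 : u ^ m * (u ^ i * η ⟨a, haJ⟩)⁻¹ * η x =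
          (u ^ j * φ b)⁻¹ * (u ^ (j + m - i) * φ r') := by
        have h6 : η x = (φ b)⁻¹ * (φ r' * η ⟨a, haJ⟩) := by
          rw [← h4]
          field_simp
        have h7 : u ^ (j + m - i) * u ^ i = u ^ j * u ^ m := by
          rw [← pow_add, ← pow_add, Nat.sub_add_cancel hle]
        have h8 : u ^ i ≠ 0 := pow_ne_zero _ hu
        have h9 : u ^ j ≠ 0 := pow_ne_zero _ hu
        rw [h6]
        field_simp
        linear_combination (-(φ r')) * h7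
      rw [h5]
      exact mul_mem hub (hsec1 _ r' hr')
    · have h4 : φ b * η x = 0 := by
        rw [← hη]
        have h5 : (b • x : J) = 0 := Subtype.ext h3
        rw [h5, map_zero]
      have h5 : η x = 0 := (mul_eq_zero.1 h4).resolve_left hφb
      rw [h5, mul_zero]
      exact zero_mem _
  · intro x hx
    obtain ⟨r, hr⟩ := hab x hx
    exact ⟨r₁ * r, by rw [mul_comm b r₁, mul_assoc, hr, mul_assoc]⟩
  · rw [map_mul]
    exact mul_ne_zero hφb hr₁0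
  · have h3 : (u ^ (j + n₁) * φ (b * r₁))⁻¹ = (u ^ j * φ b)⁻¹ * (u ^ n₁ * φ r₁)⁻¹ := by
      rw [← mul_inv, map_mul, pow_add]
      ring_nf
    rw [h3]
    exact mul_mem hub hr₁i
  · have h3 : u ^ i * (u ^ i * η ⟨a, haJ⟩)⁻¹ * η ⟨a, haJ⟩ = 1 := by
      have h8 : u ^ i ≠ 0 := pow_ne_zero _ hu
      field_simp
    rw [h3, inv_one]
    exact one_mem _

/-- C1 (GAP A for pairs). -/
theorem exists_GP' [IsAlgClosed k] (p : ℕ) [Fact p.Prime] [CharP k p]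
    (hP : IsPM 𝒜 P) (hinv : IsInv 𝒜 J) {t : K} (ht : Transcendental k t)
    [FiniteDimensional (IntermediateField.adjoin k {t}) K]
    [Algebra.IsSeparable (IntermediateField.adjoin k {t}) K] (φ : R →ₐ[k] K) (hφ : Mo.NV 𝒜 φ)
    (η : J →ₗ[k] K) (hη : ∀ (r : R) (x : J), η (r • x) = φ r * η x) (hη0 : ∃ x, η x ≠ 0) :
    ∃ (N : ℕ) (g₀ : Polynomial k), g₀ ≠ 0 ∧ ∀ h : Polynomial k, g₀ ∣ h → h ≠ 0 →
      ∃ u v : K, IsGP 𝒜 P J N (IC (B0 t h)) (IC (B1 t h)) u v φ η := by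
  classical
  have : Infinite k := IsAlgClosed.instInfinite
  have hηne := ExGP.ne hη hη0
  obtain ⟨g1, N, x, d, g, hg1, hN, hfr, hne, h1⟩ := ga_chart0 p hP ht φ hφ
  obtain ⟨T, α, β, dα, dβ, hα, hβ, hαJ, hgen, hcov⟩ := id hinv
  obtain ⟨τ, hτ⟩ := gp_cover hcov φ hφ
  have ha0 := hηne ⟨α τ, hαJ τ⟩ (β τ) hτ (hgen τ)
  obtain ⟨g2, hg2, h2⟩ := ga_mem_finset ht
    {(φ (β τ))⁻¹, η ⟨α τ, hαJ τ⟩, (η ⟨α τ, hαJ τ⟩)⁻¹}
  refine ⟨N, g1 * g2, mul_ne_zero hg1 hg2, fun h hgg hg => ?_⟩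
  obtain ⟨hφ0, hun0, hfr0⟩ := h1 h ((dvd_mul_right _ _).trans hgg) hg
  have hmem0 : ∀ z ∈ ({(φ (β τ))⁻¹, η ⟨α τ, hαJ τ⟩, (η ⟨α τ, hαJ τ⟩)⁻¹} : Finset K),
      z ∈ IC (B0 t h) := fun z hz => ga_IC0_le ht ((dvd_mul_left _ _).trans hgg) hg (h2 z hz)
  have hb0i : (φ (β τ))⁻¹ ∈ IC (B0 t h) := hmem0 _ (by simp)
  have ha0m : η ⟨α τ, hαJ τ⟩ ∈ IC (B0 t h) := hmem0 _ (by simp)
  have ha0i : (η ⟨α τ, hαJ τ⟩)⁻¹ ∈ IC (B0 t h) := hmem0 _ (by simp)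
  have hcl := closed_IC1 (K := K) ht hg
  obtain ⟨u, hu, hs1, hun1⟩ := ga_chart1 hP ht φ hφ hg
  have hmp : IsMp 𝒜 (IC (B0 t h)) (IC (B1 t h)) u φ :=
    ⟨hu, fun n r hr => mem_Sec.2 ⟨hφ0 r, hs1 n r hr⟩, hun0, hun1⟩
  obtain ⟨x', d', g', hfr1⟩ := fr1_of_mp hP hmp hcl.1 hcl.2 hfr hne
    (fun Y h1 h2 h3 => exists_frame_finset p hP Y h1 h2 h3)
  obtain ⟨v, hv, hsv, hloc1⟩ := ExGP.chart1 hP hinv hmp hcl.1 hcl.2 η hη hη0
  have hη0m : ∀ x, η x ∈ IC (B0 t h) := by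
    intro x
    obtain ⟨r, hr⟩ := hgen τ x x.2
    have h3 : η (β τ • x) = η (r • ⟨α τ, hαJ τ⟩) := congrArg η (Subtype.ext hr)
    rw [hη, hη] at h3
    have h4 : η x = (φ (β τ))⁻¹ * (φ r * η ⟨α τ, hαJ τ⟩) := by
      rw [← h3]
      field_simp
    rw [h4]
    exact mul_mem hb0i (mul_mem (hφ0 r) ha0m)
  obtain ⟨n₀, hn₀, r₀, hr₀, hr₀0, hr₀i⟩ := hun0
  exact ⟨u, v,
    { mp := hmp
      v_ne := hv
      lin := hη
      secη := fun n x hx => ⟨hη0m x, hsv n x hx⟩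
      loc0 := ⟨dα τ, dβ τ + n₀, ⟨α τ, hαJ τ⟩, β τ * r₀, by omega, hα τ,
        SetLike.mul_mem_graded (hβ τ) hr₀, fun x hx => by
          obtain ⟨r, hr⟩ := hgen τ x hx
          exact ⟨r₀ * r, by rw [mul_comm (β τ) r₀, mul_assoc, hr, mul_assoc]⟩,
        by rw [map_mul]; exact mul_ne_zero hτ hr₀0,
        by rw [map_mul, mul_inv]; exact mul_mem hb0i hr₀i, ha0, ha0i⟩
      loc1 := hloc1
      Npos := hN
      frames := ⟨x, d, g, x', d', g', hfr0, hfr1⟩ }⟩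

/-- C1 (GAP A for pairs). -/
theorem exists_GP [IsAlgClosed k] [IsDomain R] (p : ℕ) [Fact p.Prime] [CharP k p]
    (hP : IsPM 𝒜 P) (hJ : J.IsHomogeneous 𝒜) (hinv : IsInv 𝒜 J) {t : K} (ht : Transcendental k t)
    [FiniteDimensional (IntermediateField.adjoin k {t}) K]
    [Algebra.IsSeparable (IntermediateField.adjoin k {t}) K] (φ : R →ₐ[k] K) (hφ : Mo.NV 𝒜 φ)
    (η : J →ₗ[k] K) (hη : ∀ (r : R) (x : J), η (r • x) = φ r * η x) (hη0 : ∃ x, η x ≠ 0) :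
    ∃ (N : ℕ) (A₀ A₁ : Subalgebra k K) (u v : K), IsCh t A₀ A₁ ∧
      IsGP 𝒜 P J N A₀ A₁ u v φ η := by
  obtain ⟨N, g, hg, h⟩ := exists_GP' p hP hinv ht φ hφ η hη hη0
  obtain ⟨u, v, hGP⟩ := h g dvd_rfl hg
  exact ⟨N, IC (B0 t g), IC (B1 t g), u, v, ⟨g, hg, rfl, rfl⟩, hGP⟩

end Vale.Agent.P292.Dv
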