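import Vale.Agent.P292.D.T2Defs

/-! # Part III, T2: deformations of homomorphisms graded by a monoid. -/

namespace Vale.Agent.P292.Dv

open TensorProduct MvPolynomial Vale.Agent.P292.Mo

universe u v w

section twist
variable {k : Type*} [Field k] {R : Type*} [CommRing R] [Algebra k R]
  {ι : Type} [AddCommMonoid ι] [DecidableEq ι] (𝒜 : ι → Submodule k R) [GradedAlgebra 𝒜]

theorem linearMap_eq_of_homogG {M : Type*} [AddCommGroup M] [Module k M] (f g : R →ₗ[k] M)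
    (h : ∀ n, ∀ r ∈ 𝒜 n, f r = g r) (r : R) : f r = g r := by
  classical
  rw [← DirectSum.sum_support_decompose 𝒜 r, map_sum, map_sum]
  exact Finset.sum_congr rfl (fun i _ => h i _ (SetLike.coe_mem _))

variable {C : Type*} [CommRing C] [Algebra k C]

/-- `r ↦ c n * ψ r` for `r` of degree `n` -/
noncomputable def twG (c : ι → C) (h0 : c 0 = 1) (hm : ∀ i j, c (i + j) = c i * c j)
    (ψ : R →ₐ[k] C) : R →ₐ[k] C :=
  (DirectSum.toAlgebra k (fun n => 𝒜 n)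
    (fun n => (LinearMap.mulLeft k (c n)) ∘ₗ ψ.toLinearMap ∘ₗ (𝒜 n).subtype)
    (by
      change c 0 * ψ ((1 : 𝒜 0) : R) = 1
      rw [h0, one_mul]
      exact map_one ψ)
    (fun {i j} ai aj => by
      change c (i + j) * ψ ((ai : R) * (aj : R)) = (c i * ψ ai) * (c j * ψ aj)
      rw [map_mul, hm]
      ring)).comp (DirectSum.decomposeAlgEquiv 𝒜).toAlgHom

theorem twG_apply (c : ι → C) (h0 : c 0 = 1) (hm : ∀ i j, c (i + j) = c i * c j)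
    (ψ : R →ₐ[k] C) {n : ι} {r : R} (hr : r ∈ 𝒜 n) :
    twG 𝒜 c h0 hm ψ r = c n * ψ r := by
  classical
  change DirectSum.toModule k ι C
    (fun n => (LinearMap.mulLeft k (c n)) ∘ₗ ψ.toLinearMap ∘ₗ (𝒜 n).subtype)
    (DirectSum.decompose 𝒜 r) = _
  rw [DirectSum.decompose_of_mem 𝒜 hr]
  change DirectSum.toModule k ι C _ (DirectSum.lof k ι (fun n => 𝒜 n) n ⟨r, hr⟩) = _
  rw [DirectSum.toModule_lof]
  rfl

theorem exists_homog_gensG [Algebra.FiniteType k R] :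
    ∃ (M : ℕ) (x : Fin M → R) (d : Fin M → ι), (∀ i, x i ∈ 𝒜 (d i)) ∧
      Function.Surjective (MvPolynomial.aeval (R := k) x) := by
  classical
  obtain ⟨S, hS⟩ := (inferInstance : Algebra.FiniteType k R).out
  let T : Finset R := S.biUnion fun s =>
    (DirectSum.decompose 𝒜 s).support.image fun i => (DirectSum.decompose 𝒜 s i : R)
  have hT : ∀ t ∈ T, ∃ n, t ∈ 𝒜 n := by
    intro t ht
    obtain ⟨s, -, h⟩ := Finset.mem_biUnion.1 ht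
    obtain ⟨i, -, rfl⟩ := Finset.mem_image.1 h
    exact ⟨i, SetLike.coe_mem _⟩
  let x : Fin T.card → R := fun i => (T.equivFin.symm i : R)
  have hx : ∀ i, ∃ n, x i ∈ 𝒜 n := fun i => hT _ (T.equivFin.symm i).2
  choose d hd using hx
  have hrange : Set.range x = (T : Set R) := by
    ext t
    constructor
    · rintro ⟨i, rfl⟩
      exact (T.equivFin.symm i).2
    · intro ht
      refine ⟨T.equivFin ⟨t, ht⟩, ?_⟩
      change ((T.equivFin.symm (T.equivFin ⟨t, ht⟩)) : R) = t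
      rw [Equiv.symm_apply_apply]
  have hadj : Algebra.adjoin k (Set.range x) = ⊤ := by
    rw [hrange, eq_top_iff, ← hS, Algebra.adjoin_le_iff]
    intro s hs
    rw [SetLike.mem_coe, ← DirectSum.sum_support_decompose 𝒜 s]
    refine sum_mem fun i hi => Algebra.subset_adjoin ?_
    exact Finset.mem_biUnion.2 ⟨s, hs, Finset.mem_image.2 ⟨i, hi, rfl⟩⟩
  refine ⟨T.card, x, d, hd, ?_⟩
  rw [← AlgHom.range_eq_top, ← Algebra.adjoin_range_eq_range_aeval, hadj]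

end twist

section lifts
variable {k : Type*} [Field k] {R : Type*} [CommRing R] [Algebra k R]
  {ι : Type} [AddCommMonoid ι] [DecidableEq ι] {𝒜 : ι → Submodule k R}
  [GradedAlgebra 𝒜] {K : Type*} [Field K] [Algebra k K]
  {A₁ : Subalgebra k K} {U : ι → K} {φ : R →ₐ[k] K}
  {O₁ O : Type*} [CommRing O₁] [CommRing O] [Algebra k O₁] [Algebra k O]
  {π : O₁ →ₐ[k] O} {e₁ : O₁ →ₐ[k] k}

omit [DecidableEq ι] in
theorem tmG0 (B : Type*) [CommRing B] [Algebra k B] (hU0 : U 0 = 1) :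
    ((1 : B) ⊗ₜ[k] U 0) = 1 := by
  rw [hU0]
  rfl

omit [DecidableEq ι] in
theorem tmGm (B : Type*) [CommRing B] [Algebra k B] (hUm : ∀ i j, U (i + j) = U i * U j)
    (i j : ι) : ((1 : B) ⊗ₜ[k] U (i + j)) = (1 ⊗ₜ U i) * (1 ⊗ₜ U j) := by
  rw [Algebra.TensorProduct.tmul_mul_tmul, one_mul, hUm]

/-- the lift on the second chart -/
theorem exists_lift1G (hs : IsSmall π e₁) (hU0 : U 0 = 1) (hUm : ∀ i j, U (i + j) = U i * U j)
    (hu : ∀ i, U i ≠ 0) {n : ι} {s : R} (hsA : s ∈ 𝒜 n)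
    (hsm : Algebra.FormallySmooth k (Localization.Away s)) (hs0 : φ s ≠ 0)
    (hs1 : (U n * φ s)⁻¹ ∈ A₁) (e : O →ₐ[k] k) (he : ∀ a, e (π a) = e₁ a)
    (Ψ : R →ₐ[k] O ⊗[k] K) (hΨe : ∀ r, ez K e (Ψ r) = φ r)
    (hΨ : ∀ n, ∀ r ∈ 𝒜 n, (1 ⊗ₜ (U n)) * Ψ r ∈ subB O A₁) :
    ∃ Ψ₁ : R →ₐ[k] O₁ ⊗[k] K, (∀ r, chg K π (Ψ₁ r) = Ψ r) ∧
      (∀ n, ∀ r ∈ 𝒜 n, (1 ⊗ₜ (U n)) * Ψ₁ r ∈ subB O₁ A₁) := by
  set tw1 := twG 𝒜 (fun i => (1 : O) ⊗ₜ[k] U i) (tmG0 O hU0) (tmGm O hUm) Ψ with htw1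
  have hΦa : ∀ n, ∀ r ∈ 𝒜 n, tw1 r = (1 ⊗ₜ (U n)) * Ψ r := fun n r hr => by
    rw [htw1, twG_apply _ _ _ _ _ hr]
  have hΦm : ∀ r, tw1 r ∈ subB O A₁ := by
    classical
    intro r
    rw [← DirectSum.sum_support_decompose 𝒜 r, map_sum]
    refine sum_mem fun i _ => ?_
    rw [hΦa i _ (SetLike.coe_mem _)]
    exact hΨ i _ (SetLike.coe_mem _)
  obtain ⟨g, hg⟩ := exists_factor (S := A₁) tw1 hΦm
  have hunit : IsUnit (g s) := by
    refine isUnit_of_ez (lift1_nil hs e he) ?_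
    have h1 : ((ez A₁ e (g s) : A₁) : K) = U n * φ s := by
      rw [coe_ez, hg, hΦa n s hsA, map_mul, ez_tmul, map_one, one_smul, hΨe]
    refine isUnit_iff_exists_inv.2 ⟨⟨(U n * φ s)⁻¹, hs1⟩, ?_⟩
    apply Subtype.ext
    change ((ez A₁ e (g s) : A₁) : K) * (U n * φ s)⁻¹ = 1
    rw [h1, mul_inv_cancel₀ (mul_ne_zero (hu n) hs0)]
  have hnil : IsNilpotent (RingHom.ker (chg A₁ π)) :=
    ⟨2, by rw [Ideal.zero_eq_bot]; exact hs.ker_sq (K := A₁)⟩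
  obtain ⟨g', hg'⟩ := exists_lift_of_smooth hsm (chg A₁ π) (chg_surjective hs) hnil g hunit
  have hV0 : (U 0)⁻¹ = 1 := by rw [hU0, inv_one]
  have hVm : ∀ i j, (U (i + j))⁻¹ = (U i)⁻¹ * (U j)⁻¹ := fun i j => by rw [hUm, mul_inv]
  set tw2 := twG 𝒜 (fun i => (1 : O₁) ⊗ₜ[k] (U i)⁻¹) (tmG0 (U := fun i => (U i)⁻¹) O₁ hV0)
    (tmGm (U := fun i => (U i)⁻¹) O₁ hVm) ((incB O₁ A₁).comp g') with htw2
  have htw2a : ∀ n, ∀ r ∈ 𝒜 n, tw2 r = (1 ⊗ₜ (U n)⁻¹) * incB O₁ A₁ (g' r) := fun n r hr => by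
    rw [htw2, twG_apply _ _ _ _ _ hr]
    rfl
  refine ⟨tw2, fun r => ?_, fun m r hr => ?_⟩
  · refine linearMap_eq_of_homogG 𝒜 ((chg K π).comp tw2).toLinearMap Ψ.toLinearMap ?_ r
    intro m r hr
    change chg K π (tw2 r) = Ψ r
    rw [htw2a m r hr, map_mul, chg_tmul, map_one, ← incB_chg,
      hg', hg, hΦa m r hr, ← mul_assoc, Algebra.TensorProduct.tmul_mul_tmul, mul_one,
      inv_mul_cancel₀ (hu m), ← Algebra.TensorProduct.one_def, one_mul]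
  · rw [htw2a m r hr, ← mul_assoc, Algebra.TensorProduct.tmul_mul_tmul, mul_one,
      mul_inv_cancel₀ (hu m), ← Algebra.TensorProduct.one_def, one_mul]
    exact mem_subB_iff.2 ⟨g' r, rfl⟩

end lifts

section key
variable {k : Type*} [Field k] {R : Type*} [CommRing R] [Algebra k R] {ι : Type}
  {𝒜 : ι → Submodule k R}
  {K : Type*} [Field K] [Algebra k K] {M : ℕ} {x : Fin M → R} {d : Fin M → ι}
  {A₀ A₁ : Subalgebra k K} {U : ι → K} {I : Submodule k K} {φ : R →ₐ[k] K}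
  {O₁ O : Type*} [CommRing O₁] [CommRing O] [Algebra k O₁] [Algebra k O]
  {π : O₁ →ₐ[k] O} {e₁ : O₁ →ₐ[k] k}

theorem key_claimG [∀ i, Module.Finite k ↥(I ⊓ SecG A₀ A₁ (U (d i)))]
    (hs : IsSmall π e₁) (hx : ∀ i, x i ∈ 𝒜 (d i)) (hu : ∀ i, U i ≠ 0) (hI : ∀ a ∈ I, a ∈ A₀)
    (hφ : ∀ n, ∀ r ∈ 𝒜 n, φ r ∈ SecG A₀ A₁ (U n))
    (q1 : MvPolynomial (Idx fun i => I ⊓ SecG A₀ A₁ (U (d i))) k →ₐ[k] O₁)
    (hq1 : ∀ s, e₁ (q1 (X s)) = 0)
    (hqJ : ∀ f ∈ eqs x (fun i => I ⊓ SecG A₀ A₁ (U (d i))) φ, π (q1 f) = 0)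
    {Ψ : R →ₐ[k] O ⊗[k] K}
    (hΨ : ∀ i, Ψ (x i) = chg K π (chg K q1 (pre x (fun i => I ⊓ SecG A₀ A₁ (U (d i))) φ (X i))))
    {Ψ₀ Ψ₁ : R →ₐ[k] O₁ ⊗[k] K}
    (h0 : ∀ r, chg K π (Ψ₀ r) = Ψ r) (h1 : ∀ r, chg K π (Ψ₁ r) = Ψ r)
    (he0 : ∀ r, ez K e₁ (Ψ₀ r) = φ r)
    (h0I : ∀ r, Ψ₀ r - 1 ⊗ₜ φ r ∈ InB O₁ I)
    (h1A : ∀ n, ∀ r ∈ 𝒜 n, (1 ⊗ₜ (U n)) * Ψ₁ r ∈ subB O₁ A₁)
    (l : Module.Dual k O₁) (hl : obs Ψ₀ Ψ₁ l ∈ Der0 φ I ⊔ Der1G 𝒜 φ A₁ U) :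
    ∃ c : (Idx fun i => I ⊓ SecG A₀ A₁ (U (d i))) → k,
      ∀ f ∈ eqs x (fun i => I ⊓ SecG A₀ A₁ (U (d i))) φ,
        l (q1 f) = - ∑ s, c s * coeff (Finsupp.single s 1) f := by
  by_cases hW : ∃ w, π w = 0 ∧ l w ≠ 0
  swap
  · push Not at hW
    exact ⟨0, fun f hf => by rw [hW _ (hqJ f hf)]; simp⟩
  obtain ⟨w, hw, hlw⟩ := hW
  set w0 := (l w)⁻¹ • w with hw0d
  have hw0 : π w0 = 0 := by rw [hw0d, map_smul, hw, smul_zero]
  have hlw0 : l w0 = 1 := by rw [hw0d, map_smul, smul_eq_mul, inv_mul_cancel₀ hlw]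
  obtain ⟨L, hL, hε0⟩ := exists_quot hs l hw0 hlw0
  obtain ⟨δ0, hδ0, δ1, hδ1, hδ⟩ := Submodule.mem_sup.1 hl
  rw [mem_Der0, mem_DerS] at hδ0
  rw [mem_Der1G, mem_DerS] at hδ1
  set ε : O₁ ⧸ L := Ideal.Quotient.mk L w0 with hεd
  set ql := Ideal.Quotient.mkₐ k L with hql
  have hεε : ε * ε = 0 := by
    have h3 : w0 * w0 = 0 := by rw [hs.small w0 hw0, hs.le w0 hw0, zero_smul]
    rw [hεd, ← map_mul, h3, map_zero]
  have hεa : ∀ a, ε * ql a = e₁ a • ε := by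
    intro a
    have h3 : w0 * a = e₁ a • w0 := by rw [mul_comm, hs.small w0 hw0]
    change Ideal.Quotient.mk L w0 * Ideal.Quotient.mk L a = e₁ a • Ideal.Quotient.mk L w0
    rw [← map_mul, h3]
    rfl
  -- the homomorphism
  have hmul : ∀ r s, chg K ql (Ψ₀ (r * s)) + ε ⊗ₜ[k] δ0 (r * s) =
      (chg K ql (Ψ₀ r) + ε ⊗ₜ[k] δ0 r) * (chg K ql (Ψ₀ s) + ε ⊗ₜ[k] δ0 s) := by
    intro r s
    have h3 := mk_eps_mul hs hw0 L (δ0 s) (Ψ₀ r)
    have h4 := mk_eps_mul hs hw0 L (δ0 r) (Ψ₀ s)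
    have h5 : (ε ⊗ₜ[k] δ0 r) * (ε ⊗ₜ[k] δ0 s) = 0 := by
      rw [Algebra.TensorProduct.tmul_mul_tmul, hεε, TensorProduct.zero_tmul]
    rw [he0] at h3 h4
    rw [add_mul, mul_add, mul_add, h5, add_zero, h3, mul_comm (ε ⊗ₜ[k] δ0 r), h4, hδ0.1,
      map_mul, map_mul, TensorProduct.tmul_add]
    ring
  have hδ0one : δ0 1 = 0 := by
    have h3 := hδ0.1 1 1
    rw [mul_one, map_one φ, one_mul] at h3
    exact left_eq_add.1 h3
  let Φ : R →ₐ[k] (O₁ ⧸ L) ⊗[k] K := AlgHom.ofLinearMap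
    ((chg K ql).toLinearMap ∘ₗ Ψ₀.toLinearMap + (TensorProduct.mk k (O₁ ⧸ L) K ε) ∘ₗ δ0)
    (by
      change chg K ql (Ψ₀ 1) + ε ⊗ₜ[k] δ0 1 = 1
      rw [hδ0one, TensorProduct.tmul_zero, map_one, map_one, add_zero])
    (fun r s => hmul r s)
  have hΦ : ∀ r, Φ r = chg K ql (Ψ₀ r) + ε ⊗ₜ[k] δ0 r := fun r => rfl
  have hΦ1 : ∀ r, Φ r = chg K ql (Ψ₁ r) - ε ⊗ₜ[k] δ1 r := by
    intro r
    have h3 := chg_mk_ker (K := K) hL (chg_dd h0 h1 r)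
    have h4 : mu K l (dd Ψ₀ Ψ₁ r) = δ0 r + δ1 r := by
      have h5 := LinearMap.congr_fun hδ r
      rw [LinearMap.add_apply] at h5
      rw [h5]
      rfl
    rw [h4, dd_apply, map_sub, TensorProduct.tmul_add] at h3
    rw [hΦ, eq_sub_iff_add_eq, add_assoc]
    change _ + (ε ⊗ₜ[k] δ0 r + ε ⊗ₜ[k] δ1 r) = _
    rw [← h3]
    exact add_sub_cancel _ _
  -- admissible
  have hadm : ∀ i, Φ (x i) - 1 ⊗ₜ φ (x i) ∈ InB (O₁ ⧸ L) (I ⊓ SecG A₀ A₁ (U (d i))) := by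
    intro i
    have hA : Φ (x i) - 1 ⊗ₜ φ (x i) ∈ InB (O₁ ⧸ L) I := by
      have h3 := chg_mem_InB ql (h0I (x i))
      rw [map_sub, chg_tmul, map_one] at h3
      rw [hΦ, add_sub_right_comm]
      exact add_mem h3 (tmul_mem_InB _ _ (hδ0.2 _))
    have hB : Φ (x i) - 1 ⊗ₜ φ (x i) ∈ InB (O₁ ⧸ L)
        ((Subalgebra.toSubmodule A₁).comap (LinearMap.mulLeft k (U (d i)))) := by
      rw [mem_InB_comap (hu _), mul_sub, Algebra.TensorProduct.tmul_mul_tmul, hΦ1,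
        mul_sub, Algebra.TensorProduct.tmul_mul_tmul, one_mul, one_mul]
      have h3 : (1 ⊗ₜ (U (d i))) * chg K ql (Ψ₁ (x i)) = chg K ql ((1 ⊗ₜ (U (d i))) * Ψ₁ (x i)) := by
        rw [map_mul, chg_tmul, map_one]
      rw [h3]
      refine sub_mem (sub_mem ?_ ?_) ?_
      · exact mem_subB.2 (chg_mem_InB ql (mem_subB.1 (h1A _ _ (hx i))))
      · exact mem_subB.2 (tmul_mem_InB _ _ (hδ1.2 _ _ (hx i)))
      · exact mem_subB.2 (tmul_mem_InB _ _ (mem_SecG.1 (hφ _ _ (hx i))).2)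
    refine mem_InB_inf _ hA (mem_InB_inf _ ?_ hB)
    exact InB_mono _ (fun a ha => hI a ha) hA
  obtain ⟨τ, hτJ, hτ⟩ := exists_point_of_hom x (fun i => I ⊓ SecG A₀ A₁ (U (d i))) φ Φ hadm
  -- comparison
  have hcomp : ∀ i, ∃ γ : K, ∑ j, (τ (X ⟨i, j⟩) - ql (q1 (X ⟨i, j⟩))) ⊗ₜ[k]
      (Module.finBasis k ↥(I ⊓ SecG A₀ A₁ (U (d i))) j : K) = ε ⊗ₜ[k] γ := by
    intro i
    have h3 : chg K π (Ψ₀ (x i) -
        chg K q1 (pre x (fun i => I ⊓ SecG A₀ A₁ (U (d i))) φ (X i))) = 0 := by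
      rw [map_sub, h0, hΨ, sub_self]
    have h4 := chg_mk_ker (K := K) hL h3
    refine ⟨mu K l (Ψ₀ (x i) -
        chg K q1 (pre x (fun i => I ⊓ SecG A₀ A₁ (U (d i))) φ (X i))) + δ0 (x i), ?_⟩
    rw [TensorProduct.tmul_add]
    change _ = Ideal.Quotient.mk L w0 ⊗ₜ[k] _ + ε ⊗ₜ[k] δ0 (x i)
    rw [← h4, map_sub, sub_add_eq_add_sub]
    change _ = (chg K ql (Ψ₀ (x i)) + ε ⊗ₜ[k] δ0 (x i)) - _
    rw [← hΦ, hτ, chg_comp, chg_pre_X, add_sub_add_left_eq_sub, ← Finset.sum_sub_distrib]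
    refine Finset.sum_congr rfl fun j _ => ?_
    rw [TensorProduct.sub_tmul]
    rfl
  choose γ hγ using hcomp
  choose c hc using fun i => coord_eps (Module.finBasis k ↥(I ⊓ SecG A₀ A₁ (U (d i)))) (hγ i)
  refine ⟨fun s => c s.1 s.2, fun f hf => ?_⟩
  have h5 := taylor τ (ql.comp q1) ε (fun s => c s.1 s.2) (fun s => by
    rw [AlgHom.comp_apply, hεa, hq1, zero_smul]) hεε (fun s => by
      have h6 := hc s.1 s.2
      rw [sub_eq_iff_eq_add'] at h6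
      exact h6) f
  have h6 : τ f = 0 := hτJ hf
  have h7 : (ql.comp q1) f = l (q1 f) • ε := hL _ (hqJ f hf)
  rw [h6, h7, ← add_smul] at h5
  have h8 := (smul_eq_zero.1 h5.symm).resolve_right hε0
  exact eq_neg_of_add_eq_zero_left h8

end key

section main

variable {k : Type*} [Field k] {R : Type*} [CommRing R] [Algebra k R]
  {ι : Type} {𝒜 : ι → Submodule k R} {K : Type*} [Field K] [Algebra k K]

theorem defsd_derG {A₁ : Subalgebra k K} {U : ι → K} {I : Submodule k K} {φ : R →ₐ[k] K}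
    {δ : R →ₗ[k] K} (hδ : δ ∈ T0G 𝒜 φ I A₁ U) : ∀ r s, δ (r * s) = φ r * δ s + φ s * δ r :=
  hδ.1.1

theorem defsd_memG {A₀ A₁ : Subalgebra k K} {U : ι → K} {I : Submodule k K}
    (hI : ∀ a ∈ I, a ∈ A₀) {φ : R →ₐ[k] K} {δ : R →ₗ[k] K} (hδ : δ ∈ T0G 𝒜 φ I A₁ U) {n : ι}
    {r : R} (hr : r ∈ 𝒜 n) : δ r ∈ I ⊓ SecG A₀ A₁ (U n) :=
  ⟨hδ.1.2 r, mem_SecG.2 ⟨hI _ (hδ.1.2 r), hδ.2.2 n r hr⟩⟩

/-- The coordinates of a tangent vector. -/
noncomputable def defsdMapG {M : ℕ} {x : Fin M → R} {d : Fin M → ι} (hx : ∀ i, x i ∈ 𝒜 (d i))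
    {A₀ A₁ : Subalgebra k K} {U : ι → K} {I : Submodule k K} (hI : ∀ a ∈ I, a ∈ A₀)
    {φ : R →ₐ[k] K} [∀ i, Module.Finite k ↥(I ⊓ SecG A₀ A₁ (U (d i)))] :
    ↥(T0G 𝒜 φ I A₁ U) →ₗ[k] (Idx (fun i => I ⊓ SecG A₀ A₁ (U (d i))) → k) where
  toFun δ s := (Module.finBasis k ↥(I ⊓ SecG A₀ A₁ (U (d s.1)))).repr
    ⟨δ.1 (x s.1), defsd_memG hI δ.2 (hx s.1)⟩ s.2
  map_add' a b := by
    funext s
    rw [Pi.add_apply, ← Finsupp.add_apply, ← map_add]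
    rfl
  map_smul' a b := by
    funext s
    rw [Pi.smul_apply, RingHom.id_apply, ← Finsupp.smul_apply, ← map_smul]
    rfl

/-- (D) -/
theorem finrank_T0G_le {M : ℕ} (x : Fin M → R) (d : Fin M → ι) (hx : ∀ i, x i ∈ 𝒜 (d i))
    (hgen : Function.Surjective (MvPolynomial.aeval (R := k) x))
    (A₀ A₁ : Subalgebra k K) (U : ι → K) (I : Submodule k K) (hI : ∀ a ∈ I, a ∈ A₀) (φ : R →ₐ[k] K)
    [∀ i, Module.Finite k ↥(I ⊓ SecG A₀ A₁ (U (d i)))] :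
    Module.finrank k (T0G 𝒜 φ I A₁ U) ≤
      Module.finrank k (tanJ (eqs x (fun i => I ⊓ SecG A₀ A₁ (U (d i))) φ)) := by
  set V : Fin M → Submodule k K := fun i => I ⊓ SecG A₀ A₁ (U (d i)) with hV
  let Θ := defsdMapG (𝒜 := 𝒜) (φ := φ) hx hI (x := x) (U := U) (A₁ := A₁)
  have hsum : ∀ (δ : ↥(T0G 𝒜 φ I A₁ U)) (i : Fin M), δ.1 (x i) =
      ∑ j, Θ δ ⟨i, j⟩ • (Module.finBasis k (V i) j : K) := by
    intro δ i
    have h1 := (Module.finBasis k (V i)).sum_repr ⟨δ.1 (x i), defsd_memG hI δ.2 (hx i)⟩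
    have h2 := congrArg Subtype.val h1
    rw [AddSubmonoidClass.coe_finsetSum] at h2
    exact h2.symm
  have hinj : Function.Injective Θ := by
    intro a b hab
    have h1 : (a - b).1 = 0 := defsd_ext hgen (defsd_derG (a - b).2) fun i => by
      change a.1 (x i) - b.1 (x i) = 0
      rw [hsum a i, hsum b i, hab, sub_self]
    exact sub_eq_zero.1 (Subtype.ext h1)
  have hmem : ∀ δ : ↥(T0G 𝒜 φ I A₁ U), Θ δ ∈ tanJ (eqs x V φ) := by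
    intro δ
    obtain ⟨τ, hτ1, hτ2⟩ := exists_point_of_hom x V φ (B := DualNumber k)
      (dualHom φ δ.1 (defsd_derG δ.2)) (fun i => by
        rw [dualHom_apply, add_sub_cancel_left]
        exact tmul_mem_InB _ _ (defsd_memG hI δ.2 (hx i)))
    have hτ3 : ∀ s : Idx V, τ (MvPolynomial.X s) = Θ δ s • (DualNumber.eps : DualNumber k) := by
      rintro ⟨i, j⟩
      have h1 := hτ2 i
      rw [dualHom_apply, add_right_inj, hsum δ i, tmul_sum] at h1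
      have h2 := coord_unique (B := DualNumber k) (Module.finBasis k (V i))
        (t := fun j => Θ δ ⟨i, j⟩ • (DualNumber.eps : DualNumber k))
        (t' := fun j => τ (MvPolynomial.X ⟨i, j⟩)) (by
          rw [← h1]
          refine Finset.sum_congr rfl fun j _ => ?_
          rw [smul_tmul])
      exact (congrFun h2 j).symm
    intro f hf
    have h3 := taylor τ (MvPolynomial.aeval fun _ => 0) (DualNumber.eps : DualNumber k) (Θ δ)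
      (fun s => by rw [MvPolynomial.aeval_X, mul_zero]) DualNumber.eps_mul_eps
      (fun s => by rw [MvPolynomial.aeval_X, zero_add, hτ3]) f
    have h4 : τ f = 0 := hτ1 hf
    rw [h4, MvPolynomial.aeval_zero'] at h3
    have h5 := congrArg TrivSqZeroExt.snd h3
    simp [TrivSqZeroExt.algebraMap_eq_inl] at h5
    exact h5.symm
  exact LinearMap.finrank_le_finrank_of_injective (f := Θ.codRestrict _ hmem)
    (fun a b h => hinj (congrArg Subtype.val h))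

end main

section admissible
variable {k : Type*} [Field k] {R : Type*} [CommRing R] [Algebra k R]
  {ι : Type} [AddCommMonoid ι] [DecidableEq ι] {𝒜 : ι → Submodule k R}
  [GradedAlgebra 𝒜] {K : Type*} [Field K] [Algebra k K] {M : ℕ} {x : Fin M → R} {d : Fin M → ι}
  {A₀ A₁ : Subalgebra k K} {U : ι → K} {I : Submodule k K} {φ : R →ₐ[k] K}
  {B : Type*} [CommRing B] [Algebra k B]

/-- the conditions on the generators imply the conditions everywhere -/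
theorem admissibleG (hU0 : U 0 = 1) (hUm : ∀ i j, U (i + j) = U i * U j)
    (hx : ∀ i, x i ∈ 𝒜 (d i))
    (hgen : Function.Surjective (MvPolynomial.aeval (R := k) x)) (hu : ∀ i, U i ≠ 0)
    (hI : ∀ a ∈ I, a ∈ A₀) (hIm : ∀ a ∈ A₀, ∀ b ∈ I, a * b ∈ I)
    (hφ : ∀ n, ∀ r ∈ 𝒜 n, φ r ∈ SecG A₀ A₁ (U n)) (hφ0 : ∀ r, φ r ∈ A₀)
    (ψ : R →ₐ[k] B ⊗[k] K)
    (h : ∀ i, ψ (x i) - 1 ⊗ₜ φ (x i) ∈ InB B (I ⊓ SecG A₀ A₁ (U (d i)))) :
    (∀ r, ψ r - 1 ⊗ₜ φ r ∈ InB B I) ∧ (∀ n, ∀ r ∈ 𝒜 n, (1 ⊗ₜ (U n)) * ψ r ∈ subB B A₁) ∧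
      (∀ n, ∀ r ∈ 𝒜 n, ψ r ∈ InB B (SecG A₀ A₁ (U n))) := by
  have hA : ∀ r, ψ r - 1 ⊗ₜ φ r ∈ InB B I := by
    intro r
    obtain ⟨f, rfl⟩ := hgen r
    exact sub_mem_of_X (x := x) hI hIm φ hφ0 (ψ.comp (aeval x)) (fun i => by
      rw [AlgHom.comp_apply, aeval_X]
      exact InB_mono B inf_le_left (h i)) f
  have hB : ∀ n, ∀ r ∈ 𝒜 n, (1 ⊗ₜ (U n)) * ψ r ∈ subB B A₁ := by
    intro n r hr
    set tw1 := twG 𝒜 (fun i => (1 : B) ⊗ₜ[k] U i) (tmG0 B hU0) (tmGm B hUm) ψ with htw1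
    have htw : ∀ n, ∀ r ∈ 𝒜 n, tw1 r = (1 ⊗ₜ (U n)) * ψ r := fun n r hr => by
      rw [htw1, twG_apply _ _ _ _ _ hr]
    have h1 : ∀ r, tw1 r ∈ subB B A₁ := by
      intro r
      obtain ⟨f, rfl⟩ := hgen r
      refine mem_of_X (tw1.comp (aeval x)) (subB B A₁) (fun i => ?_) f
      rw [AlgHom.comp_apply, aeval_X, htw _ _ (hx i)]
      have h2 : ψ (x i) = (ψ (x i) - 1 ⊗ₜ φ (x i)) + 1 ⊗ₜ φ (x i) := by rw [sub_add_cancel]
      rw [h2, ← mem_InB_comap (hu _)]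
      refine add_mem (InB_mono B (inf_le_right.trans inf_le_right) (h i)) ?_
      exact tmul_mem_InB B _ ((hφ _ _ (hx i)).2)
    rw [← htw n r hr]
    exact h1 r
  refine ⟨hA, hB, fun n r hr => ?_⟩
  refine mem_InB_inf _ ?_ ((mem_InB_comap (hu _)).2 (hB n r hr))
  have h2 : ψ r = (ψ r - 1 ⊗ₜ φ r) + 1 ⊗ₜ φ r := by rw [sub_add_cancel]
  rw [h2]
  exact add_mem (InB_mono B (fun a ha => hI a ha) (hA r)) (tmul_mem_InB B _ (hφ0 _))

end admissible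

/-- the obstruction map -/
theorem exists_obsG {k : Type*} [Field k] {R : Type*} [CommRing R] [Algebra k R]
    {ι : Type} {𝒜 : ι → Submodule k R} {K : Type*} [Field K] [Algebra k K]
    {A₁ : Subalgebra k K} {U : ι → K} {I : Submodule k K} {φ : R →ₐ[k] K}
    {O₁ O : Type*} [CommRing O₁] [CommRing O] [Algebra k O₁] [Algebra k O]
    {π : O₁ →ₐ[k] O} {e₁ : O₁ →ₐ[k] k}
    (hs : IsSmall π e₁) {Ψ : R →ₐ[k] O ⊗[k] K} {Ψ₀ Ψ₁ : R →ₐ[k] O₁ ⊗[k] K}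
    (h0 : ∀ r, chg K π (Ψ₀ r) = Ψ r) (h1 : ∀ r, chg K π (Ψ₁ r) = Ψ r)
    (he0 : ∀ r, ez K e₁ (Ψ₀ r) = φ r) (he1 : ∀ r, ez K e₁ (Ψ₁ r) = φ r) :
    ∃ ob : Module.Dual k O₁ →ₗ[k] ↥(ObG 𝒜 φ I A₁ U),
      ∀ l, ob l = 0 → obs Ψ₀ Ψ₁ l ∈ Der0 φ I ⊔ Der1G 𝒜 φ A₁ U := by
  refine ⟨LinearMap.codRestrict (ObG 𝒜 φ I A₁ U)
    ((Der0 φ I ⊔ Der1G 𝒜 φ A₁ U).mkQ ∘ₗ obs Ψ₀ Ψ₁)
    (fun l => Submodule.mem_map_of_mem (obs_mem hs h0 h1 he0 he1 l)), fun l hl => ?_⟩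
  have h2 := congrArg Subtype.val hl
  exact (Submodule.Quotient.mk_eq_zero _).1 h2

/-- **The deformation lemma**, for a homomorphism graded by a monoid. -/
theorem exists_family_gr {k : Type u} [Field k] {R : Type v} [CommRing R] [Algebra k R]
    {ι : Type} [AddCommMonoid ι] [DecidableEq ι] (𝒜 : ι → Submodule k R)
    [GradedAlgebra 𝒜] [Algebra.FiniteType k R] {K : Type w} [Field K] [Algebra k K]
    {A₀ A₁ : Subalgebra k K} {U : ι → K} (hu : ∀ n, U n ≠ 0) (hU0 : U 0 = 1)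
    (hUm : ∀ a b, U (a + b) = U a * U b) {φ : R →ₐ[k] K}
    (hφ : ∀ n, ∀ r ∈ 𝒜 n, φ r ∈ SecG A₀ A₁ (U n))
    (unit0 : ∃ n, ∃ s ∈ 𝒜 n, Algebra.FormallySmooth k (Localization.Away s) ∧ φ s ≠ 0 ∧
      (φ s)⁻¹ ∈ A₀)
    (unit1 : ∃ n, ∃ s ∈ 𝒜 n, Algebra.FormallySmooth k (Localization.Away s) ∧ φ s ≠ 0 ∧
      (U n * φ s)⁻¹ ∈ A₁)
    (I : Submodule k K) (hI : ∀ a ∈ I, a ∈ A₀) (hIm : ∀ a ∈ A₀, ∀ b ∈ I, a * b ∈ I)
    (hfin : ∀ n, Module.Finite k (SecG A₀ A₁ (U n)))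
    (hOb : Module.Finite k (ObG 𝒜 φ I A₁ U))
    (hlt : Module.finrank k (ObG 𝒜 φ I A₁ U) < Module.finrank k (T0G 𝒜 φ I A₁ U)) :
    FamOutG 𝒜 A₀ A₁ U φ I := by
  classical
  obtain ⟨M, x, d, hx, hgen⟩ := exists_homog_gensG (k := k) 𝒜
  have hVfin : ∀ i, Module.Finite k ↥(I ⊓ SecG A₀ A₁ (U (d i))) := fun i => by
    have := hfin (d i)
    exact Submodule.finiteDimensional_of_le (inf_le_right : I ⊓ SecG A₀ A₁ (U (d i)) ≤ _)
  set V : Fin M → Submodule k K := fun i => I ⊓ SecG A₀ A₁ (U (d i)) with hV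
  have hVfin' : ∀ i, Module.Finite k (V i) := hVfin
  have hφ0 : ∀ r, φ r ∈ A₀ := by
    intro r
    rw [← DirectSum.sum_support_decompose 𝒜 r, map_sum]
    exact sum_mem fun i _ => (mem_SecG.1 (hφ i _ (SetLike.coe_mem _))).1
  let P := MvPolynomial (Idx V) k
  let τ₀ : P →ₐ[k] k := aeval (fun _ => (0 : k))
  have hτ₀X : ∀ s, τ₀ (X s) = 0 := fun s => aeval_X _ _
  have hτ₀ : ∀ f, τ₀ f = constantCoeff f := fun f => by
    have h1 : (τ₀ : P →+* k) = constantCoeff := by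
      refine MvPolynomial.ringHom_ext (fun a => ?_) (fun s => ?_)
      · rw [constantCoeff_C]
        exact MvPolynomial.aeval_C _ a
      · rw [constantCoeff_X]
        exact MvPolynomial.aeval_X _ s
    exact DFunLike.congr_fun h1 f
  set J : Ideal P := eqs x V φ with hJd
  have hJτ : J ≤ RingHom.ker τ₀ := by
    rw [hJd, eqs_le_iff]
    intro f hf
    rw [chg_pre_zero x V φ τ₀ hτ₀X, hf, map_zero, TensorProduct.tmul_zero]
  have hJ : J ≤ m0 k (Idx V) := by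
    intro f hf
    have h1 : τ₀ f = 0 := hJτ hf
    rw [hτ₀] at h1
    exact h1
  let qJ : P →ₐ[k] P ⧸ J := Ideal.Quotient.mkₐ k J
  have hqJ : J ≤ RingHom.ker qJ := fun f hf => Ideal.Quotient.eq_zero_iff_mem.2 hf
  obtain ⟨Ψ, hΨ⟩ := exists_hom_of_point x hgen V φ qJ hqJ
  let e : (P ⧸ J) →ₐ[k] k := Ideal.Quotient.liftₐ J τ₀ (fun f hf => hJτ hf)
  have he : ∀ f, e (Ideal.Quotient.mk J f) = constantCoeff f := fun f => hτ₀ f
  have hΨX : ∀ i, Ψ (x i) = chg K qJ (pre x V φ (X i)) := fun i => by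
    rw [← hΨ, aeval_X]
  obtain ⟨a1, a2, a3⟩ := admissibleG hU0 hUm (B := P ⧸ J) hx hgen hu hI hIm hφ hφ0 Ψ (fun i => by
    rw [hΨX]
    exact chg_pre_sub_mem x V φ qJ i)
  refine ⟨P ⧸ J, inferInstance, inferInstance, inferInstance, e, Ψ, ?_, a3, a1, ?_, ?_⟩
  · intro m _ hm hArt
    obtain ⟨N, hN, hart⟩ := exists_pow_le J hJ e he m hm hArt
    obtain ⟨L, hJL, hLm, e₁, he₁, hs, hdim⟩ := exists_small_obs J hJ hN hart
    set π := Ideal.Quotient.factorₐ k (Ideal.mul_le_right : m0 k (Idx V) * L ≤ L) with hπ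
    let q1 : P →ₐ[k] P ⧸ (m0 k (Idx V) * L) := Ideal.Quotient.mkₐ k _
    have hq1 : ∀ s, e₁ (q1 (X s)) = 0 := fun s => by
      have h1 := he₁ (X s)
      rw [constantCoeff_X] at h1
      exact h1
    have hπq : ∀ f, π (q1 f) = Ideal.Quotient.mk L f := fun f => rfl
    have hπJ : ∀ f ∈ J, π (q1 f) = 0 := fun f hf => Ideal.Quotient.eq_zero_iff_mem.2 (hJL hf)
    obtain ⟨ΨO, hΨO⟩ := exists_hom_of_point x hgen V φ (π.comp q1) (fun f hf => hπJ f hf)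
    let eO : (P ⧸ L) →ₐ[k] k := Ideal.Quotient.liftₐ L τ₀ (fun f hf => by
      change τ₀ f = 0
      rw [hτ₀]
      exact hLm hf)
    have heO : ∀ a, eO (π a) = e₁ a := by
      intro a
      obtain ⟨f, rfl⟩ := Ideal.Quotient.mk_surjective a
      rw [he₁, ← hτ₀]
      rfl
    have heOe : eO.comp π = e₁ := AlgHom.ext heO
    have hΨOX : ∀ i, ΨO (x i) = chg K (π.comp q1) (pre x V φ (X i)) := fun i => by
      rw [← hΨO, aeval_X]
    obtain ⟨b1, b2, b3⟩ := admissibleG hU0 hUm (B := P ⧸ L) hx hgen hu hI hIm hφ hφ0 ΨO (fun i => by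
      rw [hΨOX]
      exact chg_pre_sub_mem x V φ (π.comp q1) i)
    have hΨOe : ∀ r, ez K eO (ΨO r) = φ r := by
      intro r
      obtain ⟨f, rfl⟩ := hgen r
      rw [hΨO]
      refine ez_pre x V φ (π.comp q1) eO (fun s => ?_) f
      rw [AlgHom.comp_apply, heO, hq1]
    -- the two lifts
    obtain ⟨n0, s0, hs0A, hsm0, hs0, hs0i⟩ := unit0
    obtain ⟨n1, s1, hs1A, hsm1, hs1, hs1i⟩ := unit1
    obtain ⟨Ψ₀, c1, c2, c3⟩ := exists_lift0 (A₀ := A₀) (I := I) (φ := φ) hs hgen hI hIm hφ0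
      hsm0 hs0 hs0i ΨO ((chg K q1).comp (pre x V φ))
      (fun i => by
        rw [AlgHom.comp_apply]
        exact InB_mono _ inf_le_left (chg_pre_sub_mem x V φ q1 i))
      (fun i => by
        rw [AlgHom.comp_apply, ez_pre x V φ q1 e₁ hq1, aeval_X])
      (fun f => by
        rw [AlgHom.comp_apply, chg_comp, hΨO])
    obtain ⟨Ψ₁, d1, d2⟩ := exists_lift1G (φ := φ) hs hU0 hUm hu hs1A hsm1 hs1 hs1i eO heO ΨO
      hΨOe b2
    have he0 : ∀ r, ez K e₁ (Ψ₀ r) = φ r := fun r => by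
      rw [← heOe, ← ez_chg, c2, hΨOe]
    have he1 : ∀ r, ez K e₁ (Ψ₁ r) = φ r := fun r => by
      rw [← heOe, ← ez_chg, d1, hΨOe]
    obtain ⟨ob, hob⟩ := exists_obsG (𝒜 := 𝒜) (A₁ := A₁) (U := U) (I := I) hs c2 d1 he0 he1
    have h3 := hdim ob (fun l hl => key_claimG hs hx hu hI hφ q1 hq1 hπJ
      (fun i => by
        rw [hΨOX, chg_comp]) c2 d1 he0 c3 d2 l (hob l hl))
    have h4 := finrank_T0G_le (𝒜 := 𝒜) x d hx hgen A₀ A₁ U I hI φ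
    exact absurd (h4.trans h3) (not_le.2 hlt)
  · intro r l
    rw [lamB_ez]
    obtain ⟨f, rfl⟩ := hgen r
    rw [hΨ]
    congr 1
    exact ez_pre x V φ qJ e (fun s => by
      have h1 := he (X s)
      rw [constantCoeff_X] at h1
      exact h1) f
  · set S := Algebra.adjoin k {a : P ⧸ J | ∃ r, ∃ l : K →ₗ[k] k, lamB (P ⧸ J) l (Ψ r) = a} with hS
    rw [eq_top_iff]
    rintro a -
    obtain ⟨f, rfl⟩ := Ideal.Quotient.mk_surjective a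
    change qJ f ∈ S
    induction f using MvPolynomial.induction_on with
    | C a =>
      rw [← MvPolynomial.algebraMap_eq, AlgHom.commutes]
      exact S.algebraMap_mem a
    | add p q hp hq => rw [map_add]; exact add_mem hp hq
    | mul_X p s hp =>
      rw [map_mul]
      refine mul_mem hp ?_
      obtain ⟨i, j⟩ := s
      obtain ⟨l, hl⟩ := exists_dual (Module.finBasis k (V i)) j
      have h1 : lamB (P ⧸ J) l (Ψ (x i)) = l (φ (x i)) • 1 + qJ (X ⟨i, j⟩) := by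
        rw [hΨX, chg_pre_X, map_add, map_sum, lamB_tmul]
        congr 1
        simp [hl]
      have h2 : qJ (X ⟨i, j⟩) = lamB (P ⧸ J) l (Ψ (x i)) - l (φ (x i)) • 1 := by
        rw [h1, add_sub_cancel_left]
      rw [h2]
      exact sub_mem (Algebra.subset_adjoin ⟨x i, l, rfl⟩) (S.smul_mem S.one_mem _)

end Vale.Agent.P292.Dv
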