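import Vale.Agent.P292.D.IdxLimP

/-! # C5: the degrees of the central fibre. -/

namespace Vale.Agent.P292.Dv

open Vale.Agent.P292.Mo

universe u v w

variable {k : Type u} [Field k] {R : Type v} [CommRing R] [Algebra k R]
  {𝒜 : ℕ → Submodule k R} [GradedAlgebra 𝒜] {P : R →ₗ[k] R →ₗ[k] R} {J : Ideal R}
  {K : Type w} [Field K] [Algebra k K]

namespace IdxLimP

theorem not_dvd {f : PowerSeries k} {n : ℕ} (h : PowerSeries.coeff n f ≠ 0) :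
    ¬ PowerSeries.X ^ (n + 1) ∣ f := by
  intro h1
  rw [PowerSeries.X_pow_dvd_iff] at h1
  exact h (h1 n (Nat.lt_succ_self n))

omit [GradedAlgebra 𝒜] in
/-- Claim 2. -/
theorem claim2 [IsAlgClosed k] {t : K} (ht : Transcendental k t)
    [FiniteDimensional (IntermediateField.adjoin k {t}) K]
    [Algebra.IsSeparable (IntermediateField.adjoin k {t}) K] {g g' : Polynomial k} (hg : g ≠ 0)
    (hg' : g' ≠ 0) {u v u' v' : K} (hv : v ≠ 0) {φ' : R →ₐ[k] K} {η' : J →ₗ[k] K}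
    (f0 : ∀ r, φ' r ∈ IC (B0 t g)) (e0 : ∀ x, η' x ∈ IC (B0 t g))
    (e1 : ∀ n, ∀ x : J, (x : R) ∈ 𝒜 n → u ^ n * v * η' x ∈ IC (B1 t g)) {N' : ℕ}
    (h' : IsGP 𝒜 P J N' (IC (B0 t g')) (IC (B1 t g')) u' v' φ' η')
    (S0 : ∀ ex : IC (B0 t g) →ₐ[k] PowerSeries k, Function.Injective ex →
      (∀ (n : ℕ) (s : PowerSeries k), ∃ a, PowerSeries.X ^ n ∣ ex a - s) →
      ∃ β : ℕ, (∃ n, 0 < n ∧ ∃ r ∈ 𝒜 n, PowerSeries.coeff (β * n) (ex ⟨φ' r, f0 r⟩) ≠ 0) ∧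
        ∀ i, ∀ x : J, (x : R) ∈ 𝒜 i → (PowerSeries.X : PowerSeries k) ^ (β * i) ∣
          ex ⟨η' x, e0 x⟩)
    (S1 : ∀ ex : IC (B1 t g) →ₐ[k] PowerSeries k, Function.Injective ex →
      (∀ (n : ℕ) (s : PowerSeries k), ∃ a, PowerSeries.X ^ n ∣ ex a - s) →
      ∃ β : ℕ, (∃ n, 0 < n ∧ ∃ r ∈ 𝒜 n, ∃ a : IC (B1 t g), (a : K) = u ^ n * φ' r ∧
          PowerSeries.coeff (β * n) (ex a) ≠ 0) ∧
        ∀ i, ∀ x : J, (x : R) ∈ 𝒜 i → ∀ a : IC (B1 t g), (a : K) = u ^ i * v * η' x →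
          (PowerSeries.X : PowerSeries k) ^ (β * i) ∣ ex a) :
    idx (IC (B1 t g')) v' ≤ idx (IC (B1 t g)) v := by
  classical
  have : Infinite k := IsAlgClosed.instInfinite
  obtain ⟨ℓ, hℓ⟩ := crv_exists_l (mul_ne_zero hg hg')
  rw [Polynomial.eval_mul] at hℓ
  have hℓ1 : g.eval ℓ ≠ 0 := left_ne_zero_of_mul hℓ
  have hℓ2 : g'.eval ℓ ≠ 0 := right_ne_zero_of_mul hℓ
  have hv' := h'.v_ne
  have hu' := h'.mp.u_ne
  have hd0 : IsDedekindDomain (IC (B0 t g)) := (crv_basis0 (K := K) ht hg).1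
  have hd1 : IsDedekindDomain (IC (B1 t g)) := (crv_basis1 (K := K) ht hg).1
  obtain ⟨i0, j0, a0, b0, -, ha0, -, -, -, -, ha00, ha0i⟩ := h'.loc0
  obtain ⟨i1, j1, a1, b1, -, ha1, -, -, -, -, ha10, ha1i⟩ := h'.loc1
  have c10 : ∀ V : ValuationSubring K, (∀ x ∈ IC (B1 t g'), x ∈ V) →
      (∀ x ∈ IC (B0 t g), x ∈ V) → 1 / v' ∈ V := by
    intro V h1 h2
    by_cases hV : V = ⊤
    · rw [hV]; trivial
    obtain ⟨c, ex, γ, hinj, -, happ, -, -, hγ0, -, hle, hge⟩ :=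
      VT.exists_ex (IC (B0 t g)) (hcl0 ht hg) (frac0_IC g) V h2 hV
    obtain ⟨β, ⟨n, hn, r, hr, hne⟩, hη⟩ := S0 ex hinj happ
    refine quot_mem V hγ0 (U := 1) (U' := u') (W := 1) (W' := v') (f := φ' r) (e := η' a1)
      (n := n) (i := i1) (β := β) hu' hv' hn ha10 (h1 _ (mem_Sec.1 (h'.mp.sec n r hr)).2) ?_
      (h1 _ ha1i) ?_
    · rw [one_pow, one_mul]
      exact hge _ ⟨φ' r, f0 r⟩ (not_dvd hne)
    · rw [one_pow, one_mul, one_mul]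
      exact hle _ ⟨η' a1, e0 a1⟩ (hη i1 a1 ha1)
  have c01 : ∀ V : ValuationSubring K, (∀ x ∈ IC (B0 t g'), x ∈ V) →
      (∀ x ∈ IC (B1 t g), x ∈ V) → v / 1 ∈ V := by
    intro V h1 h2
    by_cases hV : V = ⊤
    · rw [hV]; trivial
    obtain ⟨c, ex, γ, hinj, -, happ, -, -, hγ0, -, hle, hge⟩ :=
      VT.exists_ex (IC (B1 t g)) (hcl1 ht hg) ((isCD_IC ht hg).frac) V h2 hV
    obtain ⟨β, ⟨n, hn, r, hr, a, har, hne⟩, hη⟩ := S1 ex hinj happ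
    refine quot_mem V hγ0 (U := u) (U' := 1) (W := v) (W' := 1) (f := φ' r) (e := η' a0)
      (n := n) (i := i0) (β := β) one_ne_zero one_ne_zero hn ha00 ?_ ?_ ?_ ?_
    · rw [one_pow, one_mul]
      exact h1 _ (mem_Sec.1 (h'.mp.sec n r hr)).1
    · rw [← har]
      exact hge _ a (not_dvd hne)
    · rw [one_pow, one_mul, one_mul]
      exact h1 _ ha0i
    · exact hle _ ⟨_, e1 i0 a0 ha0⟩ (hη i0 a0 ha0 _ rfl)
  have c11 : ∀ V : ValuationSubring K, (∀ x ∈ IC (B1 t g'), x ∈ V) →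
      (∀ x ∈ IC (B1 t g), x ∈ V) → v / v' ∈ V := by
    intro V h1 h2
    by_cases hV : V = ⊤
    · rw [hV]; trivial
    obtain ⟨c, ex, γ, hinj, -, happ, -, -, hγ0, -, hle, hge⟩ :=
      VT.exists_ex (IC (B1 t g)) (hcl1 ht hg) ((isCD_IC ht hg).frac) V h2 hV
    obtain ⟨β, ⟨n, hn, r, hr, a, har, hne⟩, hη⟩ := S1 ex hinj happ
    refine quot_mem V hγ0 (U := u) (U' := u') (W := v) (W' := v') (f := φ' r) (e := η' a1)
      (n := n) (i := i1) (β := β) hu' hv' hn ha10 (h1 _ (mem_Sec.1 (h'.mp.sec n r hr)).2) ?_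
      (h1 _ ha1i) ?_
    · rw [← har]
      exact hge _ a (not_dvd hne)
    · exact hle _ ⟨_, e1 i1 a1 ha1⟩ (hη i1 a1 ha1 _ rfl)
  have key := idx_le_of_sections (m := 0) (c := Fin.elim0) ht hg hg' hℓ1 hℓ2 hv hv'
    (fun a => a.elim0) (fun n M a ha ha' => by
      obtain ⟨h1, h2⟩ := incl ht hg' hℓ1 hv' c10 c01 c11 n M a ha ha'
      exact ⟨h1, h2, fun l => l.elim0⟩)
  simpa using key

end IdxLimP

/-- C5. Degrees of the central fibre. -/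
theorem idx_limit [IsAlgClosed k] [IsDomain R] {t : K} (ht : Transcendental k t)
    [FiniteDimensional (IntermediateField.adjoin k {t}) K]
    [Algebra.IsSeparable (IntermediateField.adjoin k {t}) K]
    {A₀ A₁ A₀' A₁' : Subalgebra k K} {u v u' v' : K} {φ φ' : R →ₐ[k] K} {η η' : J →ₗ[k] K}
    (hch : IsCh t A₀ A₁) (hch' : IsCh t A₀' A₁') {N N' : ℕ}
    (h : IsGP 𝒜 P J N A₀ A₁ u v φ η)
    {F : R →ₐ[k] PowerSeries A₀} {H : J →ₗ[k] PowerSeries A₀} (hF : IsPF 𝒜 J A₀ A₁ u v F H)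
    {m : ℕ} {c : Fin m → (A₀ →ₐ[k] k)} (hc : Function.Injective c)
    (hm : ∀ l, ∀ j, 0 < j → ∀ r ∈ 𝒜 j, c l (PowerSeries.constantCoeff (F r)) = 0)
    (hφ' : ∀ r, φ' r = ((PowerSeries.constantCoeff (F r) : A₀) : K))
    (hη' : ∀ x, η' x = ((PowerSeries.constantCoeff (H x) : A₀) : K))
    (h' : IsGP 𝒜 P J N' A₀' A₁' u' v' φ' η') :
    idx A₁' u' + m ≤ idx A₁ u ∧
    ((∀ ex : A₀ →ₐ[k] PowerSeries k, Function.Injective ex →
        (∀ (n : ℕ) (s : PowerSeries k), ∃ a, PowerSeries.X ^ n ∣ ex a - s) →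
        ∃ β : ℕ, (∀ n, ∀ r ∈ 𝒜 n, (PowerSeries.X : PowerSeries k) ^ (β * n) ∣
            ex (PowerSeries.constantCoeff (F r))) ∧
          (∃ n, 0 < n ∧ ∃ r ∈ 𝒜 n, PowerSeries.coeff (β * n)
            (ex (PowerSeries.constantCoeff (F r))) ≠ 0) ∧
          ∀ i, ∀ x : J, (x : R) ∈ 𝒜 i → (PowerSeries.X : PowerSeries k) ^ (β * i) ∣
            ex (PowerSeries.constantCoeff (H x))) →
      (∀ ex : A₁ →ₐ[k] PowerSeries k, Function.Injective ex →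
        (∀ (n : ℕ) (s : PowerSeries k), ∃ a, PowerSeries.X ^ n ∣ ex a - s) →
        ∃ β : ℕ, (∀ n, ∀ r ∈ 𝒜 n, ∀ a : A₁, (a : K) = u ^ n * φ' r →
            (PowerSeries.X : PowerSeries k) ^ (β * n) ∣ ex a) ∧
          (∃ n, 0 < n ∧ ∃ r ∈ 𝒜 n, ∃ a : A₁, (a : K) = u ^ n * φ' r ∧
            PowerSeries.coeff (β * n) (ex a) ≠ 0) ∧
          ∀ i, ∀ x : J, (x : R) ∈ 𝒜 i → ∀ a : A₁, (a : K) = u ^ i * v * η' x →
            (PowerSeries.X : PowerSeries k) ^ (β * i) ∣ ex a) →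
      idx A₁' v' ≤ idx A₁ v) := by
  obtain ⟨g, hg, rfl, rfl⟩ := hch
  obtain ⟨g', hg', rfl, rfl⟩ := hch'
  have f0 : ∀ r, φ' r ∈ IC (B0 t g) := fun r => by rw [hφ']; exact SetLike.coe_mem _
  have e0 : ∀ x, η' x ∈ IC (B0 t g) := fun x => by rw [hη']; exact SetLike.coe_mem _
  have hφc : ∀ r, (⟨φ' r, f0 r⟩ : IC (B0 t g)) = PowerSeries.constantCoeff (F r) :=
    fun r => Subtype.ext (hφ' r)
  have hηc : ∀ x, (⟨η' x, e0 x⟩ : IC (B0 t g)) = PowerSeries.constantCoeff (H x) :=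
    fun x => Subtype.ext (hη' x)
  have f1 : ∀ n, ∀ r ∈ 𝒜 n, u ^ n * φ' r ∈ IC (B1 t g) := by
    intro n r hr
    have h1 := (mem_Sec.1 (hF.sec n r hr 0)).2
    rw [PowerSeries.coeff_zero_eq_constantCoeff_apply, ← hφ'] at h1
    exact h1
  have e1 : ∀ n, ∀ x : J, (x : R) ∈ 𝒜 n → u ^ n * v * η' x ∈ IC (B1 t g) := by
    intro n x hx
    have h1 := hF.secη n x hx 0
    rw [PowerSeries.coeff_zero_eq_constantCoeff_apply, ← hη'] at h1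
    exact h1
  refine ⟨IdxLimP.claim1 ht hg hg' h.mp.u_ne f0 f1 hc (fun l j hj r hr => ?_) h'.mp,
    fun S0 S1 => IdxLimP.claim2 ht hg hg' h.v_ne f0 e0 e1 h' (fun ex h1 h2 => ?_)
      (fun ex h1 h2 => ?_)⟩
  · rw [hφc]
    exact hm l j hj r hr
  · obtain ⟨β, -, ⟨n, hn, r, hr, h3⟩, h4⟩ := S0 ex h1 h2
    refine ⟨β, ⟨n, hn, r, hr, ?_⟩, fun i x hx => ?_⟩
    · rw [hφc]; exact h3
    · rw [hηc]; exact h4 i x hx
  · obtain ⟨β, -, h3, h4⟩ := S1 ex h1 h2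
    exact ⟨β, h3, h4⟩

end Vale.Agent.P292.Dv
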