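import Vale.Agent.P292.D.T2Defs

/-! # P292, Part III, block T2, leaf I2: the degree on the divisor is positive. -/

namespace Vale.Agent.P292.Dv

open Vale.Agent.P292.Mo

set_option linter.unusedSectionVars false
set_option linter.unusedVariables false

universe u v w

namespace IdxNeg

variable {k : Type u} [Field k] {K : Type w} [Field K] [Algebra k K]

/-- An element of the second chart of index zero is a unit there. -/
theorem inv_mem_of_idx {A₀ A₁ : Subalgebra k K} (cd : IsCD A₀ A₁) {x : K} (hx : x ∈ A₁)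
    (h0 : x ≠ 0) (hi : idx A₁ x = 0) : x⁻¹ ∈ A₁ := by
  have hfin := cd.finQ x hx h0
  rw [cd.idx_of_mem hx] at hi
  have h1 : Module.finrank k (↥(Subalgebra.toSubmodule A₁) ⧸
      ((Subalgebra.toSubmodule A₁).map (LinearMap.mulLeft k x)).comap
        (Subalgebra.toSubmodule A₁).subtype) = 0 := by exact_mod_cast hi
  have h2 := Module.finrank_zero_iff.mp h1
  have h3 : (⟨1, A₁.one_mem⟩ : ↥(Subalgebra.toSubmodule A₁)) ∈
      ((Subalgebra.toSubmodule A₁).map (LinearMap.mulLeft k x)).comap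
        (Subalgebra.toSubmodule A₁).subtype :=
    (Submodule.Quotient.mk_eq_zero _).1 (Subsingleton.elim _ _)
  obtain ⟨y, hy, hxy⟩ := h3
  have h4 : x * y = 1 := hxy
  have h5 : x⁻¹ = y := inv_eq_of_mul_eq_one_right h4
  rw [h5]
  exact hy

/-- Nonnegativity of the index on the second chart. -/
theorem idx_nonneg {A₀ A₁ : Subalgebra k K} (cd : IsCD A₀ A₁) {x : K} (hx : x ∈ A₁) :
    0 ≤ idx A₁ x := by
  rw [cd.idx_of_mem hx]
  exact Int.natCast_nonneg _

/-- A unit of a subalgebra contained in `V` has valuation one. -/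
theorem val_one {B : Subalgebra k K} (V : ValuationSubring K) (hB : ∀ a ∈ B, a ∈ V) {x : K}
    (hx : x ∈ B) (hx' : x⁻¹ ∈ B) (h0 : x ≠ 0) : V.valuation x = 1 := by
  have h1 := (V.valuation_le_one_iff x).2 (hB x hx)
  have h2 := (V.valuation_le_one_iff x⁻¹).2 (hB _ hx')
  have h3 : V.valuation x * V.valuation x⁻¹ = 1 := by
    rw [← map_mul, mul_inv_cancel₀ h0, map_one]
  refine le_antisymm h1 ?_
  rw [← h3]
  exact mul_le_of_le_one_right' h2

/-- The quotient of a unit by a regular element has valuation at least one. -/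
theorem not_lt {V : ValuationSubring K} {a s : K} {n i : ℕ} (ha : V.valuation a = 1)
    (hs : V.valuation s ≤ 1) (hs0 : s ≠ 0) : ¬ V.valuation (a ^ n / s ^ i) < 1 := by
  intro h
  rw [map_div₀, map_pow, ha, one_pow, map_pow, one_div] at h
  have h1 : V.valuation s ^ i ≤ 1 := pow_le_one' hs i
  have h2 : V.valuation s ^ i ≠ 0 := pow_ne_zero _ ((Valuation.ne_zero_iff _).2 hs0)
  exact absurd h (_root_.not_lt.2 ((one_le_inv₀ (zero_lt_iff.2 h2)).2 h1))

end IdxNeg

section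

variable {k : Type u} [Field k] {R : Type v} [CommRing R] [Algebra k R]
  {𝒜 : ℕ → Submodule k R} [GradedAlgebra 𝒜] {P : R →ₗ[k] R →ₗ[k] R} {J : Ideal R}

/-- I2. Its degree on the divisor is positive. -/
theorem idx_neg_of_meets [IsAlgClosed k] [IsDomain R] {K : Type w} [Field K] [Algebra k K] {t : K}
    (ht : Transcendental k t) [FiniteDimensional (IntermediateField.adjoin k {t}) K]
    [Algebra.IsSeparable (IntermediateField.adjoin k {t}) K] {A₀ A₁ : Subalgebra k K} {u v : K}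
    {φ : R →ₐ[k] K} {η : J →ₗ[k] K} {N : ℕ} (hch : IsCh t A₀ A₁)
    (h : IsGP 𝒜 P J N A₀ A₁ u v φ η) (hη : ∀ x : J, η x = φ x) (V : ValuationSubring K)
    (hVt : V ≠ ⊤) (hVk : ∀ c : k, algebraMap k K c ∈ V) {n : ℕ} (hn : 0 < n) {s : R}
    (hs : s ∈ 𝒜 n) (hs0 : φ s ≠ 0) (hV : ∀ r ∈ 𝒜 n, φ r / φ s ∈ V)
    (hVJ : ∀ i, ∀ x ∈ J, x ∈ 𝒜 i → V.valuation (φ x ^ n / φ s ^ i) < 1) :
    idx A₁ v < 0 := by
  obtain ⟨g, hg, rfl, rfl⟩ := hch
  have cd := isCD_IC (K := K) ht hg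
  have hu := h.mp.u_ne
  have hv := h.v_ne
  -- the element of the second chart
  have hv1 : v⁻¹ ∈ IC (B1 t g) := by
    obtain ⟨i, j, a, b, hj, ha, hb, hab, hφb, hφb', hηa, hηa'⟩ := h.loc1
    rw [hη] at hηa hηa'
    have h1 := (mem_Sec.mp (h.mp.sec i a ha)).2
    have h2 : v⁻¹ = u ^ i * φ a * (u ^ i * v * φ a)⁻¹ := by
      have hui : u ^ i ≠ 0 := pow_ne_zero _ hu
      field_simp
    rw [h2]
    exact (IC (B1 t g)).mul_mem h1 hηa'
  have hle := IdxNeg.idx_nonneg cd hv1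
  have hvi := cd.idx_inv hv
  by_contra hcon
  have hzero : idx (IC (B1 t g)) v⁻¹ = 0 := by omega
  have hv2 : v ∈ IC (B1 t g) := by
    have := IdxNeg.inv_mem_of_idx cd hv1 (inv_ne_zero hv) hzero
    rwa [inv_inv] at this
  rcases place_IC ht hg V hVk with hV0 | hV1
  · obtain ⟨i, j, a, b, hj, ha, hb, hab, hφb, hφb', hηa, hηa'⟩ := h.loc0
    rw [hη] at hηa hηa'
    have h1 := (mem_Sec.mp (h.mp.sec i a ha)).1
    have h2 := (mem_Sec.mp (h.mp.sec n s hs)).1
    have h3 := IdxNeg.val_one V hV0 h1 hηa' hηa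
    exact IdxNeg.not_lt h3 ((V.valuation_le_one_iff _).2 (hV0 _ h2)) hs0 (hVJ i a a.2 ha)
  · obtain ⟨i, j, a, b, hj, ha, hb, hab, hφb, hφb', hηa, hηa'⟩ := h.loc1
    rw [hη] at hηa hηa'
    have h1 := (mem_Sec.mp (h.mp.sec i a ha)).2
    have h2 := (mem_Sec.mp (h.mp.sec n s hs)).2
    have hui : u ^ i ≠ 0 := pow_ne_zero _ hu
    have hun : u ^ n ≠ 0 := pow_ne_zero _ hu
    have h4 : (u ^ i * φ a)⁻¹ ∈ IC (B1 t g) := by
      have e : (u ^ i * φ a)⁻¹ = v * (u ^ i * v * φ a)⁻¹ := by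
        field_simp
      rw [e]
      exact (IC (B1 t g)).mul_mem hv2 hηa'
    have h3 := IdxNeg.val_one V hV1 h1 h4 (mul_ne_zero hui hηa)
    have h5 := IdxNeg.not_lt (n := n) (i := i) h3 ((V.valuation_le_one_iff _).2 (hV1 _ h2))
      (mul_ne_zero hun hs0)
    refine h5 ?_
    have e : (u ^ i * φ a) ^ n / (u ^ n * φ s) ^ i = φ a ^ n / φ s ^ i := by
      rw [mul_pow, mul_pow, ← pow_mul, ← pow_mul, mul_comm n i, mul_div_mul_left]
      exact pow_ne_zero _ hu
    rw [e]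
    exact hVJ i a a.2 ha

end

end Vale.Agent.P292.Dv
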