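import Vale.Agent.P292.D.T2Defs

/-! # Q1: a closed pair gives a pair on the function field of the line. -/

namespace Vale.Agent.P292.Dv

open Vale.Agent.P292.Mo Polynomial

universe u v w

namespace LineQ1

variable {k : Type u} [Field k]

theorem transc : Transcendental k (RatFunc.X : RatFunc k) := RatFunc.transcendental_X

theorem finrank_one :
    Module.finrank (IntermediateField.adjoin k {(RatFunc.X : RatFunc k)}) (RatFunc k) = 1 := by
  rw [RatFunc.adjoin_X]
  exact IntermediateField.finrank_top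

theorem fd : FiniteDimensional (IntermediateField.adjoin k {(RatFunc.X : RatFunc k)})
    (RatFunc k) :=
  FiniteDimensional.of_finrank_pos (by rw [finrank_one]; exact one_pos)

theorem sep : Algebra.IsSeparable (IntermediateField.adjoin k {(RatFunc.X : RatFunc k)})
    (RatFunc k) := by
  refine ⟨fun x => ?_⟩
  have hx : x ∈ IntermediateField.adjoin k {(RatFunc.X : RatFunc k)} := by
    rw [RatFunc.adjoin_X]
    trivial
  exact isSeparable_algebraMap (F := IntermediateField.adjoin k {(RatFunc.X : RatFunc k)})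
    (⟨x, hx⟩ : IntermediateField.adjoin k {(RatFunc.X : RatFunc k)})

theorem aev (p : k[X]) : aeval (RatFunc.X : RatFunc k) p = algebraMap k[X] (RatFunc k) p :=
  RatFunc.aeval_X_left_eq_algebraMap p

/-- The second chart is integrally closed. -/
theorem mem_B1_of_IC [Infinite k] {g : k[X]} (hg : g ≠ 0) {x : RatFunc k}
    (hx : x ∈ IC (B1 (RatFunc.X : RatFunc k) g)) : x ∈ B1 (RatFunc.X : RatFunc k) g := by
  have hpir : IsPrincipalIdealRing (B1 (RatFunc.X : RatFunc k) g) := crv_B1_pir transc hg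
  have hfr : IsFractionRing (B1 (RatFunc.X : RatFunc k) g) (RatFunc k) := by
    refine IsFractionRing.of_field _ _ fun z => ?_
    obtain ⟨a, ha, b, hb, -, h⟩ := crv_B1_frac transc hg z (by rw [RatFunc.adjoin_X]; trivial)
    exact ⟨⟨a, ha⟩, ⟨b, hb⟩, h⟩
  obtain ⟨y, hy⟩ := (IsIntegrallyClosed.isIntegral_iff
    (R := B1 (RatFunc.X : RatFunc k) g)).1 (mem_IC.1 hx)
  rw [← hy]
  exact y.2

/-! ### Dehomogenisation -/

/-- Dehomogenisation. -/
noncomputable def dh : MvPolynomial (Fin 2) k →ₐ[k] k[X] :=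
  MvPolynomial.aeval ![Polynomial.X, 1]

theorem dh_eval (ρ : k) (F : MvPolynomial (Fin 2) k) :
    (dh F).eval ρ = MvPolynomial.eval ![ρ, 1] F := by
  have h : (Polynomial.aeval ρ : k[X] →ₐ[k] k).comp dh = MvPolynomial.aeval ![ρ, 1] := by
    apply MvPolynomial.algHom_ext
    intro i
    rw [AlgHom.comp_apply, dh, MvPolynomial.aeval_X, MvPolynomial.aeval_X]
    fin_cases i <;> simp
  have h1 := DFunLike.congr_fun h F
  rw [AlgHom.comp_apply] at h1
  rw [← MvPolynomial.aeval_eq_eval, ← h1, Polynomial.coe_aeval_eq_eval]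

theorem dh_monomial (d : Fin 2 →₀ ℕ) (c : k) :
    dh (MvPolynomial.monomial d c) = Polynomial.C c * Polynomial.X ^ d 0 := by
  rw [dh, MvPolynomial.aeval_monomial, Finsupp.prod_fintype _ _ (fun i => pow_zero _),
    Fin.prod_univ_two]
  simp

theorem weight_two {F : MvPolynomial (Fin 2) k} {m : ℕ} (hF : F.IsHomogeneous m)
    {d : Fin 2 →₀ ℕ} (hd : d ∈ F.support) : d 0 + d 1 = m := by
  have h := hF (MvPolynomial.mem_support_iff.1 hd)
  rw [Finsupp.weight_apply, Finsupp.sum_fintype _ _ (fun i => by simp)] at h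
  simpa [Fin.sum_univ_two] using h

theorem dh_sum (F : MvPolynomial (Fin 2) k) :
    dh F = ∑ d ∈ F.support, Polynomial.C (MvPolynomial.coeff d F) * Polynomial.X ^ d 0 := by
  conv_lhs => rw [F.as_sum, map_sum]
  exact Finset.sum_congr rfl fun d _ => dh_monomial d _

theorem dh_deg {F : MvPolynomial (Fin 2) k} {m : ℕ} (hF : F.IsHomogeneous m) :
    (dh F).natDegree ≤ m := by
  rw [dh_sum]
  refine Polynomial.natDegree_sum_le_of_forall_le _ _ fun d hd => ?_
  refine (Polynomial.natDegree_C_mul_X_pow_le _ _).trans ?_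
  have := weight_two hF hd
  omega

theorem dh_coeff {F : MvPolynomial (Fin 2) k} {m : ℕ} (hF : F.IsHomogeneous m) :
    (dh F).coeff m = MvPolynomial.eval ![1, 0] F := by
  rw [dh_sum, Polynomial.finsetSum_coeff, MvPolynomial.eval_eq']
  refine Finset.sum_congr rfl fun d hd => ?_
  have h := weight_two hF hd
  rw [Polynomial.coeff_C_mul_X_pow, Fin.prod_univ_two]
  by_cases h0 : d 1 = 0
  · rw [if_pos (by omega)]
    simp [h0]
  · rw [if_neg (by omega)]
    simp [h0]

/-! ### Orders on the second chart -/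

section ord

variable [IsAlgClosed k] {g : k[X]} (hg : g ≠ 0) {l : k} (hl : g.eval l ≠ 0)

include hg hl in
theorem idx_poly_ge {F : k[X]} (hF : F ≠ 0) {d : ℕ} (hd : F.natDegree ≤ d) :
    - (d : ℤ) ≤ idx (IC (B1 (RatFunc.X : RatFunc k) g)) (algebraMap k[X] (RatFunc k) F) := by
  have := fd (k := k)
  have := sep (k := k)
  have cd := isCD_IC (K := RatFunc k) transc hg
  have h1 := idx_IC (K := RatFunc k) transc hg l hl
  rw [finrank_one] at h1
  set s : RatFunc k := ((RatFunc.X : RatFunc k) - algebraMap k (RatFunc k) l)⁻¹ with hs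
  have hs0 : s ≠ 0 := inv_ne_zero (crv_ne_C transc l)
  have hF0 : algebraMap k[X] (RatFunc k) F ≠ 0 := by
    rw [← aev]
    exact crv_ne transc hF
  have h2 : algebraMap k[X] (RatFunc k) F * s ^ d ∈ IC (B1 (RatFunc.X : RatFunc k) g) := by
    refine le_IC _ ⟨F, (X - C l) ^ d, ?_, ClosedIC1.cop hl d, ?_, ?_⟩
    · exact crv_ne transc (pow_ne_zero _ (X_sub_C_ne_zero l))
    · rw [natDegree_pow, natDegree_X_sub_C, mul_one]
      exact hd
    · rw [aev, map_pow, map_sub, aeval_X, aeval_C, hs, inv_pow, div_eq_mul_inv]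
  have h3 := cd.idx_of_mem h2
  rw [cd.idx_mul hF0 (pow_ne_zero _ hs0), cd.idx_pow hs0, h1] at h3
  have h4 : (0 : ℤ) ≤ idx (IC (B1 (RatFunc.X : RatFunc k) g)) (algebraMap k[X] (RatFunc k) F) +
      d * ((1 : ℕ) : ℤ) := by
    rw [h3]
    exact Int.natCast_nonneg _
  push_cast at h4
  linarith

include hg hl in
theorem idx_poly_eq {F : k[X]} (hF : F ≠ 0) (hcop : IsCoprime F g) :
    idx (IC (B1 (RatFunc.X : RatFunc k) g)) (algebraMap k[X] (RatFunc k) F) =
      - (F.natDegree : ℤ) := by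
  have := fd (k := k)
  have := sep (k := k)
  have cd := isCD_IC (K := RatFunc k) transc hg
  have h1 := idx_IC (K := RatFunc k) transc hg l hl
  rw [finrank_one] at h1
  set s : RatFunc k := ((RatFunc.X : RatFunc k) - algebraMap k (RatFunc k) l)⁻¹ with hs
  have hs0 : s ≠ 0 := inv_ne_zero (crv_ne_C transc l)
  have hF0 : algebraMap k[X] (RatFunc k) F ≠ 0 := by
    rw [← aev]
    exact crv_ne transc hF
  have h2 : algebraMap k[X] (RatFunc k) F * s ^ F.natDegree ∈
      IC (B1 (RatFunc.X : RatFunc k) g) := by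
    refine le_IC _ ⟨F, (X - C l) ^ F.natDegree, ?_, ClosedIC1.cop hl _, ?_, ?_⟩
    · exact crv_ne transc (pow_ne_zero _ (X_sub_C_ne_zero l))
    · rw [natDegree_pow, natDegree_X_sub_C, mul_one]
    · rw [aev, map_pow, map_sub, aeval_X, aeval_C, hs, inv_pow, div_eq_mul_inv]
  have h2' : (algebraMap k[X] (RatFunc k) F * s ^ F.natDegree)⁻¹ ∈
      IC (B1 (RatFunc.X : RatFunc k) g) := by
    refine le_IC _ ⟨(X - C l) ^ F.natDegree, F, crv_ne transc hF, hcop, ?_, ?_⟩
    · rw [natDegree_pow, natDegree_X_sub_C, mul_one]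
    · rw [aev F, map_pow, map_sub, aeval_X, aeval_C, hs, inv_pow, mul_inv, inv_inv,
        div_eq_mul_inv, mul_comm]
  have h3 := cd.idx_unit1 h2 h2' (mul_ne_zero hF0 (pow_ne_zero _ hs0))
  rw [cd.idx_mul hF0 (pow_ne_zero _ hs0), cd.idx_pow hs0, h1] at h3
  push_cast at h3
  linarith

end ord

end LineQ1

open LineQ1 in
/-- Q1. A closed pair gives a pair on the function field of the line. -/
theorem pair_of_closed {k : Type u} [Field k] {R : Type v} [CommRing R] [Algebra k R]
    {𝒜 : ℕ → Submodule k R} [GradedAlgebra 𝒜] {P : R →ₗ[k] R →ₗ[k] R} {J : Ideal R}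
    [IsAlgClosed k] {e δ : ℕ} {φ : R →ₐ[k] MvPolynomial (Fin 2) k}
    {η : J →ₗ[k] MvPolynomial (Fin 2) k} (h : IsPair 𝒜 J e δ φ η) :
    ∃ (φ' : R →ₐ[k] RatFunc k) (η' : J →ₗ[k] RatFunc k), Mo.NV 𝒜 φ' ∧
      (∀ (r : R) (x : J), η' (r • x) = φ' r * η' x) ∧ (∃ x, η' x ≠ 0) ∧
      ∀ (A₀ A₁ : Subalgebra k (RatFunc k)) (u v : RatFunc k) (N : ℕ),
        IsCh (RatFunc.X : RatFunc k) A₀ A₁ → IsGP 𝒜 P J N A₀ A₁ u v φ' η' →
        idx A₁ u ≤ e ∧ idx A₁ v ≤ - (δ : ℤ) := by
  have : Infinite k := IsAlgClosed.instInfinite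
  have := fd (k := k)
  have := sep (k := k)
  have hinj : Function.Injective (algebraMap k[X] (RatFunc k)) := RatFunc.algebraMap_injective k
  let tr : MvPolynomial (Fin 2) k →ₐ[k] RatFunc k :=
    (IsScalarTower.toAlgHom k k[X] (RatFunc k)).comp dh
  have htr : ∀ F, tr F = algebraMap k[X] (RatFunc k) (dh F) := fun F => rfl
  have htr0 : ∀ F, dh F ≠ 0 → tr F ≠ 0 := fun F hF h0 => hF (hinj (by rw [map_zero]; exact h0))
  have hvec : ∀ ρ : k, (![ρ, 1] : Fin 2 → k) ≠ 0 := fun ρ h0 => by
    have := congrFun h0 1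
    simp at this
  have hvec' : (![1, 0] : Fin 2 → k) ≠ 0 := fun h0 => by
    have := congrFun h0 0
    simp at this
  have hφ' : ∀ r, (tr.comp φ) r = algebraMap k[X] (RatFunc k) (dh (φ r)) := fun r => rfl
  refine ⟨tr.comp φ, tr.toLinearMap ∘ₗ η, ?_, ?_, ?_, ?_⟩
  · obtain ⟨j, hj, r, hr, hne⟩ := h.bpf ![0, 1] (hvec 0)
    refine ⟨j, hj, r, hr, htr0 _ fun h0 => hne ?_⟩
    have h0' : dh (φ r) = 0 := h0
    rw [← dh_eval, h0', eval_zero]
  · intro r x
    change tr (η (r • x)) = tr (φ r) * tr (η x)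
    rw [h.lin, map_mul]
  · obtain ⟨x, hx⟩ := h.bpfη ![0, 1] (hvec 0)
    refine ⟨x, htr0 _ fun h0 => hx ?_⟩
    rw [← dh_eval, h0, eval_zero]
  · intro A₀ A₁ u v N hch hGP
    obtain ⟨g, hg, rfl, rfl⟩ := hch
    obtain ⟨l, hl⟩ := crv_exists_l hg
    have cd := isCD_IC (K := RatFunc k) transc hg
    have hu := hGP.mp.u_ne
    -- the degree of the first line bundle
    have hdegu : idx (IC (B1 (RatFunc.X : RatFunc k) g)) u = e := by
      obtain ⟨n, hn, r, hr, hr0, hr1⟩ := hGP.mp.unit1
      have hrs := (mem_Sec.1 (hGP.mp.sec n r hr)).2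
      have hun := pow_ne_zero n hu
      set F := dh (φ r) with hF
      have hFr : (tr.comp φ) r = algebraMap k[X] (RatFunc k) F := rfl
      have hF0 : F ≠ 0 := by
        intro h0
        apply hr0
        rw [hFr, h0, map_zero]
      have hFd : F.natDegree ≤ e * n := dh_deg (h.deg n r hr)
      -- comparison with the other sections
      have hcmp : ∀ m, 0 < m → ∀ s ∈ 𝒜 m, ∃ a b : k[X], IsCoprime b g ∧
          a.natDegree ≤ b.natDegree ∧ b ≠ 0 ∧ dh (φ s) ^ n * b = a * F ^ m := by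
        intro m hm s hs
        have hss := (mem_Sec.1 (hGP.mp.sec m s hs)).2
        have h1 : (u ^ m * (tr.comp φ) s) ^ n * ((u ^ n * (tr.comp φ) r)⁻¹) ^ m ∈
            IC (B1 (RatFunc.X : RatFunc k) g) :=
          Subalgebra.mul_mem _ (Subalgebra.pow_mem _ hss n) (Subalgebra.pow_mem _ hr1 m)
        obtain ⟨a, b, hb0, hbg, hd, hz⟩ := mem_B1_of_IC hg h1
        have hbne : b ≠ 0 := fun h0 => hb0 (by rw [h0, map_zero])
        refine ⟨a, b, hbg, hd, hbne, hinj ?_⟩
        rw [aev, aev] at hz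
        rw [aev] at hb0
        rw [hφ' s, hFr] at hz
        have hFm : algebraMap k[X] (RatFunc k) F ≠ 0 := by rw [← hFr]; exact hr0
        have h2 : (u ^ m * algebraMap k[X] (RatFunc k) (dh (φ s))) ^ n *
            ((u ^ n * algebraMap k[X] (RatFunc k) F)⁻¹) ^ m =
            algebraMap k[X] (RatFunc k) (dh (φ s)) ^ n /
              algebraMap k[X] (RatFunc k) F ^ m := by
          rw [mul_pow, inv_pow, mul_pow, ← pow_mul, ← pow_mul, mul_comm n m]
          rw [← div_eq_mul_inv, mul_div_mul_left _ _ (pow_ne_zero (m * n) hu)]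
        rw [h2, div_eq_div_iff (pow_ne_zero _ hFm) hb0] at hz
        rw [map_mul, map_mul, map_pow, map_pow]
        exact hz
      have hcop : IsCoprime F g := by
        rw [Polynomial.isCoprime_iff_aeval_ne_zero_of_isAlgClosed k k]
        intro ρ
        by_cases hρ : aeval ρ g = 0
        · left
          intro hFρ
          rw [Polynomial.coe_aeval_eq_eval] at hρ hFρ
          obtain ⟨m, hm, s, hs, hne⟩ := h.bpf ![ρ, 1] (hvec ρ)
          obtain ⟨a, b, ⟨c, c', hcc⟩, -, -, hab⟩ := hcmp m hm s hs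
          have h3 := congrArg (Polynomial.eval ρ) hab
          rw [eval_mul, eval_mul, eval_pow, eval_pow, hFρ, zero_pow hm.ne', mul_zero,
            dh_eval] at h3
          have h4 := congrArg (Polynomial.eval ρ) hcc
          rw [eval_add, eval_mul, eval_mul, hρ, mul_zero, add_zero, eval_one] at h4
          exact mul_ne_zero (pow_ne_zero _ hne) (right_ne_zero_of_mul_eq_one h4) h3
        · exact Or.inr hρ
      have hdeg : F.natDegree = e * n := by
        refine le_antisymm hFd ?_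
        obtain ⟨m, hm, s, hs, hne⟩ := h.bpf ![1, 0] hvec'
        obtain ⟨a, b, -, hd, hb, hab⟩ := hcmp m hm s hs
        have hG := dh_deg (h.deg m s hs)
        have hGc : (dh (φ s)).coeff (e * m) ≠ 0 := by
          rw [dh_coeff (h.deg m s hs)]
          exact hne
        have hG' : (dh (φ s)).natDegree = e * m := le_antisymm hG (le_natDegree_of_ne_zero hGc)
        have hG0 : dh (φ s) ≠ 0 := fun h0 => hGc (by rw [h0, coeff_zero])
        have ha0 : a ≠ 0 := by
          rintro rfl
          rw [zero_mul] at hab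
          exact mul_ne_zero (pow_ne_zero _ hG0) hb hab
        have h3 := congrArg natDegree hab
        rw [natDegree_mul (pow_ne_zero _ hG0) hb, natDegree_mul ha0 (pow_ne_zero _ hF0),
          natDegree_pow, natDegree_pow, hG'] at h3
        have h4 : n * (e * m) ≤ m * F.natDegree := by omega
        have h5 : m * (e * n) ≤ m * F.natDegree := by
          calc m * (e * n) = n * (e * m) := by ring
            _ ≤ _ := h4
        exact Nat.le_of_mul_le_mul_left h5 hm
      have h6 := cd.idx_unit1 hrs hr1 (mul_ne_zero hun hr0)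
      rw [cd.idx_mul hun hr0, cd.idx_pow hu, hFr, idx_poly_eq hg hl hF0 hcop, hdeg] at h6
      have h7 : (n : ℤ) * (idx (IC (B1 (RatFunc.X : RatFunc k) g)) u - e) = 0 := by
        push_cast at h6
        linarith
      rcases mul_eq_zero.1 h7 with h8 | h8
      · exact absurd h8 (by exact_mod_cast hn.ne')
      · linarith
    refine ⟨hdegu.le, ?_⟩
    obtain ⟨i, j, a, b, -, ha, hb, hab, hφb, hib, hηa, hia⟩ := hGP.loc1
    have hsec := (hGP.secη i a ha).2
    have hv := hGP.v_ne
    have hδ : δ ≤ e * i := by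
      by_contra hcon
      push Not at hcon
      apply hηa
      change tr (η a) = 0
      rw [h.zeroη i a ha hcon, map_zero]
    have hhom := h.degη i a ha (e * i - δ) (Nat.sub_add_cancel hδ)
    have hne : dh (η a) ≠ 0 := by
      intro h0
      apply hηa
      change algebraMap k[X] (RatFunc k) (dh (η a)) = 0
      rw [h0, map_zero]
    have h1 := idx_poly_ge hg hl hne (dh_deg hhom)
    have hui := pow_ne_zero i hu
    have h2 := cd.idx_unit1 hsec hia (mul_ne_zero (mul_ne_zero hui hv) hηa)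
    rw [cd.idx_mul (mul_ne_zero hui hv) hηa, cd.idx_mul hui hv, cd.idx_pow hu, hdegu] at h2
    change _ + idx _ (algebraMap k[X] (RatFunc k) (dh (η a))) = 0 at h2
    rw [Nat.cast_sub hδ] at h1
    push_cast at h1
    linarith

end Vale.Agent.P292.Dv
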