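import Vale.Agent.P292.D.LineQ2a

/-! # P292, T2, Q2, part b: sections on the line. -/

namespace Vale.Agent.P292.Dv.LineQ2

open Polynomial Vale.Agent.P292.Mo

universe u

variable {k : Type u} [Field k]


theorem q2_inj {p q : k[X]} (h : (algebraMap (Polynomial k) (RatFunc k)) p = (algebraMap (Polynomial k) (RatFunc k)) q) : p = q := RatFunc.algebraMap_injective k h

/-- Sections are polynomials of bounded degree. -/
theorem q2_sec {g α β : k[X]} (hg : g ≠ 0) (hα : α ≠ 0) (hβ : β ≠ 0) (hαg : IsCoprime α g)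
    {a : RatFunc k} (ha : a ∈ IC (B0 (RatFunc.X : RatFunc k) g))
    (ha1 : (algebraMap (Polynomial k) (RatFunc k)) α / (algebraMap (Polynomial k) (RatFunc k)) β * a ∈ IC (B1 (RatFunc.X : RatFunc k) g)) :
    ∃ P : k[X], a = (algebraMap (Polynomial k) (RatFunc k)) P ∧ (P ≠ 0 → P.natDegree + α.natDegree ≤ β.natDegree) := by
  obtain ⟨p, N, hp⟩ := q2_IC0 hg ha
  obtain ⟨c, d, hd, hdg, hdeg, hc⟩ := q2_IC1 ha1
  have hd0 := q2_ne (k := k) hd
  have hβ0 := q2_ne (k := k) hβ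
  have hα0 := q2_ne (k := k) hα
  have hgN : g ^ N ≠ 0 := pow_ne_zero N hg
  have hgN0 := q2_ne (k := k) hgN
  have h1 : (algebraMap (Polynomial k) (RatFunc k)) α * (algebraMap (Polynomial k) (RatFunc k)) d * (algebraMap (Polynomial k) (RatFunc k)) p = (algebraMap (Polynomial k) (RatFunc k)) β * (algebraMap (Polynomial k) (RatFunc k)) c * (algebraMap (Polynomial k) (RatFunc k)) (g ^ N) := by
    rw [div_mul_eq_mul_div, div_eq_div_iff hβ0 hd0] at hc
    rw [← hp]
    calc (algebraMap (Polynomial k) (RatFunc k)) α * (algebraMap (Polynomial k) (RatFunc k)) d * ((algebraMap (Polynomial k) (RatFunc k)) (g ^ N) * a) = (algebraMap (Polynomial k) (RatFunc k)) α * a * (algebraMap (Polynomial k) (RatFunc k)) d * (algebraMap (Polynomial k) (RatFunc k)) (g ^ N) := by ring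
      _ = _ := by rw [hc]; ring
  rw [← map_mul, ← map_mul, ← map_mul, ← map_mul] at h1
  have h2 := q2_inj h1
  have hcop : IsCoprime (g ^ N) (α * d) := (IsCoprime.pow_right (hαg.mul_left hdg)).symm
  have h3 : g ^ N ∣ p := hcop.dvd_of_dvd_mul_left ⟨β * c, by rw [h2]; ring⟩
  obtain ⟨P, rfl⟩ := h3
  have haP : a = (algebraMap (Polynomial k) (RatFunc k)) P := by
    rw [map_mul] at hp
    exact mul_left_cancel₀ hgN0 hp
  refine ⟨P, haP, fun hP => ?_⟩
  have h4 : α * d * P = β * c := by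
    have h5 : g ^ N * (α * d * P) = g ^ N * (β * c) := by
      calc g ^ N * (α * d * P) = α * d * (g ^ N * P) := by ring
        _ = _ := by rw [h2]; ring
    exact mul_left_cancel₀ hgN h5
  have hc0 : c ≠ 0 := by
    rintro rfl
    rw [mul_zero] at h4
    exact mul_ne_zero (mul_ne_zero hα hd) hP h4
  have h6 := congrArg natDegree h4
  rw [natDegree_mul (mul_ne_zero hα hd) hP, natDegree_mul hα hd, natDegree_mul hβ hc0] at h6
  omega

theorem q2_unit0 {g P : k[X]} (hg : g ≠ 0) (hP : P ≠ 0)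
    (h : ((algebraMap (Polynomial k) (RatFunc k)) P)⁻¹ ∈ IC (B0 (RatFunc.X : RatFunc k) g)) (z : k) (hz : g.eval z ≠ 0) :
    P.eval z ≠ 0 := by
  obtain ⟨p, N, hp⟩ := q2_IC0 hg h
  have hP0 := q2_ne (k := k) hP
  have h1 : (algebraMap (Polynomial k) (RatFunc k)) (g ^ N) = (algebraMap (Polynomial k) (RatFunc k)) (p * P) := by
    rw [map_mul, ← hp, mul_assoc, inv_mul_cancel₀ hP0, mul_one]
  have h2 := q2_inj h1
  intro h0
  have h3 := congrArg (eval z) h2
  rw [eval_mul, h0, mul_zero, eval_pow] at h3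
  exact pow_ne_zero N hz h3

theorem q2_unit1 {g P α β : k[X]} (hP : P ≠ 0) (hα : α ≠ 0) (hβ : β ≠ 0)
    (hβg : IsCoprime β g)
    (h : ((algebraMap (Polynomial k) (RatFunc k)) α / (algebraMap (Polynomial k) (RatFunc k)) β * (algebraMap (Polynomial k) (RatFunc k)) P)⁻¹ ∈ IC (B1 (RatFunc.X : RatFunc k) g)) :
    (∀ z, g.eval z = 0 → P.eval z ≠ 0) ∧ β.natDegree ≤ P.natDegree + α.natDegree := by
  obtain ⟨c, d, hd, hdg, hdeg, hc⟩ := q2_IC1 h
  have hP0 := q2_ne (k := k) hP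
  have hα0 := q2_ne (k := k) hα
  have hβ0 := q2_ne (k := k) hβ
  have hd0 := q2_ne (k := k) hd
  have hc0 : c ≠ 0 := by
    rintro rfl
    rw [map_zero, zero_div, inv_eq_zero] at hc
    exact mul_ne_zero (div_ne_zero hα0 hβ0) hP0 hc
  have h1 : (algebraMap (Polynomial k) (RatFunc k)) (d * β) = (algebraMap (Polynomial k) (RatFunc k)) (c * α * P) := by
    rw [map_mul, map_mul, map_mul]
    rw [inv_eq_iff_eq_inv, inv_div] at hc
    have hc1 := q2_ne (k := k) hc0
    field_simp at hc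
    linear_combination -hc
  have h2 := q2_inj h1
  constructor
  · intro z hz h0
    obtain ⟨r, s, hrs⟩ := hdg.mul_left hβg
    rw [h2] at hrs
    have h3 := congrArg (eval z) hrs
    simp [hz, h0] at h3
  · have h6 := congrArg natDegree h2
    rw [natDegree_mul hd hβ, natDegree_mul (mul_ne_zero hc0 hα) hP, natDegree_mul hc0 hα] at h6
    omega

/-- Splitting off the part which is a unit on the first chart. -/
theorem q2_split [IsAlgClosed k] {g : k[X]} (hg : g ≠ 0) {u : RatFunc k} (hu : u ≠ 0) :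
    ∃ (w : RatFunc k) (α β : k[X]), w ≠ 0 ∧ w ∈ IC (B0 (RatFunc.X : RatFunc k) g) ∧
      w⁻¹ ∈ IC (B0 (RatFunc.X : RatFunc k) g) ∧ α ≠ 0 ∧ β ≠ 0 ∧ IsCoprime α g ∧ IsCoprime β g ∧
      u = w * ((algebraMap (Polynomial k) (RatFunc k)) α / (algebraMap (Polynomial k) (RatFunc k)) β) ∧
      idx (IC (B1 (RatFunc.X : RatFunc k) g)) u = (β.natDegree : ℤ) - α.natDegree := by
  have hn : u.num ≠ 0 := RatFunc.num_ne_zero hu
  have hd : u.denom ≠ 0 := RatFunc.denom_ne_zero u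
  obtain ⟨a1, a2, N, ha, ha1, ha2⟩ := pf_split g u.num hn
  obtain ⟨b1, b2, M, hb, hb1, hb2⟩ := pf_split g u.denom hd
  have ha10 : a1 ≠ 0 := fun h => hn (by rw [ha, h, zero_mul])
  have ha20 : a2 ≠ 0 := fun h => hn (by rw [ha, h, mul_zero])
  have hb10 : b1 ≠ 0 := fun h => hd (by rw [hb, h, zero_mul])
  have hb20 : b2 ≠ 0 := fun h => hd (by rw [hb, h, mul_zero])
  have ea1 := q2_ne (k := k) ha10
  have ea2 := q2_ne (k := k) ha20
  have eb1 := q2_ne (k := k) hb10
  have eb2 := q2_ne (k := k) hb20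
  have hmem : ∀ p : k[X], (algebraMap (Polynomial k) (RatFunc k)) p ∈ IC (B0 (RatFunc.X : RatFunc k) g) := fun p => by
    rw [← q2_aeval]
    exact q2_B0_le (pf_B0_aeval g p)
  have hinv : ∀ {p : k[X]} {n : ℕ}, p ∣ g ^ n → ((algebraMap (Polynomial k) (RatFunc k)) p)⁻¹ ∈ IC (B0 (RatFunc.X : RatFunc k) g) :=
    fun h => by
      rw [← q2_aeval]
      exact q2_B0_le (pf_B0_inv q2_transc hg h)
  have hcd := q2_cd hg
  have hw0 : (algebraMap (Polynomial k) (RatFunc k)) a1 / (algebraMap (Polynomial k) (RatFunc k)) b1 ≠ 0 := div_ne_zero ea1 eb1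
  have hw1 : (algebraMap (Polynomial k) (RatFunc k)) a1 / (algebraMap (Polynomial k) (RatFunc k)) b1 ∈ IC (B0 (RatFunc.X : RatFunc k) g) := by
    rw [div_eq_mul_inv]; exact mul_mem (hmem _) (hinv hb1)
  have hw2 : ((algebraMap (Polynomial k) (RatFunc k)) a1 / (algebraMap (Polynomial k) (RatFunc k)) b1)⁻¹ ∈ IC (B0 (RatFunc.X : RatFunc k) g) := by
    rw [inv_div, div_eq_mul_inv]; exact mul_mem (hmem _) (hinv ha1)
  have hu' : u = (algebraMap (Polynomial k) (RatFunc k)) a1 / (algebraMap (Polynomial k) (RatFunc k)) b1 * ((algebraMap (Polynomial k) (RatFunc k)) a2 / (algebraMap (Polynomial k) (RatFunc k)) b2) := by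
    conv_lhs => rw [← RatFunc.num_div_denom u, ha, hb, map_mul, map_mul]
    field_simp
  refine ⟨(algebraMap (Polynomial k) (RatFunc k)) a1 / (algebraMap (Polynomial k) (RatFunc k)) b1, a2, b2, hw0, hw1, hw2, ha20, hb20, ha2, hb2, hu', ?_⟩
  rw [hu', hcd.idx_mul hw0 (div_ne_zero ea2 eb2), hcd.idx_unit0 hw1 hw2 hw0, div_eq_mul_inv,
    hcd.idx_mul ea2 (inv_ne_zero eb2), hcd.idx_inv eb2, q2_idx hg ha20 ha2, q2_idx hg hb20 hb2]
  ring

theorem q2_eval (P : k[X]) (m : ℕ) (a : Fin 2 → k) :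
    MvPolynomial.eval a (P.homogenize m) =
      ∑ i ∈ Finset.range (m + 1), P.coeff i * a 0 ^ i * a 1 ^ (m - i) := by
  rw [homogenize, map_sum, Finset.Nat.sum_antidiagonal_eq_sum_range_succ_mk]
  refine Finset.sum_congr rfl fun i _ => ?_
  rw [MvPolynomial.eval_monomial, Finsupp.prod_fintype _ _ (fun _ => pow_zero _)]
  simp [Fin.prod_univ_two, mul_assoc]

theorem q2_eval_ne {P : k[X]} {m : ℕ} (hm : P.natDegree ≤ m) {a : Fin 2 → k} (ha : a 1 ≠ 0) :
    MvPolynomial.eval a (P.homogenize m) = a 1 ^ m * P.eval (a 0 / a 1) := by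
  rw [q2_eval, eval_eq_sum_range' (Nat.lt_succ_of_le hm), Finset.mul_sum]
  refine Finset.sum_congr rfl fun i hi => ?_
  have hi' : i ≤ m := Nat.lt_succ_iff.1 (Finset.mem_range.1 hi)
  have h1 : a 1 ^ m = a 1 ^ (m - i) * a 1 ^ i := by rw [← pow_add, Nat.sub_add_cancel hi']
  rw [h1, div_pow]
  field_simp

theorem q2_eval_zero {P : k[X]} {m : ℕ} {a : Fin 2 → k} (ha : a 1 = 0) :
    MvPolynomial.eval a (P.homogenize m) = P.coeff m * a 0 ^ m := by
  rw [q2_eval, Finset.sum_range_succ, Nat.sub_self, pow_zero, mul_one]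
  rw [Finset.sum_eq_zero, zero_add]
  intro i hi
  have hi' := Finset.mem_range.1 hi
  rw [ha, zero_pow (by omega), mul_zero]

end Vale.Agent.P292.Dv.LineQ2
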