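import Vale.Agent.P292.D.T2Defs
import Vale.Agent.P292.D.LineQ2b

/-! # P292, T2, Q2: a pair on the function field of the line gives a closed pair. -/

namespace Vale.Agent.P292.Dv

open Polynomial Vale.Agent.P292.Mo

universe u v

section

variable {k : Type u} [Field k] {R : Type v} [CommRing R] [Algebra k R]
  {𝒜 : ℕ → Submodule k R} [GradedAlgebra 𝒜] {P : R →ₗ[k] R →ₗ[k] R} {J : Ideal R}

namespace LineQ2


theorem q2_num {a : RatFunc k} {Q : k[X]} (h : a = (algebraMap (Polynomial k) (RatFunc k)) Q) : a.num = Q := by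
  rw [h, RatFunc.num_algebraMap]

/-- Graded homomorphism from its components. -/
theorem q2_hom (F : ∀ n, 𝒜 n →ₗ[k] MvPolynomial (Fin 2) k)
    (hone : ∀ h : (1 : R) ∈ 𝒜 0, F 0 ⟨1, h⟩ = 1)
    (hmul : ∀ (i j : ℕ) (a b : R) (ha : a ∈ 𝒜 i) (hb : b ∈ 𝒜 j) (hab : a * b ∈ 𝒜 (i + j)),
      F (i + j) ⟨a * b, hab⟩ = F i ⟨a, ha⟩ * F j ⟨b, hb⟩) :
    ∃ φ : R →ₐ[k] MvPolynomial (Fin 2) k, ∀ n (r : R) (hr : r ∈ 𝒜 n), φ r = F n ⟨r, hr⟩ := by
  classical
  have hone' : F 0 (GradedMonoid.GOne.one (A := fun i => 𝒜 i)) = 1 := hone _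
  have hmul' : ∀ {i j : ℕ} (ai : 𝒜 i) (aj : 𝒜 j),
      F (i + j) (GradedMonoid.GMul.mul (A := fun i => 𝒜 i) ai aj) = F i ai * F j aj :=
    fun {i j} ai aj => hmul i j ai aj ai.2 aj.2 _
  refine ⟨(DirectSum.toAlgebra k (fun i => 𝒜 i) F hone' hmul').comp
      (DirectSum.decomposeAlgEquiv 𝒜).toAlgHom, fun n r hr => ?_⟩
  change DirectSum.toAlgebra k (fun i => 𝒜 i) F hone' hmul' (DirectSum.decompose 𝒜 r) = _
  rw [DirectSum.decompose_of_mem 𝒜 hr]
  change DirectSum.toModule k ℕ _ F (DirectSum.lof k ℕ (fun i => 𝒜 i) n ⟨r, hr⟩) = _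
  rw [DirectSum.toModule_lof]

/-- Linear maps on a homogeneous ideal from their components. -/
theorem q2_lin (G : ∀ n, (Submodule.comap (𝒜 n).subtype (J.restrictScalars k)) →ₗ[k]
      MvPolynomial (Fin 2) k) :
    ∃ η : J →ₗ[k] MvPolynomial (Fin 2) k, ∀ n (x : J) (hx : (x : R) ∈ 𝒜 n),
      η x = G n ⟨⟨x, hx⟩, x.2⟩ := by
  classical
  choose g hg using fun n => LinearMap.exists_extend (G n)
  refine ⟨(DirectSum.toModule k ℕ _ g) ∘ₗ (DirectSum.decomposeLinearEquiv 𝒜).toLinearMap ∘ₗ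
    (J.subtype.restrictScalars k), fun n x hx => ?_⟩
  change DirectSum.toModule k ℕ _ g (DirectSum.decompose 𝒜 (x : R)) = _
  rw [DirectSum.decompose_of_mem 𝒜 hx]
  change DirectSum.toModule k ℕ _ g (DirectSum.lof k ℕ (fun i => 𝒜 i) n ⟨x, hx⟩) = _
  rw [DirectSum.toModule_lof, ← hg n]
  rfl

/-- Compatibility is checked on homogeneous elements. -/
theorem q2_compat (hJ : J.IsHomogeneous 𝒜) (φ : R →ₐ[k] MvPolynomial (Fin 2) k)
    (η : J →ₗ[k] MvPolynomial (Fin 2) k)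
    (h : ∀ i j (r : R) (x : J), r ∈ 𝒜 i → (x : R) ∈ 𝒜 j → η (r • x) = φ r * η x) (r : R) (x : J) :
    η (r • x) = φ r * η x := by
  classical
  -- reduce to homogeneous `x`
  have h1 : ∀ i (r : R), r ∈ 𝒜 i → ∀ x : J, η (r • x) = φ r * η x := by
    intro i r hr x
    have hx : x = ∑ j ∈ (DirectSum.decompose 𝒜 (x : R)).support,
        (⟨(DirectSum.decompose 𝒜 (x : R) j : R), hJ j x.2⟩ : J) := by
      apply Subtype.ext
      rw [AddSubmonoidClass.coe_finsetSum]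
      exact (DirectSum.sum_support_decompose 𝒜 (x : R)).symm
    rw [hx, Finset.smul_sum, map_sum, map_sum, Finset.mul_sum]
    exact Finset.sum_congr rfl fun j _ => h i j r _ hr (DirectSum.decompose 𝒜 (x : R) j).2
  rw [← DirectSum.sum_support_decompose 𝒜 r, Finset.sum_smul, map_sum, map_sum, Finset.sum_mul]
  exact Finset.sum_congr rfl fun j _ => h1 j _ (DirectSum.decompose 𝒜 r j).2 x

end LineQ2

open LineQ2

/-- Q2. A pair on the function field of the line gives a closed pair. -/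
theorem closed_of_pair [IsAlgClosed k] [IsDomain R] (hP : IsPM 𝒜 P) (hJ : J.IsHomogeneous 𝒜)
    (hinv : IsInv 𝒜 J) {N : ℕ} {A₀ A₁ : Subalgebra k (RatFunc k)} {u v : RatFunc k}
    (hch : IsCh (RatFunc.X : RatFunc k) A₀ A₁) {φ : R →ₐ[k] RatFunc k} {η : J →ₗ[k] RatFunc k}
    (h : IsGP 𝒜 P J N A₀ A₁ u v φ η) (hv : idx A₁ v < 0) :
    ∃ (e δ : ℕ) (φ' : R →ₐ[k] MvPolynomial (Fin 2) k) (η' : J →ₗ[k] MvPolynomial (Fin 2) k),
      (e : ℤ) ≤ idx A₁ u ∧ - idx A₁ v ≤ δ ∧ IsPair 𝒜 J e δ φ' η' := by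
  classical
  obtain ⟨g, hg, rfl, rfl⟩ := hch
  obtain ⟨w, α, β, hw, hw1, hw2, hα, hβ, hαg, hβg, hu, hiu⟩ := q2_split hg h.mp.u_ne
  obtain ⟨w', α', β', hw', hw1', hw2', hα', hβ', hαg', hβg', hv', hiv⟩ := q2_split hg h.v_ne
  set ι := algebraMap (Polynomial k) (RatFunc k) with hι
  have eα := q2_ne (k := k) hα
  have eβ := q2_ne (k := k) hβ
  have eα' := q2_ne (k := k) hα'
  have eβ' := q2_ne (k := k) hβ'
  -- sections
  have hid : ∀ (n : ℕ) (r : R), ι (α ^ n) / ι (β ^ n) * (w ^ n * φ r) = u ^ n * φ r := by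
    intro n r
    rw [hu, mul_pow, div_pow, map_pow, map_pow]
    ring
  have hidη : ∀ (n : ℕ) (x : J), ι (α ^ n * α') / ι (β ^ n * β') * (w ^ n * w' * η x) =
      u ^ n * v * η x := by
    intro n x
    rw [hu, hv', mul_pow, div_pow, map_mul, map_mul, map_pow, map_pow]
    field_simp
  have hs0 : ∀ n, ∀ r ∈ 𝒜 n, ∃ Q : k[X], w ^ n * φ r = ι Q ∧
      (Q ≠ 0 → Q.natDegree + n * α.natDegree ≤ n * β.natDegree) := by
    intro n r hr
    have h1 := h.mp.sec n r hr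
    obtain ⟨Q, hQ, hd⟩ := q2_sec hg (pow_ne_zero n hα) (pow_ne_zero n hβ) (hαg.pow_left (m := n))
      (a := w ^ n * φ r) (mul_mem (pow_mem hw1 n) h1.1) (by rw [← hι, hid]; exact h1.2)
    refine ⟨Q, hQ, fun h0 => ?_⟩
    have h2 := hd h0
    rwa [natDegree_pow, natDegree_pow] at h2
  have hs1 : ∀ n, ∀ x : J, (x : R) ∈ 𝒜 n → ∃ Q : k[X], w ^ n * w' * η x = ι Q ∧
      (Q ≠ 0 → Q.natDegree + (n * α.natDegree + α'.natDegree) ≤
        n * β.natDegree + β'.natDegree) := by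
    intro n x hx
    have h1 := h.secη n x hx
    obtain ⟨Q, hQ, hd⟩ := q2_sec hg (mul_ne_zero (pow_ne_zero n hα) hα')
      (mul_ne_zero (pow_ne_zero n hβ) hβ') ((hαg.pow_left (m := n)).mul_left hαg')
      (a := w ^ n * w' * η x) (mul_mem (mul_mem (pow_mem hw1 n) hw1') h1.1)
      (by rw [← hι, hidη]; exact h1.2)
    refine ⟨Q, hQ, fun h0 => ?_⟩
    have h2 := hd h0
    rwa [natDegree_mul (pow_ne_zero n hα) hα', natDegree_mul (pow_ne_zero n hβ) hβ',
      natDegree_pow, natDegree_pow] at h2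
  -- the degrees
  obtain ⟨n0, hn0, r0, hr0, hφ0, hinv0⟩ := h.mp.unit0
  obtain ⟨n1, hn1, r1, hr1, hφ1, hinv1⟩ := h.mp.unit1
  have he : α.natDegree ≤ β.natDegree := by
    obtain ⟨Q, hQ, hd⟩ := hs0 n0 r0 hr0
    have hQ0 : Q ≠ 0 := by
      rintro rfl
      rw [map_zero] at hQ
      exact mul_ne_zero (pow_ne_zero _ hw) hφ0 hQ
    have h1 := hd hQ0
    exact Nat.le_of_mul_le_mul_left ((Nat.le_add_left _ _).trans h1) hn0
  obtain ⟨e, he'⟩ := Nat.exists_eq_add_of_le he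
  have hδ : β'.natDegree ≤ α'.natDegree := by
    rw [hiv] at hv
    omega
  obtain ⟨δ, hδ'⟩ := Nat.exists_eq_add_of_le hδ
  have hs0' : ∀ n, ∀ r ∈ 𝒜 n, ∃ Q : k[X], w ^ n * φ r = ι Q ∧ Q.natDegree ≤ e * n := by
    intro n r hr
    obtain ⟨Q, hQ, hd⟩ := hs0 n r hr
    refine ⟨Q, hQ, ?_⟩
    by_cases h0 : Q = 0
    · rw [h0]; simp
    · have h1 := hd h0
      rw [he', mul_add] at h1
      have h2 : n * e = e * n := mul_comm _ _
      omega
  have hs1' : ∀ n, ∀ x : J, (x : R) ∈ 𝒜 n → ∃ Q : k[X], w ^ n * w' * η x = ι Q ∧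
      (Q ≠ 0 → Q.natDegree + δ ≤ e * n) := by
    intro n x hx
    obtain ⟨Q, hQ, hd⟩ := hs1 n x hx
    refine ⟨Q, hQ, fun h0 => ?_⟩
    have h1 := hd h0
    rw [he', mul_add] at h1
    have h2 : n * e = e * n := mul_comm _ _
    omega
  -- the homomorphism
  let F : ∀ n, 𝒜 n →ₗ[k] MvPolynomial (Fin 2) k := fun n =>
    { toFun := fun r => (w ^ n * φ r).num.homogenize (e * n)
      map_add' := fun r s => by
        obtain ⟨Q, hQ, -⟩ := hs0' n r r.2
        obtain ⟨Q', hQ', -⟩ := hs0' n s s.2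
        rw [q2_num hQ, q2_num hQ', q2_num (Q := Q + Q')
          (by rw [Submodule.coe_add, map_add, mul_add, hQ, hQ', map_add]), homogenize_add]
      map_smul' := fun c r => by
        obtain ⟨Q, hQ, -⟩ := hs0' n r r.2
        rw [q2_num hQ, q2_num (Q := c • Q)
          (by rw [Submodule.coe_smul, map_smul, mul_smul_comm, hQ]
              exact (map_smul (IsScalarTower.toAlgHom k k[X] (RatFunc k)) c Q).symm),
          homogenize_smul, RingHom.id_apply] }
  obtain ⟨φ', hφ'⟩ := q2_hom F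
    (fun h1 => by
      change (w ^ 0 * φ 1).num.homogenize (e * 0) = 1
      rw [q2_num (Q := 1) (by rw [pow_zero, map_one, one_mul, map_one])]
      simp)
    (fun i j a b ha hb hab => by
      change (w ^ (i + j) * φ (a * b)).num.homogenize (e * (i + j)) =
        (w ^ i * φ a).num.homogenize (e * i) * (w ^ j * φ b).num.homogenize (e * j)
      obtain ⟨Q, hQ, hd⟩ := hs0' i a ha
      obtain ⟨Q', hQ', hd'⟩ := hs0' j b hb
      rw [q2_num hQ, q2_num hQ', q2_num (Q := Q * Q')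
        (by rw [map_mul, map_mul, ← hι, ← hQ, ← hQ', pow_add]; ring), mul_add,
        homogenize_mul _ _ hd hd'])
  have hφ1' : ∀ n (r : R), r ∈ 𝒜 n → φ' r = (w ^ n * φ r).num.homogenize (e * n) :=
    fun n r hr => hφ' n r hr
  -- the module map
  let G : ∀ n, (Submodule.comap (𝒜 n).subtype (J.restrictScalars k)) →ₗ[k]
      MvPolynomial (Fin 2) k := fun n =>
    { toFun := fun x => (w ^ n * w' * η ⟨x.1.1, x.2⟩).num.homogenize (e * n - δ)
      map_add' := fun x y => by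
        obtain ⟨Q, hQ, -⟩ := hs1' n ⟨x.1.1, x.2⟩ x.1.2
        obtain ⟨Q', hQ', -⟩ := hs1' n ⟨y.1.1, y.2⟩ y.1.2
        have e1 : (⟨((x + y : _) : 𝒜 n).1, (x + y).2⟩ : J) =
          (⟨x.1.1, x.2⟩ : J) + ⟨y.1.1, y.2⟩ := rfl
        rw [q2_num hQ, q2_num hQ', e1, q2_num (Q := Q + Q')
          (by rw [map_add, mul_add, hQ, hQ', map_add]), homogenize_add]
      map_smul' := fun c x => by
        obtain ⟨Q, hQ, -⟩ := hs1' n ⟨x.1.1, x.2⟩ x.1.2
        have e1 : (⟨((c • x : _) : 𝒜 n).1, (c • x).2⟩ : J) = c • (⟨x.1.1, x.2⟩ : J) := rfl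
        rw [q2_num hQ, e1, q2_num (Q := c • Q)
          (by rw [map_smul, mul_smul_comm, hQ]
              exact (map_smul (IsScalarTower.toAlgHom k k[X] (RatFunc k)) c Q).symm),
          homogenize_smul, RingHom.id_apply] }
  obtain ⟨η', hη'⟩ := q2_lin (J := J) G
  have hη1' : ∀ n (x : J), (x : R) ∈ 𝒜 n →
      η' x = (w ^ n * w' * η x).num.homogenize (e * n - δ) := fun n x hx => hη' n x hx
  refine ⟨e, δ, φ', η', ?_, ?_, ?_⟩
  · rw [hiu, he']; push_cast; linarith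
  · rw [hiv, hδ']; push_cast; linarith
  refine ⟨fun j r hr => ?_, ?_, ?_, ?_, ?_, ?_⟩
  · rw [hφ1' j r hr]
    exact isHomogeneous_homogenize _
  · -- base point free
    intro a ha
    by_cases ha1 : a 1 = 0
    · refine ⟨n1, hn1, r1, hr1, ?_⟩
      obtain ⟨Q, hQ, hd⟩ := hs0' n1 r1 hr1
      have hQ0 : Q ≠ 0 := by
        rintro rfl
        rw [map_zero] at hQ
        exact mul_ne_zero (pow_ne_zero _ hw) hφ1 hQ
      rw [hφ1' n1 r1 hr1, q2_num hQ, q2_eval_zero ha1]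
      have h1 := (q2_unit1 (g := g) hQ0 (pow_ne_zero n1 hα) (pow_ne_zero n1 hβ)
        (hβg.pow_left (m := n1)) (by rw [← hι, ← hQ, hid]; exact hinv1)).2
      rw [natDegree_pow, natDegree_pow, he', mul_add] at h1
      have h2 : n1 * e = e * n1 := mul_comm _ _
      have h3 : Q.natDegree = e * n1 := by omega
      rw [← h3, coeff_natDegree]
      refine mul_ne_zero (leadingCoeff_ne_zero.2 hQ0) (pow_ne_zero _ ?_)
      intro ha0
      apply ha
      funext i
      fin_cases i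
      · exact ha0
      · exact ha1
    · by_cases hgz : g.eval (a 0 / a 1) = 0
      · refine ⟨n1, hn1, r1, hr1, ?_⟩
        obtain ⟨Q, hQ, hd⟩ := hs0' n1 r1 hr1
        have hQ0 : Q ≠ 0 := by
          rintro rfl
          rw [map_zero] at hQ
          exact mul_ne_zero (pow_ne_zero _ hw) hφ1 hQ
        rw [hφ1' n1 r1 hr1, q2_num hQ, q2_eval_ne hd ha1]
        refine mul_ne_zero (pow_ne_zero _ ha1) ?_
        exact (q2_unit1 (g := g) hQ0 (pow_ne_zero n1 hα) (pow_ne_zero n1 hβ)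
          (hβg.pow_left (m := n1)) (by rw [← hι, ← hQ, hid]; exact hinv1)).1 _ hgz
      · refine ⟨n0, hn0, r0, hr0, ?_⟩
        obtain ⟨Q, hQ, hd⟩ := hs0' n0 r0 hr0
        have hQ0 : Q ≠ 0 := by
          rintro rfl
          rw [map_zero] at hQ
          exact mul_ne_zero (pow_ne_zero _ hw) hφ0 hQ
        rw [hφ1' n0 r0 hr0, q2_num hQ, q2_eval_ne hd ha1]
        refine mul_ne_zero (pow_ne_zero _ ha1) ?_
        refine q2_unit0 hg hQ0 ?_ _ hgz
        rw [← hι, ← hQ, mul_inv, ← inv_pow]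
        exact mul_mem (pow_mem hw2 n0) hinv0
  · -- compatibility
    refine q2_compat hJ φ' η' fun i j r x hr hx => ?_
    have hrx : ((r • x : J) : R) ∈ 𝒜 (i + j) := SetLike.mul_mem_graded hr hx
    rw [hη1' (i + j) (r • x) hrx, hφ1' i r hr, hη1' j x hx]
    obtain ⟨Q, hQ, hd⟩ := hs0' i r hr
    obtain ⟨Q', hQ', hd'⟩ := hs1' j x hx
    rw [q2_num hQ, q2_num hQ', q2_num (Q := Q * Q')
      (by rw [h.lin, map_mul, ← hι, ← hQ, ← hQ', pow_add]; ring)]
    by_cases h0 : Q' = 0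
    · rw [h0, mul_zero, homogenize_zero, homogenize_zero, mul_zero]
    · have h1 := hd' h0
      have h2 : e * (i + j) - δ = e * i + (e * j - δ) := by
        rw [mul_add]; omega
      rw [h2, homogenize_mul _ _ hd (by omega)]
  · intro j x hx m hm
    rw [hη1' j x hx]
    have h2 : e * j - δ = m := by omega
    rw [h2]
    exact isHomogeneous_homogenize _
  · intro j x hx hlt
    obtain ⟨Q', hQ', hd'⟩ := hs1' j x hx
    rw [hη1' j x hx, q2_num hQ']
    have h0 : Q' = 0 := by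
      by_contra h0
      have := hd' h0
      omega
    rw [h0, homogenize_zero]
  · -- base point free, for the ideal
    intro a ha
    obtain ⟨i0, j0, a0, b0, -, hai0, -, -, -, -, hηa0, hηi0⟩ := h.loc0
    obtain ⟨i1, j1, a1, b1, -, hai1, -, -, -, -, hηa1, hηi1⟩ := h.loc1
    by_cases ha1 : a 1 = 0
    · refine ⟨a1, ?_⟩
      obtain ⟨Q, hQ, hd⟩ := hs1' i1 a1 hai1
      have hQ0 : Q ≠ 0 := by
        rintro rfl
        rw [map_zero] at hQ
        exact mul_ne_zero (mul_ne_zero (pow_ne_zero _ hw) hw') hηa1 hQ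
      rw [hη1' i1 a1 hai1, q2_num hQ, q2_eval_zero ha1]
      have h1 := (q2_unit1 (g := g) hQ0 (mul_ne_zero (pow_ne_zero i1 hα) hα')
        (mul_ne_zero (pow_ne_zero i1 hβ) hβ') ((hβg.pow_left (m := i1)).mul_left hβg')
        (by rw [← hι, ← hQ, hidη]; exact hηi1)).2
      rw [natDegree_mul (pow_ne_zero i1 hα) hα', natDegree_mul (pow_ne_zero i1 hβ) hβ',
        natDegree_pow, natDegree_pow, he', hδ', mul_add] at h1
      have h2 : i1 * e = e * i1 := mul_comm _ _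
      have h4 := hd hQ0
      have h3 : Q.natDegree = e * i1 - δ := by omega
      rw [← h3, coeff_natDegree]
      refine mul_ne_zero (leadingCoeff_ne_zero.2 hQ0) (pow_ne_zero _ ?_)
      intro ha0
      apply ha
      funext i
      fin_cases i
      · exact ha0
      · exact ha1
    · by_cases hgz : g.eval (a 0 / a 1) = 0
      · refine ⟨a1, ?_⟩
        obtain ⟨Q, hQ, hd⟩ := hs1' i1 a1 hai1
        have hQ0 : Q ≠ 0 := by
          rintro rfl
          rw [map_zero] at hQ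
          exact mul_ne_zero (mul_ne_zero (pow_ne_zero _ hw) hw') hηa1 hQ
        have h4 := hd hQ0
        rw [hη1' i1 a1 hai1, q2_num hQ, q2_eval_ne (by omega) ha1]
        refine mul_ne_zero (pow_ne_zero _ ha1) ?_
        exact (q2_unit1 (g := g) hQ0 (mul_ne_zero (pow_ne_zero i1 hα) hα')
          (mul_ne_zero (pow_ne_zero i1 hβ) hβ') ((hβg.pow_left (m := i1)).mul_left hβg')
          (by rw [← hι, ← hQ, hidη]; exact hηi1)).1 _ hgz
      · refine ⟨a0, ?_⟩
        obtain ⟨Q, hQ, hd⟩ := hs1' i0 a0 hai0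
        have hQ0 : Q ≠ 0 := by
          rintro rfl
          rw [map_zero] at hQ
          exact mul_ne_zero (mul_ne_zero (pow_ne_zero _ hw) hw') hηa0 hQ
        have h4 := hd hQ0
        rw [hη1' i0 a0 hai0, q2_num hQ, q2_eval_ne (by omega) ha1]
        refine mul_ne_zero (pow_ne_zero _ ha1) ?_
        refine q2_unit0 hg hQ0 ?_ _ hgz
        rw [← hι, ← hQ, mul_inv, mul_inv, ← inv_pow]
        exact mul_mem (mul_mem (pow_mem hw2 i0) hw2') hηi0

end

end Vale.Agent.P292.Dv
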