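import Vale.Agent.P292.D.T2Defs

/-! # P292, Part III, block T2, Q3: the charts of the line. -/

namespace Vale.Agent.P292.Dv

open Vale.Agent.P292.Mo

universe u v w

namespace LineQ3

variable {k : Type u} [Field k]

theorem fd_of_top {K : Type u} [Field K] [Algebra k K] {F : IntermediateField k K} (h : F = ⊤) :
    FiniteDimensional F K ∧ Algebra.IsSeparable F K := by
  have hs : Function.Surjective (algebraMap F K) := fun x => ⟨⟨x, by rw [h]; trivial⟩, rfl⟩
  have h1 : FiniteDimensional F K :=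
    Module.Finite.of_surjective (Algebra.linearMap F K) hs
  refine ⟨h1, ⟨fun x => ?_⟩⟩
  obtain ⟨y, rfl⟩ := hs x
  exact isSeparable_algebraMap y

end LineQ3

/-- Q3. The charts of the line. -/
theorem line_charts {k : Type u} [Field k] [IsAlgClosed k] :
    Transcendental k (RatFunc.X : RatFunc k) ∧
    FiniteDimensional (IntermediateField.adjoin k {(RatFunc.X : RatFunc k)}) (RatFunc k) ∧
    Algebra.IsSeparable (IntermediateField.adjoin k {(RatFunc.X : RatFunc k)}) (RatFunc k) ∧
    ∀ A₀ A₁ : Subalgebra k (RatFunc k), IsCh (RatFunc.X : RatFunc k) A₀ A₁ →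
      1 ≤ chi0 A₀ A₁ := by
  have ht : Transcendental k (RatFunc.X : RatFunc k) := RatFunc.transcendental_X
  have htop : IntermediateField.adjoin k {(RatFunc.X : RatFunc k)} = ⊤ := RatFunc.adjoin_X
  obtain ⟨h1, h2⟩ := LineQ3.fd_of_top htop
  refine ⟨ht, h1, h2, ?_⟩
  rintro _ _ ⟨g, hg, rfl, rfl⟩
  have hcd : IsCD (IC (B0 (RatFunc.X : RatFunc k) g)) (IC (B1 (RatFunc.X : RatFunc k) g)) :=
    isCD_IC ht hg
  have hsup : Subalgebra.toSubmodule (IC (B0 (RatFunc.X : RatFunc k) g)) ⊔
      Subalgebra.toSubmodule (IC (B1 (RatFunc.X : RatFunc k) g)) = ⊤ := by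
    rw [eq_top_iff]
    intro x _
    obtain ⟨a, ha, b, hb, hab⟩ := b0_add_b1 ht hg (x := x) (by rw [htop]; trivial)
    rw [hab]
    exact Submodule.add_mem_sup (cd_le_IC ha) (cd_le_IC hb)
  have h3 : Module.finrank k (RatFunc k ⧸ (Subalgebra.toSubmodule
      (IC (B0 (RatFunc.X : RatFunc k) g)) ⊔
      Subalgebra.toSubmodule (IC (B1 (RatFunc.X : RatFunc k) g)))) = 0 := by
    rw [hsup]
    have : Subsingleton (RatFunc k ⧸ (⊤ : Submodule k (RatFunc k))) :=
      Submodule.Quotient.subsingleton_iff.2 rfl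
    exact Module.finrank_zero_of_subsingleton
  have h4 := hcd.fin0
  have h5 : 0 < Module.finrank k ↥(Subalgebra.toSubmodule
      (IC (B0 (RatFunc.X : RatFunc k) g)) ⊓
      Subalgebra.toSubmodule (IC (B1 (RatFunc.X : RatFunc k) g))) := by
    have : Nontrivial ↥(Subalgebra.toSubmodule
      (IC (B0 (RatFunc.X : RatFunc k) g)) ⊓
      Subalgebra.toSubmodule (IC (B1 (RatFunc.X : RatFunc k) g))) := by
      refine ⟨⟨⟨1, Subalgebra.one_mem _, Subalgebra.one_mem _⟩, 0, fun h => ?_⟩⟩
      exact one_ne_zero (congrArg Subtype.val h)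
    exact Module.finrank_pos
  rw [chi0, h3]
  omega

end Vale.Agent.P292.Dv
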