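import Vale.Agent.P292.D.Defs

/-! # P292, Part III, block T2, leaf Q4: a closed pair which is positive on the divisor has
positive degree. -/

namespace Vale.Agent.P292.Dv

open MvPolynomial

universe u v

variable {k : Type u} [Field k] {R : Type v} [CommRing R] [Algebra k R]
  {𝒜 : ℕ → Submodule k R} [GradedAlgebra 𝒜] {J : Ideal R}

/-- Q4. A closed pair has positive degree if it is positive on the divisor. -/
theorem pair_deg_pos {e δ : ℕ} {φ : R →ₐ[k] MvPolynomial (Fin 2) k}
    {η : J →ₗ[k] MvPolynomial (Fin 2) k} (hJ : J.IsHomogeneous 𝒜) (h : IsPair 𝒜 J e δ φ η)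
    (hδ : 0 < δ) : 0 < e := by
  classical
  by_contra he
  have he0 : e = 0 := Nat.eq_zero_of_not_pos he
  obtain ⟨x, hx⟩ := h.bpfη (fun _ => 1) (fun h0 => one_ne_zero (congrFun h0 0))
  apply hx
  have hc : ∀ j, ((DirectSum.decompose 𝒜 (x : R) j : 𝒜 j) : R) ∈ J := fun j => hJ j x.2
  have hs : x = ∑ j ∈ (DirectSum.decompose 𝒜 (x : R)).support,
      (⟨((DirectSum.decompose 𝒜 (x : R) j : 𝒜 j) : R), hc j⟩ : J) := by
    apply Subtype.ext
    rw [AddSubmonoidClass.coe_finsetSum]
    exact (DirectSum.sum_support_decompose 𝒜 (x : R)).symm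
  have hz : η x = 0 := by
    rw [hs, map_sum]
    refine Finset.sum_eq_zero fun j _ => ?_
    refine h.zeroη j _ (SetLike.coe_mem _) ?_
    rw [he0, Nat.zero_mul]
    exact hδ
  rw [hz, map_zero]

end Vale.Agent.P292.Dv
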