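import Vale.Agent.P292.Bn.N16
import Vale.Agent.P292.D.Defs

/-! # P292, Part III, block T2 (cone theorem in characteristic `p`): definitions. -/

namespace Vale.Agent.P292.Dv

open TensorProduct
open Vale.Agent.P292.Mo

universe u v w

section graded

variable {k : Type u} [Field k] {R : Type v} [CommRing R] [Algebra k R] {ι : Type}
  (𝒜 : ι → Submodule k R) {K : Type w} [Field K] [Algebra k K]

/-- Sections of the line bundle with cocycle `c`. -/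
def SecG (A₀ A₁ : Subalgebra k K) (c : K) : Submodule k K :=
  Subalgebra.toSubmodule A₀ ⊓ (Subalgebra.toSubmodule A₁).comap (LinearMap.mulLeft k c)

theorem mem_SecG {A₀ A₁ : Subalgebra k K} {c a : K} : a ∈ SecG A₀ A₁ c ↔ a ∈ A₀ ∧ c * a ∈ A₁ :=
  Iff.rfl

/-- Derivations which are regular on the second chart; `U` is the cocycle of the grading. -/
def Der1G (φ : R →ₐ[k] K) (A₁ : Subalgebra k K) (U : ι → K) : Submodule k (R →ₗ[k] K) where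
  carrier := {δ | δ ∈ DerS φ ∧ ∀ n, ∀ r ∈ 𝒜 n, U n * δ r ∈ A₁}
  add_mem' := fun ha hb => ⟨add_mem ha.1 hb.1, fun n r hr => by
    rw [LinearMap.add_apply, mul_add]; exact add_mem (ha.2 n r hr) (hb.2 n r hr)⟩
  zero_mem' := ⟨zero_mem _, fun n r _ => by simp⟩
  smul_mem' := fun c _ ha => ⟨Submodule.smul_mem _ c ha.1, fun n r hr => by
    rw [LinearMap.smul_apply, mul_smul_comm]; exact A₁.smul_mem (ha.2 n r hr) c⟩

theorem mem_Der1G {φ : R →ₐ[k] K} {A₁ : Subalgebra k K} {U : ι → K} {δ : R →ₗ[k] K} :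
    δ ∈ Der1G 𝒜 φ A₁ U ↔ δ ∈ DerS φ ∧ ∀ n, ∀ r ∈ 𝒜 n, U n * δ r ∈ A₁ := Iff.rfl

/-- The tangent space of the deformations with fixed values at the marks. -/
def T0G (φ : R →ₐ[k] K) (I : Submodule k K) (A₁ : Subalgebra k K) (U : ι → K) :
    Submodule k (R →ₗ[k] K) := Der0 φ I ⊓ Der1G 𝒜 φ A₁ U

/-- The obstruction space. -/
def ObG (φ : R →ₐ[k] K) (I : Submodule k K) (A₁ : Subalgebra k K) (U : ι → K) :
    Submodule k ((R →ₗ[k] K) ⧸ (Der0 φ I ⊔ Der1G 𝒜 φ A₁ U)) :=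
  (DerS φ).map (Der0 φ I ⊔ Der1G 𝒜 φ A₁ U).mkQ

/-- The output of the deformation lemma. -/
def FamOutG (A₀ A₁ : Subalgebra k K) (U : ι → K) (φ : R →ₐ[k] K) (I : Submodule k K) : Prop :=
  ∃ (D : Type u) (_ : CommRing D) (_ : Algebra k D) (_ : Algebra.FiniteType k D) (e : D →ₐ[k] k)
    (Ψ : R →ₐ[k] D ⊗[k] K),
    (∀ (m : Ideal D) [m.IsMaximal], m = RingHom.ker e →
      ¬ IsArtinianRing (Localization.AtPrime m)) ∧
    (∀ n, ∀ r ∈ 𝒜 n, Ψ r ∈ InB D (SecG A₀ A₁ (U n))) ∧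
    (∀ r, Ψ r - 1 ⊗ₜ φ r ∈ InB D I) ∧
    (∀ r, ∀ l : K →ₗ[k] k, e (lamB D l (Ψ r)) = l (φ r)) ∧
    Algebra.adjoin k {d : D | ∃ r, ∃ l : K →ₗ[k] k, lamB D l (Ψ r) = d} = ⊤

end graded

section rees

variable {k : Type u} [Field k] {R : Type v} [CommRing R] [Algebra k R]

/-- The element `x T` of the Rees algebra. -/
noncomputable def rT (J : Ideal R) (x : J) : reesAlgebra J :=
  ⟨Polynomial.monomial 1 (x : R), by
    rw [reesAlgebra.monomial_mem, pow_one]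
    exact x.2⟩

/-- The bigrading of the Rees algebra. -/
def rgr (𝒜 : ℕ → Submodule k R) (J : Ideal R) (i : ℕ × ℕ) : Submodule k (reesAlgebra J) where
  carrier := {f | ∃ c ∈ 𝒜 i.1, (f : Polynomial R) = Polynomial.monomial i.2 c}
  add_mem' := by
    rintro _ _ ⟨c, hc, h⟩ ⟨c', hc', h'⟩
    exact ⟨c + c', add_mem hc hc', by rw [Subalgebra.coe_add, h, h', map_add]⟩
  zero_mem' := ⟨0, zero_mem _, by simp⟩
  smul_mem' := by
    rintro a _ ⟨c, hc, h⟩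
    refine ⟨a • c, Submodule.smul_mem _ _ hc, ?_⟩
    rw [Subalgebra.coe_smul, h, Polynomial.smul_monomial]

/-- The cocycle of the bigrading. -/
def UU {K : Type w} [Field K] (u v : K) (i : ℕ × ℕ) : K := u ^ i.1 * v ^ i.2

end rees

section pairs

variable {k : Type u} [Field k] {R : Type v} [CommRing R] [Algebra k R]
  (𝒜 : ℕ → Submodule k R) (P : R →ₗ[k] R →ₗ[k] R) (J : Ideal R) {K : Type w} [Field K]
  [Algebra k K]

/-- A pair `(φ, η)` on the curve with the charts `A₀`, `A₁`; `u` is the cocycle of the pull back of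
the contact line bundle and `v` the cocycle of the pull back of the ideal `J`. -/
structure IsGP (N : ℕ) (A₀ A₁ : Subalgebra k K) (u v : K) (φ : R →ₐ[k] K) (η : J →ₗ[k] K) :
    Prop where
  mp : IsMp 𝒜 A₀ A₁ u φ
  v_ne : v ≠ 0
  lin : ∀ (r : R) (x : J), η (r • x) = φ r * η x
  secη : ∀ n, ∀ x : J, (x : R) ∈ 𝒜 n → η x ∈ A₀ ∧ u ^ n * v * η x ∈ A₁
  loc0 : ∃ (i j : ℕ) (a : J) (b : R), 0 < j ∧ (a : R) ∈ 𝒜 i ∧ b ∈ 𝒜 j ∧
    (∀ x ∈ J, ∃ r, b * x = r * a) ∧ φ b ≠ 0 ∧ (φ b)⁻¹ ∈ A₀ ∧ η a ≠ 0 ∧ (η a)⁻¹ ∈ A₀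
  loc1 : ∃ (i j : ℕ) (a : J) (b : R), 0 < j ∧ (a : R) ∈ 𝒜 i ∧ b ∈ 𝒜 j ∧
    (∀ x ∈ J, ∃ r, b * x = r * a) ∧ φ b ≠ 0 ∧ (u ^ j * φ b)⁻¹ ∈ A₁ ∧ η a ≠ 0 ∧
    (u ^ i * v * η a)⁻¹ ∈ A₁
  Npos : 0 < N
  frames : ∃ (x : Fin N → R) (d : Fin N → ℕ) (g : R) (x' : Fin N → R)
    (d' : Fin N → ℕ) (g' : R), IsFr0 𝒜 P A₀ φ x d g ∧ IsFr1 𝒜 P A₁ u φ x' d' g'

/-- The charts are the standard ones for the coordinate `t`. -/
def IsCh (t : K) (A₀ A₁ : Subalgebra k K) : Prop :=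
  ∃ g : Polynomial k, g ≠ 0 ∧ A₀ = IC (B0 t g) ∧ A₁ = IC (B1 t g)

/-- A degenerating family of pairs over `k[[τ]]`. -/
structure IsPF (A₀ A₁ : Subalgebra k K) (u v : K) (F : R →ₐ[k] PowerSeries A₀)
    (H : J →ₗ[k] PowerSeries A₀) : Prop where
  sec : ∀ n, ∀ r ∈ 𝒜 n, ∀ i, ((PowerSeries.coeff i (F r) : A₀) : K) ∈ Sec A₀ A₁ u n
  secη : ∀ n, ∀ x : J, (x : R) ∈ 𝒜 n → ∀ i, u ^ n * v * (PowerSeries.coeff i (H x) : A₀) ∈ A₁
  lin : ∀ (r : R) (x : J), H (r • x) = F r * H x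
  ne : ∃ n, 0 < n ∧ ∃ r ∈ 𝒜 n, PowerSeries.constantCoeff (F r) ≠ 0
  neη : ∃ x, PowerSeries.constantCoeff (H x) ≠ 0
  b0 : ∃ L, (PowerSeries.X : PowerSeries A₀) ^ L ∈
    Ideal.span {y | ∃ j : ℕ, 0 < j ∧ ∃ r ∈ 𝒜 j, y = F r}
  b0η : ∃ L, (PowerSeries.X : PowerSeries A₀) ^ L ∈ Ideal.span (Set.range H)
  b1 : ∃ L, (PowerSeries.X : PowerSeries A₁) ^ L ∈ Ideal.span {y | ∃ j : ℕ, 0 < j ∧ ∃ r ∈ 𝒜 j,
    ∀ i, ((PowerSeries.coeff i y : A₁) : K) = u ^ j * (PowerSeries.coeff i (F r) : A₀)}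
  b1η : ∃ L, (PowerSeries.X : PowerSeries A₁) ^ L ∈ Ideal.span {y | ∃ j : ℕ, ∃ x : J,
    (x : R) ∈ 𝒜 j ∧
    ∀ i, ((PowerSeries.coeff i y : A₁) : K) = u ^ j * v * (PowerSeries.coeff i (H x) : A₀)}

/-- There is no closed rational curve of degree at most `E` which is positive on the divisor. -/
def NoPos (E : ℕ) : Prop :=
  ∀ e δ : ℕ, 0 < e → e ≤ E → 0 < δ → ∀ (φ : R →ₐ[k] MvPolynomial (Fin 2) k)
    (η : J →ₗ[k] MvPolynomial (Fin 2) k), ¬ IsPair 𝒜 J e δ φ η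

/-- The local statement at one point with expansion `ex`: `F₀`, `H₀` are the central fibre,
trivialised at the point. -/
def SAt {A : Type w} [CommRing A] [Algebra k A] (ex : A →ₐ[k] PowerSeries k)
    (F₀ : ℕ → R → A → Prop) (H₀ : ℕ → J → A → Prop) : Prop :=
  ∃ β : ℕ, (∀ n, ∀ r ∈ 𝒜 n, ∀ a, F₀ n r a → (PowerSeries.X : PowerSeries k) ^ (β * n) ∣ ex a) ∧
    (∃ n, 0 < n ∧ ∃ r ∈ 𝒜 n, ∃ a, F₀ n r a ∧ PowerSeries.coeff (β * n) (ex a) ≠ 0) ∧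
    (NoPos 𝒜 J β → ∀ i, ∀ x : J, (x : R) ∈ 𝒜 i → ∀ a, H₀ i x a →
      (PowerSeries.X : PowerSeries k) ^ (β * i) ∣ ex a)

end pairs

end Vale.Agent.P292.Dv
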