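import Vale.Agent.P292.D.Loc4
import Vale.Agent.P292.D.T2Defs

/-! # Part III, block S: part 5 (the local statement at the points of a curve). -/

namespace Vale.Agent.P292.Dv

open Vale.Agent.P292.Mo

universe u v w

section sat

variable {k : Type u} [Field k] {R : Type v} [CommRing R] [Algebra k R] {𝒜 : ℕ → Submodule k R}
  [GradedAlgebra 𝒜] {J : Ideal R}

theorem constantCoeff_mapAlgHom {A B : Type*} [CommRing A] [Algebra k A] [CommRing B]
    [Algebra k B] (g : A →ₐ[k] B) (f : PowerSeries A) :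
    PowerSeries.constantCoeff (PowerSeries.mapAlgHom g f) = g (PowerSeries.constantCoeff f) := by
  rw [← PowerSeries.coeff_zero_eq_constantCoeff_apply,
    ← PowerSeries.coeff_zero_eq_constantCoeff_apply]
  exact PowerSeries.coeff_map _ _ _

theorem not_posC_of_noPos (hJ : J.IsHomogeneous 𝒜) {β : ℕ} (h : NoPos 𝒜 J β) :
    ¬ PosC 𝒜 J β := by
  intro hpos
  obtain ⟨e, δ, φ, η, h1, h2, h3, h4⟩ := hpos.pair hJ
  exact h e δ h1 h2 h3 φ η h4

/-- The local statement at a point of a curve. -/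
theorem sat_core [IsAlgClosed k] [Algebra.FiniteType k R] (hLB : IsLB 𝒜)
    (hJ : J.IsHomogeneous 𝒜) {A : Type*} [CommRing A] [Algebra k A] {F : R →ₐ[k] PowerSeries A}
    {H : ℕ → R → PowerSeries A} (hη : IsEta 𝒜 J F H)
    (hne : ∃ n, 0 < n ∧ ∃ r ∈ 𝒜 n, PowerSeries.constantCoeff (F r) ≠ 0)
    (hneη : ∃ n x, x ∈ 𝒜 n ∧ x ∈ J ∧ PowerSeries.constantCoeff (H n x) ≠ 0) {L : ℕ}
    (hL : (PowerSeries.X : PowerSeries A) ^ L ∈ imI 𝒜 F) (ex : A →ₐ[k] PowerSeries k)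
    (hex : Function.Injective ex) :
    ∃ β : ℕ, (∀ n, ∀ r ∈ 𝒜 n, (PowerSeries.X : PowerSeries k) ^ (β * n) ∣
        ex (PowerSeries.constantCoeff (F r))) ∧
      (∃ n, 0 < n ∧ ∃ r ∈ 𝒜 n, PowerSeries.coeff (β * n)
        (ex (PowerSeries.constantCoeff (F r))) ≠ 0) ∧
      (¬ PosC 𝒜 J β → ∀ n x, x ∈ 𝒜 n → x ∈ J → (PowerSeries.X : PowerSeries k) ^ (β * n) ∣
        ex (PowerSeries.constantCoeff (H n x))) := by
  obtain ⟨N, x, d, hx, hgen⟩ := exists_gens 𝒜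
  have : IsNoetherianRing R := Algebra.FiniteType.isNoetherianRing k R
  obtain ⟨M, hM⟩ := exists_genIn hJ
  let E := PowerSeries.mapAlgHom ex
  have hcc : ∀ f, PowerSeries.constantCoeff (E f) = ex (PowerSeries.constantCoeff f) :=
    fun f => constantCoeff_mapAlgHom ex f
  have hne₂ : ∀ a, a ≠ 0 → ex a ≠ 0 := fun a ha h => ha (hex (h.trans (map_zero ex).symm))
  obtain ⟨β, G, hG, j₀, hj₀, r₀, hr₀, hne₀⟩ := lead hLB hx hgen
    ((ccA k (PowerSeries k)).comp (E.comp F)) (by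
      obtain ⟨j, hj, r, hr, h⟩ := hne
      refine ⟨j, hj, r, hr, ?_⟩
      change PowerSeries.constantCoeff (E (F r)) ≠ 0
      rw [hcc]
      exact hne₂ _ h)
  have hdvd : ∀ j, ∀ r ∈ 𝒜 j, PowerSeries.X ^ (β * j) ∣
      ((ccA k (PowerSeries k)).comp (E.comp F)) r := fun j r hr => ⟨G r, hG j r hr⟩
  obtain ⟨b, hb, hb'⟩ := exists_ord (β := β) hM hdvd
    ((hη.map E).map (ccA k (PowerSeries k))) (by
      obtain ⟨j, y, hy, hy', h⟩ := hneη
      refine ⟨j, y, hy, hy', ?_⟩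
      change PowerSeries.constantCoeff (E (H j y)) ≠ 0
      rw [hcc]
      exact hne₂ _ h)
  have hGe : PowerSeries.coeff (β * j₀) (PowerSeries.constantCoeff (E (F r₀))) ≠ 0 := by
    have h1 : PowerSeries.constantCoeff (E (F r₀)) = _ := hG j₀ r₀ hr₀
    rw [h1, PowerSeries.coeff_X_pow_mul', if_pos le_rfl, Nat.sub_self,
      PowerSeries.coeff_zero_eq_constantCoeff]
    exact hne₀
  have hg : Germ 𝒜 J (E.comp F) (fun j x => E (H j x)) β (β * M) b :=
    ⟨hη.map E, hdvd, ⟨j₀, hj₀, r₀, hr₀, hGe⟩, hb, hb'⟩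
  refine ⟨β, fun n r hr => ?_, ⟨j₀, hj₀, r₀, hr₀, ?_⟩, fun hpos n y hy hy' => ?_⟩
  · rw [← hcc]; exact hdvd n r hr
  · rw [← hcc]; exact hGe
  · have hL' : PowerSeries.X ^ L ∈ imI 𝒜 (E.comp F) := by
      have h1 := imI_map F E hL
      have h2 : E (PowerSeries.X : PowerSeries A) = PowerSeries.X := PowerSeries.map_X _
      rwa [map_pow, h2] at h1
    have hab := (germ_main hLB hx hgen hM β L _ _ _ b hg hL').resolve_right hpos
    rw [← hcc]
    exact hg.dvd_of_le hab hy hy'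

theorem exists_factor_alg {A B : Type*} [CommRing A] [Algebra k A] [CommRing B] [Algebra k B]
    (g : A →ₐ[k] B) (hg : Function.Injective g) (f : R →ₐ[k] B) (h : ∀ r, f r ∈ g.range) :
    ∃ f' : R →ₐ[k] A, ∀ r, g (f' r) = f r := by
  let F₁ : R →ₐ[k] g.range := f.codRestrict g.range h
  refine ⟨((AlgEquiv.ofInjective g hg).symm : g.range →ₐ[k] A).comp F₁, fun r => ?_⟩
  have h1 : (AlgEquiv.ofInjective g hg)
      ((((AlgEquiv.ofInjective g hg).symm : g.range →ₐ[k] A).comp F₁) r) = F₁ r := by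
    simp
  have h2 := congrArg Subtype.val h1
  rw [AlgEquiv.ofInjective_apply] at h2
  exact h2

variable {P : R →ₗ[k] R →ₗ[k] R} {K : Type w} [Field K] [Algebra k K] {A₀ A₁ : Subalgebra k K}
  {u v : K}

omit [GradedAlgebra 𝒜] in
/-- The second component as a graded function. -/
theorem isEta_of_linear {A : Type*} [CommRing A] [Algebra k A] {F : R →ₐ[k] PowerSeries A}
    {H : J →ₗ[k] PowerSeries A} (h : ∀ (r : R) (x : J), H (r • x) = F r * H x) :
    ∃ H' : ℕ → R → PowerSeries A, IsEta 𝒜 J F H' ∧ ∀ j (x : J), H' j x = H x := by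
  classical
  refine ⟨fun _ x => if hx : x ∈ J then H ⟨x, hx⟩ else 0, ⟨fun j x y hx hx' hy hy' => ?_,
    fun i j r x hr hx hx' => ?_⟩, fun j x => ?_⟩
  · change (if hx : x + y ∈ J then H ⟨x + y, hx⟩ else 0) = (if hx : x ∈ J then H ⟨x, hx⟩ else 0) +
      (if hx : y ∈ J then H ⟨y, hx⟩ else 0)
    rw [dif_pos (J.add_mem hx' hy'), dif_pos hx', dif_pos hy', ← map_add]
    rfl
  · change (if hx : r * x ∈ J then H ⟨r * x, hx⟩ else 0) =
      F r * (if hx : x ∈ J then H ⟨x, hx⟩ else 0)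
    rw [dif_pos (J.mul_mem_left _ hx'), dif_pos hx', ← h]
    rfl
  · change (if hx : (x : R) ∈ J then H ⟨x, hx⟩ else 0) = H x
    rw [dif_pos x.2]

/-- A homogeneous element on which a linear map does not vanish. -/
theorem exists_homog_ne (hJ : J.IsHomogeneous 𝒜) {V : Type*} [AddCommGroup V] [Module k V]
    (f : J →ₗ[k] V) (h : ∃ x, f x ≠ 0) : ∃ j, ∃ x : J, (x : R) ∈ 𝒜 j ∧ f x ≠ 0 := by
  classical
  obtain ⟨x₀, hx₀⟩ := h
  by_contra hcon
  push Not at hcon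
  apply hx₀
  have h1 : x₀ = ∑ j ∈ (DirectSum.decompose 𝒜 (x₀ : R)).support,
      (⟨_, mem_of_homog hJ x₀.2 j⟩ : J) := by
    apply Subtype.ext
    rw [AddSubmonoidClass.coe_finsetSum]
    exact (DirectSum.sum_support_decompose 𝒜 (x₀ : R)).symm
  rw [h1, map_sum]
  exact Finset.sum_eq_zero (fun j _ => hcon j _ (SetLike.coe_mem _))

theorem isLB_of_isPM (hP : IsPM 𝒜 P) : IsLB 𝒜 := fun q hq d hd => hP.lineBundle q hq d hd

/-- S0. The local statement at the points of the first chart. -/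
theorem sAt0 [IsAlgClosed k] [IsDomain R] (hP : IsPM 𝒜 P) (hJ : J.IsHomogeneous 𝒜)
    (hinv : IsInv 𝒜 J) {F : R →ₐ[k] PowerSeries A₀} {H : J →ₗ[k] PowerSeries A₀}
    (h : IsPF 𝒜 J A₀ A₁ u v F H) (ex : A₀ →ₐ[k] PowerSeries k) (hex : Function.Injective ex)
    (hd : ∀ (n : ℕ) (s : PowerSeries k), ∃ a, PowerSeries.X ^ n ∣ ex a - s) :
    SAt 𝒜 J ex (fun _ r a => a = PowerSeries.constantCoeff (F r))
      (fun _ x a => a = PowerSeries.constantCoeff (H x)) := by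
  have := hP.finiteType
  obtain ⟨H', hH', hHH⟩ := isEta_of_linear (𝒜 := 𝒜) h.lin
  obtain ⟨L, hL⟩ := h.b0
  obtain ⟨j, x, hx, hxne⟩ := exists_homog_ne hJ ((ccA k A₀).toLinearMap ∘ₗ H) h.neη
  obtain ⟨β, h1, h2, h3⟩ := sat_core (isLB_of_isPM hP) hJ hH' h.ne
    ⟨j, x, hx, x.2, by rw [hHH]; exact hxne⟩ hL ex hex
  refine ⟨β, fun n r hr a ha => ?_, ?_, fun hno i x hx a ha => ?_⟩
  · rw [ha]; exact h1 n r hr
  · obtain ⟨n, hn, r, hr, hne⟩ := h2
    exact ⟨n, hn, r, hr, _, rfl, hne⟩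
  · rw [ha, ← hHH i]
    exact h3 (not_posC_of_noPos hJ hno) i x hx x.2

/-- S1. The local statement at the points of the second chart. -/
theorem sAt1 [IsAlgClosed k] [IsDomain R] (hP : IsPM 𝒜 P) (hJ : J.IsHomogeneous 𝒜)
    (hinv : IsInv 𝒜 J) (hu : u ≠ 0) (hv : v ≠ 0) {F : R →ₐ[k] PowerSeries A₀}
    {H : J →ₗ[k] PowerSeries A₀}
    (h : IsPF 𝒜 J A₀ A₁ u v F H) (ex : A₁ →ₐ[k] PowerSeries k) (hex : Function.Injective ex)
    (hd : ∀ (n : ℕ) (s : PowerSeries k), ∃ a, PowerSeries.X ^ n ∣ ex a - s) :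
    SAt 𝒜 J ex (fun n r a => (a : K) = u ^ n * (PowerSeries.constantCoeff (F r) : A₀))
      (fun n x a => (a : K) = u ^ n * v * (PowerSeries.constantCoeff (H x) : A₀)) := by
  classical
  have := hP.finiteType
  let E₀ : PowerSeries A₀ →ₐ[k] PowerSeries K := PowerSeries.mapAlgHom A₀.val
  let E₁ : PowerSeries A₁ →ₐ[k] PowerSeries K := PowerSeries.mapAlgHom A₁.val
  have hc₀ : ∀ f i, PowerSeries.coeff i (E₀ f) = ((PowerSeries.coeff i f : A₀) : K) :=
    fun f i => PowerSeries.coeff_map _ _ _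
  have hc₁ : ∀ f i, PowerSeries.coeff i (E₁ f) = ((PowerSeries.coeff i f : A₁) : K) :=
    fun f i => PowerSeries.coeff_map _ _ _
  have hE₁ : Function.Injective E₁ := by
    intro f g hfg
    ext i
    rw [← hc₁, ← hc₁, hfg]
  have hran : ∀ f : PowerSeries K, (∀ i, PowerSeries.coeff i f ∈ A₁) → f ∈ E₁.range := by
    intro f hf
    refine ⟨PowerSeries.mk fun i => ⟨PowerSeries.coeff i f, hf i⟩, ?_⟩
    ext i
    change PowerSeries.coeff i (E₁ _) = _
    rw [hc₁, PowerSeries.coeff_mk]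
  -- the family on the second chart
  obtain ⟨G, hG⟩ := bubble_twist 𝒜 (E₀.comp F) (PowerSeries.C u)
  have hGh : ∀ n, ∀ r ∈ 𝒜 n, G r ∈ E₁.range := by
    intro n r hr
    refine hran _ fun i => ?_
    rw [hG n r hr, AlgHom.comp_apply, ← map_pow, PowerSeries.coeff_C_mul, hc₀]
    exact (mem_Sec.mp (h.sec n r hr i)).2
  obtain ⟨F₁, hF₁⟩ := exists_factor_alg E₁ hE₁ G (by
    intro r
    rw [← DirectSum.sum_support_decompose 𝒜 r, map_sum]
    exact Subalgebra.sum_mem _ fun n _ => hGh n _ (SetLike.coe_mem _))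
  have hF₁' : ∀ n, ∀ r ∈ 𝒜 n, ∀ i, ((PowerSeries.coeff i (F₁ r) : A₁) : K) =
      u ^ n * (PowerSeries.coeff i (F r) : A₀) := by
    intro n r hr i
    rw [← hc₁, hF₁, hG n r hr, AlgHom.comp_apply, ← map_pow, PowerSeries.coeff_C_mul, hc₀]
  have h1 : ∀ n x, ∃ y : PowerSeries A₁, ∀ (hx : x ∈ 𝒜 n) (hx' : x ∈ J),
      E₁ y = PowerSeries.C (u ^ n * v) * E₀ (H ⟨x, hx'⟩) := by
    intro n x
    by_cases hx : x ∈ 𝒜 n ∧ x ∈ J
    · obtain ⟨y, hy⟩ := hran (PowerSeries.C (u ^ n * v) * E₀ (H ⟨x, hx.2⟩)) (fun i => by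
        rw [PowerSeries.coeff_C_mul, hc₀]
        exact h.secη n ⟨x, hx.2⟩ hx.1 i)
      exact ⟨y, fun _ _ => hy⟩
    · exact ⟨0, fun h1 h2 => absurd ⟨h1, h2⟩ hx⟩
  choose H₁ hH₁ using h1
  have hη₁ : IsEta 𝒜 J F₁ H₁ := by
    refine ⟨fun j x y hx hx' hy hy' => hE₁ ?_, fun i j r x hr hx hx' => hE₁ ?_⟩
    · rw [hH₁ j _ ((𝒜 j).add_mem hx hy) (J.add_mem hx' hy'), map_add, hH₁ j x hx hx',
        hH₁ j y hy hy', ← mul_add, ← map_add, ← map_add]
      rfl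
    · rw [hH₁ (i + j) _ (SetLike.mul_mem_graded hr hx) (J.mul_mem_left _ hx'), map_mul E₁,
        hH₁ j x hx hx', hF₁, hG i r hr, AlgHom.comp_apply]
      have h2 : (⟨r * x, J.mul_mem_left _ hx'⟩ : J) = r • ⟨x, hx'⟩ := rfl
      have h3 : (PowerSeries.C (u ^ (i + j) * v) : PowerSeries K) =
          PowerSeries.C u ^ i * PowerSeries.C (u ^ j * v) := by
        rw [← map_pow, ← map_mul]
        congr 1
        ring
      rw [h2, h.lin, map_mul E₀, h3]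
      ring
  have hcH : ∀ n (x : J), (x : R) ∈ 𝒜 n → ((PowerSeries.constantCoeff (H₁ n x) : A₁) : K) =
      u ^ n * v * (PowerSeries.constantCoeff (H x) : A₀) := by
    intro n x hx
    rw [← PowerSeries.coeff_zero_eq_constantCoeff_apply, ← hc₁, hH₁ n x hx x.2,
      PowerSeries.coeff_C_mul, hc₀, PowerSeries.coeff_zero_eq_constantCoeff_apply]
  have hcF : ∀ n, ∀ r ∈ 𝒜 n, ((PowerSeries.constantCoeff (F₁ r) : A₁) : K) =
      u ^ n * (PowerSeries.constantCoeff (F r) : A₀) := by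
    intro n r hr
    rw [← PowerSeries.coeff_zero_eq_constantCoeff_apply,
      ← PowerSeries.coeff_zero_eq_constantCoeff_apply]
    exact hF₁' n r hr 0
  obtain ⟨L, hL⟩ := h.b1
  have hL₁ : (PowerSeries.X : PowerSeries A₁) ^ L ∈ imI 𝒜 F₁ := by
    refine Ideal.span_mono ?_ hL
    rintro y ⟨j, hj, r, hr, hy⟩
    refine ⟨j, hj, r, hr, ?_⟩
    ext i
    rw [hy i, hF₁' j r hr i]
  obtain ⟨j, x, hx, hxne⟩ := exists_homog_ne hJ ((ccA k A₀).toLinearMap ∘ₗ H) h.neη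
  have hxne' : PowerSeries.constantCoeff (H x) ≠ 0 := hxne
  obtain ⟨β, h1, h2, h3⟩ := sat_core (isLB_of_isPM hP) hJ hη₁ (by
      obtain ⟨n, hn, r, hr, hne⟩ := h.ne
      refine ⟨n, hn, r, hr, fun h0 => hne ?_⟩
      have h2 := hcF n r hr
      rw [h0] at h2
      have h3 := (mul_eq_zero.mp h2.symm).resolve_left (pow_ne_zero _ hu)
      exact Subtype.ext h3) ⟨j, x, hx, x.2, fun h0 => hxne' (by
      have h2 := hcH j x hx
      rw [h0] at h2
      have h3 := (mul_eq_zero.mp h2.symm).resolve_left (mul_ne_zero (pow_ne_zero _ hu) hv)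
      exact Subtype.ext h3)⟩ hL₁ ex hex
  refine ⟨β, fun n r hr a ha => ?_, ?_, fun hno i x hx a ha => ?_⟩
  · have h4 : a = PowerSeries.constantCoeff (F₁ r) := Subtype.ext (by rw [ha, hcF n r hr])
    rw [h4]; exact h1 n r hr
  · obtain ⟨n, hn, r, hr, hne⟩ := h2
    exact ⟨n, hn, r, hr, _, hcF n r hr, hne⟩
  · have h4 : a = PowerSeries.constantCoeff (H₁ i x) := Subtype.ext (by rw [ha, hcH i x hx])
    rw [h4]
    exact h3 (not_posC_of_noPos hJ hno) i x hx x.2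

end sat

end Vale.Agent.P292.Dv
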