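import Vale.Agent.P292.D.T2Defs

/-! # C6: zero count, bound of the base multiplicity. -/

namespace Vale.Agent.P292.Dv

open TensorProduct
open Vale.Agent.P292.Mo

set_option linter.unusedSectionVars false

universe u v w

namespace MultLe

variable {k : Type u} [Field k] {K : Type w} [Field K] [Algebra k K] {A₀ A₁ : Subalgebra k K}

/-- The order of zero at a point of the second chart is at most the index. -/
theorem order_le (hC : IsCD A₀ A₁) {a : K} (ha : a ∈ A₁) (ha0 : a ≠ 0)
    (ex : A₁ →ₐ[k] PowerSeries k)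
    (hs : ∀ (n : ℕ) (s : PowerSeries k), ∃ x, (PowerSeries.X : PowerSeries k) ^ n ∣ ex x - s)
    (b : ℕ) (hb : (PowerSeries.X : PowerSeries k) ^ b ∣ ex ⟨a, ha⟩) : (b : ℤ) ≤ idx A₁ a := by
  classical
  rw [hC.idx_of_mem ha]
  have hfin := hC.finQ a ha ha0
  let T : ↥A₁ →ₗ[k] (Fin b → k) :=
    LinearMap.pi fun j => (PowerSeries.coeff (j : ℕ)) ∘ₗ ex.toLinearMap
  have hT : ∀ x (j : Fin b), T x j = PowerSeries.coeff (j : ℕ) (ex x) := fun x j => rfl
  have hker : ((Subalgebra.toSubmodule A₁).map (LinearMap.mulLeft k a)).comap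
      (Subalgebra.toSubmodule A₁).subtype ≤ LinearMap.ker T := by
    rintro x ⟨y, hy, hxy⟩
    rw [LinearMap.mem_ker]
    funext j
    rw [hT]
    have h3 : x = (⟨a, ha⟩ : A₁) * ⟨y, hy⟩ := Subtype.ext hxy.symm
    have h4 : (PowerSeries.X : PowerSeries k) ^ b ∣ ex x := by
      rw [h3, map_mul]
      exact Dvd.dvd.mul_right hb _
    exact PowerSeries.X_pow_dvd_iff.mp h4 _ j.2
  have hTs : Function.Surjective T := by
    intro y
    obtain ⟨x, hx⟩ := hs b (PowerSeries.mk fun j => if h : j < b then y ⟨j, h⟩ else 0)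
    refine ⟨x, ?_⟩
    funext j
    rw [hT]
    have h5 := PowerSeries.X_pow_dvd_iff.mp hx j j.2
    rw [map_sub, PowerSeries.coeff_mk, dif_pos j.2, sub_eq_zero] at h5
    exact h5
  let T' : (↥(Subalgebra.toSubmodule A₁) ⧸
      ((Subalgebra.toSubmodule A₁).map (LinearMap.mulLeft k a)).comap
        (Subalgebra.toSubmodule A₁).subtype) →ₗ[k] (Fin b → k) :=
    Submodule.liftQ _ T hker
  have hT's : Function.Surjective T' := by
    intro y
    obtain ⟨x, hx⟩ := hTs y
    exact ⟨Submodule.Quotient.mk x, hx⟩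
  have h6 := LinearMap.finrank_le_finrank_of_surjective hT's
  rw [Module.finrank_fin_fun] at h6
  exact_mod_cast h6

theorem aux_int {n β : ℕ} {i : ℤ} (hn : 0 < n) (h : ((β * n + 1 : ℕ) : ℤ) ≤ n * i) :
    (β : ℤ) + 1 ≤ i := by
  by_contra hcon
  push Not at hcon
  have h1 : i ≤ β := by omega
  have h2 : (n : ℤ) * i ≤ n * β := mul_le_mul_of_nonneg_left h1 (by positivity)
  push_cast at h
  nlinarith

end MultLe

section C

variable {k : Type u} [Field k] {R : Type v} [CommRing R] [Algebra k R]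
  {𝒜 : ℕ → Submodule k R} [GradedAlgebra 𝒜] {P : R →ₗ[k] R →ₗ[k] R} {J : Ideal R}
  {K : Type w} [Field K] [Algebra k K]

/-- C6. Zero count: bound of the base multiplicity (`E + 1` is excluded when there are two
marks). -/
theorem mult_le [IsAlgClosed k] {t : K} (ht : Transcendental k t)
    [FiniteDimensional (IntermediateField.adjoin k {t}) K]
    [Algebra.IsSeparable (IntermediateField.adjoin k {t}) K]
    {A₀ A₁ : Subalgebra k K} {u v : K} (hu : u ≠ 0) (hch : IsCh t A₀ A₁)
    {F : R →ₐ[k] PowerSeries A₀} {H : J →ₗ[k] PowerSeries A₀} (hF : IsPF 𝒜 J A₀ A₁ u v F H)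
    {c : Fin 2 → (A₀ →ₐ[k] k)} (hc : Function.Injective c)
    (hm : ∀ l, ∀ j, 0 < j → ∀ r ∈ 𝒜 j, c l (PowerSeries.constantCoeff (F r)) = 0) :
    (∀ ex : A₀ →ₐ[k] PowerSeries k, Function.Injective ex →
      (∀ (n : ℕ) (s : PowerSeries k), ∃ a, PowerSeries.X ^ n ∣ ex a - s) → ∀ β : ℕ,
      (∀ n, ∀ r ∈ 𝒜 n, (PowerSeries.X : PowerSeries k) ^ (β * n) ∣
        ex (PowerSeries.constantCoeff (F r))) → (β : ℤ) + 1 ≤ idx A₁ u) ∧
    (∀ ex : A₁ →ₐ[k] PowerSeries k, Function.Injective ex →
      (∀ (n : ℕ) (s : PowerSeries k), ∃ a, PowerSeries.X ^ n ∣ ex a - s) → ∀ β : ℕ,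
      (∀ n, ∀ r ∈ 𝒜 n, ∀ a : A₁, (a : K) = u ^ n * (PowerSeries.constantCoeff (F r) : A₀) →
        (PowerSeries.X : PowerSeries k) ^ (β * n) ∣ ex a) → (β : ℤ) + 1 ≤ idx A₁ u) := by
  classical
  obtain ⟨g, hg, rfl, rfl⟩ := hch
  have cd : IsCD (IC (B0 t g)) (IC (B1 t g)) := isCD_IC ht hg
  obtain ⟨n, hn, r, hr, hne⟩ := hF.ne
  set a : IC (B0 t g) := PowerSeries.constantCoeff (F r) with ha
  have ha0 : (a : K) ≠ 0 := fun h => hne (Subtype.ext h)
  have hsec : (a : K) ∈ Sec (IC (B0 t g)) (IC (B1 t g)) u n := by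
    have := hF.sec n r hr 0
    rwa [PowerSeries.coeff_zero_eq_constantCoeff_apply] at this
  refine ⟨?_, ?_⟩
  · intro ex hex hd β hβ
    let c₀ : IC (B0 t g) →ₐ[k] k :=
      { toRingHom := (PowerSeries.constantCoeff (R := k)).comp (ex : IC (B0 t g) →+* PowerSeries k)
        commutes' := fun x => by
          change PowerSeries.constantCoeff (ex (algebraMap k _ x)) = x
          rw [ex.commutes, PowerSeries.algebraMap_apply, PowerSeries.constantCoeff_C]
          rfl }
    have hc₀ : ∀ x, PowerSeries.constantCoeff (ex x) = c₀ x := fun x => rfl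
    obtain ⟨l, hl⟩ : ∃ l, c₀ ≠ c l := by
      by_contra hcon
      push Not at hcon
      have := hc ((hcon 0).symm.trans (hcon 1))
      exact absurd this (by decide)
    obtain ⟨ex', -, hexc, hexd⟩ := expansion_IC ht hg (c l)
    have hinj : Function.Injective ![c₀, c l] := by
      intro i j hij
      fin_cases i <;> fin_cases j
      · rfl
      · exact absurd hij hl
      · exact absurd hij.symm hl
      · rfl
    have key := Ct.sum_order_le cd hu hsec ha0 ![c₀, c l] hinj ![ex, ex']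
      (by
        intro i x
        fin_cases i
        · exact hc₀ x
        · exact hexc x)
      (by
        intro i
        fin_cases i
        · exact hd
        · exact hexd) ![β * n, 1]
      (by
        intro i
        fin_cases i
        · exact hβ n r hr
        · change (PowerSeries.X : PowerSeries k) ^ 1 ∣ ex' a
          rw [pow_one, PowerSeries.X_dvd_iff, hexc]
          exact hm l n hn r hr)
    rw [Fin.sum_univ_two] at key
    exact MultLe.aux_int hn key
  · intro ex hex hd β hβ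
    obtain ⟨ex', -, hexc, hexd⟩ := expansion_IC ht hg (c 0)
    -- a zero in the first chart
    have h1 : (a : K) ∈ Sec (IC (B0 t g)) (IC (B1 t g)) (a : K)⁻¹ 1 := by
      refine mem_Sec.2 ⟨a.2, ?_⟩
      rw [pow_one, inv_mul_cancel₀ ha0]
      exact one_mem _
    have hinj : Function.Injective (fun _ : Fin 1 => c 0) := fun i j _ => Subsingleton.elim i j
    have key1 := Ct.sum_order_le cd (inv_ne_zero ha0) h1 ha0 (fun _ : Fin 1 => c 0) hinj
      (fun _ => ex') (fun _ x => hexc x) (fun _ => hexd) (fun _ => 1)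
      (by
        intro i
        change (PowerSeries.X : PowerSeries k) ^ 1 ∣ ex' a
        rw [pow_one, PowerSeries.X_dvd_iff, hexc]
        exact hm 0 n hn r hr)
    rw [cd.idx_inv ha0] at key1
    have h2 : u ^ n * (a : K) ∈ IC (B1 t g) := (mem_Sec.1 hsec).2
    have h3 : u ^ n * (a : K) ≠ 0 := mul_ne_zero (pow_ne_zero n hu) ha0
    have key2 := MultLe.order_le cd h2 h3 ex hd (β * n) (hβ n r hr ⟨_, h2⟩ rfl)
    rw [cd.idx_mul (pow_ne_zero n hu) ha0, cd.idx_pow hu] at key2
    refine MultLe.aux_int hn ?_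
    simp only [Finset.univ_unique, Finset.sum_const, Finset.card_singleton, smul_eq_mul, mul_one,
      Nat.cast_one, one_mul] at key1
    push_cast at key2 ⊢
    linarith

end C

end Vale.Agent.P292.Dv
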