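import Vale.Agent.P292.D.T2Defs

/-! # P292, Part III, block T2, leaf C7: the degree of the divisor is bounded by the degree of the
curve. -/

namespace Vale.Agent.P292.Dv

open Vale.Agent.P292.Mo

universe u v w

section C

variable {k : Type u} [Field k] {R : Type v} [CommRing R] [Algebra k R]
  {𝒜 : ℕ → Submodule k R} [GradedAlgebra 𝒜] {P : R →ₗ[k] R →ₗ[k] R} {J : Ideal R}

/-- C7. The degree of the divisor is bounded by the degree of the curve. -/
theorem neg_idx_le [IsAlgClosed k] [Algebra.FiniteType k R] (hJ : J.IsHomogeneous 𝒜) :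
    ∃ κ : ℕ, ∀ {K : Type w} [Field K] [Algebra k K] {A₀ A₁ : Subalgebra k K}, IsCD A₀ A₁ →
      ∀ {N : ℕ} {u v : K} {φ : R →ₐ[k] K} {η : J →ₗ[k] K}, IsGP 𝒜 P J N A₀ A₁ u v φ η →
      0 ≤ idx A₁ u ∧ - idx A₁ v ≤ κ * idx A₁ u := by
  classical
  have hN : IsNoetherianRing R := Algebra.FiniteType.isNoetherianRing k R
  obtain ⟨S, hS⟩ : J.FG := IsNoetherian.noetherian J
  have hSJ : ∀ x ∈ S, x ∈ J := fun x hx => by
    rw [← hS]
    exact Ideal.subset_span hx
  refine ⟨S.sup fun x => (DirectSum.decompose 𝒜 x).support.sup id, ?_⟩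
  intro K _ _ A₀ A₁ hcd N u v φ η h
  have hu := h.mp.u_ne
  have hv := h.v_ne
  have h1 : 0 ≤ idx A₁ u := by
    obtain ⟨n, hn, r, hr, hr0, -⟩ := h.mp.unit0
    have h2 := h.mp.sec n r hr
    rw [mem_Sec] at h2
    have h3 : 0 ≤ idx A₁ (u ^ n * φ r) := by
      rw [hcd.idx_of_mem h2.2]
      exact Int.natCast_nonneg _
    rw [hcd.idx_mul (pow_ne_zero n hu) hr0, hcd.idx_pow hu] at h3
    have h4 := hcd.idx_le h2.1 hr0
    have hn' : (0 : ℤ) < n := by exact_mod_cast hn
    by_contra hneg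
    have h5 : (n : ℤ) * idx A₁ u < 0 := mul_neg_of_pos_of_neg hn' (not_le.1 hneg)
    omega
  refine ⟨h1, ?_⟩
  obtain ⟨i, x, hx, hi, hx0⟩ : ∃ (i : ℕ) (x : J), (x : R) ∈ 𝒜 i ∧
      i ≤ (S.sup fun x => (DirectSum.decompose 𝒜 x).support.sup id) ∧ η x ≠ 0 := by
    by_contra hcon
    push Not at hcon
    have hz : ∀ x ∈ S, ∀ hx : x ∈ J, η ⟨x, hx⟩ = 0 := by
      intro x hxS hx
      have e1 : (⟨x, hx⟩ : J) = ∑ i ∈ (DirectSum.decompose 𝒜 x).support,
          (⟨(DirectSum.decompose 𝒜 x i : R), hJ i hx⟩ : J) := by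
        apply Subtype.ext
        rw [AddSubmonoidClass.coe_finsetSum]
        exact (DirectSum.sum_support_decompose 𝒜 x).symm
      rw [e1, map_sum]
      refine Finset.sum_eq_zero fun i hi => ?_
      refine hcon i _ (DirectSum.decompose 𝒜 x i).2 ?_
      exact (Finset.le_sup (f := id) hi).trans
        (Finset.le_sup (f := fun x => (DirectSum.decompose 𝒜 x).support.sup id) hxS)
    have hall : ∀ x, ∀ hx : x ∈ J, η ⟨x, hx⟩ = 0 := by
      intro x hx
      have hx' : x ∈ Ideal.span (S : Set R) := by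
        rw [show Ideal.span (S : Set R) = J from hS]
        exact hx
      have hsub : Ideal.span (S : Set R) ≤ J := le_of_eq hS
      revert hx
      induction hx' using Submodule.span_induction with
      | mem x hxS => exact hz x hxS
      | zero =>
        intro hx
        exact map_zero η
      | add a b ha hb iha ihb =>
        intro hx
        have e1 : (⟨a + b, hx⟩ : J) = ⟨a, hsub ha⟩ + ⟨b, hsub hb⟩ := rfl
        rw [e1, map_add, iha (hsub ha), ihb (hsub hb), add_zero]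
      | smul r a ha iha =>
        intro hx
        have e1 : (⟨r • a, hx⟩ : J) = r • ⟨a, hsub ha⟩ := rfl
        rw [e1, h.lin, iha (hsub ha), mul_zero]
    obtain ⟨_, _, a, _, _, _, _, _, _, _, ha0, _⟩ := h.loc0
    exact ha0 (hall a a.2)
  have h2 := h.secη i x hx
  have h3 : 0 ≤ idx A₁ (u ^ i * v * η x) := by
    rw [hcd.idx_of_mem h2.2]
    exact Int.natCast_nonneg _
  rw [hcd.idx_mul (mul_ne_zero (pow_ne_zero i hu) hv) hx0, hcd.idx_mul (pow_ne_zero i hu) hv,
    hcd.idx_pow hu] at h3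
  have h4 := hcd.idx_le h2.1 hx0
  have h5 : (i : ℤ) * idx A₁ u ≤
      ((S.sup fun x => (DirectSum.decompose 𝒜 x).support.sup id : ℕ) : ℤ) * idx A₁ u :=
    mul_le_mul_of_nonneg_right (by exact_mod_cast hi) h1
  linarith

end C

end Vale.Agent.P292.Dv
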