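import Vale.Agent.P292.Bn.N13

/-! # From a family of pairs to a Laurent family of pairs. -/

namespace Vale.Agent.P292.Dv

open TensorProduct
open Vale.Agent.P292.Mo Vale.Agent.P292.Mo.Sc Vale.Agent.P292.Mo.Fm

universe u v w x y

section cert

variable {k : Type u} [Field k] {K : Type w} [Field K] [Algebra k K]
  {A₀ A₁ : Subalgebra k K} {D : Type x} [CommRing D] [Algebra k D]

/-- A certificate of base point freeness for a family of sections. -/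
theorem pf_cert [IsFractionRing A₀ K]
    (P1 : ∀ V : ValuationSubring K, (∀ c : k, algebraMap k K c ∈ V) →
      (∀ a ∈ A₀, a ∈ V) ∨ (∀ a ∈ A₁, a ∈ V))
    (P2 : ∀ 𝔭 : Ideal A₀, 𝔭.IsPrime → 𝔭 ≠ ⊥ → Function.Surjective (algebraMap k (A₀ ⧸ 𝔭)))
    (e : D →ₐ[k] k) {Q : Type*} (g : Q → D ⊗[k] K) (t : Q → K)
    (h0 : ∀ q, ∃ y : D ⊗[k] A₀, incB D A₀ y = g q)
    (h1 : ∀ q, ∃ y : D ⊗[k] A₁, incB D A₁ y = (1 ⊗ₜ t q) * g q)
    (u0 : ∃ q, evT e K (g q) ≠ 0 ∧ (evT e K (g q))⁻¹ ∈ A₀)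
    (u1 : ∃ q, t q ≠ 0 ∧ evT e K (g q) ≠ 0 ∧ (t q * evT e K (g q))⁻¹ ∈ A₁) :
    ∃ h : D, e h ≠ 0 ∧ h ⊗ₜ[k] (1 : A₀) ∈ Ideal.span {y | ∃ q, incB D A₀ y = g q} := by
  have P2' : ∀ p : Ideal A₀, p.IsPrime → p ≠ ⊥ →
      ∀ a : A₀, ∃ c : k, a - algebraMap k A₀ c ∈ p := by
    intro p hp hp0 a
    obtain ⟨c, hc⟩ := P2 p hp hp0 (Ideal.Quotient.mk p a)
    refine ⟨c, ?_⟩
    rw [← Ideal.Quotient.eq_zero_iff_mem, map_sub, ← hc]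
    exact sub_self _
  refine exists_bpf_cert A₀ A₁ P1 P2' e (Ideal.span {y | ∃ q, incB D A₀ y = g q})
    (Ideal.span {y | ∃ q, incB D A₁ y = (1 ⊗ₜ t q) * g q}) ?_ ?_ ?_
  · rw [Ideal.map_span, Ideal.span_le]
    rintro _ ⟨y, ⟨q, hq⟩, rfl⟩
    obtain ⟨y0, hy0⟩ := h0 q
    have h2 : (Algebra.TensorProduct.map (AlgHom.id k D) A₁.val) y =
        (1 ⊗ₜ t q) * (Algebra.TensorProduct.map (AlgHom.id k D) A₀.val) y0 := by
      have h3 : incB D A₁ y = (1 ⊗ₜ t q) * incB D A₀ y0 := by rw [hq, hy0]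
      exact h3
    rw [SetLike.mem_coe, h2]
    exact Ideal.mul_mem_left _ _ (Ideal.mem_map_of_mem _ (Ideal.subset_span ⟨q, hy0⟩))
  · obtain ⟨q, hq0, hqA⟩ := u0
    obtain ⟨y0, hy0⟩ := h0 q
    refine Ideal.eq_top_of_isUnit_mem _ (Ideal.mem_map_of_mem _
      (Ideal.subset_span ⟨q, hy0⟩)) ?_
    refine IsUnit.of_mul_eq_one ⟨(evT e K (g q))⁻¹, hqA⟩ (Subtype.ext ?_)
    change ((evT e A₀ y0 : A₀) : K) * (evT e K (g q))⁻¹ = 1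
    rw [← evT_incB, hy0, mul_inv_cancel₀ hq0]
  · obtain ⟨q, hqt, hq0, hqA⟩ := u1
    obtain ⟨y1, hy1⟩ := h1 q
    refine Ideal.eq_top_of_isUnit_mem _ (Ideal.mem_map_of_mem _
      (Ideal.subset_span ⟨q, hy1⟩)) ?_
    refine IsUnit.of_mul_eq_one ⟨(t q * evT e K (g q))⁻¹, hqA⟩ (Subtype.ext ?_)
    change ((evT e A₁ y1 : A₁) : K) * (t q * evT e K (g q))⁻¹ = 1
    rw [← evT_incB, hy1, map_mul, evT_tmul, map_one, map_one, one_mul,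
      mul_inv_cancel₀ (mul_ne_zero hqt hq0)]

theorem pf_tmul_mem {n : ℕ} {t : K} {z : D ⊗[k] K} (hz : z ∈ InB D (Sec A₀ A₁ t n)) :
    (1 ⊗ₜ (t ^ n)) * z ∈ InB D (Subalgebra.toSubmodule A₁) := by
  refine InB_induction D
    (p := fun y => (1 ⊗ₜ (t ^ n)) * y ∈ InB D (Subalgebra.toSubmodule A₁)) ?_ ?_ ?_ hz
  · rw [mul_zero]; exact zero_mem _
  · intro b v hv
    rw [Algebra.TensorProduct.tmul_mul_tmul]
    exact tmul_mem_InB D _ (mem_Sec.mp hv).2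
  · intro x y hx hy
    rw [mul_add]; exact add_mem hx hy

end cert

section pf1

variable {k : Type u} [Field k] {R : Type v} [CommRing R] [Algebra k R]
  {𝒜 : ℕ → Submodule k R} [GradedAlgebra 𝒜] {K : Type w} [Field K] [Algebra k K]
  {A₀ A₁ : Subalgebra k K} {u v : K} {J : Ideal R} {D : Type x} [CommRing D] [Algebra k D]
  {S : Type y} [CommRing S] [Algebra k S] {ρ : R →ₐ[k] S} {T : J →ₗ[k] S} {Φ : S →ₐ[k] K}

/-- **From a family of pairs to a Laurent family of pairs.** -/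
theorem pf_laurent [IsAlgClosed k] (mp : IsMp 𝒜 A₀ A₁ u (Φ.comp ρ)) [IsFractionRing A₀ K]
    (P1 : ∀ V : ValuationSubring K, (∀ c : k, algebraMap k K c ∈ V) →
      (∀ a ∈ A₀, a ∈ V) ∨ (∀ a ∈ A₁, a ∈ V))
    (P2 : ∀ 𝔭 : Ideal A₀, 𝔭.IsPrime → 𝔭 ≠ ⊥ → Function.Surjective (algebraMap k (A₀ ⧸ 𝔭)))
    [IsFractionRing A₁ K]
    (P3 : ∀ 𝔭 : Ideal A₁, 𝔭.IsPrime → 𝔭 ≠ ⊥ → Function.Surjective (algebraMap k (A₁ ⧸ 𝔭)))
    (hST : Algebra.adjoin k (Set.range ρ ∪ Set.range T) = ⊤) (hJ : J.IsHomogeneous 𝒜) (hv : v ≠ 0)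
    (unit0 : ∃ n, ∃ x : J, (x : R) ∈ 𝒜 n ∧ Φ (T x) ≠ 0 ∧ (Φ (T x))⁻¹ ∈ A₀)
    (unit1 : ∃ n, ∃ x : J, (x : R) ∈ 𝒜 n ∧ Φ (T x) ≠ 0 ∧ (v * u ^ n * Φ (T x))⁻¹ ∈ A₁)
    {ι : Type*} (c : ι → (A₀ →ₐ[k] k)) (w : ι → (S →ₐ[k] k))
    (hw : ∀ l s, ∃ h : Φ s ∈ A₀, w l s = c l ⟨Φ s, h⟩)
    (I : Submodule k K) (hI : ∀ a ∈ I, ∃ h : a ∈ A₀, ∀ l, c l ⟨a, h⟩ = 0)
    [Algebra.FiniteType k D] (e : D →ₐ[k] k)
    (hart : ∀ (m : Ideal D) [m.IsMaximal], m = RingHom.ker e →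
      ¬ IsArtinianRing (Localization.AtPrime m))
    (Ψ : S →ₐ[k] D ⊗[k] K) (hsec : ∀ n, ∀ r ∈ 𝒜 n, Ψ (ρ r) ∈ InB D (Sec A₀ A₁ u n))
    (hsecT : ∀ n, ∀ x : J, (x : R) ∈ 𝒜 n → Ψ (T x) ∈ InB D (Sec A₀ A₁ (v * u ^ n) 1))
    (hmark : ∀ s, Ψ s - 1 ⊗ₜ Φ s ∈ InB D I) (he : ∀ s, evT e K (Ψ s) = Φ s)
    (hD : Algebra.adjoin k {d : D | ∃ s, ∃ l : K →ₗ[k] k, lamB D l (Ψ s) = d} = ⊤) :
    ∃ F : S →ₐ[k] LaurentSeries A₀,
      (∀ n, ∀ r ∈ 𝒜 n, ∀ i, (((F (ρ r)).coeff i : A₀) : K) ∈ Sec A₀ A₁ u n) ∧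
      (∀ n, ∀ x : J, (x : R) ∈ 𝒜 n → ∀ i,
        (((F (T x)).coeff i : A₀) : K) ∈ Sec A₀ A₁ (v * u ^ n) 1) ∧
      (∀ l s (i : ℤ), c l ((F s).coeff i) = if i = 0 then w l s else 0) ∧
      (∃ s, F s ∉ Set.range (HahnSeries.ofPowerSeries ℤ A₀)) ∧
      Ideal.span {y | ∃ j : ℕ, 0 < j ∧ ∃ r ∈ 𝒜 j, y = F (ρ r)} = ⊤ ∧
      Ideal.span {y | ∃ j : ℕ, ∃ x : J, (x : R) ∈ 𝒜 j ∧ y = F (T x)} = ⊤ ∧
      Ideal.span {y : LaurentSeries A₁ | ∃ j : ℕ, 0 < j ∧ ∃ r ∈ 𝒜 j,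
        ∀ i, ((y.coeff i : A₁) : K) = u ^ j * ((F (ρ r)).coeff i : A₀)} = ⊤ ∧
      Ideal.span {y : LaurentSeries A₁ | ∃ j : ℕ, ∃ x : J, (x : R) ∈ 𝒜 j ∧
        ∀ i, ((y.coeff i : A₁) : K) = v * u ^ j * ((F (T x)).coeff i : A₀)} = ⊤ := by
  classical
  -- the family on the first chart
  have hsub : ∀ s, Ψ s ∈ subB D A₀ := by
    intro s
    have hs : s ∈ Algebra.adjoin k (Set.range ρ ∪ Set.range T) := by rw [hST]; trivial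
    have h : Algebra.adjoin k (Set.range ρ ∪ Set.range T) ≤ (subB D A₀).comap Ψ := by
      refine Algebra.adjoin_le ?_
      rintro _ (⟨r, rfl⟩ | ⟨x, rfl⟩)
      · change Ψ (ρ r) ∈ subB D A₀
        rw [← DirectSum.sum_support_decompose 𝒜 r, map_sum, map_sum]
        refine Subalgebra.sum_mem _ fun n _ => ?_
        rw [mem_subB]
        exact InB_mono D (fun a ha => (mem_Sec.mp ha).1)
          (hsec n _ (DirectSum.decompose 𝒜 r n).2)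
      · change Ψ (T x) ∈ subB D A₀
        have hx : x = ∑ n ∈ (DirectSum.decompose 𝒜 (x : R)).support,
            (⟨DirectSum.decompose 𝒜 (x : R) n, hJ n x.2⟩ : J) := by
          apply Subtype.ext
          rw [AddSubmonoidClass.coe_finsetSum]
          exact (DirectSum.sum_support_decompose 𝒜 (x : R)).symm
        rw [hx, map_sum, map_sum]
        refine Subalgebra.sum_mem _ fun n _ => ?_
        rw [mem_subB]
        exact InB_mono D (fun a ha => (mem_Sec.mp ha).1)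
          (hsecT n _ (DirectSum.decompose 𝒜 (x : R) n).2)
    exact h hs
  obtain ⟨Ψ0, hΨ0⟩ := exists_factor Ψ hsub
  -- certificates
  have h1 : ∀ (z : D ⊗[k] K), z ∈ InB D (Subalgebra.toSubmodule A₁) →
      ∃ y : D ⊗[k] A₁, incB D A₁ y = z := by
    intro z hz
    rw [← mem_subB] at hz
    exact mem_subB_iff.1 hz
  obtain ⟨g, hg, hgm⟩ := pf_cert P1 P2 e
    (Q := {q : ℕ × R // 0 < q.1 ∧ q.2 ∈ 𝒜 q.1}) (fun q => Ψ (ρ q.1.2)) (fun q => u ^ q.1.1)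
    (fun q => ⟨_, hΨ0 _⟩) (fun q => h1 _ (pf_tmul_mem (hsec _ _ q.2.2))) (by
      obtain ⟨n, hn, r, hr, hr0, hrA⟩ := mp.unit0
      refine ⟨⟨(n, r), hn, hr⟩, ?_⟩
      rw [he]
      exact ⟨hr0, hrA⟩) (by
      obtain ⟨n, hn, r, hr, hr0, hrA⟩ := mp.unit1
      refine ⟨⟨(n, r), hn, hr⟩, pow_ne_zero _ mp.u_ne, ?_⟩
      rw [he]
      exact ⟨hr0, hrA⟩)
  obtain ⟨g', hg', hgm'⟩ := pf_cert P1 P2 e
    (Q := {q : ℕ × J // (q.2 : R) ∈ 𝒜 q.1}) (fun q => Ψ (T q.1.2)) (fun q => v * u ^ q.1.1)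
    (fun q => ⟨_, hΨ0 _⟩) (fun q => h1 _ (by
      have := pf_tmul_mem (hsecT _ _ q.2)
      rwa [pow_one] at this)) (by
      obtain ⟨n, x, hx, hx0, hxA⟩ := unit0
      refine ⟨⟨(n, x), hx⟩, ?_⟩
      rw [he]
      exact ⟨hx0, hxA⟩) (by
      obtain ⟨n, x, hx, hx0, hxA⟩ := unit1
      refine ⟨⟨(n, x), hx⟩, mul_ne_zero hv (pow_ne_zero _ mp.u_ne), ?_⟩
      rw [he]
      exact ⟨hx0, hxA⟩)
  have P1' : ∀ V : ValuationSubring K, (∀ c : k, algebraMap k K c ∈ V) →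
      (∀ a ∈ A₁, a ∈ V) ∨ (∀ a ∈ A₀, a ∈ V) := fun V hV => (P1 V hV).symm
  have hinv : ∀ (t : K), t ≠ 0 → ∀ z : D ⊗[k] K, (1 ⊗ₜ t⁻¹) * ((1 ⊗ₜ t) * z) = z := by
    intro t ht z
    rw [← mul_assoc, Algebra.TensorProduct.tmul_mul_tmul, one_mul, inv_mul_cancel₀ ht,
      ← Algebra.TensorProduct.one_def, one_mul]
  have hevT : ∀ (t : K) (s : S), evT e K ((1 ⊗ₜ t) * Ψ s) = t * Φ s := by
    intro t s
    rw [map_mul, evT_tmul, he, map_one, map_one, one_mul]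
  obtain ⟨g₁, hg₁, hgm₁⟩ := pf_cert P1' P3 e
    (Q := {q : ℕ × R // 0 < q.1 ∧ q.2 ∈ 𝒜 q.1}) (fun q => (1 ⊗ₜ (u ^ q.1.1)) * Ψ (ρ q.1.2))
    (fun q => (u ^ q.1.1)⁻¹) (fun q => h1 _ (pf_tmul_mem (hsec _ _ q.2.2)))
    (fun q => ⟨_, (hΨ0 _).trans (hinv _ (pow_ne_zero _ mp.u_ne) _).symm⟩) (by
      obtain ⟨n, hn, r, hr, hr0, hrA⟩ := mp.unit1
      refine ⟨⟨(n, r), hn, hr⟩, ?_⟩
      rw [hevT]
      exact ⟨mul_ne_zero (pow_ne_zero _ mp.u_ne) hr0, hrA⟩) (by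
      obtain ⟨n, hn, r, hr, hr0, hrA⟩ := mp.unit0
      refine ⟨⟨(n, r), hn, hr⟩, inv_ne_zero (pow_ne_zero _ mp.u_ne), ?_⟩
      rw [hevT, inv_mul_cancel_left₀ (pow_ne_zero _ mp.u_ne)]
      exact ⟨mul_ne_zero (pow_ne_zero _ mp.u_ne) hr0, hrA⟩)
  obtain ⟨g₁', hg₁', hgm₁'⟩ := pf_cert P1' P3 e
    (Q := {q : ℕ × J // (q.2 : R) ∈ 𝒜 q.1}) (fun q => (1 ⊗ₜ (v * u ^ q.1.1)) * Ψ (T q.1.2))
    (fun q => (v * u ^ q.1.1)⁻¹) (fun q => h1 _ (by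
      have := pf_tmul_mem (hsecT _ _ q.2)
      rwa [pow_one] at this))
    (fun q => ⟨_, (hΨ0 _).trans (hinv _ (mul_ne_zero hv (pow_ne_zero _ mp.u_ne)) _).symm⟩) (by
      obtain ⟨n, x, hx, hx0, hxA⟩ := unit1
      refine ⟨⟨(n, x), hx⟩, ?_⟩
      rw [hevT]
      exact ⟨mul_ne_zero (mul_ne_zero hv (pow_ne_zero _ mp.u_ne)) hx0, hxA⟩) (by
      obtain ⟨n, x, hx, hx0, hxA⟩ := unit0
      have hvu : v * u ^ n ≠ 0 := mul_ne_zero hv (pow_ne_zero _ mp.u_ne)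
      refine ⟨⟨(n, x), hx⟩, inv_ne_zero hvu, ?_⟩
      rw [hevT, inv_mul_cancel_left₀ hvu]
      exact ⟨mul_ne_zero hvu hx0, hxA⟩)
  -- the Laurent family
  have hsurj_e : Function.Surjective e := fun a => ⟨algebraMap k D a, by
    rw [AlgHom.commutes]; rfl⟩
  have hmax : (RingHom.ker e).IsMaximal := RingHom.ker_isMaximal_of_surjective e hsurj_e
  obtain ⟨f, hfh, hfa⟩ := exists_pole (k := k) (RingHom.ker e) (hart _ rfl)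
    (g * g' * (g₁ * g₁')) (by
    rw [RingHom.mem_ker, map_mul, map_mul, map_mul]
    exact mul_ne_zero (mul_ne_zero hg hg') (mul_ne_zero hg₁ hg₁'))
  rw [map_mul, map_mul, map_mul] at hfh
  have hfg := left_ne_zero_of_mul (left_ne_zero_of_mul hfh)
  have hfg' := right_ne_zero_of_mul (left_ne_zero_of_mul hfh)
  have hfg₁ := left_ne_zero_of_mul (right_ne_zero_of_mul hfh)
  have hfg₁' := right_ne_zero_of_mul (right_ne_zero_of_mul hfh)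
  let F : S →ₐ[k] LaurentSeries A₀ := (Lam f A₀).comp Ψ0
  have hF : ∀ r i, (((F r).coeff i : A₀) : K) = (Lam f K (Ψ r)).coeff i := by
    intro r i
    rw [← hΨ0, Lam_incB]
    rfl
  have hinc : Function.Injective (incB D A₀) := incB_injective A₀
  -- coefficients on the second chart
  have hF1 : ∀ (y : D ⊗[k] A₁) (t : K) (s : S), incB D A₁ y = (1 ⊗ₜ t) * Ψ s →
      ∀ i, (((Lam f A₁ y).coeff i : A₁) : K) = t * ((F s).coeff i : A₀) := by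
    intro y t s hy i
    rw [hF, ← Lam_incB, hy, map_mul, Lam_tmul, map_one, map_one, one_mul, C_mul_coeff]
  refine ⟨F, ?_, ?_, ?_, ?_, ?_, ?_, ?_, ?_⟩
  · intro n r hr i
    rw [hF]
    exact Lam_coeff_mem f (hsec n r hr) i
  · intro n x hx i
    rw [hF]
    exact Lam_coeff_mem f (hsecT n x hx) i
  · intro l r i
    have h1 := Lam_coeff_mem f (hmark r) i
    rw [map_sub, HahnSeries.coeff_sub, ← hF, Lam_coeff_tmul, map_one] at h1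
    obtain ⟨h3, h4⟩ := hI _ h1
    obtain ⟨hrA0, hwr⟩ := hw l r
    have h5 : (⟨(((F r).coeff i : A₀) : K) - (1 : LaurentSeries k).coeff i • Φ r, h3⟩ : A₀) =
        (F r).coeff i - (1 : LaurentSeries k).coeff i • (⟨Φ r, hrA0⟩ : A₀) := rfl
    have h6 := h4 l
    rw [h5, map_sub, map_smul, ← hwr, sub_eq_zero] at h6
    rw [h6]
    by_cases hi : i = 0
    · rw [if_pos hi, hi, HahnSeries.coeff_one, if_pos rfl, one_smul]
    · rw [if_neg hi, HahnSeries.coeff_one, if_neg hi, zero_smul]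
  · obtain ⟨r, i, hi, hri⟩ := exists_pole_family f Ψ hD hfa
    refine ⟨r, fun hr => hri ?_⟩
    rw [mem_range_ofPowerSeries] at hr
    rw [← hF, hr i hi]
    rfl
  · have h1 := Ideal.mem_map_of_mem (Lam f A₀) hgm
    have h3 : IsUnit (Lam f A₀ (g ⊗ₜ 1)) := by
      rw [Lam_tmul, map_one, mul_one]
      exact (IsUnit.mk0 (f g) hfg).map (mapL k A₀)
    have h4 := Ideal.eq_top_of_isUnit_mem _ h1 h3
    rw [eq_top_iff, ← h4, Ideal.map_span, Ideal.span_le]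
    rintro _ ⟨y, ⟨q, hq⟩, rfl⟩
    refine Ideal.subset_span ⟨q.1.1, q.2.1, q.1.2, q.2.2, ?_⟩
    have h5 : y = Ψ0 (ρ q.1.2) := hinc (by rw [hq, hΨ0])
    rw [h5]
    rfl
  · have h1 := Ideal.mem_map_of_mem (Lam f A₀) hgm'
    have h3 : IsUnit (Lam f A₀ (g' ⊗ₜ 1)) := by
      rw [Lam_tmul, map_one, mul_one]
      exact (IsUnit.mk0 (f g') hfg').map (mapL k A₀)
    have h4 := Ideal.eq_top_of_isUnit_mem _ h1 h3
    rw [eq_top_iff, ← h4, Ideal.map_span, Ideal.span_le]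
    rintro _ ⟨y, ⟨q, hq⟩, rfl⟩
    refine Ideal.subset_span ⟨q.1.1, q.1.2, q.2, ?_⟩
    have h5 : y = Ψ0 (T q.1.2) := hinc (by rw [hq, hΨ0])
    rw [h5]
    rfl
  · have h1 := Ideal.mem_map_of_mem (Lam f A₁) hgm₁
    have h3 : IsUnit (Lam f A₁ (g₁ ⊗ₜ 1)) := by
      rw [Lam_tmul, map_one, mul_one]
      exact (IsUnit.mk0 (f g₁) hfg₁).map (mapL k A₁)
    have h4 := Ideal.eq_top_of_isUnit_mem _ h1 h3
    rw [eq_top_iff, ← h4, Ideal.map_span, Ideal.span_le]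
    rintro _ ⟨y, ⟨q, hq⟩, rfl⟩
    exact Ideal.subset_span ⟨q.1.1, q.2.1, q.1.2, q.2.2, hF1 y _ _ hq⟩
  · have h1 := Ideal.mem_map_of_mem (Lam f A₁) hgm₁'
    have h3 : IsUnit (Lam f A₁ (g₁' ⊗ₜ 1)) := by
      rw [Lam_tmul, map_one, mul_one]
      exact (IsUnit.mk0 (f g₁') hfg₁').map (mapL k A₁)
    have h4 := Ideal.eq_top_of_isUnit_mem _ h1 h3
    rw [eq_top_iff, ← h4, Ideal.map_span, Ideal.span_le]
    rintro _ ⟨y, ⟨q, hq⟩, rfl⟩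
    exact Ideal.subset_span ⟨q.1.1, q.1.2, q.2, hF1 y _ _ hq⟩

/-- The residue fields of the second chart. -/
theorem pf_P3 [IsAlgClosed k] (cd : IsCD A₀ A₁) (𝔭 : Ideal A₁) (h𝔭 : 𝔭.IsPrime) (h0 : 𝔭 ≠ ⊥) :
    Function.Surjective (algebraMap k (A₁ ⧸ 𝔭)) := by
  obtain ⟨a, ha, ha0⟩ := Submodule.exists_mem_ne_zero_of_ne_bot h0
  have hfin := cd.finQ (a : K) a.2 (fun h => ha0 (Subtype.ext h))
  let f : ↥(Subalgebra.toSubmodule A₁) →ₗ[k] A₁ ⧸ 𝔭 :=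
    { toFun := fun x => Ideal.Quotient.mk 𝔭 ⟨x.1, x.2⟩
      map_add' := fun x y => (Ideal.Quotient.mk 𝔭).map_add ⟨x.1, x.2⟩ ⟨y.1, y.2⟩
      map_smul' := fun c x => by
        have h1 : (⟨(c • x).1, (c • x).2⟩ : A₁) = c • (⟨x.1, x.2⟩ : A₁) := rfl
        rw [h1]
        rfl }
  have hf : Function.Surjective f := by
    intro y
    obtain ⟨x, rfl⟩ := Ideal.Quotient.mk_surjective y
    exact ⟨⟨x.1, x.2⟩, rfl⟩
  have hle : ((Subalgebra.toSubmodule A₁).map (LinearMap.mulLeft k (a : K))).comap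
      (Subalgebra.toSubmodule A₁).subtype ≤ LinearMap.ker f := by
    rintro x ⟨y, hy, hyx⟩
    rw [LinearMap.mem_ker]
    change Ideal.Quotient.mk 𝔭 ⟨x.1, x.2⟩ = 0
    rw [Ideal.Quotient.eq_zero_iff_mem]
    have h1 : (⟨x.1, x.2⟩ : A₁) = a * ⟨y, hy⟩ := Subtype.ext hyx.symm
    rw [h1]
    exact 𝔭.mul_mem_right _ ha
  have hfd : FiniteDimensional k (A₁ ⧸ 𝔭) :=
    Module.Finite.of_surjective (Submodule.liftQ _ f hle) (by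
      intro y
      obtain ⟨x, hx⟩ := hf y
      exact ⟨Submodule.Quotient.mk x, hx⟩)
  have : IsDomain (A₁ ⧸ 𝔭) := Ideal.Quotient.isDomain 𝔭
  have hint : Algebra.IsIntegral k (A₁ ⧸ 𝔭) := Algebra.IsIntegral.of_finite k (A₁ ⧸ 𝔭)
  exact (IsAlgClosed.algebraMap_bijective_of_isIntegral (k := k) (K := A₁ ⧸ 𝔭)).2

end pf1

end Vale.Agent.P292.Dv
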