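import Vale.Agent.P292.D.Loc4

/-! # Scaling of Laurent families of pairs. -/

namespace Vale.Agent.P292.Dv

open Vale.Agent.P292.Mo Vale.Agent.P292.Mo.Sc Vale.Agent.P292.Mo.Fm

universe u v w x y

section gen

variable {k : Type u} [Field k] {R : Type v} [CommRing R] [Algebra k R] {𝒜 : ℕ → Submodule k R}
  [GradedAlgebra 𝒜] {p : Ideal R}

/-- Finitely many homogeneous generators of a homogeneous ideal, as an induction principle. -/
theorem exists_genFin [IsNoetherianRing R] (hp : p.IsHomogeneous 𝒜) :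
    ∃ s : Finset (ℕ × R), (∀ q ∈ s, q.2 ∈ 𝒜 q.1 ∧ q.2 ∈ p) ∧ ∀ P : ℕ → R → Prop,
      (∀ q ∈ s, P q.1 q.2) → (∀ j, P j 0) →
      (∀ j x y, x ∈ 𝒜 j → x ∈ p → y ∈ 𝒜 j → y ∈ p → P j x → P j y → P j (x + y)) →
      (∀ i j r x, r ∈ 𝒜 i → x ∈ 𝒜 j → x ∈ p → P j x → P (i + j) (r * x)) →
      ∀ j x, x ∈ 𝒜 j → x ∈ p → P j x := by
  classical
  obtain ⟨s, hs⟩ := (isNoetherianRing_iff_ideal_fg R).mp inferInstance p
  refine ⟨s.biUnion fun g => (DirectSum.decompose 𝒜 g).support.image fun j =>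
    (j, (DirectSum.decompose 𝒜 g j : R)), ?_, fun P h1 h0 h2 h3 => ?_⟩
  · intro q hq
    obtain ⟨g, hg, hq⟩ := Finset.mem_biUnion.1 hq
    obtain ⟨j, -, rfl⟩ := Finset.mem_image.1 hq
    exact ⟨SetLike.coe_mem _, mem_of_homog hp (hs ▸ Ideal.subset_span hg) j⟩
  have key : ∀ x, x ∈ Ideal.span (s : Set R) → x ∈ p ∧ ∀ j, P j (DirectSum.decompose 𝒜 x j : R) := by
    intro x hx
    induction hx using Submodule.span_induction with
    | mem g hg =>
      refine ⟨hs ▸ Ideal.subset_span hg, fun j => ?_⟩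
      by_cases hj : j ∈ (DirectSum.decompose 𝒜 g).support
      · exact h1 _ (Finset.mem_biUnion.2 ⟨g, hg, Finset.mem_image.2 ⟨j, hj, rfl⟩⟩)
      · have h4 : DirectSum.decompose 𝒜 g j = 0 := by
          by_contra h
          exact hj (DFinsupp.mem_support_iff.2 h)
        rw [h4]
        exact h0 j
    | zero =>
      refine ⟨zero_mem _, fun j => ?_⟩
      rw [DirectSum.decompose_zero]
      exact h0 j
    | add x y _ _ hx hy =>
      refine ⟨add_mem hx.1 hy.1, fun j => ?_⟩
      rw [DirectSum.decompose_add, DirectSum.add_apply, Submodule.coe_add]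
      exact h2 j _ _ (SetLike.coe_mem _) (mem_of_homog hp hx.1 j) (SetLike.coe_mem _)
        (mem_of_homog hp hy.1 j) (hx.2 j) (hy.2 j)
    | smul r x _ hx =>
      refine ⟨p.mul_mem_left _ hx.1, fun j => ?_⟩
      rw [smul_eq_mul]
      have h5 : ∀ r : R, r * x ∈ p := fun r => p.mul_mem_left _ hx.1
      induction r using DirectSum.Decomposition.inductionOn 𝒜 generalizing j with
      | zero => rw [zero_mul, DirectSum.decompose_zero]; exact h0 j
      | @homogeneous i r =>
        rcases Nat.lt_or_ge j i with h | h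
        · rw [DirectSum.coe_decompose_mul_of_left_mem_of_not_le 𝒜 r.2 (by omega)]
          exact h0 j
        · rw [DirectSum.coe_decompose_mul_of_left_mem_of_le 𝒜 r.2 h]
          have h6 := h3 i (j - i) _ _ r.2 (SetLike.coe_mem (DirectSum.decompose 𝒜 x (j - i)))
            (mem_of_homog hp hx.1 _) (hx.2 _)
          rwa [Nat.add_sub_cancel' h] at h6
      | add a b ha hb =>
        rw [add_mul, DirectSum.decompose_add, DirectSum.add_apply, Submodule.coe_add]
        exact h2 j _ _ (SetLike.coe_mem _) (mem_of_homog hp (h5 a) j) (SetLike.coe_mem _)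
          (mem_of_homog hp (h5 b) j) (ha j) (hb j)
  intro j x hx hx'
  have h4 := (key x (hs ▸ hx')).2 j
  rwa [DirectSum.decompose_of_mem_same 𝒜 hx] at h4

end gen

section scale

variable {k : Type u} [Field k] {R : Type v} [CommRing R] [Algebra k R] {𝒜 : ℕ → Submodule k R}
  [GradedAlgebra 𝒜] {p : Ideal R} {B : Type w} [CommRing B] [Algebra k B]

/-- The regular part of a Laurent series. -/
noncomputable def psOf (y : LaurentSeries B) : PowerSeries B := PowerSeries.mk fun n => y.coeff n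

theorem ofPS_psOf {y : LaurentSeries B} (hy : ∀ i : ℤ, i < 0 → y.coeff i = 0) :
    ofPS k B (psOf y) = y := by
  ext i
  rcases lt_or_ge i 0 with hi | hi
  · rw [hy i hi]
    exact ofPS_coeff_neg _ i hi
  · obtain ⟨n, rfl⟩ := Int.eq_ofNat_of_zero_le hi
    exact (ofPS_coeff_nat (k := k) _ n).trans (PowerSeries.coeff_mk _ _)

/-- **Scaling of the second component.** -/
theorem eta_scale [IsNoetherianRing R] (hp : p.IsHomogeneous 𝒜) {F : R →ₐ[k] LaurentSeries B}
    {G : ℕ → R → LaurentSeries B} (hG : IsEta 𝒜 p F G) {c : ℕ} {hc : 0 < c} {μ : ℤ}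
    {φ' : R →ₐ[k] PowerSeries B}
    (hφ' : ∀ n, ∀ r ∈ 𝒜 n, ofPS k B (φ' r) = HahnSeries.single (μ * n) 1 * expand k c hc (F r))
    (hne : ∃ j x, x ∈ 𝒜 j ∧ x ∈ p ∧ G j x ≠ 0) :
    ∃ (a : ℤ) (η' : ℕ → R → PowerSeries B), IsEta 𝒜 p φ' η' ∧
      (∀ n x, x ∈ 𝒜 n → x ∈ p → ofPS k B (η' n x) =
        HahnSeries.single (μ * n + a) 1 * expand k c hc (G n x)) ∧
      ∃ j x, x ∈ 𝒜 j ∧ x ∈ p ∧ PowerSeries.constantCoeff (η' j x) ≠ 0 := by
  classical
  obtain ⟨s, hs, hind⟩ := exists_genFin (k := k) hp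
  have hEz : ∀ y : LaurentSeries B, y ≠ 0 → expand k c hc y ≠ 0 := by
    intro y hy h0
    apply hy
    ext i
    rw [← expand_coeff_mul (k := k) c hc, h0]
    rfl
  -- a generator which is not zero
  have hgen : ∃ q ∈ s, G q.1 q.2 ≠ 0 := by
    by_contra hcon
    push Not at hcon
    obtain ⟨j, x, hx, hx', h⟩ := hne
    apply h
    refine hind (fun j x => G j x = 0) hcon (fun j => hG.zero j) ?_ ?_ j x hx hx'
    · intro j x y hx hx' hy hy' h1 h2
      rw [hG.add j x y hx hx' hy hy', h1, h2, add_zero]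
    · intro i j r x hr hx hx' h1
      rw [hG.mul i j r x hr hx hx', h1, mul_zero]
  obtain ⟨q, hq, hmin⟩ := (s.filter fun q => G q.1 q.2 ≠ 0).exists_min_image
    (fun q => (expand k c hc (G q.1 q.2)).order + μ * q.1) (by
      obtain ⟨q, hq, hq'⟩ := hgen
      exact ⟨q, Finset.mem_filter.mpr ⟨hq, hq'⟩⟩)
  rw [Finset.mem_filter] at hq
  obtain ⟨hqs, hq0⟩ := hq
  set a : ℤ := -((expand k c hc (G q.1 q.2)).order + μ * q.1) with ha
  have hreg : ∀ n x, x ∈ 𝒜 n → x ∈ p →
      HahnSeries.single (μ * n + a) 1 * expand k c hc (G n x) ∈ (ofPS k B).range := by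
    refine hind (fun n x => HahnSeries.single (μ * n + a) 1 * expand k c hc (G n x) ∈
      (ofPS k B).range) ?_ ?_ ?_ ?_
    · intro q' hq'
      by_cases h0 : G q'.1 q'.2 = 0
      · rw [h0, map_zero, mul_zero]; exact zero_mem _
      · have h1 := hmin q' (Finset.mem_filter.mpr ⟨hq', h0⟩)
        rw [mem_range_ofPS]
        intro i hi
        rw [single_mul_coeff]
        apply HahnSeries.coeff_eq_zero_of_lt_order
        linarith
    · intro j
      rw [hG.zero j, map_zero, mul_zero]; exact zero_mem _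
    · intro j x y hx hx' hy hy' h1 h2
      rw [hG.add j x y hx hx' hy hy', map_add, mul_add]
      exact add_mem h1 h2
    · intro i j r x hr hx hx' h1
      have h2 : HahnSeries.single (μ * (i + j : ℕ) + a) (1 : B) * expand k c hc (G (i + j) (r * x)) =
          ofPS k B (φ' r) * (HahnSeries.single (μ * j + a) 1 * expand k c hc (G j x)) := by
        rw [hG.mul i j r x hr hx hx', map_mul, hφ' i r hr]
        have h3 : HahnSeries.single (μ * (i + j : ℕ) + a) (1 : B) =
            HahnSeries.single (μ * i) 1 * HahnSeries.single (μ * j + a) 1 := by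
          have h4 : μ * ((i + j : ℕ) : ℤ) + a = μ * i + (μ * j + a) := by push_cast; ring
          rw [HahnSeries.single_mul_single, one_mul, h4]
        rw [h3]
        exact mul_mul_mul_comm _ _ _ _
      rw [h2]
      exact (ofPS k B).range.mul_mem ⟨_, rfl⟩ h1
  let η' : ℕ → R → PowerSeries B := fun n x =>
    psOf (HahnSeries.single (μ * n + a) 1 * expand k c hc (G n x))
  have hη' : ∀ n x, x ∈ 𝒜 n → x ∈ p → ofPS k B (η' n x) =
      HahnSeries.single (μ * n + a) 1 * expand k c hc (G n x) := fun n x hx hx' =>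
    ofPS_psOf ((mem_range_ofPS (k := k)).1 (hreg n x hx hx'))
  have hinj : Function.Injective (ofPS k B) := ofPS_injective
  refine ⟨a, η', ⟨?_, ?_⟩, hη', q.1, q.2, (hs q hqs).1, (hs q hqs).2, ?_⟩
  · intro j x y hx hx' hy hy'
    apply hinj
    rw [map_add, hη' j _ (add_mem hx hy) (p.add_mem hx' hy'), hη' j x hx hx', hη' j y hy hy',
      hG.add j x y hx hx' hy hy', map_add, mul_add]
  · intro i j r x hr hx hx'
    apply hinj
    rw [map_mul, hη' _ _ (SetLike.mul_mem_graded hr hx) (p.mul_mem_left _ hx'), hη' j x hx hx',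
      hG.mul i j r x hr hx hx', map_mul, hφ' i r hr]
    have h3 : HahnSeries.single (μ * (i + j : ℕ) + a) (1 : B) =
        HahnSeries.single (μ * i) 1 * HahnSeries.single (μ * j + a) 1 := by
      have h4 : μ * ((i + j : ℕ) : ℤ) + a = μ * i + (μ * j + a) := by push_cast; ring
      rw [HahnSeries.single_mul_single, one_mul, h4]
    rw [h3]
    exact mul_mul_mul_comm _ _ _ _
  · have h1 : PowerSeries.constantCoeff (η' q.1 q.2) =
        (expand k c hc (G q.1 q.2)).coeff ((expand k c hc (G q.1 q.2)).order) := by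
      rw [← PowerSeries.coeff_zero_eq_constantCoeff_apply, ← ofPS_coeff_nat (k := k),
        hη' _ _ (hs q hqs).1 (hs q hqs).2, single_mul_coeff]
      congr 1
      rw [ha]
      push_cast
      ring
    rw [h1]
    exact HahnSeries.coeff_order_eq_zero.not.mpr (hEz _ hq0)

omit [GradedAlgebra 𝒜] in
/-- The ideal of the second component contains a power of the parameter. -/
theorem eta_pow_mem {G : ℕ → R → LaurentSeries B} {c : ℕ} {hc : 0 < c} {μ a : ℤ}
    {η' : ℕ → R → PowerSeries B}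
    (h : ∀ n x, x ∈ 𝒜 n → x ∈ p → ofPS k B (η' n x) =
        HahnSeries.single (μ * n + a) 1 * expand k c hc (G n x))
    (hb : Ideal.span {y | ∃ j : ℕ, ∃ x ∈ 𝒜 j, x ∈ p ∧ y = G j x} = ⊤) :
    ∃ L : ℕ, (PowerSeries.X : PowerSeries B) ^ L ∈
      Ideal.span {y | ∃ j : ℕ, ∃ x ∈ 𝒜 j, x ∈ p ∧ y = η' j x} := by
  have h1 : (1 : LaurentSeries B) ∈
      (Ideal.span {y | ∃ j : ℕ, ∃ x ∈ 𝒜 j, x ∈ p ∧ y = η' j x}).map
        (algebraMap (PowerSeries B) (LaurentSeries B)) := by
    have h2 : (1 : LaurentSeries B) ∈ (Ideal.span {y | ∃ j : ℕ, ∃ x ∈ 𝒜 j, x ∈ p ∧ y = G j x}).map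
        (expand k c hc).toRingHom := by
      rw [hb, Ideal.map_top]
      trivial
    have h3 : (Ideal.span {y | ∃ j : ℕ, ∃ x ∈ 𝒜 j, x ∈ p ∧ y = G j x}).map
        (expand k c hc).toRingHom ≤
        (Ideal.span {y | ∃ j : ℕ, ∃ x ∈ 𝒜 j, x ∈ p ∧ y = η' j x}).map
        (algebraMap (PowerSeries B) (LaurentSeries B)) := by
      rw [Ideal.map_span, Ideal.span_le]
      rintro _ ⟨_, ⟨j, x, hx, hx', rfl⟩, rfl⟩
      have h5 : (expand k c hc).toRingHom (G j x) =
          HahnSeries.single (-(μ * j + a)) (1 : B) * ofPS k B (η' j x) := by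
        rw [h j x hx hx', ← mul_assoc, HahnSeries.single_mul_single, neg_add_cancel, mul_one]
        exact (one_mul _).symm
      rw [SetLike.mem_coe, h5]
      refine Ideal.mul_mem_left _ _ ?_
      exact Ideal.mem_map_of_mem (algebraMap (PowerSeries B) (LaurentSeries B))
        (Ideal.subset_span ⟨j, x, hx, hx', rfl⟩)
    exact h3 h2
  rw [IsLocalization.mem_map_algebraMap_iff (Submonoid.powers (PowerSeries.X : PowerSeries B))]
    at h1
  obtain ⟨⟨y, ⟨_, L, rfl⟩⟩, hy⟩ := h1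
  refine ⟨L, ?_⟩
  rw [one_mul] at hy
  have h7 : (PowerSeries.X : PowerSeries B) ^ L = y :=
    HahnSeries.ofPowerSeries_injective hy
  rw [h7]
  exact y.2

omit [GradedAlgebra 𝒜] in
/-- Values of the second component at a mark. -/
theorem eta_mark {C : Type*} [CommRing C] [Algebra k C] {G : ℕ → R → LaurentSeries B} {c : ℕ}
    {hc : 0 < c} {μ a : ℤ} {η' : ℕ → R → PowerSeries B}
    (h : ∀ n x, x ∈ 𝒜 n → x ∈ p → ofPS k B (η' n x) =
        HahnSeries.single (μ * n + a) 1 * expand k c hc (G n x))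
    (m : B →ₐ[k] C) (w : ℕ → R → C)
    (hmark : ∀ n x, x ∈ 𝒜 n → x ∈ p → ∀ i : ℤ, m ((G n x).coeff i) = if i = 0 then w n x else 0)
    {n : ℕ} {x : R} (hx : x ∈ 𝒜 n) (hx' : x ∈ p) (j : ℕ) :
    m (PowerSeries.coeff j (η' n x)) = if (j : ℤ) = μ * n + a then w n x else 0 := by
  rw [← ofPS_coeff_nat (k := k), h n x hx hx', single_mul_coeff]
  by_cases hdv : (c : ℤ) ∣ (j - (μ * n + a) : ℤ)
  · obtain ⟨i, hi⟩ := hdv
    rw [hi, expand_coeff_mul, hmark n x hx hx']
    by_cases hi0 : i = 0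
    · rw [if_pos hi0, if_pos]
      rw [hi0, mul_zero, sub_eq_zero] at hi
      exact hi
    · rw [if_neg hi0, if_neg]
      intro h3
      rw [h3, sub_self] at hi
      rcases mul_eq_zero.mp hi.symm with h4 | h4
      · have : c = 0 := by exact_mod_cast h4
        omega
      · exact hi0 h4
  · rw [expand_coeff_of_not_dvd _ _ _ _ hdv, map_zero, if_neg]
    intro h3
    apply hdv
    rw [h3, sub_self]
    exact dvd_zero _

end scale

end Vale.Agent.P292.Dv
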