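import Vale.Agent.P292.D.T2Defs
import Vale.Agent.P292.D.PF1
import Vale.Agent.P292.D.PF2

/-! # From a family of pairs to a degenerating family over the power series. -/

namespace Vale.Agent.P292.Dv

open TensorProduct
open Vale.Agent.P292.Mo Vale.Agent.P292.Mo.Sc Vale.Agent.P292.Mo.Fm

universe u v w x y

section total

variable {k : Type u} [Field k] {R : Type v} [CommRing R] [Algebra k R] {𝒜 : ℕ → Submodule k R}
  [GradedAlgebra 𝒜] {p : Ideal R}

/-- From homogeneous elements to a linear map. -/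
theorem eta_total (hp : p.IsHomogeneous 𝒜) {S : Type w} [CommRing S] [Algebra k S]
    {φ : R →ₐ[k] S} {η : ℕ → R → S} (h : IsEta 𝒜 p φ η) :
    ∃ H : p →ₗ[k] S, (∀ (r : R) (x : p), H (r • x) = φ r * H x) ∧
      ∀ j, ∀ x : p, (x : R) ∈ 𝒜 j → H x = η j x := by
  classical
  obtain ⟨T, hT⟩ := exists_total (𝒜 := 𝒜) (p := p) η h.add (fun j c x hx hx' => h.smul c hx hx')
  have h1 : ∀ j, ∀ x ∈ 𝒜 j, x ∈ p → ∀ r, T (r * x) = φ r * T x := by
    intro j x hxj hx r
    induction r using DirectSum.Decomposition.inductionOn 𝒜 with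
    | zero => rw [zero_mul, map_zero, map_zero, zero_mul]
    | @homogeneous i r =>
      rw [hT (i + j) _ (SetLike.mul_mem_graded r.2 hxj) (p.mul_mem_left _ hx),
        h.mul i j _ x r.2 hxj hx, hT j x hxj hx]
    | add a b ha hb => rw [add_mul, map_add, ha, hb, map_add, add_mul]
  have key : ∀ x ∈ p, ∀ r, T (r * x) = φ r * T x := by
    intro x hx r
    have hx' := DirectSum.sum_support_decompose 𝒜 x
    rw [← hx', Finset.mul_sum, map_sum, map_sum, Finset.mul_sum]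
    refine Finset.sum_congr rfl fun j _ => ?_
    exact h1 j _ (DirectSum.decompose 𝒜 x j).2 (mem_of_homog hp hx j) r
  refine ⟨{ toFun := fun x => T x
            map_add' := fun x y => by
              rw [Submodule.coe_add, map_add]
            map_smul' := fun c x => by
              rw [RingHom.id_apply, Submodule.coe_smul_of_tower, map_smul] }, ?_, ?_⟩
  · intro r x
    exact key x x.2 r
  · intro j x hx
    exact hT j x hx x.2

omit [GradedAlgebra 𝒜] in
/-- From a linear map on the Rees algebra to homogeneous elements. -/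
theorem exists_etaG {J : Ideal R} {S : Type y} [CommRing S] [Algebra k S] {ρ : R →ₐ[k] S}
    {T : J →ₗ[k] S} (hT : ∀ (r : R) (x : J), T (r • x) = ρ r * T x) {S' : Type w} [CommRing S']
    [Algebra k S'] (F : S →ₐ[k] S') :
    ∃ G : ℕ → R → S', IsEta 𝒜 J (F.comp ρ) G ∧ ∀ j (x : J), G j x = F (T x) := by
  classical
  refine ⟨fun _ x => if h : x ∈ J then F (T ⟨x, h⟩) else 0, ⟨?_, ?_⟩, ?_⟩
  · intro j x y _ hx _ hy
    rw [dif_pos (J.add_mem hx hy), dif_pos hx, dif_pos hy, ← map_add, ← map_add]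
    rfl
  · intro i j r x _ _ hx
    rw [dif_pos (J.mul_mem_left _ hx), dif_pos hx]
    have h1 : (⟨r * x, J.mul_mem_left _ hx⟩ : J) = r • (⟨x, hx⟩ : J) := rfl
    rw [h1, hT, map_mul]
    rfl
  · intro j x
    simp only []
    rw [dif_pos x.2]

end total

section pow

variable {k : Type u} [Field k] {B : Type w} [CommRing B] [Algebra k B]

theorem pf_pow_mem {c : ℕ} {hc : 0 < c} {U : Set (LaurentSeries B)} {U' : Set (PowerSeries B)}
    (h : ∀ y ∈ U, ∃ y' ∈ U', ∃ a : ℤ, ofPS k B y' =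
      HahnSeries.single a 1 * expand k c hc y) (hb : Ideal.span U = ⊤) :
    ∃ L : ℕ, (PowerSeries.X : PowerSeries B) ^ L ∈ Ideal.span U' := by
  have h1 : (1 : LaurentSeries B) ∈
      (Ideal.span U').map (algebraMap (PowerSeries B) (LaurentSeries B)) := by
    have h2 : (1 : LaurentSeries B) ∈ (Ideal.span U).map (expand k c hc).toRingHom := by
      rw [hb, Ideal.map_top]
      trivial
    have h3 : (Ideal.span U).map (expand k c hc).toRingHom ≤
        (Ideal.span U').map (algebraMap (PowerSeries B) (LaurentSeries B)) := by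
      rw [Ideal.map_span, Ideal.span_le]
      rintro _ ⟨y, hy, rfl⟩
      obtain ⟨y', hy', a, ha⟩ := h y hy
      have h5 : (expand k c hc).toRingHom y = HahnSeries.single (-a) (1 : B) * ofPS k B y' := by
        rw [ha, ← mul_assoc, HahnSeries.single_mul_single, neg_add_cancel, mul_one]
        exact (one_mul _).symm
      rw [SetLike.mem_coe, h5]
      refine Ideal.mul_mem_left _ _ ?_
      exact Ideal.mem_map_of_mem (algebraMap (PowerSeries B) (LaurentSeries B))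
        (Ideal.subset_span hy')
    exact h3 h2
  rw [IsLocalization.mem_map_algebraMap_iff (Submonoid.powers (PowerSeries.X : PowerSeries B))]
    at h1
  obtain ⟨⟨y, ⟨_, L, rfl⟩⟩, hy⟩ := h1
  refine ⟨L, ?_⟩
  rw [one_mul] at hy
  have h7 : (PowerSeries.X : PowerSeries B) ^ L = y :=
    HahnSeries.ofPowerSeries_injective hy
  rw [h7]
  exact y.2

variable {K : Type w} [Field K] [Algebra k K] {A₀ A₁ : Subalgebra k K}

theorem pf_coeff_eq {c : ℕ} {hc : 0 < c} {y : LaurentSeries A₁} {z : LaurentSeries A₀} {t : K}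
    (h : ∀ i, ((y.coeff i : A₁) : K) = t * (z.coeff i : A₀)) (a i : ℤ) :
    (((HahnSeries.single a 1 * expand k c hc y).coeff i : A₁) : K) =
      t * (((HahnSeries.single a 1 * expand k c hc z).coeff i : A₀) : K) := by
  rw [single_mul_coeff, single_mul_coeff]
  by_cases hdv : (c : ℤ) ∣ (i - a)
  · obtain ⟨j, hj⟩ := hdv
    rw [hj, expand_coeff_mul, expand_coeff_mul, h]
  · rw [expand_coeff_of_not_dvd _ _ _ _ hdv, expand_coeff_of_not_dvd _ _ _ _ hdv]
    simp

/-- Transfer to the second chart. -/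
theorem pf_second {c : ℕ} {hc : 0 < c} {y : LaurentSeries A₁} {z : LaurentSeries A₀} {t : K}
    (h : ∀ i, ((y.coeff i : A₁) : K) = t * (z.coeff i : A₀)) {a : ℤ} {z' : PowerSeries A₀}
    (hz' : ofPS k A₀ z' = HahnSeries.single a 1 * expand k c hc z) :
    ∃ y' : PowerSeries A₁, (∀ i, ((PowerSeries.coeff i y' : A₁) : K) =
      t * (PowerSeries.coeff i z' : A₀)) ∧
      ofPS k A₁ y' = HahnSeries.single a 1 * expand k c hc y := by
  have h1 := pf_coeff_eq (c := c) (hc := hc) h a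
  have h2 : ∀ i : ℤ, i < 0 → (HahnSeries.single a 1 * expand k c hc y).coeff i = 0 := by
    intro i hi
    apply Subtype.ext
    rw [h1, ← hz', ofPS_coeff_neg _ i hi]
    simp
  refine ⟨psOf (HahnSeries.single a 1 * expand k c hc y), fun i => ?_, ofPS_psOf h2⟩
  rw [psOf, PowerSeries.coeff_mk, h1, ← hz', ofPS_coeff_nat]

theorem pf_coeff_mem {M : Submodule k K} {c : ℕ} {hc : 0 < c} {z : LaurentSeries A₀}
    (h : ∀ i, ((z.coeff i : A₀) : K) ∈ M) {a : ℤ} {z' : PowerSeries A₀}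
    (hz' : ofPS k A₀ z' = HahnSeries.single a 1 * expand k c hc z) (i : ℕ) :
    ((PowerSeries.coeff i z' : A₀) : K) ∈ M := by
  rw [← ofPS_coeff_nat (k := k), hz', single_mul_coeff]
  by_cases hdv : (c : ℤ) ∣ (i - a : ℤ)
  · obtain ⟨j, hj⟩ := hdv
    rw [hj, expand_coeff_mul]
    exact h j
  · rw [expand_coeff_of_not_dvd _ _ _ _ hdv]
    exact zero_mem _

end pow

section pole

variable {k : Type u} [Field k] {R : Type v} [CommRing R] [Algebra k R] {𝒜 : ℕ → Submodule k R}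
  [GradedAlgebra 𝒜] {J : Ideal R} {S : Type y} [CommRing S] [Algebra k S] {ρ : R →ₐ[k] S}
  {T : J →ₗ[k] S} {B : Type w} [CommRing B] [Algebra k B]

/-- The first component has a pole. -/
theorem pf_pole [IsNoetherianRing R] (hJ : J.IsHomogeneous 𝒜)
    (hT : ∀ (r : R) (x : J), T (r • x) = ρ r * T x)
    (hST : Algebra.adjoin k (Set.range ρ ∪ Set.range T) = ⊤) (F : S →ₐ[k] LaurentSeries B)
    (c₀ : B →ₐ[k] k) (w : S →ₐ[k] k)
    (hmark : ∀ s (i : ℤ), c₀ ((F s).coeff i) = if i = 0 then w s else 0)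
    (ex : B →ₐ[k] PowerSeries k) (hexinj : Function.Injective ex)
    (hexc : ∀ x, PowerSeries.constantCoeff (ex x) = c₀ x)
    (hpole : ∃ s, F s ∉ Set.range (HahnSeries.ofPowerSeries ℤ B))
    (hb : Ideal.span {y | ∃ j : ℕ, ∃ x : J, (x : R) ∈ 𝒜 j ∧ y = F (T x)} = ⊤)
    {i j : ℕ} {a : J} {b : R} (ha : (a : R) ∈ 𝒜 i) (hbj : b ∈ 𝒜 j)
    (hab : ∀ x ∈ J, ∃ r, b * x = r * a) (hwb : w (ρ b) ≠ 0) :
    ∃ r, F (ρ r) ∉ Set.range (HahnSeries.ofPowerSeries ℤ B) := by
  classical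
  by_contra hcon
  push Not at hcon
  obtain ⟨G, hG, hGT⟩ := exists_etaG (𝒜 := 𝒜) hT F
  have hB0 : (1 : B) ≠ 0 := by
    intro h
    have h1 := hexc 1
    rw [h, map_zero, map_zero, map_zero] at h1
    have h2 := hexinj (a₁ := 1) (a₂ := 0) (by rw [h])
    have h3 : c₀ 1 = 1 := map_one c₀
    rw [h, map_zero] at h3
    exact zero_ne_one h3
  obtain ⟨φ', hφ'⟩ := exists_lift (k := k) (F.comp ρ) hcon
  have hex1 : ∀ y : LaurentSeries B, expand k 1 one_pos y = y := by
    intro y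
    ext i
    have := expand_coeff_mul (k := k) 1 one_pos y i
    rwa [Nat.cast_one, one_mul] at this
  have hφ'' : ∀ n, ∀ r ∈ 𝒜 n, ofPS k B (φ' r) =
      HahnSeries.single ((0 : ℤ) * n) 1 * expand k 1 one_pos ((F.comp ρ) r) := by
    intro n r _
    rw [hφ', hex1, zero_mul]
    exact (one_mul _).symm
  -- a homogeneous element with a pole
  have hp1 : ∃ n, ∃ x : J, (x : R) ∈ 𝒜 n ∧ F (T x) ∉ (ofPS k B).range := by
    by_contra hc
    push Not at hc
    obtain ⟨s, hs⟩ := hpole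
    apply hs
    have h1 : Algebra.adjoin k (Set.range ρ ∪ Set.range T) ≤ (ofPS k B).range.comap F := by
      refine Algebra.adjoin_le ?_
      rintro _ (⟨r, rfl⟩ | ⟨x, rfl⟩)
      · exact hcon r
      · change F (T x) ∈ (ofPS k B).range
        have hx : x = ∑ n ∈ (DirectSum.decompose 𝒜 (x : R)).support,
            (⟨DirectSum.decompose 𝒜 (x : R) n, hJ n x.2⟩ : J) := by
          apply Subtype.ext
          rw [AddSubmonoidClass.coe_finsetSum]
          exact (DirectSum.sum_support_decompose 𝒜 (x : R)).symm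
        rw [hx, map_sum, map_sum]
        exact Subalgebra.sum_mem _ fun n _ =>
          hc n _ (DirectSum.decompose 𝒜 (x : R) n).2
    have h2 : s ∈ Algebra.adjoin k (Set.range ρ ∪ Set.range T) := by rw [hST]; trivial
    exact h1 h2
  obtain ⟨n₀, x₀, hx₀, hx₀'⟩ := hp1
  obtain ⟨α, η, hη, hηG, j₁, x₁, hx₁, hx₁', hne₁⟩ := eta_scale hJ hG hφ'' ⟨n₀, x₀, hx₀, x₀.2, by
    rw [hGT]
    intro h0
    exact hx₀' (by rw [h0]; exact zero_mem _)⟩
  have hα : 0 < α := by
    by_contra hα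
    push Not at hα
    apply hx₀'
    have h1 := hηG n₀ x₀ hx₀ x₀.2
    rw [hGT, hex1, zero_mul, zero_add] at h1
    rw [mem_range_ofPS]
    intro l hl
    have h2 : (ofPS k B (η n₀ x₀)).coeff (l + α) = 0 := ofPS_coeff_neg _ _ (by omega)
    rw [h1, single_mul_coeff, add_sub_cancel_right] at h2
    exact h2
  -- values at the mark
  have hm : ∀ n x, x ∈ 𝒜 n → x ∈ J → c₀ (PowerSeries.constantCoeff (η n x)) = 0 := by
    intro n x hx hx'
    have h1 := eta_mark (w := fun _ x => if h : x ∈ J then w (T ⟨x, h⟩) else 0) hηG c₀ (by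
      intro n x hx hx' l
      have h2 := hGT n ⟨x, hx'⟩
      rw [h2, hmark, dif_pos hx']) hx hx' 0
    rw [PowerSeries.coeff_zero_eq_constantCoeff_apply, if_neg] at h1
    · exact h1
    · push_cast
      omega
  obtain ⟨L, hL⟩ := eta_pow_mem hηG (by
    rw [← hb]
    congr 1
    ext y
    constructor
    · rintro ⟨j, x, hx, hx', rfl⟩
      exact ⟨j, ⟨x, hx'⟩, hx, hGT j ⟨x, hx'⟩⟩
    · rintro ⟨j, x, hx, rfl⟩
      exact ⟨j, x, hx, x.2, (hGT j x).symm⟩)
  -- the expansion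
  let E : PowerSeries B →ₐ[k] PowerSeries (PowerSeries k) := PowerSeries.mapAlgHom ex
  have hEc : ∀ y l, PowerSeries.coeff l (E y) = ex (PowerSeries.coeff l y) := fun y l => by
    change PowerSeries.coeff l (PowerSeries.map (ex : B →+* PowerSeries k) y) = _
    rw [PowerSeries.coeff_map]
    rfl
  have hEcc : ∀ y, PowerSeries.constantCoeff (E y) = ex (PowerSeries.constantCoeff y) := fun y => by
    rw [← PowerSeries.coeff_zero_eq_constantCoeff_apply, hEc,
      PowerSeries.coeff_zero_eq_constantCoeff_apply]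
  have hunit : IsUnit (E (φ' b)) := by
    rw [PowerSeries.isUnit_iff_constantCoeff, hEcc, PowerSeries.isUnit_iff_constantCoeff, hexc,
      isUnit_iff_ne_zero]
    have h1 := hmark (ρ b) 0
    rw [if_pos rfl] at h1
    have h2 : (F (ρ b)).coeff ((0 : ℕ) : ℤ) = PowerSeries.coeff 0 (φ' b) := by
      have h3 := hφ' b
      rw [AlgHom.comp_apply] at h3
      rw [← h3, ofPS_coeff_nat]
    rw [Nat.cast_zero] at h2
    rw [h2, PowerSeries.coeff_zero_eq_constantCoeff_apply] at h1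
    rw [h1]
    exact hwb
  set g := E (η i a) with hg
  have hdvd : ∀ n x, x ∈ 𝒜 n → x ∈ J → g ∣ E (η n x) := by
    intro n x hx hx'
    have h1 : E (η (j + n) (b * x)) = E (φ' b) * E (η n x) := by
      rw [hη.mul j n b x hbj hx hx', map_mul]
    rw [← hunit.dvd_mul_left, ← h1]
    obtain ⟨r, hr⟩ := hab x hx'
    have h2 : b * x = (DirectSum.decompose 𝒜 (r * a) (j + n) : R) := by
      rw [← hr, DirectSum.decompose_of_mem_same 𝒜 (SetLike.mul_mem_graded hbj hx)]
    rw [h2]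
    rcases Nat.lt_or_ge (j + n) i with h3 | h3
    · rw [DirectSum.coe_decompose_mul_of_right_mem_of_not_le 𝒜 ha (by omega), hη.zero, map_zero]
      exact dvd_zero _
    · rw [DirectSum.coe_decompose_mul_of_right_mem_of_le 𝒜 ha h3]
      have h4 := hη.mul (j + n - i) i _ a (DirectSum.decompose 𝒜 r (j + n - i)).2 ha a.2
      rw [Nat.sub_add_cancel h3] at h4
      rw [h4, map_mul]
      exact dvd_mul_left _ _
  have hgX : g ∣ PowerSeries.X ^ L := by
    have h1 := Ideal.mem_map_of_mem E.toRingHom hL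
    have h2 : (Ideal.span {y | ∃ j : ℕ, ∃ x ∈ 𝒜 j, x ∈ J ∧ y = η j x}).map E.toRingHom ≤
        Ideal.span {g} := by
      rw [Ideal.map_span, Ideal.span_le]
      rintro _ ⟨_, ⟨n, x, hx, hx', rfl⟩, rfl⟩
      rw [SetLike.mem_coe, Ideal.mem_span_singleton]
      exact hdvd n x hx hx'
    have h3 := h2 h1
    rw [Ideal.mem_span_singleton] at h3
    have h4 : E.toRingHom (PowerSeries.X ^ L) = PowerSeries.X ^ L := by
      rw [map_pow]
      congr 1
      change PowerSeries.map (ex : B →+* PowerSeries k) PowerSeries.X = _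
      rw [PowerSeries.map_X]
    rwa [h4] at h3
  obtain ⟨m, -, hm'⟩ := (dvd_prime_pow PowerSeries.X_prime L).1 hgX
  rcases Nat.eq_zero_or_pos m with h0 | h0
  · rw [h0, pow_zero, associated_one_iff_isUnit] at hm'
    rw [PowerSeries.isUnit_iff_constantCoeff, hEcc, PowerSeries.isUnit_iff_constantCoeff, hexc,
      hm i a ha a.2] at hm'
    exact not_isUnit_zero hm'
  · apply hne₁
    apply hexinj
    rw [map_zero, ← hEcc]
    have h1 : PowerSeries.X ∣ E (η j₁ x₁) :=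
      ((dvd_pow_self _ h0.ne').trans hm'.symm.dvd).trans (hdvd j₁ x₁ hx₁ hx₁')
    rwa [PowerSeries.X_dvd_iff] at h1

end pole

section rees

variable {k : Type u} [Field k] {R : Type v} [CommRing R] [Algebra k R] {𝒜 : ℕ → Submodule k R}

/-- The inclusion of the degree zero part of the Rees algebra. -/
noncomputable def rrho (k : Type u) [Field k] {R : Type v} [CommRing R] [Algebra k R]
    (J : Ideal R) : R →ₐ[k] reesAlgebra J :=
  { algebraMap R (reesAlgebra J) with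
    commutes' := fun _ => rfl }

/-- The linear map of degree one elements. -/
noncomputable def rTL (k : Type u) [Field k] {R : Type v} [CommRing R] [Algebra k R]
    (J : Ideal R) : J →ₗ[k] reesAlgebra J where
  toFun := rT J
  map_add' x y := Subtype.ext (by
    change Polynomial.monomial 1 ((x + y : J) : R) = Polynomial.monomial 1 (x : R) +
      Polynomial.monomial 1 (y : R)
    rw [Submodule.coe_add, map_add])
  map_smul' c x := Subtype.ext (by
    change Polynomial.monomial 1 ((c • x : J) : R) = c • Polynomial.monomial 1 (x : R)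
    rw [Submodule.coe_smul_of_tower, Polynomial.smul_monomial])

theorem rTL_smul (J : Ideal R) (r : R) (x : J) : rTL k J (r • x) = rrho k J r * rTL k J x :=
  Subtype.ext (by
    change Polynomial.monomial 1 ((r • x : J) : R) = Polynomial.C r * Polynomial.monomial 1 (x : R)
    rw [Polynomial.C_mul_monomial]
    rfl)

theorem adjoin_rees (J : Ideal R) :
    Algebra.adjoin k (Set.range (rrho k J) ∪ Set.range (rTL k J)) = ⊤ := by
  rw [eq_top_iff]
  rintro ⟨f, hf⟩ -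
  have key : ∀ f ∈ Algebra.adjoin R (Submodule.map (Polynomial.monomial 1 : R →ₗ[R] Polynomial R)
      J : Set (Polynomial R)), ∃ h : f ∈ reesAlgebra J, (⟨f, h⟩ : reesAlgebra J) ∈
      Algebra.adjoin k (Set.range (rrho k J) ∪ Set.range (rTL k J)) := by
    intro f hf
    induction hf using Algebra.adjoin_induction with
    | mem x hx =>
      obtain ⟨r, hr, rfl⟩ := hx
      exact ⟨by
        rw [reesAlgebra.monomial_mem, pow_one]
        exact hr, Algebra.subset_adjoin (Or.inr ⟨⟨r, hr⟩, rfl⟩)⟩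
    | algebraMap r =>
      exact ⟨(reesAlgebra J).algebraMap_mem r, Algebra.subset_adjoin (Or.inl ⟨r, rfl⟩)⟩
    | add x y _ _ hx hy =>
      obtain ⟨h1, h2⟩ := hx
      obtain ⟨h3, h4⟩ := hy
      have h5 := add_mem h2 h4
      rw [AddMemClass.mk_add_mk] at h5
      exact ⟨add_mem h1 h3, h5⟩
    | mul x y _ _ hx hy =>
      obtain ⟨h1, h2⟩ := hx
      obtain ⟨h3, h4⟩ := hy
      have h5 := mul_mem h2 h4
      rw [MulMemClass.mk_mul_mk] at h5
      exact ⟨mul_mem h1 h3, h5⟩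
  rw [← adjoin_monomial_eq_reesAlgebra] at hf
  exact (key f hf).2

theorem rrho_mem (J : Ideal R) {n : ℕ} {r : R} (hr : r ∈ 𝒜 n) : rrho k J r ∈ rgr 𝒜 J (n, 0) :=
  ⟨r, hr, rfl⟩

theorem rTL_mem (J : Ideal R) {n : ℕ} {x : J} (hx : (x : R) ∈ 𝒜 n) :
    rTL k J x ∈ rgr 𝒜 J (n, 1) := ⟨x, hx, rfl⟩

end rees

section main

variable {k : Type u} [Field k] {R : Type v} [CommRing R] [Algebra k R]
  {𝒜 : ℕ → Submodule k R} [GradedAlgebra 𝒜] {P : R →ₗ[k] R →ₗ[k] R} {J : Ideal R}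
  {K : Type w} [Field K] [Algebra k K] {N : ℕ} {A₀ A₁ : Subalgebra k K} {u v : K}
  {φ : R →ₐ[k] K} {η : J →ₗ[k] K}

/-- B2. From the family to a degenerating family over `k[[τ]]`; all marks are base points of the
central fibre. -/
theorem exists_PF' [IsAlgClosed k] (hP : IsPM 𝒜 P) (hJ : J.IsHomogeneous 𝒜)
    {t : K} (ht : Transcendental k t) [FiniteDimensional (IntermediateField.adjoin k {t}) K]
    [Algebra.IsSeparable (IntermediateField.adjoin k {t}) K] (hch : IsCh t A₀ A₁)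
    (h : IsGP 𝒜 P J N A₀ A₁ u v φ η) {m : ℕ} (hm : 0 < m) {c : Fin m → (A₀ →ₐ[k] k)}
    {Φ : reesAlgebra J →ₐ[k] K}
    (hΦ : ∀ r, Φ (algebraMap R (reesAlgebra J) r) = φ r) (hΦT : ∀ x, Φ (rT J x) = η x)
    (hfam : FamOutG (rgr 𝒜 J) A₀ A₁ (UU u v) Φ (markI c)) :
    ∃ (F : R →ₐ[k] PowerSeries A₀) (H : J →ₗ[k] PowerSeries A₀), IsPF 𝒜 J A₀ A₁ u v F H ∧
      ∀ l, ∀ j, 0 < j → ∀ r ∈ 𝒜 j, c l (PowerSeries.constantCoeff (F r)) = 0 := by
  classical
  obtain ⟨g, hg, rfl, rfl⟩ := hch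
  have hft : Algebra.FiniteType k R := hP.finiteType
  have hnoe : IsNoetherianRing R := Algebra.FiniteType.isNoetherianRing k R
  have hcd : IsCD (IC (B0 t g)) (IC (B1 t g)) := isCD_IC ht hg
  have hfrac0 : IsFractionRing (IC (B0 t g)) K := hitgc_frac (frac0_IC g)
  have hfrac1 : IsFractionRing (IC (B1 t g)) K := hitgc_frac hcd.frac
  obtain ⟨D, _, _, _, e, Ψ, hart, hsec, hmark, he, hD⟩ := hfam
  have hΦ' : Φ.comp (rrho k J) = φ := AlgHom.ext hΦ
  have hmp : IsMp 𝒜 (IC (B0 t g)) (IC (B1 t g)) u (Φ.comp (rrho k J)) := by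
    rw [hΦ']; exact h.mp
  have hΦA : ∀ s, Φ s ∈ IC (B0 t g) := by
    intro s
    have h1 : Algebra.adjoin k (Set.range (rrho k J) ∪ Set.range (rTL k J)) ≤
        (IC (B0 t g)).comap Φ := by
      refine Algebra.adjoin_le ?_
      rintro _ (⟨r, rfl⟩ | ⟨x, rfl⟩)
      · change Φ (algebraMap R (reesAlgebra J) r) ∈ IC (B0 t g)
        rw [hΦ, ← DirectSum.sum_support_decompose 𝒜 r, map_sum]
        exact Subalgebra.sum_mem _ fun n _ =>
          (mem_Sec.mp (h.mp.sec n _ (DirectSum.decompose 𝒜 r n).2)).1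
      · change Φ (rT J x) ∈ IC (B0 t g)
        have hx : x = ∑ n ∈ (DirectSum.decompose 𝒜 (x : R)).support,
            (⟨DirectSum.decompose 𝒜 (x : R) n, hJ n x.2⟩ : J) := by
          apply Subtype.ext
          rw [AddSubmonoidClass.coe_finsetSum]
          exact (DirectSum.sum_support_decompose 𝒜 (x : R)).symm
        rw [hΦT, hx, map_sum]
        exact Subalgebra.sum_mem _ fun n _ =>
          (h.secη n _ (DirectSum.decompose 𝒜 (x : R) n).2).1
    have h2 : s ∈ Algebra.adjoin k (Set.range (rrho k J) ∪ Set.range (rTL k J)) := by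
      rw [adjoin_rees]; trivial
    exact h1 h2
  let w : Fin m → (reesAlgebra J →ₐ[k] k) := fun l => (c l).comp (Φ.codRestrict _ hΦA)
  obtain ⟨F, hF1, hF2, hF3, hF4, hF5, hF6, hF7, hF8⟩ := pf_laurent (𝒜 := 𝒜) (J := J) (v := v)
    (ρ := rrho k J) (T := rTL k J) (Φ := Φ) hmp
    (place_IC ht hg) (closed_IC0 ht hg) (pf_P3 hcd) (adjoin_rees J) hJ h.v_ne (by
      obtain ⟨i, j, a, b, -, ha, -, -, -, -, h1, h2⟩ := h.loc0
      have h3 : Φ (rTL k J a) = η a := hΦT a
      exact ⟨i, a, ha, by rw [h3]; exact h1, by rw [h3]; exact h2⟩) (by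
      obtain ⟨i, j, a, b, -, ha, -, -, -, -, h1, h2⟩ := h.loc1
      have h3 : Φ (rTL k J a) = η a := hΦT a
      exact ⟨i, a, ha, by rw [h3]; exact h1, by rw [h3, mul_comm v]; exact h2⟩)
    c w (fun l s => ⟨hΦA s, rfl⟩) (markI c) (fun a ha => mem_markI.1 ha) e hart Ψ
    (fun n r hr => InB_mono D (fun a ha => by
      have h1 := mem_SecG.1 ha
      have h2 : UU u v (n, 0) = u ^ n := by simp [UU]
      rw [h2] at h1
      exact mem_Sec.2 h1) (hsec _ _ (rrho_mem J hr)))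
    (fun n x hx => InB_mono D (fun a ha => by
      have h1 := mem_SecG.1 ha
      have h2 : UU u v (n, 1) = v * u ^ n := by simp [UU, mul_comm]
      rw [h2] at h1
      refine mem_Sec.2 ⟨h1.1, ?_⟩
      rw [pow_one]
      exact h1.2) (hsec _ _ (rTL_mem J hx)))
    hmark (fun s => hitgc_sep fun l => by rw [hitgc_evT, he]) hD
  -- the first component has a pole
  choose ex hex1 hex2 hex3 using fun l => expansion_IC (k := k) (K := K) ht hg (c l)
  have hrpole : ∃ r, F (rrho k J r) ∉ Set.range (HahnSeries.ofPowerSeries ℤ (IC (B0 t g))) := by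
    obtain ⟨i, j, a, b, -, ha, hbj, hab, hb0, hbA, -, -⟩ := h.loc0
    refine pf_pole hJ (rTL_smul J) (adjoin_rees J) F (c ⟨0, hm⟩) (w ⟨0, hm⟩) (hF3 ⟨0, hm⟩)
      (ex ⟨0, hm⟩) (hex1 _) (hex2 _) hF4 hF6 ha hbj hab ?_
    have hbA0 : φ b ∈ IC (B0 t g) := (mem_Sec.mp (h.mp.sec j b hbj)).1
    have h1 : (⟨φ b, hbA0⟩ : IC (B0 t g)) * ⟨(φ b)⁻¹, hbA⟩ = 1 := Subtype.ext (mul_inv_cancel₀ hb0)
    have h2 : w ⟨0, hm⟩ (rrho k J b) = c ⟨0, hm⟩ ⟨φ b, hbA0⟩ := by
      have h3 : (Φ.codRestrict _ hΦA) (rrho k J b) = (⟨φ b, hbA0⟩ : IC (B0 t g)) :=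
        Subtype.ext (hΦ b)
      change c ⟨0, hm⟩ ((Φ.codRestrict _ hΦA) (rrho k J b)) = _
      rw [h3]
    rw [h2]
    intro h0
    have h3 := congrArg (c ⟨0, hm⟩) h1
    rw [map_mul, h0, zero_mul, map_one] at h3
    exact zero_ne_one h3
  -- scaling
  obtain ⟨s, hs, hdeg⟩ := Vale.Agent.P292.Mo.Fm.exists_generators (k := k) 𝒜 hP.connected
  obtain ⟨d, hd, μ, φ', hμ, hφ', y, hys, n, hn, hyn, hy0⟩ :=
    exists_scaled_of_pole 𝒜 (F.comp (rrho k J)) s hs hdeg hrpole
  obtain ⟨G, hG, hGT⟩ := exists_etaG (𝒜 := 𝒜) (rTL_smul (k := k) J) F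
  have hspan : Ideal.span {y | ∃ j : ℕ, ∃ x ∈ 𝒜 j, x ∈ J ∧ y = G j x} = ⊤ := by
    rw [← hF6]
    congr 1
    ext y
    constructor
    · rintro ⟨j, x, hx, hx', rfl⟩
      exact ⟨j, ⟨x, hx'⟩, hx, hGT j ⟨x, hx'⟩⟩
    · rintro ⟨j, x, hx, rfl⟩
      exact ⟨j, x, hx, x.2, (hGT j x).symm⟩
  obtain ⟨a, η', hη', hηG, j₁, x₁, hx₁, hx₁', hne₁⟩ := eta_scale hJ hG hφ' (by
    by_contra hcon
    push Not at hcon
    have h1 : Ideal.span {y | ∃ j : ℕ, ∃ x ∈ 𝒜 j, x ∈ J ∧ y = G j x} = ⊥ := by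
      rw [Ideal.span_eq_bot]
      rintro y ⟨j, x, hx, hx', rfl⟩
      exact hcon j x hx hx'
    rw [hspan] at h1
    exact top_ne_bot h1)
  obtain ⟨H, hH1, hH2⟩ := eta_total hJ hη'
  have hHG : ∀ n, ∀ x : J, (x : R) ∈ 𝒜 n → ofPS k _ (H x) =
      HahnSeries.single (μ * n + a) 1 * expand k d hd (F (rTL k J x)) := by
    intro n x hx
    rw [hH2 n x hx, hηG n x hx x.2, hGT]
  refine ⟨φ', H, ⟨?_, ?_, hH1, ⟨n, hn, y, hyn, hy0⟩, ⟨⟨x₁, hx₁'⟩, ?_⟩, ?_, ?_, ?_, ?_⟩, ?_⟩
  · intro n r hr i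
    exact pf_coeff_mem (hF1 n r hr) (hφ' n r hr) i
  · intro n x hx i
    have h1 := pf_coeff_mem (hF2 n x hx) (hHG n x hx) i
    have h2 := (mem_Sec.1 h1).2
    rwa [pow_one, mul_comm v] at h2
  · rw [hH2 j₁ ⟨x₁, hx₁'⟩ hx₁]
    exact hne₁
  · refine pf_pow_mem (k := k) (c := d) (hc := hd) ?_ hF5
    rintro _ ⟨j, hj, r, hr, rfl⟩
    exact ⟨_, ⟨j, hj, r, hr, rfl⟩, _, hφ' j r hr⟩
  · refine pf_pow_mem (k := k) (c := d) (hc := hd) ?_ hF6
    rintro _ ⟨j, x, hx, rfl⟩
    exact ⟨_, ⟨x, rfl⟩, _, hHG j x hx⟩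
  · refine pf_pow_mem (k := k) (c := d) (hc := hd) ?_ hF7
    rintro z ⟨j, hj, r, hr, hz⟩
    obtain ⟨y', hy', hy''⟩ := pf_second (c := d) (hc := hd) hz (hφ' j r hr)
    exact ⟨y', ⟨j, hj, r, hr, hy'⟩, _, hy''⟩
  · refine pf_pow_mem (k := k) (c := d) (hc := hd) ?_ hF8
    rintro z ⟨j, x, hx, hz⟩
    obtain ⟨y', hy', hy''⟩ := pf_second (c := d) (hc := hd) hz (hHG j x hx)
    exact ⟨y', ⟨j, x, hx, fun i => by rw [hy', mul_comm v]⟩, _, hy''⟩
  · intro l j hj r hr
    have h1 := mark_scaled 𝒜 hφ' (c l) (fun r => w l (rrho k J r)) (fun r i => hF3 l _ i) hr 0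
    rw [PowerSeries.coeff_zero_eq_constantCoeff_apply, if_neg (by positivity)] at h1
    exact h1

/-- B2. From the family to a degenerating family over `k[[τ]]`; all marks are base points of the
central fibre. -/
theorem exists_PF [IsAlgClosed k] [IsDomain R] (hP : IsPM 𝒜 P) (hJ : J.IsHomogeneous 𝒜)
    {t : K} (ht : Transcendental k t) [FiniteDimensional (IntermediateField.adjoin k {t}) K]
    [Algebra.IsSeparable (IntermediateField.adjoin k {t}) K] (hch : IsCh t A₀ A₁)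
    (h : IsGP 𝒜 P J N A₀ A₁ u v φ η) {m : ℕ} (hm : 0 < m) {c : Fin m → (A₀ →ₐ[k] k)}
    (hc : Function.Injective c) {Φ : reesAlgebra J →ₐ[k] K}
    (hΦ : ∀ r, Φ (algebraMap R (reesAlgebra J) r) = φ r) (hΦT : ∀ x, Φ (rT J x) = η x)
    (hfam : FamOutG (rgr 𝒜 J) A₀ A₁ (UU u v) Φ (markI c)) :
    ∃ (F : R →ₐ[k] PowerSeries A₀) (H : J →ₗ[k] PowerSeries A₀), IsPF 𝒜 J A₀ A₁ u v F H ∧
      ∀ l, ∀ j, 0 < j → ∀ r ∈ 𝒜 j, c l (PowerSeries.constantCoeff (F r)) = 0 :=
  have _ := hc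
  exists_PF' hP hJ ht hch h hm hΦ hΦT hfam

end main

end Vale.Agent.P292.Dv
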