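import Vale.Agent.P292.D.TwChart

/-! # P292, Part III, C8: the Frobenius twist of a pair. -/

namespace Vale.Agent.P292.Dv

open Vale.Agent.P292.Mo

universe u v w

variable {k : Type u} [Field k] {R : Type v} [CommRing R] [Algebra k R]
  {𝒜 : ℕ → Submodule k R} [GradedAlgebra 𝒜] {P : R →ₗ[k] R →ₗ[k] R} {J : Ideal R}
  {K : Type w} [Field K] [Algebra k K]

omit [GradedAlgebra 𝒜] in
theorem TwGP.main [IsAlgClosed k] (p : ℕ) [Fact p.Prime] [CharP k p] {t : K}
    {A₀ A₁ : Subalgebra k K} {u v : K} (cd : IsCD A₀ A₁)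
    {φ : R →ₐ[k] K} {η : J →ₗ[k] K} {N : ℕ} (hch : IsCh t A₀ A₁)
    (h : IsGP 𝒜 P J N A₀ A₁ u v φ η) (j : ℕ) :
    ∃ (A₀' A₁' : Subalgebra k (Tw p j K)) (u' v' : Tw p j K) (φ' : R →ₐ[k] Tw p j K)
      (η' : J →ₗ[k] Tw p j K), IsCh (K := Tw p j K) t A₀' A₁' ∧
      IsGP 𝒜 P J N A₀' A₁' u' v' φ' η' ∧ idx A₁' v' = p ^ j * idx A₁ v := by
  have hpp : p.Prime := Fact.out
  set q : ℕ := p ^ j with hq
  have hq0 : 0 < q := pow_pos hpp.pos j
  have hs : Function.Surjective (iterateFrobenius k p j) := by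
    intro c
    obtain ⟨z, hz⟩ := IsAlgClosed.exists_pow_nat_eq c hq0
    exact ⟨z, by rw [iterateFrobenius_def, hz]⟩
  have : CharP K p := charP_of_injective_algebraMap (algebraMap k K).injective p
  let σ : k ≃+* k := RingEquiv.ofBijective (iterateFrobenius k p j)
    ⟨(iterateFrobenius k p j).injective, hs⟩
  have hσ : ∀ c, σ c = c ^ q := fun c => iterateFrobenius_def p j c
  let τ : Tw p j K ≃+* K := RingEquiv.refl K
  have hτ : IsSl σ τ := ⟨fun c => rfl⟩
  have hadd : ∀ x y : K, (x + y) ^ q = x ^ q + y ^ q := by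
    intro x y
    have := map_add (iterateFrobenius K p j) x y
    simpa only [iterateFrobenius_def] using this
  let φ' : R →ₐ[k] Tw p j K :=
    { toFun := fun r => τ.symm (φ r ^ q)
      map_one' := by rw [map_one, one_pow, map_one]
      map_mul' := fun x y => by rw [map_mul, mul_pow, map_mul]
      map_zero' := by rw [map_zero, zero_pow hq0.ne', map_zero]
      map_add' := fun x y => by rw [map_add, hadd, map_add]
      commutes' := fun c => by
        rw [AlgHom.commutes, ← map_pow, ← hσ, hτ.sm] }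
  have hφ' : ∀ r, τ (φ' r) = φ r ^ q := fun r => τ.apply_symm_apply _
  have hne : ∀ r, φ r ≠ 0 → φ' r ≠ 0 := by
    intro r hr h0
    have := hφ' r
    rw [h0, map_zero] at this
    exact pow_ne_zero q hr this.symm
  let η' : J →ₗ[k] Tw p j K :=
    { toFun := fun x => τ.symm (η x ^ q)
      map_add' := fun x y => by rw [map_add, hadd, map_add]
      map_smul' := fun c x => by
        apply τ.injective
        rw [RingHom.id_apply, hτ.smul, τ.apply_symm_apply, τ.apply_symm_apply, map_smul,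
          smul_pow, hσ] }
  have hη' : ∀ x, τ (η' x) = η x ^ q := fun x => τ.apply_symm_apply _
  have hneη : ∀ x, η x ≠ 0 → η' x ≠ 0 := by
    intro x hx h0
    have := hη' x
    rw [h0, map_zero] at this
    exact pow_ne_zero q hx this.symm
  set u' : Tw p j K := τ.symm (u ^ q) with hu'
  have hτu : τ u' = u ^ q := τ.apply_symm_apply _
  set v' : Tw p j K := τ.symm (v ^ q) with hv'
  have hτv : τ v' = v ^ q := τ.apply_symm_apply _
  have hun : ∀ n : ℕ, (u ^ q) ^ n = (u ^ n) ^ q := fun n => by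
    rw [← pow_mul, mul_comm q n, pow_mul]
  have hidx : idx (hτ.A A₁) v' = p ^ j * idx A₁ v := by
    rw [hτ.idx, hτv, cd.idx_pow h.v_ne, hq]
    push_cast
    rfl
  refine ⟨hτ.A A₀, hτ.A A₁, u', v', φ', η', TwGP.isCh hτ hch, ?_, hidx⟩
  refine
    { mp := ?_
      v_ne := ?_
      lin := ?_
      secη := ?_
      loc0 := ?_
      loc1 := ?_
      Npos := h.Npos
      frames := ?_ }
  · refine ⟨?_, ?_, ?_, ?_⟩
    · rw [hu']
      exact (map_ne_zero τ.symm).2 (pow_ne_zero q h.mp.u_ne)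
    · intro n r hr
      obtain ⟨h1, h2⟩ := mem_Sec.1 (h.mp.sec n r hr)
      refine mem_Sec.2 ⟨?_, ?_⟩
      · rw [hτ.mem_A, hφ']
        exact pow_mem h1 q
      · rw [hτ.mem_A, map_mul, map_pow, hφ', hτu, hun, ← mul_pow]
        exact pow_mem h2 q
    · obtain ⟨n, hn, r, hr, h1, h2⟩ := h.mp.unit0
      refine ⟨n, hn, r, hr, hne r h1, ?_⟩
      rw [hτ.mem_A, map_inv₀, hφ', ← inv_pow]
      exact pow_mem h2 q
    · obtain ⟨n, hn, r, hr, h1, h2⟩ := h.mp.unit1
      refine ⟨n, hn, r, hr, hne r h1, ?_⟩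
      rw [hτ.mem_A, map_inv₀, map_mul, map_pow, hφ', hτu, hun, ← mul_pow,
        ← inv_pow]
      exact pow_mem h2 q
  · rw [hv']
    exact (map_ne_zero τ.symm).2 (pow_ne_zero q h.v_ne)
  · intro r x
    apply τ.injective
    rw [map_mul, hη', hη', hφ', h.lin, mul_pow]
  · intro n x hx
    obtain ⟨h1, h2⟩ := h.secη n x hx
    refine ⟨?_, ?_⟩
    · rw [hτ.mem_A, hη']
      exact pow_mem h1 q
    · rw [hτ.mem_A, map_mul, map_mul, map_pow, hη', hτu, hτv, hun, ← mul_pow, ← mul_pow]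
      exact pow_mem h2 q
  · obtain ⟨i, l, a, b, hl, ha, hb, hab, h1, h2, h3, h4⟩ := h.loc0
    refine ⟨i, l, a, b, hl, ha, hb, hab, hne b h1, ?_, hneη a h3, ?_⟩
    · rw [hτ.mem_A, map_inv₀, hφ', ← inv_pow]
      exact pow_mem h2 q
    · rw [hτ.mem_A, map_inv₀, hη', ← inv_pow]
      exact pow_mem h4 q
  · obtain ⟨i, l, a, b, hl, ha, hb, hab, h1, h2, h3, h4⟩ := h.loc1
    refine ⟨i, l, a, b, hl, ha, hb, hab, hne b h1, ?_, hneη a h3, ?_⟩
    · rw [hτ.mem_A, map_inv₀, map_mul, map_pow, hφ', hτu, hun, ← mul_pow, ← inv_pow]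
      exact pow_mem h2 q
    · rw [hτ.mem_A, map_inv₀, map_mul, map_mul, map_pow, hη', hτu, hτv, hun, ← mul_pow,
        ← mul_pow, ← inv_pow]
      exact pow_mem h4 q
  · obtain ⟨x, d, g, x', d', g', h1, h2⟩ := h.frames
    refine ⟨x, d, g, x', d', g', ⟨h1.fr, hne _ h1.g_ne, hne _ h1.det_ne, ?_⟩,
      ⟨h2.fr, hne _ h2.g_ne, hne _ h2.det_ne, ?_⟩⟩
    · rw [hτ.mem_A, map_inv₀, hφ', ← inv_pow]
      exact pow_mem h1.unit q
    · rw [hτ.mem_A, map_inv₀, map_mul, map_zpow₀, hφ', hτu]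
      have : ∀ m : ℤ, (u ^ q) ^ m = (u ^ m) ^ q := by
        intro m
        rw [← zpow_natCast, ← zpow_natCast, ← zpow_mul, ← zpow_mul, mul_comm]
      rw [this, ← mul_pow, ← inv_pow]
      exact pow_mem h2.unit q

/-- C8. Frobenius twist of a pair. -/
theorem twist_GP [IsAlgClosed k] (p : ℕ) [Fact p.Prime] [CharP k p] (hP : IsPM 𝒜 P) {t : K}
    (ht : Transcendental k t) [FiniteDimensional (IntermediateField.adjoin k {t}) K]
    [Algebra.IsSeparable (IntermediateField.adjoin k {t}) K] {A₀ A₁ : Subalgebra k K} {u v : K}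
    {φ : R →ₐ[k] K} {η : J →ₗ[k] K} {N : ℕ} (hch : IsCh t A₀ A₁)
    (h : IsGP 𝒜 P J N A₀ A₁ u v φ η) (j : ℕ) :
    ∃ (A₀' A₁' : Subalgebra k (Tw p j K)) (u' v' : Tw p j K) (φ' : R →ₐ[k] Tw p j K)
      (η' : J →ₗ[k] Tw p j K), IsCh (K := Tw p j K) t A₀' A₁' ∧
      IsGP 𝒜 P J N A₀' A₁' u' v' φ' η' ∧ idx A₁' v' = p ^ j * idx A₁ v := by
  have cd : IsCD A₀ A₁ := by
    obtain ⟨g, hg, rfl, rfl⟩ := hch
    exact isCD_IC ht hg
  exact TwGP.main p cd hch h j

end Vale.Agent.P292.Dv
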