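import Vale.Agent.P292.Bn.N4

/-! # P292, Part III, block T2, leaf C3: the coordinate of the twisted field.

The twisted structure `Tw p j K` has the same image of `k` in `K` (`k` is perfect), so the subfield
`k(t)` of `K` does not change; finiteness and separability of `K` over it are the same. -/

namespace Vale.Agent.P292.Dv
open Vale.Agent.P292.Mo
universe u v w
variable {k : Type u} [Field k] {K : Type w} [Field K] [Algebra k K]

namespace TwT

/-- The identity as a ring isomorphism. -/
def τ (p j : ℕ) (K : Type w) [Field K] : Tw p j K ≃+* K := RingEquiv.refl K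

theorem τ_algebraMap (p : ℕ) [Fact p.Prime] [CharP k p] (j : ℕ) (c : k) :
    τ p j K (algebraMap k (Tw p j K) c) = algebraMap k K (iterateFrobenius k p j c) := rfl

theorem surj [IsAlgClosed k] (p : ℕ) [Fact p.Prime] [CharP k p] (j : ℕ) :
    Function.Surjective (iterateFrobenius k p j) := by
  intro c
  obtain ⟨z, hz⟩ := IsAlgClosed.exists_pow_nat_eq c (pow_pos (Fact.out : p.Prime).pos j)
  exact ⟨z, by rw [iterateFrobenius_def, hz]⟩

theorem mem_iff [IsAlgClosed k] (p : ℕ) [Fact p.Prime] [CharP k p] (j : ℕ) (t' : Tw p j K)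
    (x : Tw p j K) :
    x ∈ IntermediateField.adjoin k {t'} ↔ τ p j K x ∈ IntermediateField.adjoin k {τ p j K t'} := by
  have h1 : (IntermediateField.adjoin k {t'}).toSubfield =
      ((IntermediateField.adjoin k {τ p j K t'}).toSubfield).comap (τ p j K : Tw p j K →+* K) := by
    rw [IntermediateField.adjoin_toSubfield, IntermediateField.adjoin_toSubfield]
    apply le_antisymm
    · rw [Subfield.closure_le]
      rintro y (⟨c, rfl⟩ | hy)
      · exact Subfield.subset_closure (Or.inl ⟨iterateFrobenius k p j c, rfl⟩)
      · rw [Set.mem_singleton_iff] at hy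
        subst hy
        exact Subfield.subset_closure (Or.inr rfl)
    · intro y hy
      have h2 : Subfield.closure (Set.range (algebraMap k K) ∪ {τ p j K t'}) ≤
          (Subfield.closure (Set.range (algebraMap k (Tw p j K)) ∪ {t'})).comap
            ((τ p j K).symm : K →+* Tw p j K) := by
        rw [Subfield.closure_le]
        rintro z (⟨c, rfl⟩ | hz)
        · obtain ⟨c', rfl⟩ := surj p j c
          exact Subfield.subset_closure (Or.inl ⟨c', rfl⟩)
        · rw [Set.mem_singleton_iff] at hz
          subst hz
          exact Subfield.subset_closure (Or.inr rfl)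
      exact h2 hy
  have h3 : x ∈ (IntermediateField.adjoin k {t'}).toSubfield ↔
      x ∈ ((IntermediateField.adjoin k {τ p j K t'}).toSubfield).comap
        (τ p j K : Tw p j K →+* K) := by rw [h1]
  exact h3

/-- The two subfields are the same. -/
def eL [IsAlgClosed k] (p : ℕ) [Fact p.Prime] [CharP k p] (j : ℕ) (t' : Tw p j K) :
    IntermediateField.adjoin k {τ p j K t'} ≃+* IntermediateField.adjoin k {t'} where
  toFun x := ⟨(τ p j K).symm x, (mem_iff p j t' _).2 (by rw [RingEquiv.apply_symm_apply]; exact x.2)⟩
  invFun x := ⟨τ p j K x, (mem_iff p j t' _).1 x.2⟩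
  left_inv _ := rfl
  right_inv _ := rfl
  map_mul' _ _ := rfl
  map_add' _ _ := rfl

end TwT

/-- C3. The twisted field. -/
theorem tw_transcendental [IsAlgClosed k] (p : ℕ) [Fact p.Prime] [CharP k p] (j : ℕ) {t : K}
    (ht : Transcendental k t) [FiniteDimensional (IntermediateField.adjoin k {t}) K]
    [Algebra.IsSeparable (IntermediateField.adjoin k {t}) K] (t' : Tw p j K) (htt : t' = t) :
    Transcendental k t' ∧
    FiniteDimensional (IntermediateField.adjoin k {t'}) (Tw p j K) ∧
    Algebra.IsSeparable (IntermediateField.adjoin k {t'}) (Tw p j K) := by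
  have ht2 : TwT.τ p j K t' = t := htt
  subst ht2
  refine ⟨?_, ?_, ?_⟩
  · rw [transcendental_iff] at ht ⊢
    intro f hf
    have h1 : Polynomial.aeval (TwT.τ p j K t') (f.map (iterateFrobenius k p j)) = 0 := by
      rw [Polynomial.aeval_def, Polynomial.eval₂_map]
      exact hf
    have h2 := ht _ h1
    rwa [Polynomial.map_eq_zero_iff (iterateFrobenius k p j).injective] at h2
  · exact Module.Finite.of_equiv_equiv (TwT.eL p j t') (TwT.τ p j K).symm rfl
  · exact Algebra.IsSeparable.of_equiv_equiv (TwT.eL p j t') (TwT.τ p j K).symm rfl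

end Vale.Agent.P292.Dv
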