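import Vale.Agent.P292.D.PairOut
import Vale.Agent.P292.D.Loc5
import Vale.Agent.P292.D.ExGP
import Vale.Agent.P292.D.TwT
import Vale.Agent.P292.D.NegIdx
import Vale.Agent.P292.D.IdxNeg
import Vale.Agent.P292.D.LineQ3
import Vale.Agent.P292.D.LineQ4
import Vale.Agent.P292.D.LeRk
import Vale.Agent.P292.D.MultLe
import Vale.Agent.P292.D.CurveT
import Vale.Agent.P292.D.PairPF
import Vale.Agent.P292.D.LineQ1
import Vale.Agent.P292.D.TwGP
import Vale.Agent.P292.D.ChiBound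
import Vale.Agent.P292.D.IdxLim
import Vale.Agent.P292.D.LineQ2

/-! # P292, Part III, block T2: assembly. -/

namespace Vale.Agent.P292.Dv

open TensorProduct
open Vale.Agent.P292.Mo

universe u v w

theorem NoPos.mono {k : Type u} [Field k] {R : Type v} [CommRing R] [Algebra k R]
    {𝒜 : ℕ → Submodule k R} {J : Ideal R} {E E' : ℕ} (h : NoPos 𝒜 J E) (hE : E' ≤ E) :
    NoPos 𝒜 J E' :=
  fun e δ he heE hδ => h e δ he (heE.trans hE) hδ

section step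

variable {k : Type u} [Field k] {R : Type v} [CommRing R] [Algebra k R]
  {𝒜 : ℕ → Submodule k R} [GradedAlgebra 𝒜] {P : R →ₗ[k] R →ₗ[k] R} {J : Ideal R}
  {K : Type w} [Field K] [Algebra k K]

/-- One break: from a pair with `m` marks to a pair of smaller degree. -/
theorem break_step [IsAlgClosed k] [IsDomain R] (p : ℕ) [Fact p.Prime] [CharP k p]
    (hP : IsPM 𝒜 P) (hJ : J.IsHomogeneous 𝒜) (hinv : IsInv 𝒜 J) {t : K}
    (ht : Transcendental k t) [FiniteDimensional (IntermediateField.adjoin k {t}) K]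
    [Algebra.IsSeparable (IntermediateField.adjoin k {t}) K] {N : ℕ} {A₀ A₁ : Subalgebra k K}
    {u v : K} {φ : R →ₐ[k] K} {η : J →ₗ[k] K} (hch : IsCh t A₀ A₁)
    (h : IsGP 𝒜 P J N A₀ A₁ u v φ η) {m : ℕ} (hm : 0 < m)
    (hnum : 0 < N * (2 * chi0 A₀ A₁ + idx A₁ u - 2 * m) + 2 * (chi0 A₀ A₁ - m))
    (hno : (∀ E, NoPos 𝒜 J E) ∨ (m = 2 ∧ ∃ E : ℕ, idx A₁ u = E + 1 ∧ NoPos 𝒜 J E)) :
    ∃ (N' : ℕ) (A₀' A₁' : Subalgebra k K) (u' v' : K) (φ' : R →ₐ[k] K) (η' : J →ₗ[k] K),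
      IsCh t A₀' A₁' ∧ IsGP 𝒜 P J N' A₀' A₁' u' v' φ' η' ∧ idx A₁' u' + m ≤ idx A₁ u ∧
      idx A₁' v' ≤ idx A₁ v := by
  classical
  obtain ⟨g, hg, rfl, rfl⟩ := id hch
  -- the marks
  obtain ⟨c, hc⟩ : ∃ c : Fin m → (IC (B0 t g) →ₐ[k] k), Function.Injective c := by
    have h1 := infinite_IC ht hg (1 : IC (B0 t g)) one_ne_zero
    have : Infinite ↥{c : IC (B0 t g) →ₐ[k] k | c 1 ≠ 0} := h1.to_subtype
    let e := Infinite.natEmbedding ↥{c : IC (B0 t g) →ₐ[k] k | c 1 ≠ 0}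
    exact ⟨fun i => (e i).1, fun i j hij => Fin.ext (e.injective (Subtype.ext hij))⟩
  obtain ⟨Φ, hΦ, hΦT, hfam⟩ := famOutG_of_num hP hJ (isCD_IC ht hg) h hc hnum
  obtain ⟨F, H, hF, hmark⟩ := exists_PF hP hJ ht hch h hm hc hΦ hΦT hfam
  -- the central fibre
  let cc : PowerSeries (IC (B0 t g)) →ₐ[k] IC (B0 t g) :=
    { (PowerSeries.constantCoeff (R := IC (B0 t g))) with
      commutes' := fun a => by
        change PowerSeries.constantCoeff (algebraMap k (PowerSeries (IC (B0 t g))) a) = _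
        rw [PowerSeries.algebraMap_apply, PowerSeries.constantCoeff_C] }
  let φ' : R →ₐ[k] K := (IC (B0 t g)).val.comp (cc.comp F)
  let η' : J →ₗ[k] K := (IC (B0 t g)).val.toLinearMap ∘ₗ cc.toLinearMap ∘ₗ H
  have hφ' : ∀ r, φ' r = ((PowerSeries.constantCoeff (F r) : IC (B0 t g)) : K) := fun r => rfl
  have hη' : ∀ x, η' x = ((PowerSeries.constantCoeff (H x) : IC (B0 t g)) : K) := fun x => rfl
  have hNV : Mo.NV 𝒜 φ' := by
    obtain ⟨n, hn, r, hr, hne⟩ := hF.ne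
    exact ⟨n, hn, r, hr, fun h0 => hne (Subtype.ext h0)⟩
  have hlin : ∀ (r : R) (x : J), η' (r • x) = φ' r * η' x := by
    intro r x
    rw [hη', hφ', hη', hF.lin, map_mul]
    rfl
  have hη0 : ∃ x, η' x ≠ 0 := by
    obtain ⟨x, hx⟩ := hF.neη
    exact ⟨x, fun h0 => hx (Subtype.ext h0)⟩
  obtain ⟨N', A₀', A₁', u', v', hch', h'⟩ := exists_GP p hP hJ hinv ht φ' hNV η' hlin hη0
  obtain ⟨h1, h2⟩ := idx_limit ht hch hch' h hF hc hmark hφ' hη' h'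
  refine ⟨N', A₀', A₁', u', v', φ', η', hch', h', h1, h2 ?_ ?_⟩
  · intro ex hex hd
    obtain ⟨β, b1, ⟨n, hn, r, hr, a, ha, b2⟩, b3⟩ := sAt0 hP hJ hinv hF ex hex hd
    have hb1 : ∀ n, ∀ r ∈ 𝒜 n, (PowerSeries.X : PowerSeries k) ^ (β * n) ∣
        ex (PowerSeries.constantCoeff (F r)) := fun n r hr => b1 n r hr _ rfl
    refine ⟨β, hb1, ⟨n, hn, r, hr, by rw [← ha]; exact b2⟩, ?_⟩
    have hN : NoPos 𝒜 J β := by
      rcases hno with hno | ⟨rfl, E, hE, hno⟩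
      · exact hno β
      · have h3 := (mult_le ht h.mp.u_ne hch hF hc hmark).1 ex hex hd β hb1
        exact hno.mono (by omega)
    intro i x hx
    exact b3 hN i x hx _ rfl
  · intro ex hex hd
    obtain ⟨β, b1, b2, b3⟩ := sAt1 hP hJ hinv h.mp.u_ne h.v_ne hF ex hex hd
    have hN : NoPos 𝒜 J β := by
      rcases hno with hno | ⟨rfl, E, hE, hno⟩
      · exact hno β
      · have h3 := (mult_le ht h.mp.u_ne hch hF hc hmark).2 ex hex hd β b1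
        exact hno.mono (by omega)
    exact ⟨β, b1, b2, b3 hN⟩

/-- T2a: the descent. -/
theorem t2a_descent [IsAlgClosed k] [IsDomain R] (p : ℕ) [Fact p.Prime] [CharP k p]
    (hP : IsPM 𝒜 P) (hJ : J.IsHomogeneous 𝒜) (hinv : IsInv 𝒜 J) {t : K}
    (ht : Transcendental k t) [FiniteDimensional (IntermediateField.adjoin k {t}) K]
    [Algebra.IsSeparable (IntermediateField.adjoin k {t}) K] {C κ : ℕ}
    (hC : ∀ A₀ A₁ : Subalgebra k K, IsCh t A₀ A₁ → - (C : ℤ) ≤ chi0 A₀ A₁)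
    (hκ : ∀ {A₀ A₁ : Subalgebra k K}, IsCD A₀ A₁ →
      ∀ {N : ℕ} {u v : K} {φ : R →ₐ[k] K} {η : J →ₗ[k] K}, IsGP 𝒜 P J N A₀ A₁ u v φ η →
      0 ≤ idx A₁ u ∧ - idx A₁ v ≤ κ * idx A₁ u)
    (hno : ∀ E, NoPos 𝒜 J E) (d : ℕ) : ∀ {N : ℕ} {A₀ A₁ : Subalgebra k K} {u v : K}
    {φ : R →ₐ[k] K} {η : J →ₗ[k] K}, IsCh t A₀ A₁ → IsGP 𝒜 P J N A₀ A₁ u v φ η →
    idx A₁ u = d → (κ : ℤ) * (4 * C + 4) < - idx A₁ v → False := by
  induction d using Nat.strong_induction_on with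
  | _ d ih =>
    intro N A₀ A₁ u v φ η hch h hd hv
    obtain ⟨g, hg, h1, h2⟩ := id hch
    have hcd : IsCD A₀ A₁ := by
      rw [h1, h2]
      exact isCD_IC ht hg
    obtain ⟨-, h3⟩ := hκ hcd h
    have h4 := hC A₀ A₁ hch
    have h5 : (4 * C + 4 : ℤ) < d := by
      rw [hd] at h3
      by_contra hcon
      have h6 : (κ : ℤ) * d ≤ κ * (4 * C + 4) :=
        mul_le_mul_of_nonneg_left (not_lt.1 hcon) (by positivity)
      linarith
    have hnum : 0 < N * (2 * chi0 A₀ A₁ + idx A₁ u - 2 * (1 : ℕ)) +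
        2 * (chi0 A₀ A₁ - (1 : ℕ)) := by
      rw [hd]
      have h7 : (1 : ℤ) ≤ N := by exact_mod_cast h.Npos
      have h8 : 0 ≤ 2 * chi0 A₀ A₁ + (d : ℤ) - 2 * (1 : ℕ) := by push_cast; linarith
      have h9 := mul_le_mul_of_nonneg_right h7 h8
      push_cast at h9 h8 ⊢
      linarith
    obtain ⟨N', A₀', A₁', u', v', φ', η', hch', h', hu, hv'⟩ :=
      break_step p hP hJ hinv ht hch h one_pos hnum (Or.inl hno)
    obtain ⟨g', hg', h1', h2'⟩ := id hch'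
    have hcd' : IsCD A₀' A₁' := by
      rw [h1', h2']
      exact isCD_IC ht hg'
    obtain ⟨h10, -⟩ := hκ hcd' h'
    rw [hd] at hu
    refine ih (idx A₁' u').toNat ?_ hch' h' (Int.toNat_of_nonneg h10).symm (by linarith)
    push_cast at hu
    omega

/-- T2a for one generic field: the descent from a large degree. -/
theorem t2a_final [IsAlgClosed k] [IsDomain R] (p : ℕ) [Fact p.Prime] [CharP k p]
    (hP : IsPM 𝒜 P) (hJ : J.IsHomogeneous 𝒜) (hinv : IsInv 𝒜 J) {t : K}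
    (h : Transcendental k t ∧ FiniteDimensional (IntermediateField.adjoin k {t}) K ∧
      Algebra.IsSeparable (IntermediateField.adjoin k {t}) K) {C κ : ℕ}
    (hC : ∀ A₀ A₁ : Subalgebra k K, IsCh t A₀ A₁ → - (C : ℤ) ≤ chi0 A₀ A₁)
    (hκ : ∀ {A₀ A₁ : Subalgebra k K}, IsCD A₀ A₁ →
      ∀ {N : ℕ} {u v : K} {φ : R →ₐ[k] K} {η : J →ₗ[k] K}, IsGP 𝒜 P J N A₀ A₁ u v φ η →
      0 ≤ idx A₁ u ∧ - idx A₁ v ≤ κ * idx A₁ u)
    (hno : ∀ E, NoPos 𝒜 J E) {N : ℕ} {A₀ A₁ : Subalgebra k K} {u v : K}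
    {φ : R →ₐ[k] K} {η : J →ₗ[k] K} (hch : IsCh t A₀ A₁) (h' : IsGP 𝒜 P J N A₀ A₁ u v φ η)
    (hv : (κ : ℤ) * (4 * C + 4) < - idx A₁ v) : False := by
  obtain ⟨ht, hfd, hsep⟩ := h
  obtain ⟨g, hg, e1, e2⟩ := id hch
  have hcd : IsCD A₀ A₁ := by
    rw [e1, e2]
    exact isCD_IC ht hg
  obtain ⟨h10, -⟩ := hκ hcd h'
  exact t2a_descent p hP hJ hinv ht hC hκ hno (idx A₁ u).toNat hch h'
    (Int.toNat_of_nonneg h10).symm hv

/-- T2a: the twist. -/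
theorem t2a_twist [IsAlgClosed k] [IsDomain R] (p : ℕ) [Fact p.Prime] [CharP k p]
    (hP : IsPM 𝒜 P) (hJ : J.IsHomogeneous 𝒜) (hinv : IsInv 𝒜 J) {t : K}
    (ht : Transcendental k t) [FiniteDimensional (IntermediateField.adjoin k {t}) K]
    [Algebra.IsSeparable (IntermediateField.adjoin k {t}) K] {C κ : ℕ}
    (hC : ∀ (j : ℕ) (A₀ A₁ : Subalgebra k (Tw p j K)), IsCh (K := Tw p j K) t A₀ A₁ →
      - (C : ℤ) ≤ chi0 A₀ A₁)
    (hκ : ∀ (K : Type w) [Field K] [Algebra k K] (A₀ A₁ : Subalgebra k K), IsCD A₀ A₁ →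
      ∀ (N : ℕ) (u v : K) (φ : R →ₐ[k] K) (η : J →ₗ[k] K), IsGP 𝒜 P J N A₀ A₁ u v φ η →
      0 ≤ idx A₁ u ∧ - idx A₁ v ≤ κ * idx A₁ u)
    (hno : ∀ E, NoPos 𝒜 J E) {N : ℕ} {A₀ A₁ : Subalgebra k K} {u v : K}
    {φ : R →ₐ[k] K} {η : J →ₗ[k] K} (hch : IsCh t A₀ A₁) (h : IsGP 𝒜 P J N A₀ A₁ u v φ η)
    (hneg : idx A₁ v < 0) : False := by
  obtain ⟨j, hj⟩ := pow_unbounded_of_one_lt (κ * (4 * C + 4)) (Fact.out : p.Prime).one_lt
  obtain ⟨A₀', A₁', u', v', φ', η', hch', h', hv'⟩ := twist_GP p hP ht hch h j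
  refine t2a_final (K := Tw p j K) (t := t) (C := C) (κ := κ) p hP hJ hinv
    (tw_transcendental p j ht t rfl) (hC j) (fun a N u v φ η b => hκ (Tw p j K) _ _ a _ _ _ _ _ b) hno
    hch' h' ?_
  rw [hv']
  have h11 : ((κ * (4 * C + 4) : ℕ) : ℤ) < (p : ℤ) ^ j := by exact_mod_cast hj
  have h12 : (p : ℤ) ^ j ≤ p ^ j * - idx A₁ v :=
    le_mul_of_one_le_right (by positivity) (by omega)
  push_cast at h11
  linarith

end step

/-- T2: in characteristic `p` there is a closed rational curve of degree at most two which is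
positive on the divisor. -/
theorem mori2 {k : Type u} [Field k] {R : Type v} [CommRing R] [Algebra k R]
    {𝒜 : ℕ → Submodule k R} [GradedAlgebra 𝒜] {P : R →ₗ[k] R →ₗ[k] R} {J : Ideal R}
    [IsAlgClosed k] [IsDomain R] (p : ℕ) [Fact p.Prime] [CharP k p]
    (hP : IsPM 𝒜 P) (hJ : J.IsHomogeneous 𝒜) (hinv : IsInv 𝒜 J) {e n : ℕ} {y : Fin n → R}
    (hN : IsNoe 𝒜 p e y) (hn : 3 ≤ n) (f : R) (hfJ : f ∈ J)
    (hf : ∃ h : R, ∃ G : MvPolynomial (Fin n) k, G ≠ 0 ∧ f * h = MvPolynomial.aeval y G)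
    (w : R →ₐ[k] k) (hw : Mo.NV 𝒜 w) (hwJ : ∀ x ∈ J, w x = 0) : Pos 𝒜 J k := by
  classical
  have hft := hP.finiteType
  -- T2a
  have h1 : ¬ ∀ E, NoPos 𝒜 J E := by
    intro hno
    obtain ⟨K, iF, iA, t, φ, ht, hfd, hsep, hNV, hφf, V, hVt, hVk, n', hn', s, hs, hs0, hV, hVJ⟩ :=
      exists_curve_through p hP hN f hfJ hf w hw hwJ
    let η : J →ₗ[k] K := φ.toLinearMap ∘ₗ (Submodule.subtype (J.restrictScalars k))
    have hη : ∀ x : J, η x = φ x := fun x => rfl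
    obtain ⟨N, A₀, A₁, u, v, hch, h⟩ := exists_GP p hP hJ hinv ht φ hNV η (fun r x => by
      rw [hη, hη]
      exact map_mul φ r x) ⟨⟨f, hfJ⟩, hφf⟩
    have hneg := idx_neg_of_meets ht hch h hη V hVt hVk hn' hs hs0 hV hVJ
    obtain ⟨C, hC⟩ := exists_chi_bound (k := k) ht p
    obtain ⟨κ, hκ⟩ := neg_idx_le (P := P) (k := k) (R := R) (𝒜 := 𝒜) (J := J) hJ
    exact t2a_twist p hP hJ hinv ht hC (fun _ _ _ _ _ a _ _ _ _ _ b => hκ a b) hno hch h hneg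
  -- the minimal degree
  have h2 : ∃ e' : ℕ, 0 < e' ∧ ∃ δ : ℕ, 0 < δ ∧ ∃ (φ : R →ₐ[k] MvPolynomial (Fin 2) k)
      (η : J →ₗ[k] MvPolynomial (Fin 2) k), IsPair 𝒜 J e' δ φ η := by
    by_contra hcon
    refine h1 fun E e' δ he _ hδ φ η hp => hcon ⟨e', he, δ, hδ, φ, η, hp⟩
  obtain ⟨he0, δ, hδ, φ, η, hpair⟩ := Nat.find_spec h2
  have hmin := fun m (hm : m < Nat.find h2) => Nat.find_min h2 hm
  set E := Nat.find h2 with hE
  by_cases hE2 : E ≤ 2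
  · exact ⟨E, δ, φ, η, by omega, hδ, hpair⟩
  exfalso
  push Not at hE2
  have hno : NoPos 𝒜 J (E - 1) := fun e' δ' he' hle hδ' φ' η' hp =>
    hmin e' (by omega) ⟨he', δ', hδ', φ', η', hp⟩
  obtain ⟨ht, hfd, hsep, hchi⟩ := line_charts (k := k)
  obtain ⟨φ', η', hNV, hlin, hη0, hdeg⟩ := pair_of_closed (P := P) hpair
  obtain ⟨N, A₀, A₁, u, v, hch, h⟩ := exists_GP p hP hJ hinv ht φ' hNV η' hlin hη0
  obtain ⟨hu, hv⟩ := hdeg A₀ A₁ u v N hch h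
  have hδ' : (0 : ℤ) < δ := by exact_mod_cast hδ
  obtain ⟨e1, δ1, φ1, η1, hle1, hδ1, hp1⟩ := closed_of_pair hP hJ hinv hch h (by linarith)
  have hδ1' : 0 < δ1 := by
    have : (0 : ℤ) < δ1 := by linarith
    exact_mod_cast this
  have he1 := pair_deg_pos hJ hp1 hδ1'
  have hEe1 : E ≤ e1 := by
    by_contra hcon
    exact hmin e1 (not_le.1 hcon) ⟨he1, δ1, hδ1', φ1, η1, hp1⟩
  have huE : idx A₁ u = E := by
    have : (E : ℤ) ≤ e1 := by exact_mod_cast hEe1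
    linarith
  have hN3 : 3 ≤ N := by
    obtain ⟨x, d, g, x', d', g', f0, f1⟩ := h.frames
    exact hn.trans (le_rk p hN f0.fr (fun h0 => f0.g_ne (by rw [h0, map_zero])))
  have hnum : 0 < N * (2 * chi0 A₀ A₁ + idx A₁ u - 2 * (2 : ℕ)) +
      2 * (chi0 A₀ A₁ - (2 : ℕ)) := by
    rw [huE]
    have h7 : (3 : ℤ) ≤ N := by exact_mod_cast hN3
    have h6 := hchi A₀ A₁ hch
    have h5 : (3 : ℤ) ≤ E := by exact_mod_cast hE2
    have h8 : 0 ≤ 2 * chi0 A₀ A₁ + (E : ℤ) - 2 * (2 : ℕ) := by push_cast; linarith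
    have h9 := mul_le_mul_of_nonneg_right h7 h8
    push_cast at h9 h8 ⊢
    linarith
  obtain ⟨N', A₀', A₁', u', v', φ2, η2, hch', h', hu', hv'⟩ :=
    break_step p hP hJ hinv ht hch h two_pos hnum
      (Or.inr ⟨rfl, E - 1, by rw [huE]; push_cast [Nat.cast_sub (by omega : 1 ≤ E)]; ring, hno⟩)
  obtain ⟨e2, δ2, φ3, η3, hle2, hδ2, hp2⟩ := closed_of_pair hP hJ hinv hch' h' (by linarith)
  have hδ2' : 0 < δ2 := by
    have : (0 : ℤ) < δ2 := by linarith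
    exact_mod_cast this
  have he2 := pair_deg_pos hJ hp2 hδ2'
  refine hmin e2 ?_ ⟨he2, δ2, hδ2', φ3, η3, hp2⟩
  have : (e2 : ℤ) < E := by
    rw [huE] at hu'
    push_cast at hu'
    linarith
  exact_mod_cast this

end Vale.Agent.P292.Dv
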