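import Vale.Agent.P292.D.Main
import Vale.Agent.P292.D.Mori2
import Vale.Agent.P292.D.DomRed

/-! # Mori's theorem for dividing forms. -/

namespace Vale.Agent.P292.Dv

open Vale.Agent.P292.Mo

theorem moriDom : MoriDom := by
  intro k _ _ p _ hp2 hp0 S _ _ _ ℬ _ Q hPM e n y hN hn 𝔮 hh hinv hf hw
  have : Fact p.Prime := ⟨(CharP.char_is_prime_or_zero k p).resolve_right hp0⟩
  obtain ⟨f, hfq, h, G, hG, hfG⟩ := hf
  obtain ⟨w, hw, hwq, -⟩ := hw
  exact mori2 p hPM hh hinv hN hn f hfq ⟨h, G, hG, hfG⟩ w hw hwq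

theorem moriD : MoriD := moriD_of_domain moriDom

end Vale.Agent.P292.Dv

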