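import Vale.Agent.P292.Bn.N13

/-! # Degenerations of rational curves with two fixed ends; lines do not degenerate. -/

namespace Vale.Agent.P292.Dv

open MvPolynomial Vale.Agent.P292 Vale.Agent.P292.Mo Vale.Agent.P292.Mo.Sc Vale.Agent.P292.Mo.Fm

universe u v

section swap

variable (k : Type v) [Field k]

/-- Polynomials over the Laurent series as Laurent series over the polynomials. -/
noncomputable def swapL : MvPolynomial (Fin 2) (LaurentSeries k) →ₐ[k]
    LaurentSeries (MvPolynomial (Fin 2) k) :=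
  { MvPolynomial.eval₂Hom (mapL k (MvPolynomial (Fin 2) k)).toRingHom
      (fun i => HahnSeries.C (X i)) with
    commutes' := fun c => by
      change MvPolynomial.eval₂Hom (mapL k (MvPolynomial (Fin 2) k)).toRingHom
        (fun i => HahnSeries.C (X i)) _ = _
      rw [MvPolynomial.algebraMap_apply, MvPolynomial.eval₂Hom_C]
      exact (mapL k (MvPolynomial (Fin 2) k)).commutes c }

variable {k}

theorem swapL_monomial (m : Fin 2 →₀ ℕ) (a : LaurentSeries k) :
    swapL k (monomial m a) = mapL k (MvPolynomial (Fin 2) k) a * HahnSeries.C (monomial m 1) := by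
  change MvPolynomial.eval₂Hom (mapL k (MvPolynomial (Fin 2) k)).toRingHom
        (fun i => HahnSeries.C (X i)) _ = _
  rw [MvPolynomial.coe_eval₂Hom, MvPolynomial.eval₂_monomial]
  congr 1
  rw [MvPolynomial.monomial_eq, C_1, one_mul, Finsupp.prod, Finsupp.prod, map_prod]
  exact Finset.prod_congr rfl fun i _ => (map_pow _ _ _).symm

theorem coeff_swapL (p : MvPolynomial (Fin 2) (LaurentSeries k)) (i : ℤ) (m : Fin 2 →₀ ℕ) :
    coeff m ((swapL k p).coeff i) = (coeff m p).coeff i := by
  classical
  induction p using MvPolynomial.induction_on' with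
  | monomial n a =>
    rw [swapL_monomial, mul_comm, C_mul_coeff, mapL_coeff, MvPolynomial.algebraMap_eq, mul_comm,
      MvPolynomial.C_mul_monomial, mul_one, coeff_monomial, coeff_monomial]
    split_ifs
    · rfl
    · rfl
  | add p q hp hq =>
    rw [map_add, HahnSeries.coeff_add, coeff_add, coeff_add, HahnSeries.coeff_add, hp, hq]

theorem isHomogeneous_swapL {p : MvPolynomial (Fin 2) (LaurentSeries k)} {n : ℕ}
    (hp : p.IsHomogeneous n) (i : ℤ) : ((swapL k p).coeff i).IsHomogeneous n := by
  intro m hm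
  rw [coeff_swapL] at hm
  exact hp fun h => hm (by rw [h]; rfl)

end swap

section red

variable {k : Type v} [Field k] {R : Type u} [CommRing R] [Algebra k R] {𝒜 : ℕ → Submodule k R}
  [GradedAlgebra 𝒜]

/-- The expansion of a homogeneous polynomial at an end. -/
noncomputable def endE (k : Type v) [Field k] (t : Fin 2) : MvPolynomial (Fin 2) k →ₐ[k]
    PowerSeries k := aeval fun i => if i = t then PowerSeries.X else 1

theorem coeff_endE {p : MvPolynomial (Fin 2) k} {n : ℕ} (hp : p.IsHomogeneous n) (t : Fin 2)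
    {m : Fin 2 →₀ ℕ} (hm : m 0 + m 1 = n) :
    PowerSeries.coeff (m t) (endE k t p) = coeff m p := by
  classical
  have hdeg : ∀ q : Fin 2 →₀ ℕ, coeff q p ≠ 0 → q 0 + q 1 = n := by
    intro q hq
    have h1 := hp hq
    rw [Finsupp.weight_apply, Finsupp.sum_fintype _ _ (fun i => by simp)] at h1
    simpa [Fin.sum_univ_two] using h1
  rw [endE, aeval_def, eval₂_eq', map_sum, Finset.sum_eq_single m]
  · have h1 : ∏ i, (if i = t then (PowerSeries.X : PowerSeries k) else 1) ^ m i =
        PowerSeries.X ^ m t := by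
      rw [Finset.prod_eq_single t]
      · rw [if_pos rfl]
      · intro i _ hi
        rw [if_neg hi, one_pow]
      · intro h
        exact absurd (Finset.mem_univ t) h
    rw [h1, PowerSeries.algebraMap_apply, Algebra.algebraMap_self, RingHom.id_apply,
      PowerSeries.coeff_C_mul, PowerSeries.coeff_X_pow_self, mul_one]
  · intro q hq hqm
    have h1 : ∏ i, (if i = t then (PowerSeries.X : PowerSeries k) else 1) ^ q i =
        PowerSeries.X ^ q t := by
      rw [Finset.prod_eq_single t]
      · rw [if_pos rfl]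
      · intro i _ hi
        rw [if_neg hi, one_pow]
      · intro h
        exact absurd (Finset.mem_univ t) h
    rw [h1, PowerSeries.algebraMap_apply, Algebra.algebraMap_self, RingHom.id_apply,
      PowerSeries.coeff_C_mul, PowerSeries.coeff_X_pow, if_neg, mul_zero]
    intro h2
    apply hqm
    have h3 := hdeg q (mem_support_iff.1 hq)
    have h4 : t = 0 ∨ t = 1 := by
      fin_cases t
      · exact Or.inl rfl
      · exact Or.inr rfl
    have h5 : q 0 = m 0 ∧ q 1 = m 1 := by
      rcases h4 with rfl | rfl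
      · exact ⟨h2.symm, by omega⟩
      · exact ⟨by omega, h2.symm⟩
    ext i
    fin_cases i
    · exact h5.1
    · exact h5.2
  · intro h
    rw [notMem_support_iff.1 h, map_zero, zero_mul, map_zero]

/-- **Reduction of a family of rational curves with two fixed ends and a pole.** -/
theorem pole_red {N : ℕ} {x : Fin N → R} {d : Fin N → ℕ} (hx : ∀ i, x i ∈ 𝒜 (d i))
    (hgen : Algebra.adjoin k (Set.range x) = ⊤) (hd : ∀ i, 0 < d i) (hLB : IsLB 𝒜) {e : ℕ}
    {F : R →ₐ[k] MvPolynomial (Fin 2) (LaurentSeries k)}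
    (hdeg : ∀ j, ∀ r ∈ 𝒜 j, (F r).IsHomogeneous (e * j)) {w₀ w₁ : R →ₐ[k] k}
    (h0 : ∀ r, eval ![1, 0] (F r) = algebraMap k (LaurentSeries k) (w₀ r))
    (h1 : ∀ r, eval ![0, 1] (F r) = algebraMap k (LaurentSeries k) (w₁ r))
    (hpole : ∃ r m, coeff m (F r) ∉ Set.range (HahnSeries.ofPowerSeries ℤ k)) :
    ∃ (c : ℕ) (hc : 0 < c) (μ : ℕ) (φ : R →ₐ[k] PowerSeries (MvPolynomial (Fin 2) k)), 0 < μ ∧
      (∀ n, ∀ r ∈ 𝒜 n, ofPS k _ (φ r) =
        HahnSeries.single (μ * n : ℤ) 1 * expand k c hc (swapL k (F r))) ∧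
      (∃ n, 0 < n ∧ ∃ r ∈ 𝒜 n, PowerSeries.constantCoeff (φ r) ≠ 0) ∧
      (∀ j, ∀ r ∈ 𝒜 j, ∀ i, (PowerSeries.coeff i (φ r)).IsHomogeneous (e * j)) ∧
      ∀ j, ∀ r ∈ 𝒜 j, ∀ m, coeff m (PowerSeries.constantCoeff (φ r)) ≠ 0 → j ≤ m 0 ∧ j ≤ m 1 := by
  classical
  obtain ⟨c, hc, μ, φ, hμ, hφ, y, hy, n, hn, hyn, hne⟩ := exists_scaled_of_pole 𝒜
    ((swapL k).comp F) (Finset.univ.image x) (by rw [Finset.coe_image, Finset.coe_univ,
      Set.image_univ, hgen]) (by
      intro y hy
      obtain ⟨i, -, rfl⟩ := Finset.mem_image.1 hy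
      exact ⟨d i, hd i, hx i⟩) (by
      obtain ⟨r, m, hr⟩ := hpole
      refine ⟨r, fun h => hr ?_⟩
      rw [mem_range_ofPowerSeries] at h ⊢
      intro i hi
      have h2 := h i hi
      rw [AlgHom.comp_apply] at h2
      rw [← coeff_swapL, h2, coeff_zero])
  have hco : ∀ j, ∀ r ∈ 𝒜 j, ∀ i : ℕ, PowerSeries.coeff i (φ r) =
      (expand k c hc (swapL k (F r))).coeff (i - μ * j) := fun j r hr i => by
    have := coeff_scaled 𝒜 hφ hr i
    exact_mod_cast this
  have hhom : ∀ j, ∀ r ∈ 𝒜 j, ∀ i, (PowerSeries.coeff i (φ r)).IsHomogeneous (e * j) := by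
    intro j r hr i
    rw [hco j r hr]
    by_cases hdv : (c : ℤ) ∣ (i - μ * j : ℤ)
    · obtain ⟨b, hb⟩ := hdv
      rw [hb, expand_coeff_mul]
      exact isHomogeneous_swapL (hdeg j r hr) b
    · rw [expand_coeff_of_not_dvd _ _ _ _ hdv]
      exact isHomogeneous_zero _ _ _
  have hcc : ∀ r, PowerSeries.constantCoeff (φ r) = PowerSeries.coeff 0 (φ r) := fun r =>
    (PowerSeries.coeff_zero_eq_constantCoeff_apply _).symm
  -- the coefficients at the ends vanish
  have hend : ∀ j, 0 < j → ∀ r ∈ 𝒜 j, ∀ t : Fin 2,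
      coeff (Finsupp.single t (e * j)) (PowerSeries.constantCoeff (φ r)) = 0 := by
    intro j hj r hr t
    rw [hcc, hco j r hr]
    by_cases hdv : (c : ℤ) ∣ (((0 : ℕ) : ℤ) - μ * j : ℤ)
    · obtain ⟨b, hb⟩ := hdv
      have hb0 : b ≠ 0 := by
        rintro rfl
        have h3 : (μ : ℤ) * j = 0 := by
          have := hb
          push_cast at this
          linarith
        have h4 : μ * j = 0 := by exact_mod_cast h3
        rcases Nat.mul_eq_zero.1 h4 with h5 | h5 <;> omega
      rw [hb, expand_coeff_mul, coeff_swapL]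
      have h2 : coeff (Finsupp.single t (e * j)) (F r) = algebraMap k (LaurentSeries k)
          ((if t = 0 then w₀ else w₁) r) := by
        have h3 : ∀ s : Fin 2, eval (fun i => if i = s then (1 : LaurentSeries k) else 0) (F r) =
            coeff (Finsupp.single s (e * j)) (F r) := by
          intro s
          rw [eval_eq', Finset.sum_eq_single (Finsupp.single s (e * j))]
          · rw [Finset.prod_eq_single s]
            · rw [if_pos rfl, one_pow, mul_one]
            · intro i _ hi
              rw [Finsupp.single_eq_of_ne hi, pow_zero]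
            · intro h
              exact absurd (Finset.mem_univ s) h
          · intro q hq hqs
            have h4 := hdeg j r hr (mem_support_iff.1 hq)
            rw [Finsupp.weight_apply, Finsupp.sum_fintype _ _ (fun i => by simp)] at h4
            have h5 : q 0 + q 1 = e * j := by simpa [Fin.sum_univ_two] using h4
            have h6 : ∃ i, i ≠ s ∧ q i ≠ 0 := by
              by_contra hcon
              push Not at hcon
              apply hqs
              have h7 : s = 0 ∨ s = 1 := by
                fin_cases s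
                · exact Or.inl rfl
                · exact Or.inr rfl
              have h8 : q s = e * j := by
                rcases h7 with rfl | rfl
                · have := hcon 1 (by decide)
                  omega
                · have := hcon 0 (by decide)
                  omega
              ext i
              by_cases hi : i = s
              · rw [hi, Finsupp.single_eq_same, h8]
              · rw [hcon i hi, Finsupp.single_eq_of_ne hi]
            obtain ⟨i, hi, hi'⟩ := h6
            rw [Finset.prod_eq_zero (Finset.mem_univ i), mul_zero]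
            rw [if_neg hi, zero_pow hi']
          · intro h
            rw [notMem_support_iff.1 h, zero_mul]
        rw [← h3 t]
        have h7 : t = 0 ∨ t = 1 := by fin_cases t <;> simp
        rcases h7 with rfl | rfl
        · rw [if_pos rfl, ← h0 r]
          congr 2
          ext i
          fin_cases i <;> rfl
        · rw [if_neg (by simp), ← h1 r]
          congr 2
          ext i
          fin_cases i <;> rfl
      rw [h2, algebraMap_laurent, HahnSeries.C_apply, HahnSeries.coeff_single_of_ne hb0]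
    · rw [expand_coeff_of_not_dvd _ _ _ _ hdv, coeff_zero]
  refine ⟨c, hc, μ, φ, hμ, hφ, ⟨n, hn, y, hyn, hne⟩, hhom, ?_⟩
  -- the multiplicities are integers
  have hmul : ∀ t : Fin 2, ∀ j, ∀ r ∈ 𝒜 j, PowerSeries.X ^ j ∣
      endE k t (PowerSeries.constantCoeff (φ r)) := by
    intro t
    have hhom0 : ∀ j, ∀ r ∈ 𝒜 j, (PowerSeries.constantCoeff (φ r)).IsHomogeneous (e * j) :=
      fun j r hr => by rw [hcc]; exact hhom j r hr 0
    obtain ⟨ν, G, hG, i₀, hi₀, r₀, hr₀, hne₀⟩ := lead hLB hx hgen
      ((endE k t).comp ((ccA k (MvPolynomial (Fin 2) k)).comp φ)) (by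
        refine ⟨n, hn, y, hyn, fun h => hne ?_⟩
        ext m
        rw [coeff_zero]
        by_contra hm
        have h2 := (hhom0 n y hyn) hm
        rw [Finsupp.weight_apply, Finsupp.sum_fintype _ _ (fun i => by simp)] at h2
        have h3 : m 0 + m 1 = e * n := by simpa [Fin.sum_univ_two] using h2
        apply hm
        rw [← coeff_endE (hhom0 n y hyn) t h3]
        rw [AlgHom.comp_apply, AlgHom.comp_apply, ccA_apply] at h
        rw [h, map_zero])
    have hν : 1 ≤ ν := by
      by_contra hcon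
      have hν0 : ν = 0 := by omega
      apply hne₀
      have h2 := hG i₀ r₀ hr₀
      rw [hν0, zero_mul, pow_zero, one_mul] at h2
      rw [← h2, AlgHom.comp_apply, AlgHom.comp_apply, ccA_apply,
        ← PowerSeries.coeff_zero_eq_constantCoeff_apply]
      -- the other end
      obtain ⟨s, hs⟩ : ∃ s : Fin 2, s ≠ t := by
        fin_cases t
        · exact ⟨1, by simp⟩
        · exact ⟨0, by simp⟩
      have h3 := coeff_endE (hhom0 i₀ r₀ hr₀) t (m := Finsupp.single s (e * i₀)) (by
        have : s = 0 ∨ s = 1 := by fin_cases s <;> simp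
        rcases this with rfl | rfl <;> simp)
      rw [Finsupp.single_eq_of_ne (Ne.symm hs)] at h3
      rw [h3]
      exact hend i₀ hi₀ r₀ hr₀ s
    intro j r hr
    have h2 := hG j r hr
    rw [AlgHom.comp_apply, AlgHom.comp_apply, ccA_apply] at h2
    rw [h2]
    exact Dvd.dvd.mul_right (pow_dvd_pow _ (Nat.le_mul_of_pos_left _ hν)) _
  intro j r hr m hm
  have hhom0 : (PowerSeries.constantCoeff (φ r)).IsHomogeneous (e * j) := by
    rw [hcc]; exact hhom j r hr 0
  have h2 := hhom0 hm
  rw [Finsupp.weight_apply, Finsupp.sum_fintype _ _ (fun i => by simp)] at h2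
  have h3 : m 0 + m 1 = e * j := by simpa [Fin.sum_univ_two] using h2
  have h4 : ∀ t : Fin 2, j ≤ m t := by
    intro t
    by_contra hcon
    push Not at hcon
    have h5 := PowerSeries.X_pow_dvd_iff.1 (hmul t j r hr) (m t) hcon
    rw [coeff_endE hhom0 t h3] at h5
    exact hm h5
  exact ⟨h4 0, h4 1⟩

end red

/-- Lines with two fixed ends do not degenerate. -/
theorem t4_line_pole {R : Type u} [CommRing R] [Algebra ℂ R] {𝒜 : ℕ → Submodule ℂ R}
    [GradedAlgebra 𝒜] {P : R →ₗ[ℂ] R →ₗ[ℂ] R} (hX : IsContactFano 𝒜 P)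
    {F : R →ₐ[ℂ] MvPolynomial (Fin 2) (LaurentSeries ℂ)}
    (hdeg : ∀ j, ∀ r ∈ 𝒜 j, (F r).IsHomogeneous (1 * j)) {w₀ w₁ : R →ₐ[ℂ] ℂ}
    (h0 : ∀ r, eval ![1, 0] (F r) = algebraMap ℂ (LaurentSeries ℂ) (w₀ r))
    (h1 : ∀ r, eval ![0, 1] (F r) = algebraMap ℂ (LaurentSeries ℂ) (w₁ r))
    (hpole : ∃ r m, coeff m (F r) ∉ Set.range (HahnSeries.ofPowerSeries ℤ ℂ)) : False := by
  have := hX.finiteType
  obtain ⟨M, x, d, hgen, hd, hx⟩ := pres_gens 𝒜 hX.connected
  have hLB : IsLB 𝒜 := by
    intro q hq e he
    refine hX.lineBundle q ?_ e he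
    obtain ⟨j, hj, r, hr, hne⟩ := hq
    exact fun hv => hne (hv j hj r hr)
  obtain ⟨c, hc, μ, φ, hμ, hφ, ⟨n, hn, y, hy, hne⟩, hhom, hle⟩ :=
    pole_red hx hgen hd hLB hdeg h0 h1 hpole
  apply hne
  ext m
  rw [coeff_zero]
  by_contra hm
  have h2 := hle n y hy m hm
  have h3 : (PowerSeries.constantCoeff (φ y)).IsHomogeneous (1 * n) := by
    rw [← PowerSeries.coeff_zero_eq_constantCoeff_apply]
    exact hhom n y hy 0
  have h4 := h3 hm
  rw [Finsupp.weight_apply, Finsupp.sum_fintype _ _ (fun i => by simp)] at h4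
  have h5 : m 0 + m 1 = 1 * n := by simpa [Fin.sum_univ_two] using h4
  omega

end Vale.Agent.P292.Dv
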