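import Vale.Agent.P292.Bn.N9

/-! # E1: a family with fixed ends has a pole. -/

namespace Vale.Agent.P292.Dv

open Polynomial

universe v

theorem t4p_min {B : Type v} [CommRing B] (m : Ideal B) [hm : m.IsMaximal]
    (hart : IsArtinianRing (Localization.AtPrime m)) : m ∈ minimalPrimes B := by
  rw [minimalPrimes_eq_minimals]
  refine ⟨hm.isPrime, fun q hq hqm => ?_⟩
  have hdis : Disjoint (m.primeCompl : Set B) (q : Set B) := by
    rw [Set.disjoint_left]
    intro x hx hxq
    exact hx (hqm hxq)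
  have h1 : (Ideal.map (algebraMap B (Localization.AtPrime m)) q).IsPrime :=
    IsLocalization.isPrime_of_isPrime_disjoint m.primeCompl _ q hq hdis
  have h2 : (Ideal.map (algebraMap B (Localization.AtPrime m)) q).IsMaximal :=
    IsArtinianRing.isMaximal_of_isPrime _
  have h3 := IsLocalRing.eq_maximalIdeal h2
  have h4 := IsLocalization.under_map_of_isPrime_disjoint m.primeCompl
    (Localization.AtPrime m) hq hdis
  have h5 := Localization.AtPrime.under_maximalIdeal (I := m)
  rw [← h3, h4] at h5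
  exact h5.ge

theorem t4_pole {D : Type v} [CommRing D] [IsDomain D] [Algebra ℂ D] [Algebra.FiniteType ℂ D]
    (E : Subalgebra ℂ D) (hE : E.FG) (a : D) (ha : Transcendental E a) (h : D) (hh : h ≠ 0) :
    ∃ f : D →ₐ[ℂ] LaurentSeries ℂ, (∀ x ∈ E, ∃ c : ℂ, f x = algebraMap ℂ (LaurentSeries ℂ) c) ∧
      f h ≠ 0 ∧ ∃ b : D, f b ∉ Set.range (HahnSeries.ofPowerSeries ℤ ℂ) := by
  classical
  have hE1 : Algebra.FiniteType ℂ E := E.fg_iff_finiteType.1 hE
  have hE2 : Algebra.FiniteType ℂ E[X] := Algebra.FiniteType.trans hE1 inferInstance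
  have hC : Algebra.FiniteType ℂ (Localization.Away h) :=
    Algebra.FiniteType.trans (inferInstanceAs (Algebra.FiniteType ℂ D))
      (IsLocalization.finiteType_of_monoid_fg (Submonoid.powers h) (Localization.Away h))
  let j : D →ₐ[ℂ] Localization.Away h := IsScalarTower.toAlgHom ℂ D _
  let f₀ : E[X] →ₐ[ℂ] Localization.Away h := j.comp ((aeval a : E[X] →ₐ[E] D).restrictScalars ℂ)
  have hf₀ : Function.Injective f₀ := by
    have h1 : Function.Injective (algebraMap D (Localization.Away h)) :=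
      IsLocalization.injective _ (powers_le_nonZeroDivisors_of_noZeroDivisors hh)
    have h2 : Function.Injective (aeval a : E[X] →ₐ[E] D) := transcendental_iff_injective.1 ha
    exact h1.comp h2
  obtain ⟨G, hG, hlift⟩ := VF.exists_generic_lift f₀ hf₀
  obtain ⟨e, he⟩ := VF.exists_point_ne_zero (leadingCoeff_ne_zero.2 hG)
  have hGe : G.map (e : E →+* ℂ) ≠ 0 := by
    intro h0
    apply he
    have := congrArg (fun q => q.coeff G.natDegree) h0
    simpa using this
  -- the points
  have hpt : ∀ c : ℂ, (G.map (e : E →+* ℂ)).eval c ≠ 0 → ∃ F : D →ₐ[ℂ] ℂ,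
      F a = c ∧ F h ≠ 0 ∧ ∀ x : E, F x = e x := by
    intro c hc
    obtain ⟨q, hq⟩ := hlift ((aeval c : ℂ[X] →ₐ[ℂ] ℂ).comp (mapAlgHom e)) (by
      simpa [aeval_def, eval₂_eq_eval_map] using hc)
    refine ⟨q.comp j, ?_, ?_, ?_⟩
    · have := DFunLike.congr_fun hq X
      simpa [f₀] using this
    · have h1 : IsUnit (j h) := IsLocalization.Away.algebraMap_isUnit h
      exact (h1.map q).ne_zero
    · intro x
      have := DFunLike.congr_fun hq (C x)
      simpa [f₀] using this
  set I : Ideal D := Ideal.map (algebraMap E D) (RingHom.ker e) with hI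
  have hfac : ∀ F : D →ₐ[ℂ] ℂ, (∀ x : E, F x = e x) → ∀ y ∈ I, F y = 0 := by
    intro F hF y hy
    have h1 : I ≤ RingHom.ker F := by
      rw [hI, Ideal.map_le_iff_le_comap]
      intro x hx
      rw [Ideal.mem_comap, RingHom.mem_ker]
      have : F (algebraMap E D x) = e x := hF x
      rw [this]
      exact hx
    exact h1 hy
  have hnoeth : IsNoetherianRing D := Algebra.FiniteType.isNoetherianRing ℂ D
  have hex : ∃ m : Ideal (D ⧸ I), ∃ _ : m.IsMaximal, ¬ IsArtinianRing (Localization.AtPrime m) ∧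
      Ideal.Quotient.mk I h ∉ m := by
    by_contra hcon
    push Not at hcon
    have hinf : (Set.univ \ {c : ℂ | (G.map (e : E →+* ℂ)).IsRoot c}).Infinite := by
      refine Set.Infinite.sdiff Set.infinite_univ ?_
      refine (G.map (e : E →+* ℂ)).roots.toFinset.finite_toSet.subset ?_
      intro c hc
      simpa [hGe] using hc
    have hfin : (minimalPrimes (D ⧸ I)).Finite := minimalPrimes.finite_of_isNoetherianRing _
    have hch : ∀ c ∈ (Set.univ \ {c : ℂ | (G.map (e : E →+* ℂ)).IsRoot c}),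
        ∃ m ∈ minimalPrimes (D ⧸ I), ∃ F : (D ⧸ I) →ₐ[ℂ] ℂ, m = RingHom.ker F ∧
          F (Ideal.Quotient.mk I a) = c := by
      intro c hc
      obtain ⟨F, hFa, hFh, hFe⟩ := hpt c hc.2
      let F' : (D ⧸ I) →ₐ[ℂ] ℂ := Ideal.Quotient.liftₐ I F (hfac F hFe)
      have hsurj : Function.Surjective F' := fun z => ⟨algebraMap ℂ _ z, F'.commutes z⟩
      have hmax : (RingHom.ker F').IsMaximal := RingHom.ker_isMaximal_of_surjective F' hsurj
      refine ⟨RingHom.ker F', t4p_min _ ?_, F', rfl, ?_⟩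
      · by_contra hart
        exact hFh (RingHom.mem_ker.1 (hcon (RingHom.ker F') hmax hart))
      · exact hFa
    choose! m hm F hF hFc using hch
    refine hinf ?_
    refine Set.Finite.of_finite_image (f := m) (hfin.subset ?_) ?_
    · rintro _ ⟨c, hc, rfl⟩
      exact hm c hc
    · intro c hc c' hc' hcc
      have h1 : Ideal.Quotient.mk I a - algebraMap ℂ _ c ∈ m c := by
        rw [hF c hc, RingHom.mem_ker, map_sub, hFc c hc, AlgHom.commutes]
        simp
      rw [hcc, hF c' hc', RingHom.mem_ker, map_sub, hFc c' hc', AlgHom.commutes] at h1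
      have h2 : c' - c = 0 := by simpa using h1
      exact (sub_eq_zero.1 h2).symm
  obtain ⟨m, hmax, hart, hhm⟩ := hex
  have hftB : Algebra.FiniteType ℂ (D ⧸ I) :=
    Algebra.FiniteType.of_surjective (Ideal.Quotient.mkₐ ℂ I) (Ideal.Quotient.mkₐ_surjective ℂ I)
  obtain ⟨f, hfh, b, hfb⟩ := Mo.exists_pole (k := ℂ) m hart _ hhm
  obtain ⟨b, rfl⟩ := Ideal.Quotient.mk_surjective b
  refine ⟨f.comp (Ideal.Quotient.mkₐ ℂ I), ?_, hfh, b, hfb⟩
  intro x hx
  refine ⟨e ⟨x, hx⟩, ?_⟩
  have h1 : x - algebraMap ℂ D (e ⟨x, hx⟩) ∈ I := by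
    have h2 : (⟨x, hx⟩ : E) - algebraMap ℂ E (e ⟨x, hx⟩) ∈ RingHom.ker e := by
      rw [RingHom.mem_ker, map_sub, AlgHom.commutes]
      simp
    exact Ideal.mem_map_of_mem (algebraMap E D) h2
  have h3 : Ideal.Quotient.mkₐ ℂ I (x - algebraMap ℂ D (e ⟨x, hx⟩)) = 0 :=
    Ideal.Quotient.eq_zero_iff_mem.2 h1
  have h4 := congrArg f h3
  rw [map_sub, map_sub, map_zero, AlgHom.commutes, AlgHom.commutes, sub_eq_zero] at h4
  exact h4

end Vale.Agent.P292.Dv
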