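import Vale.Agent.P292.D.T4Model
import Vale.Agent.P292.D.T4Pole
import Vale.Agent.P292.D.T4LinePole

/-! # E4: a line is algebraic over its two ends. -/

namespace Vale.Agent.P292.Dv

open MvPolynomial TensorProduct

universe u v w

variable {R : Type u} [CommRing R] [Algebra ℂ R] {𝒜 : ℕ → Submodule ℂ R}

variable [GradedAlgebra 𝒜] {P : R →ₗ[ℂ] R →ₗ[ℂ] R}

/-- E4 -/
theorem t4_algebraic_line (hX : IsContactFano 𝒜 P) {K : Type u} [Field K] [IsAlgClosed K]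
    [Algebra ℂ K] {φ : R →ₐ[ℂ] MvPolynomial (Fin 2) K} (h : IsCurve 𝒜 1 φ) :
    ∀ r m, IsAlgebraic (ends φ) (coeff m (φ r)) := by
  intro r₀ m₀
  by_contra hcon
  have := hX.finiteType
  obtain ⟨φ₀, hφ₀⟩ := e4_model φ
  obtain ⟨f, w₀, w₁, -, h0, h1, hpole⟩ := e4_family φ r₀ m₀ hcon φ₀ hφ₀ 1
    (fun _ E hE a ha => t4_pole E hE a ha 1 one_ne_zero)
  refine t4_line_pole hX (F := (mapAlgHom f).comp φ₀) ?_ h0 h1 hpole
  intro j r hr m hm
  have h2 : coeff m (φ₀ r) ≠ 0 := by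
    intro h3
    apply hm
    change coeff m (map (f : cfs φ →+* LaurentSeries ℂ) (φ₀ r)) = 0
    rw [coeff_map, h3, map_zero]
  refine h.degree j r hr ?_
  have h4 : map (algebraMap (cfs φ) K) (φ₀ r) = φ r := DFunLike.congr_fun hφ₀ r
  rw [← h4, coeff_map]
  intro h3
  exact h2 (Subtype.ext h3)

end Vale.Agent.P292.Dv
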