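import Vale.Agent.P292.Bn.N16
import Vale.Agent.P292.D.Defs

/-! # Definitions for the dimension counts (T3, T4). -/

namespace Vale.Agent.P292.Dv

open MvPolynomial

universe u v

variable {R : Type u} [CommRing R] [Algebra ℂ R]

/-- The curve has a pull back of `p`, of degree `-δ`. -/
def HasPair (𝒜 : ℕ → Submodule ℂ R) (p : Ideal R) (e δ : ℕ) {K : Type v} [Field K] [Algebra ℂ K]
    (φ : R →ₐ[ℂ] MvPolynomial (Fin 2) K) : Prop :=
  ∃ η : p →ₗ[ℂ] MvPolynomial (Fin 2) K, IsPair 𝒜 p e δ φ η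

/-- The algebra generated by the values at both ends. -/
noncomputable def ends {K : Type v} [Field K] [Algebra ℂ K]
    (φ : R →ₐ[ℂ] MvPolynomial (Fin 2) K) : Subalgebra ℂ K :=
  Algebra.adjoin ℂ (Set.range (pt φ ![1, 0]) ∪ Set.range (pt φ ![0, 1]))

end Vale.Agent.P292.Dv
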