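import Vale.Agent.P292.D.T4Conic1
import Vale.Agent.P292.D.T4Defs

/-! # Part III, E3: a positive conic with two fixed ends degenerates to a positive line. -/

namespace Vale.Agent.P292.Dv

open Vale.Agent.P292.Mo Vale.Agent.P292.Mo.Sc Vale.Agent.P292.Mo.Fm

universe u v w

theorem alg_add {K A B : Type*} [CommSemiring K] [Semiring A] [Semiring B] [Algebra K A]
    [Algebra K B] (f : A →ₐ[K] B) (a b : A) : f (a + b) = f a + f b := map_add f a b

section swapP

variable (k : Type u) [Field k]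

/-- Polynomials over the Laurent series as Laurent series over the polynomials. -/
noncomputable def swapP : Polynomial (LaurentSeries k) →ₐ[k] LaurentSeries (Polynomial k) :=
  { Polynomial.eval₂RingHom (mapL k (Polynomial k)).toRingHom
      (HahnSeries.C (Polynomial.X : Polynomial k)) with
    commutes' := fun c => by
      change Polynomial.eval₂RingHom (mapL k (Polynomial k)).toRingHom _ _ = _
      rw [Polynomial.algebraMap_apply, Polynomial.coe_eval₂RingHom, Polynomial.eval₂_C]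
      exact (mapL k (Polynomial k)).commutes c }

variable {k}

theorem swapP_apply (f : Polynomial (LaurentSeries k)) : swapP k f =
    Polynomial.eval₂ (mapL k (Polynomial k)).toRingHom
      (HahnSeries.C (Polynomial.X : Polynomial k)) f := rfl

theorem swapP_ch (f : MvPolynomial (Fin 2) (LaurentSeries k)) (t : Fin 2) (i : ℤ) :
    (swapP k (ch (LaurentSeries k) t f)).coeff i = ch k t ((swapL k f).coeff i) := by
  classical
  induction f using MvPolynomial.induction_on' with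
  | monomial m a =>
    have h1 : ch (LaurentSeries k) t (MvPolynomial.monomial m a) =
        Polynomial.C a * Polynomial.X ^ m t := by
      rw [ch, MvPolynomial.aeval_monomial, Polynomial.algebraMap_eq,
        Finsupp.prod_fintype _ _ (fun _ => pow_zero _), prod_ch]
    have h2 : ch k t (MvPolynomial.monomial m (1 : k)) = Polynomial.X ^ m t := by
      rw [ch, MvPolynomial.aeval_monomial, Polynomial.algebraMap_eq, map_one, one_mul,
        Finsupp.prod_fintype _ _ (fun _ => pow_zero _), prod_ch]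
    rw [h1, swapP_apply, Polynomial.eval₂_mul, Polynomial.eval₂_C, Polynomial.eval₂_pow,
      Polynomial.eval₂_X, ← map_pow, swapL_monomial]
    change ((mapL k (Polynomial k) a) * HahnSeries.C _).coeff i = _
    rw [mul_comm, C_mul_coeff, mapL_coeff, mul_comm (mapL k (MvPolynomial (Fin 2) k) a),
      C_mul_coeff, mapL_coeff, map_mul, h2, AlgHom.commutes]
  | add p q hp hq =>
    have h1 : swapP k (ch (LaurentSeries k) t (p + q)) =
        swapP k (ch (LaurentSeries k) t p) + swapP k (ch (LaurentSeries k) t q) := by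
      rw [swapP_apply, alg_add (ch (LaurentSeries k) t), Polynomial.eval₂_add]
      rfl
    rw [h1, alg_add (swapL k), HahnSeries.coeff_add, HahnSeries.coeff_add,
      alg_add (ch k t), hp, hq]

theorem ofPS_map {B C : Type*} [CommRing B] [Algebra k B] [CommRing C] [Algebra k C]
    (g : B →ₐ[k] C) (y : PowerSeries B) (i : ℤ) :
    (ofPS k C (PowerSeries.mapAlgHom g y)).coeff i = g ((ofPS k B y).coeff i) := by
  rcases lt_or_ge i 0 with hi | hi
  · rw [ofPS_coeff_neg _ i hi, ofPS_coeff_neg _ i hi, map_zero]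
  · obtain ⟨n, rfl⟩ := Int.eq_ofNat_of_zero_le hi
    have h1 := ofPS_coeff_nat (k := k) (PowerSeries.mapAlgHom g y) n
    have h2 := ofPS_coeff_nat (k := k) y n
    rw [h1, h2]
    exact PowerSeries.coeff_map _ _ _

theorem expand_map {B C : Type*} [CommRing B] [Algebra k B] [CommRing C] [Algebra k C]
    (g : B →ₐ[k] C) (c : ℕ) (hc : 0 < c) {x : LaurentSeries B} {x' : LaurentSeries C}
    (h : ∀ i, x'.coeff i = g (x.coeff i)) (i : ℤ) :
    (expand k c hc x').coeff i = g ((expand k c hc x).coeff i) := by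
  by_cases hdv : (c : ℤ) ∣ i
  · obtain ⟨b, rfl⟩ := hdv
    rw [expand_coeff_mul, expand_coeff_mul, h]
  · rw [expand_coeff_of_not_dvd _ _ _ _ hdv, expand_coeff_of_not_dvd _ _ _ _ hdv, map_zero]

end swapP

section descend

variable {k : Type u} [Field k] {R : Type v} [CommRing R] [Algebra k R] {𝒜 : ℕ → Submodule k R}
  [GradedAlgebra 𝒜] {p : Ideal R}

/-- Coefficientwise application of a functional. -/
noncomputable def lamM {L K : Type*} [Field L] [Field K] [Algebra L K] (l : K →ₗ[L] L)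
    (f : MvPolynomial (Fin 2) K) : MvPolynomial (Fin 2) L :=
  ∑ d ∈ f.support, MvPolynomial.monomial d (l (f.coeff d))

theorem coeff_lamM {L K : Type*} [Field L] [Field K] [Algebra L K] (l : K →ₗ[L] L)
    (f : MvPolynomial (Fin 2) K) (m : Fin 2 →₀ ℕ) : (lamM l f).coeff m = l (f.coeff m) := by
  classical
  rw [lamM, MvPolynomial.coeff_sum, Finset.sum_eq_single m]
  · rw [MvPolynomial.coeff_monomial, if_pos rfl]
  · intro d _ hd
    rw [MvPolynomial.coeff_monomial, if_neg hd]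
  · intro h
    rw [MvPolynomial.notMem_support_iff.1 h, map_zero, MvPolynomial.monomial_zero,
      MvPolynomial.coeff_zero]

/-- A pair over an extension gives a second component over the base. -/
theorem exists_eta_descend (hp : p.IsHomogeneous 𝒜) {L : Type*} [Field L] [Algebra k L]
    {K : Type*} [Field K] [Algebra L K] [Algebra k K] [IsScalarTower k L K] {e δ : ℕ}
    {F : R →ₐ[k] MvPolynomial (Fin 2) L} {η₀ : p →ₗ[k] MvPolynomial (Fin 2) K}
    (h : IsPair 𝒜 p e δ ((MvPolynomial.mapAlgHom (IsScalarTower.toAlgHom k L K)).comp F) η₀) :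
    ∃ η : ℕ → R → MvPolynomial (Fin 2) L, IsEta 𝒜 p F η ∧
      (∀ j x, x ∈ 𝒜 j → x ∈ p → ∀ m, (η j x).coeff m ≠ 0 → m 0 + m 1 + δ = e * j) ∧
      ∃ j x, x ∈ 𝒜 j ∧ x ∈ p ∧ η j x ≠ 0 := by
  classical
  obtain ⟨x₀, hx₀⟩ := h.bpfη ![1, 0] (by
    intro h0
    have := congrFun h0 0
    simp at this)
  obtain ⟨j₀, hj₀⟩ : ∃ j, η₀ ⟨_, mem_of_homog hp x₀.2 j⟩ ≠ 0 := by
    by_contra hcon
    push Not at hcon
    apply hx₀
    have h1 : x₀ = ∑ j ∈ (DirectSum.decompose 𝒜 (x₀ : R)).support,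
        (⟨_, mem_of_homog hp x₀.2 j⟩ : p) := by
      apply Subtype.ext
      rw [AddSubmonoidClass.coe_finsetSum]
      exact (DirectSum.sum_support_decompose 𝒜 (x₀ : R)).symm
    rw [h1, map_sum, Finset.sum_eq_zero (fun j _ => hcon j), map_zero]
  obtain ⟨m₀, hm₀⟩ := MvPolynomial.ne_zero_iff.mp hj₀
  obtain ⟨l, hl⟩ : ∃ l : K →ₗ[L] L, l ((η₀ ⟨_, mem_of_homog hp x₀.2 j₀⟩).coeff m₀) ≠ 0 := by
    by_contra hcon
    push Not at hcon
    exact hm₀ ((Module.forall_dual_apply_eq_zero_iff L _).mp hcon)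
  let η : ℕ → R → MvPolynomial (Fin 2) L := fun _ x =>
    if hx : x ∈ p then lamM l (η₀ ⟨x, hx⟩) else 0
  have hη : ∀ j x (hx : x ∈ p), η j x = lamM l (η₀ ⟨x, hx⟩) := fun j x hx => dif_pos hx
  refine ⟨η, ⟨fun j x y hx hx' hy hy' => ?_, fun i j r x hr hx hx' => ?_⟩,
    fun j x hx hx' m hm => ?_, j₀, _, SetLike.coe_mem (DirectSum.decompose 𝒜 (x₀ : R) j₀),
    mem_of_homog hp x₀.2 j₀, ?_⟩
  · rw [hη j _ (p.add_mem hx' hy'), hη j x hx', hη j y hy']
    ext m
    have h1 : (⟨x + y, p.add_mem hx' hy'⟩ : p) = ⟨x, hx'⟩ + ⟨y, hy'⟩ := rfl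
    rw [MvPolynomial.coeff_add, coeff_lamM, coeff_lamM, coeff_lamM, h1, map_add,
      MvPolynomial.coeff_add, map_add]
  · rw [hη (i + j) _ (p.mul_mem_left _ hx'), hη j x hx']
    ext m
    have h1 : (⟨r * x, p.mul_mem_left _ hx'⟩ : p) = r • ⟨x, hx'⟩ := rfl
    rw [coeff_lamM, h1, h.lin, AlgHom.comp_apply, MvPolynomial.coeff_mul, map_sum,
      MvPolynomial.coeff_mul]
    refine Finset.sum_congr rfl fun z _ => ?_
    have h2 : ((MvPolynomial.mapAlgHom (IsScalarTower.toAlgHom k L K)) (F r)).coeff z.1 =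
        algebraMap L K ((F r).coeff z.1) := MvPolynomial.coeff_map _ _ _
    rw [h2, ← Algebra.smul_def, map_smul, smul_eq_mul, coeff_lamM]
  · rw [hη j x hx', coeff_lamM] at hm
    have h1 : (η₀ ⟨x, hx'⟩).coeff m ≠ 0 := fun h0 => hm (by rw [h0, map_zero])
    have h2 : δ ≤ e * j := by
      by_contra hcon
      apply h1
      rw [h.zeroη j ⟨x, hx'⟩ hx (by omega), MvPolynomial.coeff_zero]
    have h3 := h.degη j ⟨x, hx'⟩ hx (e * j - δ) (by omega) h1
    rw [Finsupp.weight_apply, Finsupp.sum_fintype _ _ (fun i => by simp)] at h3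
    have h4 : m 0 + m 1 = e * j - δ := by simpa [Fin.sum_univ_two] using h3
    omega
  · rw [hη j₀ _ (mem_of_homog hp x₀.2 j₀)]
    intro h0
    apply hl
    rw [← coeff_lamM, h0, MvPolynomial.coeff_zero]

/-- Base point freeness over an algebraically closed extension gives the unit ideal in the
charts. -/
theorem span_ch_eq_top {L : Type*} [Field L] [Algebra k L] {K : Type*} [Field K]
    [IsAlgClosed K] [Algebra L K] [Algebra k K] [IsScalarTower k L K]
    {F : R →ₐ[k] MvPolynomial (Fin 2) L}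
    (h : ∀ a : Fin 2 → K, a ≠ 0 → ∃ j > 0, ∃ r ∈ 𝒜 j, MvPolynomial.eval a
      (((MvPolynomial.mapAlgHom (IsScalarTower.toAlgHom k L K)).comp F) r) ≠ 0) (t : Fin 2) :
    Ideal.span {f : Polynomial L | ∃ j : ℕ, 0 < j ∧ ∃ r ∈ 𝒜 j, f = ch L t (F r)} = ⊤ := by
  classical
  set J := Ideal.span {f : Polynomial L | ∃ j : ℕ, 0 < j ∧ ∃ r ∈ 𝒜 j, f = ch L t (F r)} with hJ
  set g := Submodule.IsPrincipal.generator J with hg
  have hgJ : Ideal.span {g} = J := Submodule.IsPrincipal.span_singleton_generator J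
  by_contra hcon
  have hgu : ¬ IsUnit g := by
    intro hu
    apply hcon
    rw [← hgJ]
    exact Ideal.span_singleton_eq_top.mpr hu
  obtain ⟨a, ha⟩ := IsAlgClosed.exists_aeval_eq_zero K g (fun h0 =>
    hgu (Polynomial.isUnit_iff_degree_eq_zero.mpr h0))
  have hall : ∀ f ∈ J, Polynomial.aeval a f = 0 := by
    intro f hf
    rw [← hgJ, Ideal.mem_span_singleton] at hf
    obtain ⟨q, rfl⟩ := hf
    rw [map_mul, ha, zero_mul]
  obtain ⟨j, hj, r, hr, hne⟩ := h (fun i => if i = t then a else 1) (by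
    intro h0
    obtain ⟨s, hs⟩ : ∃ s : Fin 2, s ≠ t := by
      fin_cases t
      · exact ⟨1, by simp⟩
      · exact ⟨0, by simp⟩
    have h1 := congrFun h0 s
    rw [Pi.zero_apply, if_neg hs] at h1
    exact one_ne_zero h1)
  apply hne
  have h1 : ∀ f : MvPolynomial (Fin 2) L, MvPolynomial.aeval (fun i => if i = t then a else 1) f =
      Polynomial.aeval a (ch L t f) := by
    intro f
    have h2 : (MvPolynomial.aeval (fun i => if i = t then a else 1) :
        MvPolynomial (Fin 2) L →ₐ[L] K) = (Polynomial.aeval a).comp (ch L t) := by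
      apply MvPolynomial.algHom_ext
      intro i
      rw [MvPolynomial.aeval_X, AlgHom.comp_apply, ch, MvPolynomial.aeval_X]
      split_ifs
      · rw [Polynomial.aeval_X]
      · rw [map_one]
    rw [h2]
    rfl
  have h3 := hall _ (Ideal.subset_span ⟨j, hj, r, hr, rfl⟩ : ch L t (F r) ∈ J)
  rw [← h1] at h3
  rw [← h3, AlgHom.comp_apply, MvPolynomial.aeval_def, MvPolynomial.eval₂_eq_eval_map]
  rfl

end descend

section core

variable {k : Type u} [Field k] {R : Type v} [CommRing R] [Algebra k R] {𝒜 : ℕ → Submodule k R}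
  [GradedAlgebra 𝒜] {p : Ideal R}

/-- The core of E3. -/
theorem conic_core [IsAlgClosed k] [IsNoetherianRing R] (hp : p.IsHomogeneous 𝒜) {N : ℕ}
    {x : Fin N → R} {d : Fin N → ℕ} (hx : ∀ i, x i ∈ 𝒜 (d i))
    (hgen : Algebra.adjoin k (Set.range x) = ⊤) (hd : ∀ i, 0 < d i) (hLB : IsLB 𝒜)
    {F : R →ₐ[k] MvPolynomial (Fin 2) (LaurentSeries k)}
    (hdeg : ∀ j, ∀ r ∈ 𝒜 j, (F r).IsHomogeneous (2 * j)) {w₀ w₁ : R →ₐ[k] k}
    (h0 : ∀ r, MvPolynomial.eval ![1, 0] (F r) = algebraMap k (LaurentSeries k) (w₀ r))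
    (h1 : ∀ r, MvPolynomial.eval ![0, 1] (F r) = algebraMap k (LaurentSeries k) (w₁ r))
    (hpole : ∃ r m, (F r).coeff m ∉ Set.range (HahnSeries.ofPowerSeries ℤ k))
    (hbpf : ∀ t, Ideal.span {f : Polynomial (LaurentSeries k) |
      ∃ j : ℕ, 0 < j ∧ ∃ r ∈ 𝒜 j, f = ch (LaurentSeries k) t (F r)} = ⊤)
    {η : ℕ → R → MvPolynomial (Fin 2) (LaurentSeries k)} (hη : IsEta 𝒜 p F η) {δ : ℕ}
    (hδ : 0 < δ)
    (hdegη : ∀ j x, x ∈ 𝒜 j → x ∈ p → ∀ m, (η j x).coeff m ≠ 0 → m 0 + m 1 + δ = 2 * j)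
    (hne : ∃ j x, x ∈ 𝒜 j ∧ x ∈ p ∧ η j x ≠ 0) : PosC 𝒜 p 1 := by
  classical
  by_contra hpos
  obtain ⟨c, hc, μ, φ, hμ, hφ, ⟨n, hn, y, hy, hne₀⟩, hhom, hle⟩ :=
    pole_red hx hgen hd hLB hdeg h0 h1 hpole
  obtain ⟨ζ, hζ, hdegζ, j₁, x₁, hx₁, hx₁', hne₁⟩ := exists_scaled_eta hp hη hdegη hne hφ
  obtain ⟨M, hM⟩ := exists_genIn hp
  -- the monomials of the reduction
  have hmon : ∀ j, ∀ r ∈ 𝒜 j, ∀ m, (PowerSeries.constantCoeff (φ r)).coeff m ≠ 0 →
      m 0 = j ∧ m 1 = j := by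
    intro j r hr m hm
    have h2 := hle j r hr m hm
    have h3 : (PowerSeries.constantCoeff (φ r)).IsHomogeneous (2 * j) := by
      rw [← PowerSeries.coeff_zero_eq_constantCoeff_apply]
      exact hhom j r hr 0
    have h4 := h3 hm
    rw [Finsupp.weight_apply, Finsupp.sum_fintype _ _ (fun i => by simp)] at h4
    have h5 : m 0 + m 1 = 2 * j := by simpa [Fin.sum_univ_two] using h4
    omega
  have hmon' : ∀ t : Fin 2, ∀ j, ∀ r ∈ 𝒜 j, ∀ m, (PowerSeries.constantCoeff (φ r)).coeff m ≠ 0 →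
      m t = j := by
    intro t j r hr m hm
    have h2 := hmon j r hr m hm
    fin_cases t
    · exact h2.1
    · exact h2.2
  -- the germs at both ends
  have hkey : ∀ t : Fin 2, ∀ j x, x ∈ 𝒜 j → x ∈ p → ∀ m,
      (PowerSeries.constantCoeff (ζ j x)).coeff m ≠ 0 → j ≤ m t := by
    intro t
    let Ft : R →ₐ[k] PowerSeries (Polynomial k) := (PowerSeries.mapAlgHom (ch k t)).comp φ
    have hcc : ∀ f : PowerSeries (MvPolynomial (Fin 2) k),
        PowerSeries.constantCoeff (PowerSeries.mapAlgHom (ch k t) f) =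
          ch k t (PowerSeries.constantCoeff f) := by
      intro f
      rw [← PowerSeries.coeff_zero_eq_constantCoeff_apply,
        ← PowerSeries.coeff_zero_eq_constantCoeff_apply]
      exact PowerSeries.coeff_map _ _ _
    obtain ⟨ν, a, b, hg⟩ := exists_point (F := Ft)
      (η := fun j x => PowerSeries.mapAlgHom (ch k t) (ζ j x)) hLB hx hgen hM
      (hζ.map (PowerSeries.mapAlgHom (ch k t))) (by
        refine ⟨n, hn, y, hy, ?_⟩
        change PowerSeries.constantCoeff (PowerSeries.mapAlgHom (ch k t) (φ y)) ≠ 0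
        rw [hcc]
        refine ch_ne_zero (δ := 0) (n := 2 * n) (fun m hm => ?_) t hne₀
        have := hmon n y hy m hm
        omega) (by
        refine ⟨j₁, x₁, hx₁, hx₁', ?_⟩
        rw [hcc]
        exact ch_ne_zero (hdegζ j₁ x₁ hx₁ hx₁') t hne₁) 0
    have hrec : ∀ (f : PowerSeries (Polynomial k)) (m : ℕ), PowerSeries.coeff m
        (PowerSeries.constantCoeff (recen 0 f)) = (PowerSeries.constantCoeff f).coeff m := by
      intro f m
      rw [constantCoeff_recen, coeff_expandAt, Polynomial.taylor_zero]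
    have hν : ν = 1 := by
      obtain ⟨j, hj, r, hr, h⟩ := hg.ne
      rw [AlgHom.comp_apply, hrec] at h
      change (PowerSeries.constantCoeff (PowerSeries.mapAlgHom (ch k t) (φ r))).coeff _ ≠ 0 at h
      rw [hcc] at h
      obtain ⟨m, hm1, hm2⟩ := exists_of_coeff_ch h
      rw [hmon' t j r hr m hm2] at hm1
      have h6 : ν * j = 1 * j := by rw [one_mul]; exact hm1.symm
      exact Nat.eq_of_mul_eq_mul_right hj h6
    subst hν
    -- the ideal
    obtain ⟨L, hL⟩ : ∃ L : ℕ, (PowerSeries.X : PowerSeries (Polynomial k)) ^ L ∈ imI 𝒜 Ft := by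
      refine exists_pow_mem 𝒜 (φ := ((swapP k).comp
        ((ch (LaurentSeries k) t).restrictScalars k)).comp F) (e := c) (he := hc) (a := (μ : ℤ))
        (φ' := Ft) (fun n r hr => ?_) ?_
      · ext1
        funext i
        rw [single_mul_coeff]
        change (ofPS k _ (PowerSeries.mapAlgHom (ch k t) (φ r))).coeff i =
          (expand k c hc (swapP k (ch (LaurentSeries k) t (F r)))).coeff _
        rw [ofPS_map, expand_map (ch k t) c hc (swapP_ch (F r) t), hφ n r hr, single_mul_coeff]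
      · have h2 := congrArg (Ideal.map (swapP k).toRingHom) (hbpf t)
        rw [Ideal.map_top, Ideal.map_span] at h2
        rw [← h2]
        congr 1
        ext z
        constructor
        · rintro ⟨j, hj, r, hr, rfl⟩
          exact ⟨_, ⟨j, hj, r, hr, rfl⟩, rfl⟩
        · rintro ⟨_, ⟨j, hj, r, hr, rfl⟩, rfl⟩
          exact ⟨j, hj, r, hr, rfl⟩
    have hL' : PowerSeries.X ^ L ∈ imI 𝒜 ((recen 0).comp Ft) := by
      have := imI_map Ft (recen 0) hL
      rwa [map_pow, recen_X] at this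
    have hab := (germ_main hLB hx hgen hM 1 L _ _ a b hg hL').resolve_right hpos
    intro j z hz hz' m hm
    have h3 := hg.dvd_of_le hab hz hz'
    by_contra hcon
    have h4 := PowerSeries.X_pow_dvd_iff.mp h3 (m t) (by omega)
    rw [hrec, hcc, coeff_ch_of (hdegζ j z hz hz') t (hdegζ j z hz hz' m hm)] at h4
    exact hm h4
  obtain ⟨m, hm⟩ := MvPolynomial.ne_zero_iff.mp hne₁
  have h2 := hkey 0 j₁ x₁ hx₁ hx₁' m hm
  have h3 := hkey 1 j₁ x₁ hx₁ hx₁' m hm
  have h4 := hdegζ j₁ x₁ hx₁ hx₁' m hm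
  omega

end core

/-- E3: a conic with two fixed ends which is positive on the divisor degenerates to a line which
is positive on the divisor. -/
theorem t4_conic_pole {R : Type u} [CommRing R] [Algebra ℂ R] {𝒜 : ℕ → Submodule ℂ R}
    [GradedAlgebra 𝒜] {P : R →ₗ[ℂ] R →ₗ[ℂ] R} (hX : IsContactFano 𝒜 P) {p : Ideal R}
    (hh : p.IsHomogeneous 𝒜)
    {F : R →ₐ[ℂ] MvPolynomial (Fin 2) (LaurentSeries ℂ)}
    (hdeg : ∀ j, ∀ r ∈ 𝒜 j, (F r).IsHomogeneous (2 * j)) {w₀ w₁ : R →ₐ[ℂ] ℂ}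
    (h0 : ∀ r, MvPolynomial.eval ![1, 0] (F r) = algebraMap ℂ (LaurentSeries ℂ) (w₀ r))
    (h1 : ∀ r, MvPolynomial.eval ![0, 1] (F r) = algebraMap ℂ (LaurentSeries ℂ) (w₁ r))
    (hpole : ∃ r m, MvPolynomial.coeff m (F r) ∉ Set.range (HahnSeries.ofPowerSeries ℤ ℂ))
    {δ : ℕ} (hδ : 0 < δ) (hpair : HasPair 𝒜 p 2 δ ((MvPolynomial.mapAlgHom
      (IsScalarTower.toAlgHom ℂ (LaurentSeries ℂ)
        (AlgebraicClosure (LaurentSeries ℂ)))).comp F)) :
    ∃ δ' > 0, ∃ φ : R →ₐ[ℂ] MvPolynomial (Fin 2) ℂ, HasPair 𝒜 p 1 δ' φ := by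
  have := hX.finiteType
  have : IsNoetherianRing R := Algebra.FiniteType.isNoetherianRing ℂ R
  obtain ⟨N, x, d, hgen, hd, hx⟩ := pres_gens 𝒜 hX.connected
  have hLB : IsLB 𝒜 := by
    intro q hq e he
    refine hX.lineBundle q ?_ e he
    obtain ⟨j, hj, r, hr, hne⟩ := hq
    exact fun hv => hne (hv j hj r hr)
  obtain ⟨η₀, hη₀⟩ := hpair
  obtain ⟨η, hη, hdegη, hne⟩ := exists_eta_descend hh hη₀
  have hpos := conic_core hh hx hgen hd hLB hdeg h0 h1 hpole (span_ch_eq_top hη₀.bpf) hη hδ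
    hdegη hne
  obtain ⟨e, δ', φ, η', h2, h3, h4, h5⟩ := hpos.pair hh
  obtain rfl : e = 1 := by omega
  exact ⟨δ', h4, φ, η', h5⟩

end Vale.Agent.P292.Dv
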