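import Vale.Agent.P292.D.T4E5
import Vale.Agent.P292.D.T4ConicPole

/-! # Part III, E5: without positive lines, a positive conic is algebraic over its ends. -/

namespace Vale.Agent.P292.Dv

open Vale.Agent.P292.Mo Vale.Agent.P292.Mo.Sc Vale.Agent.P292.Mo.Fm MvPolynomial

universe u

variable {R : Type u} [CommRing R] [Algebra ℂ R] {𝒜 : ℕ → Submodule ℂ R} [GradedAlgebra 𝒜]
  {P : R →ₗ[ℂ] R →ₗ[ℂ] R}

theorem t4_algebraic_conic (hX : IsContactFano 𝒜 P) {p : Ideal R} (hh : p.IsHomogeneous 𝒜)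
    (hp : IsInv 𝒜 p)
    (hno : ∀ δ' > 0, ∀ φ : R →ₐ[ℂ] MvPolynomial (Fin 2) ℂ, ¬ HasPair 𝒜 p 1 δ' φ)
    {K : Type u} [Field K] [IsAlgClosed K]
    [Algebra ℂ K] {φ : R →ₐ[ℂ] MvPolynomial (Fin 2) K} (h : IsCurve 𝒜 2 φ)
    {δ : ℕ} (hδ : 0 < δ) (hpair : HasPair 𝒜 p 2 δ φ) :
    ∀ r m, IsAlgebraic (ends φ) (coeff m (φ r)) :=
  t4_algebraic_conic_of hX hh hp hno (fun _ hdeg _ _ h0 h1 hpole _ hδ' hpair' =>
    t4_conic_pole hX hh hdeg h0 h1 hpole hδ' hpair') h hδ hpair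

end Vale.Agent.P292.Dv
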