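import Vale.Agent.P292.D.T4Family0

/-! # Part III, G4: the family through a closed curve -/

namespace Vale.Agent.P292.Dv

open TensorProduct Vale.Agent.P292.Mo

universe u

variable {R : Type u} [CommRing R] [Algebra ℂ R] {𝒜 : ℕ → Submodule ℂ R} [GradedAlgebra 𝒜]
  {P : R →ₗ[ℂ] R →ₗ[ℂ] R}

/-- G4 from G1 and G3. -/
theorem t4_family_of (hPM : Mo.IsPM 𝒜 P) {e N : ℕ}
    {φ : R →ₐ[ℂ] MvPolynomial (Fin 2) ℂ} (hφ : IsCurve 𝒜 e φ)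
    {A₀ A₁ : Subalgebra ℂ (FractionRing (Polynomial ℂ))} {u : FractionRing (Polynomial ℂ)}
    {x : Fin N → R} {d : Fin N → ℕ} {g : R} {x' : Fin N → R} {d' : Fin N → ℕ} {g' : R}
    {φ' : R →ₐ[ℂ] FractionRing (Polynomial ℂ)}
    (hφ' : ∀ r, φ' r = algebraMap (Polynomial ℂ) _
      (MvPolynomial.aeval ![Polynomial.X, 1] (φ r)))
    (hCD : Mo.IsCD A₀ A₁) (hMp : Mo.IsMp 𝒜 A₀ A₁ u φ') (h0 : Mo.IsFr0 𝒜 P A₀ φ' x d g)
    (h1 : Mo.IsFr1 𝒜 P A₁ u φ' x' d' g') (hidx : Mo.idx A₁ u = e) (hchi : Mo.chi0 A₀ A₁ = 1)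
    (hSec : ∀ n, ∀ a, a ∈ Mo.Sec A₀ A₁ u n ↔
        ∃ q : Polynomial ℂ, q.natDegree ≤ e * n ∧ a = algebraMap (Polynomial ℂ) _ q) :
    ∃ (D : Type) (_ : CommRing D) (_ : IsDomain D) (_ : Algebra ℂ D)
      (_ : Algebra.FiniteType ℂ D) (e₀ : D →ₐ[ℂ] ℂ) (Φ : R →ₐ[ℂ] MvPolynomial (Fin 2) D) (m : ℕ),
      (∀ j, ∀ r ∈ 𝒜 j, (Φ r).IsHomogeneous (e * j)) ∧ (MvPolynomial.mapAlgHom e₀).comp Φ = φ ∧
      TrGE Φ m ∧ N * (e + 2) ≤ 2 * m := by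
  have hft := hPM.finiteType
  obtain ⟨hT, hO, hchi'⟩ := chi_der_fintype hPM hCD hMp h0 h1 (ι := Fin 0)
    (c := fun i => i.elim0) (fun i => i.elim0) (I := Subalgebra.toSubmodule A₀)
    (fun a => ⟨fun h => ⟨h, fun l => l.elim0⟩, fun h => h.1⟩)
  have hfin : ∀ n, Module.Finite ℂ (Sec A₀ A₁ u n) := by
    intro n
    have h2 : Sec A₀ A₁ u n ≤ (Polynomial.degreeLE ℂ (e * n : ℕ)).map
        (IsScalarTower.toAlgHom ℂ (Polynomial ℂ) (FractionRing (Polynomial ℂ))).toLinearMap := by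
      intro a ha
      obtain ⟨q, hq, rfl⟩ := (hSec n a).1 ha
      exact ⟨q, Polynomial.mem_degreeLE.2 (Polynomial.natDegree_le_iff_degree_le.1 hq), rfl⟩
    have h3 : Module.Finite ℂ (Polynomial.degreeLE ℂ ((e * n : ℕ) : WithBot ℕ)) := by
      rw [← Polynomial.degreeLT_succ_eq_degreeLE]
      exact Module.Finite.equiv (Polynomial.degreeLTEquiv ℂ _).symm
    exact Submodule.finiteDimensional_of_le h2
  obtain ⟨D, i1, i2, i3, i4, e₀, Ψ, s, z, hz, hineq, hsec, -, hval, hadj⟩ :=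
    exists_component 𝒜 hMp hPM.smooth (Subalgebra.toSubmodule A₀) (fun a ha => ha)
      (fun a ha b hb => A₀.mul_mem ha hb) hfin hO
  obtain ⟨Φ, hΦ1, hΦ2, hΦ3⟩ := g4_main (𝒜 := 𝒜) hSec hφ.degree hφ' e₀ Ψ hsec hval hadj
  refine ⟨D, i1, i2, i3, i4, e₀, Φ, s, hΦ1, AlgHom.ext fun r => hΦ2 r, ⟨z, fun i => ?_, hz⟩, ?_⟩
  · change z i ∈ Algebra.adjoin ℂ {c | ∃ r m, c = MvPolynomial.coeff m (Φ r)}
    rw [hΦ3]
    trivial
  · rw [hidx, hchi] at hchi'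
    simp only [Fintype.card_fin, Nat.cast_zero, mul_zero, zero_mul, sub_zero, mul_one] at hchi'
    have h4 : ((N * (e + 2) : ℕ) : ℤ) ≤ ((2 * s : ℕ) : ℤ) := by
      push_cast
      have h5 : (Module.finrank ℂ (T0 𝒜 φ' (Subalgebra.toSubmodule A₀) A₁ u) : ℤ) ≤
        Module.finrank ℂ (ObS 𝒜 φ' (Subalgebra.toSubmodule A₀) A₁ u) + s := by exact_mod_cast hineq
      linarith
    exact_mod_cast h4

end Vale.Agent.P292.Dv
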