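import Vale.Agent.P292.Bn.N16
import Vale.Agent.P292.D.Defs

/-! # T4, G1: contact Fano cones are graded Poisson algebras of the type of Part II. -/

namespace Vale.Agent.P292.Dv

open MvPolynomial

universe u v w

variable {R : Type u} [CommRing R] [Algebra ℂ R] {𝒜 : ℕ → Submodule ℂ R} [GradedAlgebra 𝒜]
  {P : R →ₗ[ℂ] R →ₗ[ℂ] R}

/-- G1 -/
theorem t4_isPM (hX : IsContactFano 𝒜 P) : Mo.IsPM 𝒜 P where
  finiteType := hX.finiteType
  connected := hX.connected
  alternating := hX.alternating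
  leibniz := hX.leibniz
  degree := hX.degree
  frame := fun y hy => by
    have hv : ¬ IsVertex 𝒜 y := by
      obtain ⟨n, hn, r, hr, h⟩ := hy
      exact fun hv => h (hv n hn r hr)
    obtain ⟨N, x, k, g, l, hx, hg, hpg, hpd, hgen⟩ := exists_chart hX y hv
    exact ⟨N, x, k, g, ⟨hx, ⟨l, hg⟩, hgen⟩, by rw [map_mul]; exact mul_ne_zero hpg hpd⟩
  smooth := fun n hn s hs => Mo.smooth_zero hX n hn s hs
  lineBundle := fun y hy d hd => by
    have hv : ¬ IsVertex 𝒜 y := by
      obtain ⟨n, hn, r, hr, h⟩ := hy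
      exact fun hv => h (hv n hn r hr)
    exact hX.lineBundle y hv d hd

end Vale.Agent.P292.Dv
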