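import Vale.Agent.P292.D.T4Data
import Vale.Agent.P292.D.T4FamilyOf
import Vale.Agent.P292.D.T4IsPM

/-! # The family through a closed curve. -/

namespace Vale.Agent.P292.Dv

open MvPolynomial

universe u

variable {R : Type u} [CommRing R] [Algebra ℂ R] {𝒜 : ℕ → Submodule ℂ R} [GradedAlgebra 𝒜]
  {P : R →ₗ[ℂ] R →ₗ[ℂ] R}

/-- The family through a closed curve. -/
theorem t4_family (hX : IsContactFano 𝒜 P) [IsDomain R] {e : ℕ} (he : 0 < e)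
    {φ : R →ₐ[ℂ] MvPolynomial (Fin 2) ℂ} (hφ : IsCurve 𝒜 e φ) :
    ∃ (D : Type) (_ : CommRing D) (_ : IsDomain D) (_ : Algebra ℂ D)
      (_ : Algebra.FiniteType ℂ D) (e₀ : D →ₐ[ℂ] ℂ) (Φ : R →ₐ[ℂ] MvPolynomial (Fin 2) D) (m : ℕ),
      (∀ j, ∀ r ∈ 𝒜 j, (Φ r).IsHomogeneous (e * j)) ∧ (mapAlgHom e₀).comp Φ = φ ∧
      TrGE Φ m ∧ cdim R * (e + 2) ≤ 2 * m := by
  obtain ⟨A₀, A₁, u, x, d, g, x', d', g', φ', h1, h2, h3, h4, h5, h6, h7, h8⟩ := t4_data hX he hφ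
  exact t4_family_of (t4_isPM hX) hφ h1 h2 h3 h4 h5 h6 h7 h8

end Vale.Agent.P292.Dv
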