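import Vale.Agent.P292.Bn.N16
import Vale.Agent.P292.D.T4Defs

/-! # T4, block B2: the two ends of a positive conic are jointly generic. -/

namespace Vale.Agent.P292.Dv

open MvPolynomial TensorProduct

universe u v w

/-- A derivation which kills a subalgebra kills the elements algebraic over it. -/
theorem b2_kill {K : Type v} [Field K] [Algebra ℂ K] (D : Derivation ℂ K K) (E : Subalgebra ℂ K)
    (hE : ∀ x ∈ E, D x = 0) {c : K} (hc : IsAlgebraic E c) : D c = 0 := by
  have hchar : CharZero K := charZero_of_injective_algebraMap (algebraMap ℂ K).injective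
  let F : IntermediateField ℂ K :=
    { carrier := {x | D x = 0}
      mul_mem' := fun {a b} ha hb => by
        have ha' : D a = 0 := ha
        have hb' : D b = 0 := hb
        change D (a * b) = 0
        rw [Derivation.leibniz, ha', hb', smul_zero, smul_zero, add_zero]
      add_mem' := fun {a b} ha hb => by
        have ha' : D a = 0 := ha
        have hb' : D b = 0 := hb
        change D (a + b) = 0
        rw [map_add, ha', hb', add_zero]
      algebraMap_mem' := fun r => D.map_algebraMap r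
      inv_mem' := fun x hx => by
        have hx' : D x = 0 := hx
        change D x⁻¹ = 0
        rw [Derivation.leibniz_inv, hx', smul_zero] }
  have hF : ∀ x, D x = 0 → x ∈ F := fun x hx => hx
  refine e2_derivation_eq_zero D F (fun x hx => hx) ?_
  obtain ⟨p, hp0, hp⟩ := hc
  let ι : E →+* F :=
    { toFun := fun x => ⟨x.1, hF _ (hE _ x.2)⟩
      map_one' := rfl
      map_mul' := fun _ _ => rfl
      map_zero' := rfl
      map_add' := fun _ _ => rfl }
  have hι : Function.Injective ι := by
    intro x y hxy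
    exact Subtype.ext (congrArg (fun z : F => (z : K)) hxy)
  refine ⟨p.map ι, (Polynomial.map_ne_zero_iff hι).2 hp0, ?_⟩
  rw [Polynomial.aeval_def, Polynomial.eval₂_map]
  rw [Polynomial.aeval_def] at hp
  exact hp

/-- Dual derivations of algebraically independent elements. -/
theorem b2_exists_der {K : Type v} [Field K] [Algebra ℂ K] {m : ℕ} {t : Fin m → K}
    (ht : AlgebraicIndependent ℂ t) :
    ∃ D : Fin m → Derivation ℂ K K, ∀ i j, D i (t j) = if j = i then 1 else 0 := by
  classical
  let ι : MvPolynomial (Fin m) ℂ →ₐ[ℂ] K := aeval t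
  have hι : Function.Injective ι := ht
  have hch : CharZero K := charZero_of_injective_algebraMap (algebraMap ℂ K).injective
  let _ : Algebra (MvPolynomial (Fin m) ℂ) K := ι.toRingHom.toAlgebra
  have hst : IsScalarTower ℂ (MvPolynomial (Fin m) ℂ) K := IsScalarTower.of_algebraMap_eq fun c => by
    change _ = ι (algebraMap ℂ _ c)
    rw [ι.commutes]
  have hD : ∀ i : Fin m, ∃ D : Derivation ℂ K K, ∀ p, D (ι p) = ι (pderiv i p) := by
    intro i
    obtain ⟨D, hD⟩ := exists_derivation_extend (k := ℂ) (A := MvPolynomial (Fin m) ℂ) (E := K) hι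
      ((Algebra.linearMap (MvPolynomial (Fin m) ℂ) K).compDer (pderiv i : Derivation ℂ _ _))
    exact ⟨D, fun p => hD p⟩
  choose D hD using hD
  refine ⟨D, fun i j => ?_⟩
  have hxj : t j = ι (X j) := by
    change _ = aeval t (X j)
    rw [aeval_X]
  rw [hxj, hD, pderiv_X]
  rcases eq_or_ne j i with rfl | hij
  · rw [Pi.single_eq_same, map_one, if_pos rfl]
  · rw [Pi.single_eq_of_ne hij, map_zero, if_neg hij]

section

variable {R : Type u} [CommRing R] [Algebra ℂ R] {𝒜 : ℕ → Submodule ℂ R} [GradedAlgebra 𝒜]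
  {P : R →ₗ[ℂ] R →ₗ[ℂ] R}

/-- B2 -/
theorem t4_inj (hX : IsContactFano 𝒜 P) [IsDomain R] {K : Type u} [Field K] [IsAlgClosed K]
    [Algebra ℂ K] {φ : R →ₐ[ℂ] MvPolynomial (Fin 2) K} (h : IsCurve 𝒜 2 φ)
    (halg : ∀ r m, IsAlgebraic (ends φ) (coeff m (φ r))) {m : ℕ} (hm : TrGE φ m)
    (hcard : cdim R * 4 ≤ 2 * m) :
    Function.Injective (Algebra.TensorProduct.lift (pt φ ![1, 0]) (pt φ ![0, 1])
      (fun _ _ => Commute.all _ _)) := by
  classical
  obtain ⟨t, htm, ht⟩ := hm
  obtain ⟨D, hD⟩ := b2_exists_der ht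
  have hx : IsNV 𝒜 (pt φ ![1, 0]) := c1_isNV_pt h _ (fun h0 => by
    have := congrFun h0 0
    simp at this)
  have hy : IsNV 𝒜 (pt φ ![0, 1]) := c1_isNV_pt h _ (fun h0 => by
    have := congrFun h0 1
    simp at this)
  obtain ⟨X₀, hX₀, -⟩ := fr_exists_coord hX (pt φ ![1, 0]) hx
  obtain ⟨Y₀, hY₀, -⟩ := fr_exists_coord hX (pt φ ![0, 1]) hy
  let T : Derivation ℂ K K →ₗ[K] (Fin (cdim R) → K) × (Fin (cdim R) → K) :=
    { toFun := fun δ => (fun j => δ (pt φ ![1, 0] (X₀ j)), fun j => δ (pt φ ![0, 1] (Y₀ j)))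
      map_add' := fun _ _ => rfl
      map_smul' := fun _ _ => rfl }
  have hT1 : ∀ δ j, (T δ).1 j = δ (pt φ ![1, 0] (X₀ j)) := fun _ _ => rfl
  have hT2 : ∀ δ j, (T δ).2 j = δ (pt φ ![0, 1] (Y₀ j)) := fun _ _ => rfl
  let S : (Fin m → K) →ₗ[K] Derivation ℂ K K := Fintype.linearCombination K D
  have hS : ∀ c j, S c (t j) = c j := by
    intro c j
    let ev : Derivation ℂ K K →ₗ[K] K :=
      { toFun := fun δ => δ (t j)
        map_add' := fun _ _ => rfl
        map_smul' := fun _ _ => rfl }
    change ev (Fintype.linearCombination K D c) = c j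
    rw [Fintype.linearCombination_apply, map_sum, Finset.sum_eq_single j]
    · rw [map_smul]
      change c j • D j (t j) = c j
      rw [hD, if_pos rfl, smul_eq_mul, mul_one]
    · intro i _ hij
      rw [map_smul]
      change c i • D i (t j) = 0
      rw [hD, if_neg (Ne.symm hij), smul_zero]
    · intro hj
      exact absurd (Finset.mem_univ j) hj
  have hker : ∀ δ : Derivation ℂ K K, T δ = 0 → ∀ r n, δ (coeff n (φ r)) = 0 := by
    intro δ hδ r n
    have h1 : alongAt (pt φ ![1, 0]) δ = 0 := hX₀ _ (isDer_alongAt _ δ) fun j => by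
      have := congrFun (congrArg Prod.fst hδ) j
      exact this
    have h2 : alongAt (pt φ ![0, 1]) δ = 0 := hY₀ _ (isDer_alongAt _ δ) fun j => by
      have := congrFun (congrArg Prod.snd hδ) j
      exact this
    refine b2_kill δ (ends φ) (fun x hx => ?_) (halg r n)
    unfold ends at hx
    induction hx using Algebra.adjoin_induction with
    | mem x hx =>
      rcases hx with ⟨s, rfl⟩ | ⟨s, rfl⟩
      · exact LinearMap.congr_fun h1 s
      · exact LinearMap.congr_fun h2 s
    | algebraMap c => exact δ.map_algebraMap c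
    | add a b _ _ ha hb => rw [map_add, ha, hb, add_zero]
    | mul a b _ _ ha hb => rw [Derivation.leibniz, ha, hb, smul_zero, smul_zero, add_zero]
  have hker2 : ∀ δ : Derivation ℂ K K, T δ = 0 → ∀ x ∈ cfs φ, δ x = 0 := by
    intro δ hδ x hx
    unfold cfs at hx
    induction hx using Algebra.adjoin_induction with
    | mem x hx =>
      obtain ⟨r, n, rfl⟩ := hx
      exact hker δ hδ r n
    | algebraMap c => exact δ.map_algebraMap c
    | add a b _ _ ha hb => rw [map_add, ha, hb, add_zero]
    | mul a b _ _ ha hb => rw [Derivation.leibniz, ha, hb, smul_zero, smul_zero, add_zero]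
  have hinj : Function.Injective (T ∘ₗ S) := by
    rw [injective_iff_map_eq_zero]
    intro c hc
    ext j
    rw [← hS c j]
    exact hker2 (S c) hc _ (htm j)
  have hfin : Module.finrank K ((Fin (cdim R) → K) × (Fin (cdim R) → K)) = cdim R + cdim R := by
    rw [Module.finrank_prod, Module.finrank_fin_fun]
  have hle := LinearMap.finrank_le_finrank_of_injective hinj
  rw [hfin, Module.finrank_fin_fun] at hle
  have hsurj : Function.Surjective (T ∘ₗ S) :=
    (LinearMap.injective_iff_surjective_of_finrank_eq_finrank (by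
      rw [hfin, Module.finrank_fin_fun]; omega)).1 hinj
  have key : ∀ v v', IsDer (pt φ ![1, 0]) v → IsDer (pt φ ![0, 1]) v' →
      ∃ D : Derivation ℂ K K, (∀ r, D (pt φ ![1, 0] r) = v r) ∧
        ∀ r, D (pt φ ![0, 1] r) = v' r := by
    intro v v' hv hv'
    obtain ⟨c, hc⟩ := hsurj (fun j => v (X₀ j), fun j => v' (Y₀ j))
    have h1 : alongAt (pt φ ![1, 0]) (S c) - v = 0 :=
      hX₀ _ (show alongAt (pt φ ![1, 0]) (S c) - v ∈ DerAt (pt φ ![1, 0]) from
        (DerAt (pt φ ![1, 0])).sub_mem (mem_DerAt.2 (isDer_alongAt _ (S c)))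
          (mem_DerAt.2 hv)) fun j => by
        have := congrFun (congrArg Prod.fst hc) j
        rw [LinearMap.sub_apply, sub_eq_zero]
        exact this
    have h2 : alongAt (pt φ ![0, 1]) (S c) - v' = 0 :=
      hY₀ _ (show alongAt (pt φ ![0, 1]) (S c) - v' ∈ DerAt (pt φ ![0, 1]) from
        (DerAt (pt φ ![0, 1])).sub_mem (mem_DerAt.2 (isDer_alongAt _ (S c)))
          (mem_DerAt.2 hv')) fun j => by
        have := congrFun (congrArg Prod.snd hc) j
        rw [LinearMap.sub_apply, sub_eq_zero]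
        exact this
    exact ⟨S c, fun r => LinearMap.congr_fun (sub_eq_zero.1 h1) r,
      fun r => LinearMap.congr_fun (sub_eq_zero.1 h2) r⟩
  have hzero : ∀ x : R →ₐ[ℂ] K, IsDer x (0 : R →ₗ[ℂ] K) := fun x => (DerAt x).zero_mem
  refine g1_injective hX _ _ hx hy (fun a => ?_) (fun a => ?_)
  · obtain ⟨D, h1, h2⟩ := key (hamAt P (pt φ ![1, 0]) a) 0 (isDer_hamAt hX _ a) (hzero _)
    exact ⟨D, h1, h2⟩
  · obtain ⟨D, h1, h2⟩ := key 0 (hamAt P (pt φ ![0, 1]) a) (hzero _) (isDer_hamAt hX _ a)
    exact ⟨D, h1, h2⟩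

end

end Vale.Agent.P292.Dv
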