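import Vale.Agent.P292.Bn.N16
import Vale.Agent.P292.D.T4Defs

/-! # B1: counting the parameters of a family of lines. -/

namespace Vale.Agent.P292.Dv

open MvPolynomial Vale.Agent.P292

universe u v w

/-- A derivation which vanishes on a subalgebra vanishes on the elements algebraic over it. -/
theorem beta_der_alg {K : Type v} [Field K] [Algebra ℂ K] (E : Subalgebra ℂ K)
    (D : Derivation ℂ K K) (hD : ∀ a ∈ E, D a = 0) {c : K} (hc : IsAlgebraic E c) : D c = 0 := by
  classical
  have hchar : CharZero K := charZero_of_injective_algebraMap (algebraMap ℂ K).injective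
  let DL : K →ₗ[E] K :=
    { toFun := D
      map_add' := map_add D
      map_smul' := fun a x => by
        change D ((a : K) * x) = (a : K) * D x
        rw [Derivation.leibniz, hD a a.2, smul_zero, add_zero, smul_eq_mul] }
  let D' : Derivation E K K := Derivation.mk' DL (fun a b => D.leibniz a b)
  by_contra hne
  have key0 : ∀ p : Polynomial E, p.natDegree = 0 → Polynomial.aeval c p = 0 → p = 0 := by
    intro p hp h
    rw [Polynomial.eq_C_of_natDegree_eq_zero hp] at h ⊢
    rw [Polynomial.aeval_C] at h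
    have : p.coeff 0 = 0 := Subtype.ext h
    rw [this, Polynomial.C_0]
  have key : ∀ n (p : Polynomial E), p.natDegree ≤ n → Polynomial.aeval c p = 0 → p = 0 := by
    intro n
    induction n with
    | zero => exact fun p hp h => key0 p (Nat.le_zero.1 hp) h
    | succ n ih =>
      intro p hp h
      have h1 := D'.map_aeval p c
      rw [h, map_zero] at h1
      have h2 : Polynomial.aeval c (Polynomial.derivative p) = 0 :=
        (smul_eq_zero.1 h1.symm).resolve_right hne
      have h3 := ih _ ((Polynomial.natDegree_derivative_le p).trans (by omega)) h2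
      exact key0 p (Polynomial.derivative_eq_zero.1 h3) h
  obtain ⟨p, hp0, hp⟩ := hc
  exact hp0 (key _ p le_rfl hp)

variable {R : Type u} [CommRing R] [Algebra ℂ R] {𝒜 : ℕ → Submodule ℂ R} [GradedAlgebra 𝒜]
  {P : R →ₗ[ℂ] R →ₗ[ℂ] R}

/-- Isotropic subspaces of the tangent space. -/
theorem beta_isotropic (hX : IsContactFano 𝒜 P) [IsDomain R] {K : Type v} [Field K] [Algebra ℂ K]
    {y : R →ₐ[ℂ] K} (hy : IsNV 𝒜 y) (W : Submodule K (DerAt y))
    (hW : ∀ a ∈ W, ∀ b ∈ W, om P y a.1 b.1 = 0) : 2 * Module.finrank K W ≤ cdim R := by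
  obtain ⟨e⟩ := fr_exists_equiv hX y hy
  have hfin : Module.Finite K (DerAt y) := Module.Finite.equiv e.symm
  have hdim : Module.finrank K (DerAt y) = cdim R := by rw [e.finrank_eq, Module.finrank_fin_fun]
  let B : LinearMap.BilinForm K (DerAt y) := LinearMap.mk₂ K (fun a b => om P y a.1 b.1)
    (fun a b c => om_add_left hX hy a.2 b.2 c.2) (fun c a b => om_smul_left hX hy a.2 b.2 c)
    (fun a b c => om_add_right hX hy a.2 b.2 c.2) (fun c a b => om_smul_right hX hy a.2 b.2 c)
  have hB : ∀ a b, B a b = om P y a.1 b.1 := fun _ _ => rfl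
  have hnd : B.Nondegenerate := by
    refine ⟨fun a ha => Subtype.ext (eq_zero_of_om hX hy a.2 fun δ' hδ' => ha ⟨δ', hδ'⟩),
      fun a ha => Subtype.ext (eq_zero_of_om' hX hy a.2 fun δ' hδ' => ha ⟨δ', hδ'⟩)⟩
  have hrefl : B.IsRefl := fun a b h => by
    rw [hB, om_antisymm hX hy b.2 a.2, ← hB, h, neg_zero]
  have h1 : Module.finrank K (B.orthogonal W) =
      Module.finrank K (DerAt y) - Module.finrank K W :=
    LinearMap.BilinForm.finrank_orthogonal (K := K) (V := DerAt y) (B := B) hnd W
  have h2 : W ≤ B.orthogonal W := fun a ha b hb => hW b hb a ha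
  have hfo : Module.Finite K (B.orthogonal W) :=
    FiniteDimensional.finiteDimensional_submodule (K := K) (V := DerAt y) (B.orthogonal W)
  have h3 : Module.finrank K W ≤ Module.finrank K (B.orthogonal W) := Submodule.finrank_mono h2
  have h4 := Submodule.finrank_le W
  rw [h1, hdim] at h3
  rw [hdim] at h4
  omega

/-- The derivations over a point which kills a nonzero element, and which kill the kernel of the
point, are a proper subspace. -/
theorem beta_proper (hX : IsContactFano 𝒜 P) [IsDomain R] {K : Type v} [Field K] [Algebra ℂ K]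
    {y : R →ₐ[ℂ] K} (hy : IsNV 𝒜 y) (hni : ¬ Function.Injective y) (W : Submodule K (DerAt y))
    (hW : ∀ a ∈ W, ∀ r, y r = 0 → a.1 r = 0) : Module.finrank K W < cdim R := by
  have := hX.finiteType
  obtain ⟨e⟩ := fr_exists_equiv hX y hy
  have hfin : Module.Finite K (DerAt y) := Module.Finite.equiv e.symm
  have hdim : Module.finrank K (DerAt y) = cdim R := by rw [e.finrank_eq, Module.finrank_fin_fun]
  rw [← hdim]
  suffices hne : W ≠ ⊤ from Submodule.finrank_lt (K := K) (V := DerAt y) hne
  intro htop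
  apply hni
  have hprime : (RingHom.ker y).IsPrime := RingHom.ker_isPrime y
  obtain ⟨k, hk, r, hr, hyr⟩ := id hy
  obtain ⟨p, hp, hpv⟩ : ∃ p : R →ₐ[ℂ] ℂ, (∀ x ∈ RingHom.ker y, p x = 0) ∧ ¬ IsVertex 𝒜 p := by
    by_contra hcon
    push Not at hcon
    have h1 : r ∈ (RingHom.ker y).radical := by
      apply mem_radical_of_forall
      intro p hp
      exact hcon p hp k hk r hr
    rw [hprime.radical, RingHom.mem_ker] at h1
    exact hyr h1
  have h2 := poisson_simple hX hpv (RingHom.ker y) (fun b u hu => by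
    have h3 := hW ⟨hamAt P y b, isDer_hamAt hX y b⟩ (by rw [htop]; trivial) u hu
    exact h3) hp
  rw [injective_iff_map_eq_zero]
  intro a ha
  have h3 : a ∈ RingHom.ker y := ha
  rwa [h2] at h3

/-- **B1.** -/
theorem t4_beta (hX : IsContactFano 𝒜 P) [IsDomain R] {K : Type u} [Field K] [IsAlgClosed K]
    [Algebra ℂ K] {φ : R →ₐ[ℂ] MvPolynomial (Fin 2) K} (h : IsCurve 𝒜 1 φ)
    (halg : ∀ r m, IsAlgebraic (ends φ) (coeff m (φ r))) {m : ℕ} (hm : TrGE φ m)
    (hcard : cdim R * 3 ≤ 2 * m) : Function.Injective (pt φ ![1, 0]) := by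
  classical
  by_contra hni
  have hchar : CharZero K := charZero_of_injective_algebraMap (algebraMap ℂ K).injective
  have hy1 : IsNV 𝒜 (pt φ ![1, 0]) := mm_isNV_pt h mm_one_zero_ne
  have hy2 : IsNV 𝒜 (pt φ ![0, 1]) := mm_isNV_pt h mm_zero_one_ne
  obtain ⟨z, hz, hi⟩ := hm
  -- the derivations dual to `z`
  let ι : MvPolynomial (Fin m) ℂ →ₐ[ℂ] K := aeval z
  have hι : Function.Injective ι := hi
  let _ : Algebra (MvPolynomial (Fin m) ℂ) K := ι.toRingHom.toAlgebra
  have hst : IsScalarTower ℂ (MvPolynomial (Fin m) ℂ) K := IsScalarTower.of_algebraMap_eq fun c => by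
    change _ = ι (algebraMap ℂ _ c)
    rw [ι.commutes]
  have hD : ∀ i : Fin m, ∃ D : Derivation ℂ K K, ∀ p, D (ι p) = ι (pderiv i p) := by
    intro i
    obtain ⟨D, hD⟩ := exists_derivation_extend (k := ℂ) (A := MvPolynomial (Fin m) ℂ) (E := K) hι
      ((Algebra.linearMap (MvPolynomial (Fin m) ℂ) K).compDer (pderiv i : Derivation ℂ _ _))
    exact ⟨D, fun p => hD p⟩
  choose D hD using hD
  have hDz : ∀ i j, D i (z j) = if i = j then 1 else 0 := by
    intro i j
    have h1 : z j = ι (X j) := by
      change _ = aeval z (X j)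
      rw [aeval_X]
    rw [h1, hD, pderiv_X]
    rcases eq_or_ne i j with rfl | hij
    · rw [Pi.single_eq_same, map_one, if_pos rfl]
    · rw [Pi.single_eq_of_ne (Ne.symm hij), map_zero, if_neg hij]
  -- the combinations
  let DD : (Fin m → K) → Derivation ℂ K K := fun c => ∑ i, c i • D i
  have hDD : ∀ c x, DD c x = ∑ i, c i * D i x := by
    intro c x
    have h1 := congrFun (map_sum (Derivation.coeFnAddMonoidHom (R := ℂ) (A := K) (M := K))
      (fun i => c i • D i) Finset.univ) x
    rw [Finset.sum_apply] at h1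
    exact h1
  let L : ∀ y : R →ₐ[ℂ] K, (Fin m → K) →ₗ[K] DerAt y := fun y =>
    { toFun := fun c => ⟨alongAt y (DD c), isDer_alongAt y _⟩
      map_add' := fun a b => Subtype.ext (LinearMap.ext fun r => by
        change DD (a + b) (y r) = DD a (y r) + DD b (y r)
        rw [hDD, hDD, hDD, ← Finset.sum_add_distrib]
        exact Finset.sum_congr rfl fun i _ => by rw [Pi.add_apply, add_mul])
      map_smul' := fun a b => Subtype.ext (LinearMap.ext fun r => by
        change DD (a • b) (y r) = a * DD b (y r)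
        rw [hDD, hDD, Finset.mul_sum]
        exact Finset.sum_congr rfl fun i _ => by
          rw [Pi.smul_apply, smul_eq_mul, mul_assoc]) }
  have hL : ∀ y c r, (L y c).1 r = DD c (y r) := fun _ _ _ => rfl
  have h1 := beta_proper hX hy1 hni (LinearMap.range (L (pt φ ![1, 0]))) (by
    rintro _ ⟨c, rfl⟩ r hr
    rw [hL, hr, map_zero])
  have hker : ∀ c ∈ LinearMap.ker (L (pt φ ![1, 0])), ∀ r, DD c (pt φ ![1, 0] r) = 0 := by
    intro c hc r
    have h2 := congrArg (fun δ : DerAt (pt φ ![1, 0]) => δ.1 r) (LinearMap.mem_ker.1 hc)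
    exact h2
  have h2 := beta_isotropic hX hy2
    ((LinearMap.ker (L (pt φ ![1, 0]))).map (L (pt φ ![0, 1]))) (by
      rintro _ ⟨c, hc, rfl⟩ _ ⟨c', hc', rfl⟩
      exact lwq_om hX h (DD c) (DD c') (hker c hc) (hker c' hc'))
  have hinj : Function.Injective ((L (pt φ ![0, 1])).domRestrict
      (LinearMap.ker (L (pt φ ![1, 0])))) := by
    rw [injective_iff_map_eq_zero]
    rintro ⟨c, hc⟩ hc'
    have h3 : ∀ r, DD c (pt φ ![0, 1] r) = 0 := fun r =>
      congrArg (fun δ : DerAt (pt φ ![0, 1]) => δ.1 r) hc'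
    have h4 : ∀ a ∈ ends φ, DD c a = 0 := by
      intro a ha
      induction ha using Algebra.adjoin_induction with
      | mem x hx =>
        rcases hx with ⟨r, rfl⟩ | ⟨r, rfl⟩
        · exact hker c hc r
        · exact h3 r
      | algebraMap a => exact Derivation.map_algebraMap _ _
      | add x y _ _ hx hy => rw [map_add, hx, hy, add_zero]
      | mul x y _ _ hx hy => rw [Derivation.leibniz, hx, hy, smul_zero, smul_zero, add_zero]
    have h5 : ∀ a ∈ cfs φ, DD c a = 0 := by
      intro a ha
      induction ha using Algebra.adjoin_induction with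
      | mem x hx =>
        obtain ⟨r, n, rfl⟩ := hx
        exact beta_der_alg (ends φ) (DD c) h4 (halg r n)
      | algebraMap a => exact Derivation.map_algebraMap _ _
      | add x y _ _ hx hy => rw [map_add, hx, hy, add_zero]
      | mul x y _ _ hx hy => rw [Derivation.leibniz, hx, hy, smul_zero, smul_zero, add_zero]
    refine Subtype.ext (funext fun j => ?_)
    have h6 := h5 (z j) (hz j)
    rw [hDD] at h6
    simp only [hDz] at h6
    simpa using h6
  have h3 : Module.finrank K ((LinearMap.ker (L (pt φ ![1, 0]))).map (L (pt φ ![0, 1]))) =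
      Module.finrank K (LinearMap.ker (L (pt φ ![1, 0]))) := by
    rw [← LinearMap.range_domRestrict]
    exact LinearMap.finrank_range_of_inj hinj
  have h4 := LinearMap.finrank_range_add_finrank_ker (K := K) (V := Fin m → K)
    (V₂ := DerAt (pt φ ![1, 0])) (L (pt φ ![1, 0]))
  rw [Module.finrank_fin_fun] at h4
  omega

end Vale.Agent.P292.Dv
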