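import Vale.Agent.P292.D.PairC
import Vale.Agent.P292.D.T4E4
import Vale.Agent.P292.D.T4E5F
import Vale.Agent.P292.D.T4beta
import Vale.Agent.P292.D.T4Inj
import Vale.Agent.P292.D.T4Family

/-! # T3 and T4: a curve of degree one or two which is positive on the divisor. -/

namespace Vale.Agent.P292.Dv

open MvPolynomial TensorProduct

universe u v w

variable {R : Type u} [CommRing R] [Algebra ℂ R] {𝒜 : ℕ → Submodule ℂ R} [GradedAlgebra 𝒜]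
  {P : R →ₗ[ℂ] R →ₗ[ℂ] R}

omit [GradedAlgebra 𝒜] in
theorem HasPair.isCurve {p : Ideal R} {e δ : ℕ} {K : Type v} [Field K] [Algebra ℂ K]
    {φ : R →ₐ[ℂ] MvPolynomial (Fin 2) K} (h : HasPair 𝒜 p e δ φ) : IsCurve 𝒜 e φ := by
  obtain ⟨η, hη⟩ := h
  refine ⟨hη.deg, fun x hx => ?_⟩
  obtain ⟨k, hk, r, hr, hne⟩ := hη.bpf x hx
  exact ⟨k, hk, r, hr, by rwa [MvPolynomial.aeval_eq_eval]⟩

/-- The generic member of the family through a closed curve. -/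
theorem t4_generic (hX : IsContactFano 𝒜 P) [IsDomain R] {p : Ideal R}
    (hh : p.IsHomogeneous 𝒜) (hp : IsInv 𝒜 p)
    {e δ : ℕ} (he : 0 < e) {φ : R →ₐ[ℂ] MvPolynomial (Fin 2) ℂ} (h : HasPair 𝒜 p e δ φ) :
    ∃ (K : Type u) (_ : Field K) (_ : IsAlgClosed K) (_ : Algebra ℂ K)
      (ψ : R →ₐ[ℂ] MvPolynomial (Fin 2) K) (m : ℕ), HasPair 𝒜 p e δ ψ ∧ TrGE ψ m ∧
      cdim R * (e + 2) ≤ 2 * m := by
  have := hX.finiteType
  have : IsNoetherianRing R := Algebra.FiniteType.isNoetherianRing ℂ R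
  obtain ⟨D, _, _, _, _, e₀, Φ, m, hdeg, he₀, htr, hcard⟩ := t4_family hX he h.isCurve
  let D' : Type u := ULift.{u} D
  have : IsDomain D' := (ULift.ringEquiv : D' ≃+* D).isDomain
  let K : Type u := AlgebraicClosure (FractionRing D')
  let ι : D →ₐ[ℂ] K := (IsScalarTower.toAlgHom ℂ D' K).comp (ULift.algEquiv.symm : D ≃ₐ[ℂ] D')
  have hι : Function.Injective ι := by
    have h1 : Function.Injective (algebraMap D' K) := by
      rw [IsScalarTower.algebraMap_eq D' (FractionRing D') K]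
      exact (algebraMap (FractionRing D') K).injective.comp (IsFractionRing.injective _ _)
    exact h1.comp (ULift.algEquiv.symm : D ≃ₐ[ℂ] D').injective
  refine ⟨K, inferInstance, inferInstance, inferInstance, (mapAlgHom ι).comp Φ, m, ?_, ?_, hcard⟩
  · exact hasPair_of_spec hh hp e₀ ι hι Φ hdeg (by rwa [he₀])
  · exact trGE_map_iff ι hι Φ m htr

/-- **T3.** There is no line which is positive on the divisor. -/
theorem t3_no_line (hX : IsContactFano 𝒜 P) [IsDomain R] {p : Ideal R}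
    (hh : p.IsHomogeneous 𝒜) (hp : IsInv 𝒜 p)
    (hav : ∀ (κ : Type u) [Field κ] [IsAlgClosed κ] [Algebra ℂ κ]
        (φ : R →ₐ[ℂ] MvPolynomial (Fin 2) κ), IsAnch 𝒜 1 φ → IsFull 𝒜 1 φ →
        ∀ a : Fin 2 → κ, a ≠ 0 → ∃ r ∈ p, pt φ a r ≠ 0) {δ : ℕ} (hδ : 0 < δ)
    {φ : R →ₐ[ℂ] MvPolynomial (Fin 2) ℂ} (h : HasPair 𝒜 p 1 δ φ) : False := by
  have := hX.finiteType
  have : IsNoetherianRing R := Algebra.FiniteType.isNoetherianRing ℂ R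
  obtain ⟨K, _, _, _, ψ, m, h1, h2, h3⟩ := t4_generic hX hh hp one_pos h
  have hanch : IsAnch 𝒜 1 ψ := ⟨h1.isCurve, t4_beta hX h1.isCurve
    (t4_algebraic_line hX h1.isCurve) h2 h3⟩
  obtain ⟨n, Ω, i1, i2, i3, χ, h4, h5, h6⟩ := q2d_exists_max hX (d := 1)
    (fun Ω _ _ _ φ => IsAnch 𝒜 1 φ ∧ HasPair 𝒜 p 1 δ φ) (fun Ω _ _ _ φ h => h.1.curve)
    ⟨K, inferInstance, inferInstance, inferInstance, ψ, hanch, h1⟩
  have hfull : IsFull 𝒜 1 χ := by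
    refine q2d_isFull h5 (fun Φ h7 h8 => h6 _ _ ⟨q2d_isAnch h4.1 Φ h7 h8, ?_⟩)
      (hasArcs hX Ω 1 χ h4.1)
    let π : PowerSeries Ω →ₐ[ℂ] Ω :=
      { (PowerSeries.constantCoeff : PowerSeries Ω →+* Ω) with
        commutes' := fun c => by
          change PowerSeries.constantCoeff (algebraMap ℂ (PowerSeries Ω) c) = _
          rw [PowerSeries.algebraMap_apply, PowerSeries.constantCoeff_C] }
    have hcomp : (mapAlgHom π).comp Φ = χ := by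
      ext r : 1
      rw [← h8 r]
      rfl
    refine hasPair_of_spec hh hp π (arcMap Ω) (arcMap_injective Ω) Φ h7 ?_
    rw [hcomp]
    exact h4.2
  obtain ⟨a, ha, ha'⟩ := h4.2.meets hp hδ
  obtain ⟨r, hr, hr'⟩ := hav Ω χ h4.1 hfull a ha
  exact hr' (ha' r hr)

/-- **T4.** A conic which is positive on the divisor gives conic connectedness. -/
theorem t4_conic (hX : IsContactFano 𝒜 P) [IsDomain R] {p : Ideal R}
    (hh : p.IsHomogeneous 𝒜) (hp : IsInv 𝒜 p)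
    (hno : ∀ δ' > 0, ∀ φ : R →ₐ[ℂ] MvPolynomial (Fin 2) ℂ, ¬ HasPair 𝒜 p 1 δ' φ)
    {δ : ℕ} (hδ : 0 < δ) {φ : R →ₐ[ℂ] MvPolynomial (Fin 2) ℂ} (h : HasPair 𝒜 p 2 δ φ) :
    IsConicConnected 𝒜 := by
  obtain ⟨K, _, _, _, ψ, m, h1, h2, h3⟩ := t4_generic hX hh hp two_pos h
  exact isConicConnected_of_generic hX h1.isCurve (t4_inj hX h1.isCurve
    (t4_algebraic_conic hX hh hp hno h1.isCurve hδ h1) h2 h3)

/-- The hypothesis `t3` of the assembly. -/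
theorem t34_main (hX : IsContactFano 𝒜 P) [IsDomain R] (𝔭 : Ideal R) (_h𝔭 : 𝔭.IsPrime)
    (_hdvr : IsDiscreteValuationRing (Localization.AtPrime 𝔭)) (hh : 𝔭.IsHomogeneous 𝒜)
    (_h0 : 𝔭 ≠ ⊥) (hinv : IsInv 𝒜 𝔭) (hpos : Pos 𝒜 𝔭 ℂ)
    (hav : ∀ (κ : Type u) [Field κ] [IsAlgClosed κ] [Algebra ℂ κ]
        (φ : R →ₐ[ℂ] MvPolynomial (Fin 2) κ), IsAnch 𝒜 1 φ → IsFull 𝒜 1 φ →
        ∀ a : Fin 2 → κ, a ≠ 0 → ∃ r ∈ 𝔭, pt φ a r ≠ 0) : IsConicConnected 𝒜 := by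
  have hno : ∀ δ' > 0, ∀ φ : R →ₐ[ℂ] MvPolynomial (Fin 2) ℂ, ¬ HasPair 𝒜 𝔭 1 δ' φ :=
    fun δ' hδ' φ h => t3_no_line hX hh hinv hav hδ' h
  obtain ⟨e, δ, φ, η, he, hδ, hpair⟩ := hpos
  rcases he with rfl | rfl
  · exact (hno δ hδ φ ⟨η, hpair⟩).elim
  · exact t4_conic hX hh hinv hno hδ ⟨η, hpair⟩

end Vale.Agent.P292.Dv
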