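import Vale.Agent.P292.D.Main
import Vale.Agent.P292.D.MoriDom
import Vale.Agent.P292.D.T4Main

/-! # Contact Fano manifolds are adjoint varieties. -/

namespace Vale.Agent.P292

universe u

variable {R : Type u} [CommRing R] [Algebra ℂ R] {𝒜 : ℕ → Submodule ℂ R} [GradedAlgebra 𝒜]
  {P : R →ₗ[ℂ] R →ₗ[ℂ] R}

/-- **Contact Fano manifolds of dimension at least three are adjoint varieties.** -/
theorem isAdjointVariety_of_contactFano (hX : IsContactFano 𝒜 P)
    (hdim : 3 ≤ Algebra.trdeg ℂ R) : IsAdjointVariety 𝒜 P := by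
  have := hX.domain
  exact Dv.isAdjointVariety_of_mori hX hdim Dv.moriD
    (fun 𝔭 h𝔭 hdvr hh h0 hinv hpos hav => Dv.t34_main hX 𝔭 h𝔭 hdvr hh h0 hinv hpos hav)

end Vale.Agent.P292
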