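import Vale.Agent.P292.Bn.N16

/-! # The line bundle of a nonconstant point has positive degree. -/

namespace Vale.Agent.P292.Dv

open Vale.Agent.P292.Mo

universe u v w

variable {k : Type u} [Field k] {K : Type w} [Field K] [Algebra k K]

/-- An element of the second chart of index zero is a unit. -/
theorem gapi_unit {A₀ A₁ : Subalgebra k K} (h : IsCD A₀ A₁) {x : K} (hx : x ∈ A₁) (hx0 : x ≠ 0)
    (hi : idx A₁ x = 0) : x⁻¹ ∈ A₁ := by
  have h1 := h.idx_of_mem hx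
  rw [hi] at h1
  have h2 : Module.finrank k (↥(Subalgebra.toSubmodule A₁) ⧸
      ((Subalgebra.toSubmodule A₁).map (LinearMap.mulLeft k x)).comap
        (Subalgebra.toSubmodule A₁).subtype) = 0 := by exact_mod_cast h1.symm
  have := h.finQ x hx hx0
  have h3 := Module.finrank_zero_iff.1 h2
  have h4 : ((Subalgebra.toSubmodule A₁).map (LinearMap.mulLeft k x)).comap
        (Subalgebra.toSubmodule A₁).subtype = ⊤ := Submodule.Quotient.subsingleton_iff.1 h3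
  have h5 : (⟨1, A₁.one_mem⟩ : ↥(Subalgebra.toSubmodule A₁)) ∈
      ((Subalgebra.toSubmodule A₁).map (LinearMap.mulLeft k x)).comap
        (Subalgebra.toSubmodule A₁).subtype := h4 ▸ Submodule.mem_top
  obtain ⟨y, hy, hy1⟩ := h5
  have h6 : x * y = 1 := hy1
  have h7 : y = x⁻¹ := eq_inv_of_mul_eq_one_right h6
  exact h7 ▸ hy

/-- The degree of the line bundle of a nonconstant point is positive. -/
theorem gapi_idx_pos {R : Type v} [CommRing R] [Algebra k R] {𝒜 : ℕ → Submodule k R}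
    {A₀ A₁ : Subalgebra k K} (h : IsCD A₀ A₁) {u : K} {φ : R →ₐ[k] K}
    (hmp : IsMp 𝒜 A₀ A₁ u φ) (c₁ : A₁ →ₐ[k] k)
    (hnc : ∃ n, ∃ r ∈ 𝒜 n, ∃ s ∈ 𝒜 n, φ s ≠ 0 ∧ ∀ c : k, φ r ≠ algebraMap k K c * φ s) :
    0 < idx A₁ u := by
  have key : ∀ n, ∀ r ∈ 𝒜 n, φ r ≠ 0 →
      idx A₁ (φ r) ≤ 0 ∧ 0 ≤ n * idx A₁ u + idx A₁ (φ r) ∧
        idx A₁ (u ^ n * φ r) = n * idx A₁ u + idx A₁ (φ r) := by
    intro n r hr hr0
    have h1 := h.idx_le (mem_Sec.1 (hmp.sec n r hr)).1 hr0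
    have h2 := h.idx_of_mem (mem_Sec.1 (hmp.sec n r hr)).2
    have h3 : idx A₁ (u ^ n * φ r) = n * idx A₁ u + idx A₁ (φ r) := by
      rw [h.idx_mul (pow_ne_zero n hmp.u_ne) hr0, h.idx_pow hmp.u_ne]
    refine ⟨h1, ?_, h3⟩
    rw [← h3, h2]
    exact Int.natCast_nonneg _
  obtain ⟨m, hm, r0, hr0, hr0', -⟩ := hmp.unit0
  have h1 := key m r0 hr0 hr0'
  have h2 : 0 ≤ idx A₁ u := by
    by_contra hcon
    push Not at hcon
    have : (m : ℤ) * idx A₁ u < 0 := mul_neg_of_pos_of_neg (by exact_mod_cast hm) hcon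
    omega
  rcases h2.lt_or_eq with h3 | h3
  · exact h3
  exfalso
  obtain ⟨n, r, hr, s, hs, hs0, hc⟩ := hnc
  have hun : u ^ n ≠ 0 := pow_ne_zero n hmp.u_ne
  have hz : ∀ r' ∈ 𝒜 n, φ r' ≠ 0 → (u ^ n * φ r')⁻¹ ∈ A₁ := by
    intro r' hr' hr'0
    obtain ⟨e1, e2, e3⟩ := key n r' hr' hr'0
    rw [← h3, mul_zero, zero_add] at e2 e3
    refine gapi_unit h (mem_Sec.1 (hmp.sec n r' hr')).2 (mul_ne_zero hun hr'0) ?_
    omega
  have hs1 := hz s hs hs0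
  have hr1 := (mem_Sec.1 (hmp.sec n r hr)).2
  have hmem : φ r * (φ s)⁻¹ ∈ A₁ := by
    have := A₁.mul_mem hr1 hs1
    have e : u ^ n * φ r * (u ^ n * φ s)⁻¹ = φ r * (φ s)⁻¹ := by
      field_simp
    rwa [e] at this
  set c : k := c₁ ⟨φ r * (φ s)⁻¹, hmem⟩ with hcdef
  have hr2 : r - c • s ∈ 𝒜 n := (𝒜 n).sub_mem hr ((𝒜 n).smul_mem c hs)
  have e1 : φ (r - c • s) = φ r - algebraMap k K c * φ s := by
    rw [map_sub, map_smul, Algebra.smul_def]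
  have hr3 : φ (r - c • s) ≠ 0 := by
    rw [e1]
    exact sub_ne_zero.2 (hc c)
  have h5 := hz _ hr2 hr3
  have h6 := A₁.mul_mem (mem_Sec.1 (hmp.sec n s hs)).2 h5
  have h7 : (u ^ n * φ s * (u ^ n * φ (r - c • s))⁻¹) *
      (φ r * (φ s)⁻¹ - algebraMap k K c) = 1 := by
    have e2 : φ r * (φ s)⁻¹ - algebraMap k K c = φ (r - c • s) * (φ s)⁻¹ := by
      rw [e1]
      field_simp
    rw [e2]
    field_simp
  have h8 : (⟨_, h6⟩ : A₁) * (⟨φ r * (φ s)⁻¹, hmem⟩ - algebraMap k A₁ c) = 1 := Subtype.ext h7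
  have h9 := congrArg c₁ h8
  have h10 : c₁ (⟨φ r * (φ s)⁻¹, hmem⟩ - algebraMap k A₁ c) = 0 := by
    rw [map_sub, AlgHom.commutes, ← hcdef]
    exact sub_self c
  rw [_root_.map_mul, h10, mul_zero, map_one] at h9
  exact zero_ne_one h9

end Vale.Agent.P292.Dv
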