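import Vale.Agent.P292.Bn.N16
import Vale.Agent.P292.D.GapI
import Vale.Agent.P292.D.GapA0
import Vale.Agent.P292.D.GapU1

/-! # Every nonconstant point over a function field of a curve has a geometric model. -/

namespace Vale.Agent.P292.Dv

open Vale.Agent.P292.Mo

universe u v w

variable {k : Type u} [Field k] {K : Type w} [Field K] [Algebra k K]

theorem gapa_G1 {R : Type v} [CommRing R] [Algebra k R] {𝒜 : ℕ → Submodule k R}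
    [GradedAlgebra 𝒜] {P : R →ₗ[k] R →ₗ[k] R} [IsAlgClosed k] (p : ℕ) [Fact p.Prime] [CharP k p]
    (hP : IsPM 𝒜 P) {t : K} (ht : Transcendental k t)
    [FiniteDimensional (IntermediateField.adjoin k {t}) K]
    [Algebra.IsSeparable (IntermediateField.adjoin k {t}) K] (φ : R →ₐ[k] K) (hNV : Mo.NV 𝒜 φ) :
    ∃ (N : ℕ) (x : Fin N → R) (d : Fin N → ℕ) (g' : R) (g0 : Polynomial k),
      0 < N ∧ IsFr 𝒜 x d g' ∧ φ (g' * (brM P x).det) ≠ 0 ∧ g0 ≠ 0 ∧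
      ∀ g : Polynomial k, g0 ∣ g → g ≠ 0 → (∀ r, φ r ∈ IC (B0 t g)) ∧
        (∃ n : ℕ, 0 < n ∧ ∃ r ∈ 𝒜 n, φ r ≠ 0 ∧ (φ r)⁻¹ ∈ IC (B0 t g)) ∧
        (φ (brM P x).det)⁻¹ ∈ IC (B0 t g) := by
  obtain ⟨g₀, N, x, d, g', h1, h2, h3, h4, h5⟩ := ga_chart0 p hP ht φ hNV
  exact ⟨N, x, d, g', g₀, h2, h3, h4, h1, fun g hg hg0 =>
    ⟨(h5 g hg hg0).1, (h5 g hg hg0).2.1, (h5 g hg hg0).2.2.unit⟩⟩

theorem gapa_G2 {R : Type v} [CommRing R] [Algebra k R] {𝒜 : ℕ → Submodule k R}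
    [GradedAlgebra 𝒜] {P : R →ₗ[k] R →ₗ[k] R} [IsAlgClosed k]
    (hP : IsPM 𝒜 P) {t : K} (ht : Transcendental k t)
    [FiniteDimensional (IntermediateField.adjoin k {t}) K]
    [Algebra.IsSeparable (IntermediateField.adjoin k {t}) K] {g : Polynomial k} (hg : g ≠ 0)
    (φ : R →ₐ[k] K) (hNV : Mo.NV 𝒜 φ) :
    ∃ u : K, u ≠ 0 ∧ (∀ n, ∀ r ∈ 𝒜 n, u ^ n * φ r ∈ IC (B1 t g)) ∧
      ∃ n : ℕ, 0 < n ∧ ∃ r ∈ 𝒜 n, φ r ≠ 0 ∧ (u ^ n * φ r)⁻¹ ∈ IC (B1 t g) :=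
  ga_chart1 hP ht φ hNV hg

theorem gap_a {R : Type v} [CommRing R] [Algebra k R] {𝒜 : ℕ → Submodule k R}
    [GradedAlgebra 𝒜] {P : R →ₗ[k] R →ₗ[k] R} [IsAlgClosed k] (p : ℕ) [Fact p.Prime] [CharP k p]
    (hP : IsPM 𝒜 P) {t : K} (ht : Transcendental k t)
    [FiniteDimensional (IntermediateField.adjoin k {t}) K]
    [Algebra.IsSeparable (IntermediateField.adjoin k {t}) K] (φ : R →ₐ[k] K) (hNV : Mo.NV 𝒜 φ)
    (hnc : ∃ n, ∃ r ∈ 𝒜 n, ∃ s ∈ 𝒜 n, φ s ≠ 0 ∧ ∀ c : k, φ r ≠ algebraMap k K c * φ s)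
    (f : R) (hf : φ f ≠ 0) :
    ∃ g0 : Polynomial k, g0 ≠ 0 ∧ ∀ g : Polynomial k, g0 ∣ g → g ≠ 0 →
      ∃ u : K, IsGC 𝒜 P (IC (B0 t g)) (IC (B1 t g)) u φ f := by
  obtain ⟨N, x, d, g', g0, hN, hfr, hne, hg0, hg⟩ := gapa_G1 p hP ht φ hNV
  refine ⟨g0, hg0, fun g hgg hg1 => ?_⟩
  obtain ⟨hmem, hun0, hdet⟩ := hg g hgg hg1
  obtain ⟨u, hu, hs1, hun1⟩ := gapa_G2 hP ht hg1 φ hNV
  have hcl := closed_IC1 (K := K) ht hg1
  have hcd : IsCD (IC (B0 t g)) (IC (B1 t g)) := isCD_IC ht hg1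
  have hmp : IsMp 𝒜 (IC (B0 t g)) (IC (B1 t g)) u φ :=
    ⟨hu, fun n r hr => mem_Sec.2 ⟨hmem r, hs1 n r hr⟩, hun0, hun1⟩
  obtain ⟨x', d', g'', hfr1⟩ := fr1_of_mp hP hmp hcl.1 hcl.2 hfr hne
    (fun Y h1 h2 h3 => exists_frame_finset p hP Y h1 h2 h3)
  have hne' := hne
  rw [map_mul] at hne'
  obtain ⟨c₁⟩ : Nonempty (IC (B1 t g) →ₐ[k] k) := by
    by_contra hcon
    rw [not_nonempty_iff] at hcon
    exact not_isUnit_zero (hcl.2 0 fun c => isEmptyElim c)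
  exact ⟨u,
    { cd := hcd
      mp := hmp
      idx_pos := gapi_idx_pos hcd hmp c₁ hnc
      frac0 := frac0_IC g
      P1 := place_IC ht hg1
      P2 := closed_IC0 ht hg1
      frames := ⟨N, hN, x, d, g', x', d', g'', ⟨hfr, left_ne_zero_of_mul hne',
        right_ne_zero_of_mul hne', hdet⟩, hfr1⟩
      exp := expansion_IC ht hg1
      inf := by
        have h1 := infinite_IC ht hg1 ⟨φ f, hmem f⟩ (by
          intro h
          exact hf (congrArg Subtype.val h))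
        exact h1.mono fun c hc h => hc }⟩

end Vale.Agent.P292.Dv
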