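import Vale.Agent.P292.Bn.N16
import Vale.Agent.P292.D.GapA0

/-! # P292, Part III, GAP A: the Euler characteristic of the charts is bounded below. -/

namespace Vale.Agent.P292.Dv

open Vale.Agent.P292.Mo

universe u v w

variable {k : Type u} [Field k] {K : Type w} [Field K] [Algebra k K]

/-- An element which is integral over `k[t]` has bounded poles at infinity. -/
theorem gc_scale {t : K} (ht : Transcendental k t) {x : K}
    (hx : x ∈ IC (B0 t (1 : Polynomial k))) :
    ∃ N : ℕ, ∀ (g : Polynomial k) (l : k), g.eval l ≠ 0 → ∀ M, N ≤ M →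
      ((t - algebraMap k K l)⁻¹) ^ M * x ∈ IC (B1 t g) := by
  classical
  obtain ⟨P, hP, hPx⟩ := (hx : IsIntegral (B0 t (1 : Polynomial k)) x)
  have hc : ∀ i, ∃ c : Polynomial k, ((P.coeff i : B0 t (1 : Polynomial k)) : K) =
      Polynomial.aeval t c := by
    intro i
    have h1 := ga_B0_one_le (P.coeff i).2
    rw [Algebra.adjoin_singleton_eq_range_aeval] at h1
    obtain ⟨c, hc⟩ := h1
    exact ⟨c, hc.symm⟩
  choose c hc using hc
  refine ⟨∑ i ∈ Finset.range P.natDegree, (c i).natDegree, fun g l hl M hM => ?_⟩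
  set s : K := (t - algebraMap k K l)⁻¹ with hs
  set m := P.natDegree with hm
  set PK : Polynomial K := P.map (algebraMap (B0 t (1 : Polynomial k)) K) with hPK
  have hPKm : PK.Monic := hP.map _
  have hdeg : PK.natDegree = m := hP.natDegree_map _
  set Q := PK.scaleRoots (s ^ M) with hQ
  have hQm : Q.Monic := (Polynomial.monic_scaleRoots_iff _).2 hPKm
  have hQdeg : Q.natDegree = m := by rw [hQ, Polynomial.natDegree_scaleRoots, hdeg]
  have hco : ∀ i, Q.coeff i ∈ B1 t g := by
    intro i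
    rcases lt_trichotomy i m with h | h | h
    · rw [hQ, Polynomial.coeff_scaleRoots, hdeg, hPK, Polynomial.coeff_map]
      have h1 : (algebraMap (B0 t (1 : Polynomial k)) K) (P.coeff i) = Polynomial.aeval t (c i) :=
        hc i
      rw [h1, ← pow_mul, mul_comm]
      refine F5a_mem_B1 ht hl (c i) ?_
      have h2 : (c i).natDegree ≤ M :=
        (Finset.single_le_sum (f := fun i => (c i).natDegree) (fun _ _ => Nat.zero_le _)
          (Finset.mem_range.2 h)).trans hM
      exact h2.trans (Nat.le_mul_of_pos_right _ (by omega))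
    · have h1 : Q.coeff i = 1 := by
        rw [h, ← hQdeg]
        exact hQm
      rw [h1]
      exact one_mem _
    · rw [Polynomial.coeff_eq_zero_of_natDegree_lt (by omega)]
      exact zero_mem _
  have hlift : Q ∈ Polynomial.lifts (algebraMap (B1 t g) K) := by
    rw [Polynomial.lifts_iff_coeff_lifts]
    intro i
    exact ⟨⟨_, hco i⟩, rfl⟩
  obtain ⟨q, hq, -, hqm⟩ := Polynomial.lifts_and_degree_eq_and_monic hlift hQm
  have hroot : Polynomial.eval₂ (RingHom.id K) x PK = 0 := by
    rw [hPK, Polynomial.eval₂_map, RingHom.id_comp]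
    exact hPx
  have h2 := Polynomial.scaleRoots_eval₂_eq_zero (RingHom.id K) (s := s ^ M) hroot
  refine (⟨q, hqm, ?_⟩ : IsIntegral (B1 t g) (s ^ M * x))
  rw [RingHom.id_apply, ← hQ, ← hq, Polynomial.eval₂_map, RingHom.id_comp] at h2
  exact h2

/-- Expansion at infinity. -/
theorem gc_expand {t : K} (ht : Transcendental k t) {g : Polynomial k} (l : k) (N : ℕ) :
    ∀ x ∈ B1 t g, ∃ c : Fin N → k, ∃ y ∈ B1 t g,
      x = ∑ j : Fin N, algebraMap k K (c j) * ((t - algebraMap k K l)⁻¹) ^ (j : ℕ) +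
        ((t - algebraMap k K l)⁻¹) ^ N * y := by
  induction N with
  | zero => exact fun x hx => ⟨Fin.elim0, x, hx, by simp⟩
  | succ N ih =>
    intro x hx
    obtain ⟨c, y, hy, h⟩ := ih x hx
    obtain ⟨c', y', hy', h'⟩ := idxic_decomp ht l y hy
    refine ⟨Fin.snoc c c', y', hy', ?_⟩
    rw [Fin.sum_univ_castSucc]
    simp only [Fin.snoc_castSucc, Fin.snoc_last, Fin.val_castSucc, Fin.val_last]
    rw [h, h', pow_succ]
    ring

/-- The Euler characteristic is bounded below, uniformly in the charts. -/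
theorem gap_chi [IsAlgClosed k] {t : K} (ht : Transcendental k t)
    [FiniteDimensional (IntermediateField.adjoin k {t}) K]
    [Algebra.IsSeparable (IntermediateField.adjoin k {t}) K] :
    ∃ C : ℕ, ∀ g : Polynomial k, g ≠ 0 → - (C : ℤ) ≤ chi0 (IC (B0 t g)) (IC (B1 t g)) := by
  classical
  have : Infinite k := IsAlgClosed.instInfinite
  obtain ⟨n, ω, hω⟩ : ∃ (n : ℕ) (ω : Module.Basis (Fin n) (IntermediateField.adjoin k {t}) K),
      ∀ i, ω i ∈ IC (B0 t (1 : Polynomial k)) := by
    obtain ⟨-, ω, hω, -⟩ := crv_basis0 (K := K) ht (one_ne_zero : (1 : Polynomial k) ≠ 0)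
    exact ⟨_, ω, hω⟩
  choose N hN using fun i => gc_scale ht (hω i)
  set M := ∑ i, N i with hM
  have hNM : ∀ i, N i ≤ M := fun i =>
    Finset.single_le_sum (f := fun i => N i) (fun _ _ => Nat.zero_le _) (Finset.mem_univ i)
  refine ⟨n * M, fun g hg => ?_⟩
  obtain ⟨l, hl⟩ := crv_exists_l hg
  set s : K := (t - algebraMap k K l)⁻¹ with hs
  set W : Submodule k K := Subalgebra.toSubmodule (IC (B0 t g)) ⊔
    Subalgebra.toSubmodule (IC (B1 t g)) with hW
  have h0 : ∀ i, ω i ∈ IC (B0 t g) := fun i => ga_IC0_le ht (one_dvd g) hg (hω i)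
  have h1 : ∀ i, s ^ M * ω i ∈ IC (B1 t g) := fun i => hN i g l hl M (hNM i)
  let f : (Fin n × Fin M → k) →ₗ[k] K :=
    Fintype.linearCombination k (fun p : Fin n × Fin M => s ^ (p.2 : ℕ) * ω p.1)
  have hsurj : Function.Surjective (W.mkQ.comp f) := by
    intro y
    obtain ⟨x, rfl⟩ := W.mkQ_surjective y
    choose b0 hb0 b1 hb1 hb using fun i => b0_add_b1 ht hg (ω.repr x i).2
    choose c z hz hcz using fun i => gc_expand ht (g := g) l M (b1 i) (hb1 i)
    refine ⟨fun p => c p.1 p.2, ?_⟩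
    rw [LinearMap.comp_apply, eq_comm, ← sub_eq_zero, ← map_sub, Submodule.mkQ_apply,
      Submodule.Quotient.mk_eq_zero]
    have e : x - f (fun p => c p.1 p.2) = ∑ i, b0 i * ω i + ∑ i, z i * (s ^ M * ω i) := by
      have e1 : f (fun p => c p.1 p.2) =
          ∑ i, ∑ j : Fin M, (algebraMap k K (c i j) * s ^ (j : ℕ)) * ω i := by
        rw [Fintype.linearCombination_apply, Fintype.sum_prod_type]
        refine Finset.sum_congr rfl fun i _ => Finset.sum_congr rfl fun j _ => ?_
        rw [Algebra.smul_def, mul_assoc]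
      rw [e1]
      conv_lhs => rw [cd_sum ω x]
      rw [← Finset.sum_sub_distrib, ← Finset.sum_add_distrib]
      refine Finset.sum_congr rfl fun i _ => ?_
      rw [hb i, hcz i, ← Finset.sum_mul]
      ring
    rw [e]
    refine Submodule.add_mem_sup ?_ ?_
    · exact Subalgebra.sum_mem _ fun i _ => Subalgebra.mul_mem _ (cd_le_IC (hb0 i)) (h0 i)
    · exact Subalgebra.sum_mem _ fun i _ => Subalgebra.mul_mem _ (cd_le_IC (hz i)) (h1 i)
  have h2 := LinearMap.finrank_le_finrank_of_surjective hsurj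
  rw [Module.finrank_fintype_fun_eq_card, Fintype.card_prod, Fintype.card_fin,
    Fintype.card_fin] at h2
  rw [chi0]
  have h3 : (Module.finrank k (K ⧸ W) : ℤ) ≤ ((n * M : ℕ) : ℤ) := by exact_mod_cast h2
  have h4 : (0 : ℤ) ≤ Module.finrank k ↥(Subalgebra.toSubmodule (IC (B0 t g)) ⊓
    Subalgebra.toSubmodule (IC (B1 t g))) := by positivity
  linarith

end Vale.Agent.P292.Dv
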