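import Vale.Agent.P292.D.GapU

/-! # Part III, GAP A (G2), the form of GAPA_PLAN -/

namespace Vale.Agent.P292.Dv

open Vale.Agent.P292.Mo

universe u v w

variable {k : Type u} [Field k] {K : Type w} [Field K] [Algebra k K]

theorem gap_G2 {R : Type v} [CommRing R] [Algebra k R] {𝒜 : ℕ → Submodule k R}
    [GradedAlgebra 𝒜] {P : R →ₗ[k] R →ₗ[k] R} [IsAlgClosed k]
    (hP : IsPM 𝒜 P) {t : K} (ht : Transcendental k t)
    [FiniteDimensional (IntermediateField.adjoin k {t}) K]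
    [Algebra.IsSeparable (IntermediateField.adjoin k {t}) K] {g : Polynomial k} (hg : g ≠ 0)
    (φ : R →ₐ[k] K) (hNV : Mo.NV 𝒜 φ) :
    ∃ u : K, u ≠ 0 ∧ (∀ n, ∀ r ∈ 𝒜 n, u ^ n * φ r ∈ IC (B1 t g)) ∧
      ∃ n : ℕ, 0 < n ∧ ∃ r ∈ 𝒜 n, φ r ≠ 0 ∧ (u ^ n * φ r)⁻¹ ∈ IC (B1 t g) := by
  have hft := hP.finiteType
  have hinf : Infinite k := IsAlgClosed.instInfinite
  have hcl := closed_IC1 (K := K) ht hg
  have hcd : IsCD (IC (B0 t g)) (IC (B1 t g)) := isCD_IC ht hg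
  exact exists_u hP.connected hP.lineBundle (IC (B1 t g)) (crv_basis1 ht hg).1 hcd.frac hcl.1
    hcl.2 φ hNV

end Vale.Agent.P292.Dv
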