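import Vale.Agent.P292.Bn.N16
import Vale.Agent.P292.D.Defs
import Vale.Agent.P292.D.GapA
import Vale.Agent.P292.D.GapP0

/-! # Every point over a function field of a curve, with the pull back of an invertible ideal,
has a geometric model. -/

namespace Vale.Agent.P292.Dv

open Vale.Agent.P292.Mo

universe u v w

variable {k : Type u} [Field k] {K : Type w} [Field K] [Algebra k K]

/-- GAP A for pairs. -/
theorem gap_pair {R : Type v} [CommRing R] [Algebra k R] {𝒜 : ℕ → Submodule k R}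
    [GradedAlgebra 𝒜] {P : R →ₗ[k] R →ₗ[k] R} [IsAlgClosed k] (p : ℕ) [Fact p.Prime] [CharP k p]
    (hP : IsPM 𝒜 P) {t : K} (ht : Transcendental k t)
    [FiniteDimensional (IntermediateField.adjoin k {t}) K]
    [Algebra.IsSeparable (IntermediateField.adjoin k {t}) K] (φ : R →ₐ[k] K) (hNV : Mo.NV 𝒜 φ)
    (hnc : ∃ n, ∃ r ∈ 𝒜 n, ∃ s ∈ 𝒜 n, φ s ≠ 0 ∧ ∀ c : k, φ r ≠ algebraMap k K c * φ s)
    (f : R) (hf : φ f ≠ 0) {J : Ideal R} (hJ : IsInv 𝒜 J) (η : J →ₗ[k] K)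
    (hη : ∀ (r : R) (x : J), η (r • x) = φ r * η x) (hη0 : ∃ x, η x ≠ 0) :
    ∃ g0 : Polynomial k, g0 ≠ 0 ∧ ∀ g : Polynomial k, g0 ∣ g → g ≠ 0 →
      ∃ u v : K, v ≠ 0 ∧ IsGC 𝒜 P (IC (B0 t g)) (IC (B1 t g)) u φ f ∧
        (∀ x, η x ∈ IC (B0 t g)) ∧
        (∀ j, ∀ x : J, (x : R) ∈ 𝒜 j → u ^ j * v * η x ∈ IC (B1 t g)) ∧
        (∃ i j, ∃ a : J, (a : R) ∈ 𝒜 i ∧ ∃ b ∈ 𝒜 j, (∀ x ∈ J, ∃ r, b * x = r * a) ∧
          φ b ≠ 0 ∧ (φ b)⁻¹ ∈ IC (B0 t g) ∧ η a ≠ 0 ∧ (η a)⁻¹ ∈ IC (B0 t g)) ∧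
        (∃ i j, ∃ a : J, (a : R) ∈ 𝒜 i ∧ ∃ b ∈ 𝒜 j, (∀ x ∈ J, ∃ r, b * x = r * a) ∧
          φ b ≠ 0 ∧ (u ^ j * φ b)⁻¹ ∈ IC (B1 t g) ∧ η a ≠ 0 ∧
          (u ^ i * v * η a)⁻¹ ∈ IC (B1 t g)) := by
  classical
  have : Infinite k := IsAlgClosed.instInfinite
  obtain ⟨g1, hg1, h1⟩ := gap_a p hP ht φ hNV hnc f hf
  obtain ⟨T, α, β, dα, dβ, hα, hβ, hαJ, hgen, hcov⟩ := id hJ
  obtain ⟨τ, hτ⟩ := gp_cover hcov φ hNV
  have hηne : ∀ (a : J) (b : R), φ b ≠ 0 → (∀ x ∈ J, ∃ r, b * x = r * a) → η a ≠ 0 := by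
    intro a b hb hab h0
    obtain ⟨x, hx⟩ := hη0
    obtain ⟨r, hr⟩ := hab x x.2
    have h2 : η (b • x) = η (r • a) := congrArg η (Subtype.ext hr)
    rw [hη, hη, h0, mul_zero] at h2
    exact mul_ne_zero hb hx h2
  have ha0 := hηne ⟨α τ, hαJ τ⟩ (β τ) hτ (hgen τ)
  obtain ⟨g2, hg2, h2⟩ := ga_mem_finset ht
    {(φ (β τ))⁻¹, η ⟨α τ, hαJ τ⟩, (η ⟨α τ, hαJ τ⟩)⁻¹}
  refine ⟨g1 * g2, mul_ne_zero hg1 hg2, fun g hgg hg => ?_⟩
  obtain ⟨u, hGC⟩ := h1 g ((dvd_mul_right _ _).trans hgg) hg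
  have hmem0 : ∀ z ∈ ({(φ (β τ))⁻¹, η ⟨α τ, hαJ τ⟩, (η ⟨α τ, hαJ τ⟩)⁻¹} : Finset K),
      z ∈ IC (B0 t g) := fun z hz => ga_IC0_le ht ((dvd_mul_left _ _).trans hgg) hg (h2 z hz)
  have hb0i : (φ (β τ))⁻¹ ∈ IC (B0 t g) := hmem0 _ (by simp)
  have ha0m : η ⟨α τ, hαJ τ⟩ ∈ IC (B0 t g) := hmem0 _ (by simp)
  have ha0i : (η ⟨α τ, hαJ τ⟩)⁻¹ ∈ IC (B0 t g) := hmem0 _ (by simp)
  have hφ0 : ∀ r, φ r ∈ IC (B0 t g) := by
    intro r
    rw [← DirectSum.sum_support_decompose 𝒜 r, map_sum]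
    exact Subalgebra.sum_mem _ fun n _ =>
      (mem_Sec.mp (hGC.mp.sec n _ (DirectSum.decompose 𝒜 r n).2)).1
  have hu := hGC.mp.u_ne
  -- the second chart
  have hcl := closed_IC1 (K := K) ht hg
  have : Finite (IC (B1 t g) →ₐ[k] k) := hcl.1
  obtain ⟨i, j, a, ha, haJ, b, hb, hab, hyb⟩ := gp_pair hJ
    (fun c : IC (B1 t g) →ₐ[k] k => pt1 hGC.mp c) (fun c => pt1_NV hGC.mp c)
    (fun c => hP.lineBundle _ (pt1_NV hGC.mp c)) (by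
      intro c i a ha haJ j b hb hyb hab z hz hza
      have hφb : φ b ≠ 0 := by
        have h3 := pt1_ne hGC.mp c hyb
        rw [Sc.twist_apply 𝒜 φ u hb] at h3
        exact right_ne_zero_of_mul h3
      have hηa := hηne ⟨a, haJ⟩ b hφb hab
      obtain ⟨n, hn⟩ : ∃ n, pt1 hGC.mp c (DirectSum.decompose 𝒜 z n : R) ≠ 0 := by
        by_contra hcon
        push Not at hcon
        apply hz
        rw [← DirectSum.sum_support_decompose 𝒜 z, map_sum]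
        exact Finset.sum_eq_zero fun n _ => hcon n
      have h3 : (DirectSum.decompose 𝒜 z n : R) * a = 0 := by
        have h4 := DirectSum.coe_decompose_mul_of_right_mem_of_le 𝒜 (a := z) ha
          (Nat.le_add_left i n)
        rw [hza, Nat.add_sub_cancel, DirectSum.decompose_zero] at h4
        exact h4.symm
      have h5 := pt1_ne hGC.mp c hn
      rw [Sc.twist_apply 𝒜 φ u (SetLike.coe_mem _)] at h5
      have h6 := right_ne_zero_of_mul h5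
      have h7 : η ((DirectSum.decompose 𝒜 z n : R) • (⟨a, haJ⟩ : J)) = 0 := by
        have h8 : ((DirectSum.decompose 𝒜 z n : R) • (⟨a, haJ⟩ : J)) = 0 := Subtype.ext h3
        rw [h8, map_zero]
      rw [hη] at h7
      exact mul_ne_zero h6 hηa h7)
  obtain ⟨c₁⟩ : Nonempty (IC (B1 t g) →ₐ[k] k) := by
    by_contra hcon
    rw [not_nonempty_iff] at hcon
    exact not_isUnit_zero (hcl.2 0 fun c => isEmptyElim c)
  have hφb : φ b ≠ 0 := by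
    have h3 := pt1_ne hGC.mp c₁ (hyb c₁)
    rw [Sc.twist_apply 𝒜 φ u hb] at h3
    exact right_ne_zero_of_mul h3
  have hηa := hηne ⟨a, haJ⟩ b hφb hab
  have hsec1 : ∀ n, ∀ r ∈ 𝒜 n, u ^ n * φ r ∈ IC (B1 t g) := fun n r hr =>
    (mem_Sec.1 (hGC.mp.sec n r hr)).2
  have hub : (u ^ j * φ b)⁻¹ ∈ IC (B1 t g) := by
    have h3 : IsUnit (⟨u ^ j * φ b, hsec1 j b hb⟩ : IC (B1 t g)) := by
      refine hcl.2 _ fun c h0 => hyb c ?_
      rw [pt1_apply]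
      have h4 : (⟨Sc.twist 𝒜 φ u b, F5b_twist_mem hGC.mp b⟩ : IC (B1 t g)) =
          ⟨u ^ j * φ b, hsec1 j b hb⟩ := Subtype.ext (Sc.twist_apply 𝒜 φ u hb)
      rw [h4]
      exact h0
    obtain ⟨e, he⟩ := h3.exists_right_inv
    have h4 : u ^ j * φ b * (e : K) = 1 := congrArg Subtype.val he
    rw [← eq_inv_of_mul_eq_one_right h4]
    exact e.2
  have hvne : u ^ i * η ⟨a, haJ⟩ ≠ 0 := mul_ne_zero (pow_ne_zero _ hu) hηa
  have hη0m : ∀ x, η x ∈ IC (B0 t g) := by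
    intro x
    obtain ⟨r, hr⟩ := hgen τ x x.2
    have h3 : η (β τ • x) = η (r • ⟨α τ, hαJ τ⟩) := congrArg η (Subtype.ext hr)
    rw [hη, hη] at h3
    have h4 : η x = (φ (β τ))⁻¹ * (φ r * η ⟨α τ, hαJ τ⟩) := by
      rw [← h3]
      field_simp
    rw [h4]
    exact mul_mem hb0i (mul_mem (hφ0 r) ha0m)
  refine ⟨u, (u ^ i * η ⟨a, haJ⟩)⁻¹, inv_ne_zero hvne, hGC, hη0m, ?_,
    ⟨_, _, ⟨α τ, hαJ τ⟩, hα τ, β τ, hβ τ, hgen τ, hτ, hb0i, ha0, ha0i⟩,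
    ⟨i, j, ⟨a, haJ⟩, ha, b, hb, hab, hφb, hub, hηa, ?_⟩⟩
  · intro m x hx
    obtain ⟨r, hr⟩ := hab x x.2
    have hdeg : b * (x : R) ∈ 𝒜 (j + m) := SetLike.mul_mem_graded hb hx
    rcases gp_quot ha hdeg hr with ⟨hle, r', hr', h3⟩ | h3
    · have h4 : η (b • x) = η (r' • ⟨a, haJ⟩) := congrArg η (Subtype.ext h3)
      rw [hη, hη] at h4
      have h5 : u ^ m * (u ^ i * η ⟨a, haJ⟩)⁻¹ * η x =
          (u ^ j * φ b)⁻¹ * (u ^ (j + m - i) * φ r') := by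
        have h6 : η x = (φ b)⁻¹ * (φ r' * η ⟨a, haJ⟩) := by
          rw [← h4]
          field_simp
        have h7 : u ^ (j + m - i) * u ^ i = u ^ j * u ^ m := by
          rw [← pow_add, ← pow_add, Nat.sub_add_cancel hle]
        have h8 : u ^ i ≠ 0 := pow_ne_zero _ hu
        have h9 : u ^ j ≠ 0 := pow_ne_zero _ hu
        rw [h6]
        field_simp
        linear_combination (-(φ r')) * h7
      rw [h5]
      exact mul_mem hub (hsec1 _ r' hr')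
    · have h4 : φ b * η x = 0 := by
        rw [← hη]
        have h5 : (b • x : J) = 0 := Subtype.ext h3
        rw [h5, map_zero]
      have h5 : η x = 0 := (mul_eq_zero.1 h4).resolve_left hφb
      rw [h5, mul_zero]
      exact zero_mem _
  · have h3 : u ^ i * (u ^ i * η ⟨a, haJ⟩)⁻¹ * η ⟨a, haJ⟩ = 1 := by
      have h8 : u ^ i ≠ 0 := pow_ne_zero _ hu
      field_simp
    rw [h3, inv_one]
    exact one_mem _

end Vale.Agent.P292.Dv
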