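import Vale.Agent.P292.Bn.N16

/-! # Part III, GAP A (G2): the cocycle on the semilocal chart -/

namespace Vale.Agent.P292.Dv

open Vale.Agent.P292.Mo

universe u v w

section point

variable {k : Type u} [Field k] {K : Type w} [Field K] [Algebra k K] {A₁ : Subalgebra k K}

/-- every maximal ideal is the kernel of a point -/
theorem gu_max (hfin : Finite (A₁ →ₐ[k] k))
    (hunit : ∀ a : A₁, (∀ c : A₁ →ₐ[k] k, c a ≠ 0) → IsUnit a) (M : Ideal A₁) (hM : M.IsMaximal) :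
    ∃ c : A₁ →ₐ[k] k, M = RingHom.ker c := by
  have h1 : (M : Set A₁) ⊆ ⋃ I ∈ Set.range (fun c : A₁ →ₐ[k] k => RingHom.ker c), I := by
    intro a ha
    by_contra hcon
    have h2 : IsUnit a := hunit a fun c hc => hcon (Set.mem_biUnion ⟨c, rfl⟩ hc)
    exact hM.ne_top (Ideal.eq_top_of_isUnit_mem _ ha h2)
  rw [Ideal.subset_iUnion_iff_mem_of_isMaximal_of_finite (Set.finite_range _) ⊥ ⊥
    (by rintro _ ⟨c, rfl⟩ _ _; exact RingHom.ker_isPrime _) (by
      intro h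
      have := Subtype.ext_iff.1 (Ideal.ext_iff.1 h 1 |>.2 trivial)
      exact one_ne_zero this) (by
      intro h
      have := Subtype.ext_iff.1 (Ideal.ext_iff.1 h 1 |>.2 trivial)
      exact one_ne_zero this)] at h1
  obtain ⟨c, hc⟩ := h1
  exact ⟨c, hc.symm⟩

theorem gu_surj (c : A₁ →ₐ[k] k) : Function.Surjective c := fun a => ⟨algebraMap k A₁ a, by
  rw [AlgHom.commutes]; rfl⟩

theorem gu_sub (c : A₁ →ₐ[k] k) (x : A₁) : x - algebraMap k A₁ (c x) ∈ RingHom.ker c := by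
  rw [RingHom.mem_ker, map_sub, AlgHom.commutes]
  exact sub_self _

theorem gu_inj {c c' : A₁ →ₐ[k] k} (h : RingHom.ker c ≤ RingHom.ker c') : c = c' := by
  ext x
  have h1 := h (gu_sub c x)
  rw [RingHom.mem_ker, map_sub, AlgHom.commutes] at h1
  exact (sub_eq_zero.1 h1).symm

/-- the expansion at a point, extended to the function field -/
theorem gu_exp [IsDomain A₁] [IsPrincipalIdealRing A₁] [IsFractionRing A₁ K] (c : A₁ →ₐ[k] k)
    (hc : RingHom.ker c ≠ ⊥) :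
    ∃ (ϖ : A₁) (ε : K →ₐ[k] LaurentSeries k) (o : ℤ), ϖ ≠ 0 ∧ RingHom.ker c = Ideal.span {ϖ} ∧
      0 < o ∧ (∀ z : A₁, c z ≠ 0 → (ε (z : K)).order = 0) ∧ (ε (ϖ : K)).order = o ∧
      (∀ z : A₁, (z : K) ≠ 0 → 0 ≤ (ε (z : K)).order) ∧ ∀ x : K, x ≠ 0 → ε x ≠ 0 ∧ ∃ (m : ℤ) (a b : A₁), (ε x).order = o * m ∧ c a ≠ 0 ∧
        c b ≠ 0 ∧ x = (ϖ : K) ^ m * (a / b) := by
  obtain ⟨ϖ, hϖ⟩ := (IsPrincipalIdealRing.principal (RingHom.ker c)).principal
  have hϖ' : RingHom.ker c = Ideal.span {ϖ} := hϖ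
  have hmem : ∀ x : A₁, c x = 0 ↔ ϖ ∣ x := fun x => by
    rw [← RingHom.mem_ker, hϖ', Ideal.mem_span_singleton]
  have h0 : ϖ ≠ 0 := by
    intro h
    apply hc
    rw [hϖ', h]
    simp
  have hu : ¬ IsUnit ϖ := by
    intro h
    have h1 : c ϖ = 0 := (hmem ϖ).2 dvd_rfl
    have h2 := h.map c
    rw [h1] at h2
    exact not_isUnit_zero h2
  have hfm : ∀ x : A₁, x ≠ 0 → FiniteMultiplicity ϖ x := fun x hx =>
    FiniteMultiplicity.of_not_isUnit hu hx
  obtain ⟨E, hE, hE0⟩ := exists_expansion (k := k) ϖ h0 hu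
    (fun x => ⟨c x, (hmem _).1 (gu_sub c x)⟩)
    (fun x hx => ⟨_, (hfm x hx).not_pow_dvd_of_multiplicity_lt (Nat.lt_succ_self _)⟩)
  have hEinj : Function.Injective ((Sc.ofPS k k).comp E) :=
    (Sc.ofPS_injective (k := k)).comp hE
  let ε : K →ₐ[k] LaurentSeries k := IsFractionRing.liftAlgHom (g := (Sc.ofPS k k).comp E) hEinj
  have hε : ∀ a : A₁, ε (a : K) = Sc.ofPS k k (E a) := fun a =>
    IsFractionRing.lift_algebraMap (g := ((Sc.ofPS k k).comp E).toRingHom) hEinj a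
  have hε0 : ∀ x : K, x ≠ 0 → ε x ≠ 0 := fun x hx => (map_ne_zero ε).2 hx
  -- units
  have hord0 : ∀ a : A₁, c a ≠ 0 → (ε (a : K)).order = 0 := by
    intro a ha
    have hc0 : PowerSeries.constantCoeff (E a) ≠ 0 := by
      obtain ⟨y, hy⟩ := (hmem _).1 (gu_sub c a)
      have h1 : a = algebraMap k A₁ (c a) + ϖ * y := by rw [← hy]; ring
      have h2 : PowerSeries.constantCoeff (E a) = c a := by
        conv_lhs => rw [h1]
        rw [map_add, map_add, hE0 _ (Dvd.intro y rfl), add_zero, AlgHom.commutes,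
          PowerSeries.algebraMap_apply, PowerSeries.constantCoeff_C]
        rfl
      rw [h2]
      exact ha
    have hane : (a : K) ≠ 0 := by
      intro h
      apply ha
      have : a = 0 := Subtype.ext h
      rw [this, map_zero]
    refine le_antisymm ?_ ?_
    · refine HahnSeries.order_le_of_coeff_ne_zero ?_
      have h3 := Sc.ofPS_coeff_nat (k := k) (E a) 0
      rw [Nat.cast_zero] at h3
      rw [hε, h3, PowerSeries.coeff_zero_eq_constantCoeff_apply]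
      exact hc0
    · by_contra hcon
      push Not at hcon
      have h3 := HahnSeries.coeff_order_eq_zero.not.2 (hε0 _ hane)
      apply h3
      rw [hε]
      rw [hε] at hcon
      exact Sc.ofPS_coeff_neg (k := k) (E a) _ hcon
  have hϖ0 : (ϖ : K) ≠ 0 := fun h => h0 (Subtype.ext h)
  have ho : 0 < (ε (ϖ : K)).order := by
    have h3 := HahnSeries.coeff_order_eq_zero.not.2 (hε0 _ hϖ0)
    by_contra hcon
    push Not at hcon
    apply h3
    rcases hcon.lt_or_eq with h4 | h4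
    · rw [hε] at h4 ⊢
      exact Sc.ofPS_coeff_neg (k := k) (E ϖ) _ h4
    · rw [h4, hε]
      have h5 := Sc.ofPS_coeff_nat (k := k) (E ϖ) 0
      rw [Nat.cast_zero] at h5
      rw [h5, PowerSeries.coeff_zero_eq_constantCoeff_apply]
      exact hE0 _ dvd_rfl
  have hmul : ∀ x y : K, x ≠ 0 → y ≠ 0 → (ε (x * y)).order = (ε x).order + (ε y).order := by
    intro x y hx hy
    rw [map_mul, HahnSeries.order_mul (hε0 x hx) (hε0 y hy)]
  have hpow : ∀ n : ℕ, (ε ((ϖ : K) ^ n)).order = (ε (ϖ : K)).order * n := by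
    intro n
    rw [map_pow, HahnSeries.order_pow, nsmul_eq_mul, mul_comm]
  have hA : ∀ a : A₁, a ≠ 0 → ∃ (n : ℕ) (a' : A₁), c a' ≠ 0 ∧ (a : K) = (ϖ : K) ^ n * a' := by
    intro a ha
    obtain ⟨a', h1, h2⟩ := (hfm a ha).exists_eq_pow_mul_and_not_dvd
    exact ⟨_, a', fun h => h2 ((hmem _).1 h), congrArg Subtype.val h1⟩
  refine ⟨ϖ, ε, (ε (ϖ : K)).order, h0, hϖ', ho, hord0, rfl, ?_, fun x hx => ⟨hε0 x hx, ?_⟩⟩
  · intro z hz
    by_contra hcon
    push Not at hcon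
    have h3 := HahnSeries.coeff_order_eq_zero.not.2 (hε0 _ hz)
    apply h3
    rw [hε]
    rw [hε] at hcon
    exact Sc.ofPS_coeff_neg (k := k) (E z) _ hcon
  obtain ⟨a, b, hb, hab⟩ := IsFractionRing.div_surjective (A := A₁) x
  have hb0 : b ≠ 0 := nonZeroDivisors.ne_zero hb
  have hx' : x = (a : K) / b := hab.symm
  have ha0 : a ≠ 0 := by
    rintro rfl
    apply hx
    rw [hx']
    simp
  obtain ⟨n, a', ha', ha2⟩ := hA a ha0
  obtain ⟨m, b', hb', hb2⟩ := hA b hb0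
  have hne : ∀ z : A₁, c z ≠ 0 → (z : K) ≠ 0 := fun z hz h => hz (by
    have : z = 0 := Subtype.ext h
    rw [this, map_zero])
  have hx2 : x = (ϖ : K) ^ ((n : ℤ) - m) * (a' / b') := by
    rw [hx', ha2, hb2, zpow_sub₀ hϖ0, zpow_natCast, zpow_natCast]
    have h1 := hne b' hb'
    field_simp
  refine ⟨(n : ℤ) - m, a', b', ?_, ha', hb', hx2⟩
  have h3 : (ϖ : K) ^ m * (b' * x) = (ϖ : K) ^ n * a' := by
    have h1 := hne b' hb'
    rw [hx', ha2, hb2]
    field_simp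
  have h4 : (ε ((ϖ : K) ^ m * (b' * x))).order = (ε ((ϖ : K) ^ n * a')).order := by rw [h3]
  rw [hmul _ _ (pow_ne_zero _ hϖ0) (mul_ne_zero (hne _ hb') hx), hmul _ _ (hne _ hb') hx,
    hmul _ _ (pow_ne_zero _ hϖ0) (hne _ ha'), hpow, hpow, hord0 _ ha', hord0 _ hb'] at h4
  rw [mul_sub]
  linarith

/-- membership in the semilocal ring -/
theorem gu_mem (hfin : Finite (A₁ →ₐ[k] k))
    (hunit : ∀ a : A₁, (∀ c : A₁ →ₐ[k] k, c a ≠ 0) → IsUnit a) {x : K}
    (h : ∀ c : A₁ →ₐ[k] k, ∃ b : A₁, c b ≠ 0 ∧ (b : K) * x ∈ A₁) : x ∈ A₁ := by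
  let I : Ideal A₁ :=
    { carrier := {b | (b : K) * x ∈ A₁}
      add_mem' := fun {a b} ha hb => by
        change ((a + b : A₁) : K) * x ∈ A₁
        rw [AddMemClass.coe_add, add_mul]
        exact add_mem ha hb
      zero_mem' := by
        change ((0 : A₁) : K) * x ∈ A₁
        rw [ZeroMemClass.coe_zero, zero_mul]
        exact zero_mem _
      smul_mem' := fun c b hb => by
        change ((c * b : A₁) : K) * x ∈ A₁
        rw [MulMemClass.coe_mul, mul_assoc]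
        exact mul_mem c.2 hb }
  by_contra hx
  have hI : I ≠ ⊤ := by
    intro h1
    have h2 : (1 : A₁) ∈ I := by rw [h1]; trivial
    have h3 : ((1 : A₁) : K) * x ∈ A₁ := h2
    rw [OneMemClass.coe_one, one_mul] at h3
    exact hx h3
  obtain ⟨M, hM, hIM⟩ := Ideal.exists_le_maximal I hI
  obtain ⟨c, rfl⟩ := gu_max hfin hunit M hM
  obtain ⟨b, hb, hbx⟩ := h c
  exact hb (hIM hbx)

end point

/-- arithmetic: the order of a graded homomorphism -/
theorem gu_order {k : Type u} [Field k] {R : Type v} [CommRing R] [Algebra k R]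
    (𝒜 : ℕ → Submodule k R) [GradedAlgebra 𝒜] (s : Finset R)
    (hs : Algebra.adjoin k (s : Set R) = ⊤) (hdeg : ∀ x ∈ s, ∃ n, 0 < n ∧ x ∈ 𝒜 n)
    (hLB : ∀ y : R →ₐ[k] k, Mo.NV 𝒜 y → ∀ d : ℕ, (∀ n, ∀ r ∈ 𝒜 n, y r ≠ 0 → d ∣ n) → d = 1)
    (ψ : R →ₐ[k] LaurentSeries k) (hne : ∃ x ∈ s, ψ x ≠ 0) {o : ℤ} (ho : 0 < o)
    (hψ : ∀ r, ψ r ≠ 0 → o ∣ (ψ r).order) :
    ∃ b : ℤ, (∀ n, ∀ r ∈ 𝒜 n, ψ r ≠ 0 → 0 ≤ o * b * n + (ψ r).order) ∧
      ∃ n, 0 < n ∧ ∃ r ∈ 𝒜 n, ψ r ≠ 0 ∧ o * b * n + (ψ r).order = 0 := by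
  obtain ⟨e, he, a, φ', h1, y, hys, n, hn, hyn, hy0⟩ := Sc.exists_scaled 𝒜 ψ s hs hdeg hne
  have he' : (0 : ℤ) < e := by exact_mod_cast he
  let x : R →ₐ[k] k :=
    { (PowerSeries.constantCoeff (R := k)).comp φ'.toRingHom with
      commutes' := fun c => by
        change PowerSeries.constantCoeff (φ' (algebraMap k R c)) = _
        rw [AlgHom.commutes, PowerSeries.algebraMap_apply, PowerSeries.constantCoeff_C] }
  have hx : ∀ r, x r = PowerSeries.constantCoeff (φ' r) := fun r => rfl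
  have hge : ∀ n, ∀ r ∈ 𝒜 n, ψ r ≠ 0 → 0 ≤ e * (ψ r).order + a * n := by
    intro n r hr h2
    by_contra hcon
    push Not at hcon
    exact HahnSeries.coeff_order_eq_zero.not.2 h2 (Sc.coeff_scaled_neg 𝒜 h1 hr _ hcon)
  have heq : ∀ n, ∀ r ∈ 𝒜 n, x r ≠ 0 → ψ r ≠ 0 ∧ e * (ψ r).order + a * n = 0 := by
    intro n r hr hr0
    rw [hx, ← PowerSeries.coeff_zero_eq_constantCoeff_apply, Sc.coeff_scaled 𝒜 h1 hr] at hr0
    have hdvd : (e : ℤ) ∣ (((0 : ℕ) : ℤ) - a * n) := by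
      by_contra hcon
      exact hr0 (Sc.expand_coeff_of_not_dvd _ _ _ _ hcon)
    obtain ⟨i, hi⟩ := hdvd
    rw [hi, Sc.expand_coeff_mul] at hr0
    have hne' : ψ r ≠ 0 := fun h => hr0 (by rw [h]; rfl)
    refine ⟨hne', le_antisymm ?_ (hge n r hr hne')⟩
    have h2 := HahnSeries.order_le_of_coeff_ne_zero hr0
    rw [Nat.cast_zero, zero_sub] at hi
    nlinarith
  have hdvd : ∀ n, ∀ r ∈ 𝒜 n, x r ≠ 0 → (e * o : ℤ) ∣ a * n := by
    intro n r hr hr0
    obtain ⟨h2, h3⟩ := heq n r hr hr0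
    obtain ⟨q, hq⟩ := hψ r h2
    rw [hq] at h3
    exact ⟨-q, by linarith⟩
  have heo : (0 : ℤ) < e * o := mul_pos he' ho
  obtain ⟨E, hE⟩ := Int.eq_ofNat_of_zero_le heo.le
  have hE0 : 0 < E := by
    rw [hE] at heo
    exact_mod_cast heo
  have hea : (E : ℤ) ∣ a := by
    have hg : Int.gcd E a ≠ 0 := by
      intro h
      rw [Int.gcd_eq_zero_iff] at h
      have : (0 : ℤ) < E := by exact_mod_cast hE0
      exact this.ne' h.1
    obtain ⟨e', a', hcop, h2, h3⟩ := Int.exists_gcd_one (Nat.pos_of_ne_zero hg)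
    have hg' : (0 : ℤ) < (Int.gcd E a : ℤ) := by exact_mod_cast Nat.pos_of_ne_zero hg
    have hd : e'.natAbs = 1 := by
      refine hLB x ⟨n, hn, y, hyn, hy0⟩ _ fun m r hr hr0 => ?_
      have h4 := hdvd m r hr hr0
      rw [hE] at h4
      rw [← Int.natCast_dvd_natCast, Int.natCast_natAbs, abs_dvd]
      have h5 : e' ∣ a' * m := by
        have h6 : e' * (Int.gcd E a : ℤ) ∣ a' * m * (Int.gcd E a : ℤ) := by
          rw [← h2, show a' * (m : ℤ) * (Int.gcd E a : ℤ) = a' * (Int.gcd E a : ℤ) * m by ring,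
            ← h3]
          exact h4
        exact (mul_dvd_mul_iff_right hg'.ne').mp h6
      exact (Int.isCoprime_iff_gcd_eq_one.mpr hcop).dvd_of_dvd_mul_left h5
    have h7 : (E : ℤ) ∣ (Int.gcd E a : ℤ) := by
      have h8 : e' = 1 ∨ e' = -1 := Int.natAbs_eq_iff.mp (by simpa using hd)
      rcases h8 with h8 | h8
      · rw [h8, one_mul] at h2
        exact dvd_of_eq h2
      · rw [h8, neg_one_mul] at h2
        omega
    exact h7.trans (Int.gcd_dvd_right _ _)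
  obtain ⟨b, hb⟩ := hea
  rw [← hE] at hb
  refine ⟨b, fun n r hr h2 => ?_, n, hn, y, hyn, ?_⟩
  · have h3 := hge n r hr h2
    rw [hb] at h3
    have h4 : (0 : ℤ) ≤ e * (o * b * n + (ψ r).order) := by linarith
    exact nonneg_of_mul_nonneg_right h4 he'
  · obtain ⟨h2, h3⟩ := heq n y hyn hy0
    refine ⟨h2, ?_⟩
    rw [hb] at h3
    have h4 : (e : ℤ) * (o * b * n + (ψ y).order) = 0 := by linarith
    exact (mul_eq_zero.1 h4).resolve_left he'.ne'

/-- **(G2)**: the cocycle of a graded homomorphism on a semilocal chart. -/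
theorem exists_u {k : Type u} [Field k] [IsAlgClosed k] {R : Type v} [CommRing R] [Algebra k R]
    [Algebra.FiniteType k R] {𝒜 : ℕ → Submodule k R} [GradedAlgebra 𝒜]
    (hconn : ∀ r ∈ 𝒜 0, ∃ c : k, r = algebraMap k R c)
    (hLB : ∀ y : R →ₐ[k] k, Mo.NV 𝒜 y → ∀ d : ℕ, (∀ n, ∀ r ∈ 𝒜 n, y r ≠ 0 → d ∣ n) → d = 1)
    {K : Type w} [Field K] [Algebra k K] (A₁ : Subalgebra k K) (hD : IsDedekindDomain A₁)
    (hfr : ∀ x : K, ∃ a ∈ A₁, ∃ b ∈ A₁, b ≠ 0 ∧ x = a / b)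
    (hfin : Finite (A₁ →ₐ[k] k))
    (hunit : ∀ a : A₁, (∀ c : A₁ →ₐ[k] k, c a ≠ 0) → IsUnit a)
    (φ : R →ₐ[k] K) (hφ : ∃ n, 0 < n ∧ ∃ r ∈ 𝒜 n, φ r ≠ 0) :
    ∃ u : K, u ≠ 0 ∧ (∀ n, ∀ r ∈ 𝒜 n, u ^ n * φ r ∈ A₁) ∧
      ∃ n, 0 < n ∧ ∃ r ∈ 𝒜 n, φ r ≠ 0 ∧ (u ^ n * φ r)⁻¹ ∈ A₁ := by
  classical
  rcases Classical.em (∃ c : A₁ →ₐ[k] k, RingHom.ker c = ⊥) with hdeg0 | hdeg0
  · -- the degenerate case
    obtain ⟨c, hc⟩ := hdeg0
    have h1 : ∀ x : A₁, x = algebraMap k A₁ (c x) := fun x => by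
      have h2 := gu_sub c x
      rw [hc, Ideal.mem_bot] at h2
      exact sub_eq_zero.1 h2
    have h2 : ∀ x : K, x ∈ A₁ := by
      intro x
      obtain ⟨a, ha, b, hb, hb0, rfl⟩ := hfr x
      have h3 := congrArg Subtype.val (h1 ⟨a, ha⟩)
      have h4 := congrArg Subtype.val (h1 ⟨b, hb⟩)
      have h3' : a = algebraMap k K (c ⟨a, ha⟩) := h3
      have h4' : b = algebraMap k K (c ⟨b, hb⟩) := h4
      rw [h3', h4', ← map_div₀]
      exact A₁.algebraMap_mem _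
    obtain ⟨n, hn, r, hr, hr0⟩ := hφ
    exact ⟨1, one_ne_zero, fun _ _ _ => h2 _, n, hn, r, hr, hr0, h2 _⟩
  push Not at hdeg0
  have hfrac : IsFractionRing A₁ K := by
    refine hitgc_frac fun x => ?_
    exact hfr x
  have hpid : IsPrincipalIdealRing A₁ := by
    refine IsPrincipalIdealRing.of_finite_primes ?_
    refine (((Set.finite_range fun c : A₁ →ₐ[k] k => RingHom.ker c).union
      (Set.finite_singleton (⊥ : Ideal A₁)))).subset fun I hI => ?_
    have hI' : I.IsPrime := hI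
    by_cases h : I = ⊥
    · exact Or.inr h
    · left
      obtain ⟨c, hc⟩ := gu_max hfin hunit I (hI'.isMaximal h)
      exact ⟨c, hc.symm⟩
  have hne : ∀ (c : A₁ →ₐ[k] k) (z : A₁), c z ≠ 0 → (z : K) ≠ 0 := fun c z hz h => hz (by
    have : z = 0 := Subtype.ext h
    rw [this, map_zero])
  choose ϖ ε o hϖ0 hker ho hunit0 hordϖ hnn hε using fun c : A₁ →ₐ[k] k => gu_exp c (hdeg0 c)
  obtain ⟨s₀, hs₀, hsdeg₀⟩ := Fm.exists_generators (k := k) 𝒜 hconn
  obtain ⟨n₀, hn₀, r₀, hr₀, hr₀'⟩ := hφ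
  let s : Finset R := insert r₀ s₀
  have hs : Algebra.adjoin k (s : Set R) = ⊤ := by
    rw [eq_top_iff, ← hs₀]
    exact Algebra.adjoin_mono (by
      intro x hx
      exact Finset.mem_coe.2 (Finset.mem_insert_of_mem (Finset.mem_coe.1 hx)))
  have hsdeg : ∀ x ∈ s, ∃ n, 0 < n ∧ x ∈ 𝒜 n := by
    intro x hx
    rcases Finset.mem_insert.1 hx with rfl | hx
    · exact ⟨n₀, hn₀, hr₀⟩
    · exact hsdeg₀ x hx
  have key := fun c : A₁ →ₐ[k] k => gu_order 𝒜 s hs hsdeg hLB ((ε c).comp φ)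
    ⟨r₀, Finset.mem_insert_self _ _, ((hε c) _ hr₀').1⟩ (ho c) (fun r hr => by
      have h1 : φ r ≠ 0 := fun h => hr (by
        change ε c (φ r) = 0
        rw [h, map_zero])
      obtain ⟨-, m, a, b, hm, -⟩ := hε c _ h1
      exact ⟨m, hm⟩)
  choose b hb1 n hn r hr hr0 hb2 using key
  have hϖK : ∀ c, (ϖ c : K) ≠ 0 := fun c h => hϖ0 c (Subtype.ext h)
  have hmul : ∀ c (x y : K), x ≠ 0 → y ≠ 0 →
      (ε c (x * y)).order = (ε c x).order + (ε c y).order := fun c x y hx hy => by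
    rw [map_mul, HahnSeries.order_mul (hε c x hx).1 (hε c y hy).1]
  have hord1 : ∀ c, (ε c (1 : K)).order = 0 := fun c => by
    rw [map_one, HahnSeries.order_one]
  have hpow : ∀ c (x : K), x ≠ 0 → ∀ n : ℕ, (ε c (x ^ n)).order = n * (ε c x).order := by
    intro c x hx n
    rw [map_pow, HahnSeries.order_pow, nsmul_eq_mul]
  have hinv : ∀ c (x : K), x ≠ 0 → (ε c x⁻¹).order = - (ε c x).order := by
    intro c x hx
    have h1 := hmul c x x⁻¹ hx (inv_ne_zero hx)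
    rw [mul_inv_cancel₀ hx, hord1] at h1
    linarith
  have hzpow : ∀ c (x : K), x ≠ 0 → ∀ n : ℤ, (ε c (x ^ n)).order = n * (ε c x).order := by
    intro c x hx n
    obtain ⟨m, rfl | rfl⟩ := n.eq_nat_or_neg
    · rw [zpow_natCast, hpow c x hx]
    · rw [zpow_neg, zpow_natCast, hinv c _ (pow_ne_zero _ hx), hpow c x hx]
      ring
  have hprod : ∀ c (S : Finset (A₁ →ₐ[k] k)) (f : (A₁ →ₐ[k] k) → K), (∀ i, f i ≠ 0) →
      (ε c (∏ i ∈ S, f i)).order = ∑ i ∈ S, (ε c (f i)).order := by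
    intro c S f hf
    induction S using Finset.induction_on with
    | empty => rw [Finset.prod_empty, Finset.sum_empty, hord1]
    | insert a S ha ih =>
      rw [Finset.prod_insert ha, Finset.sum_insert ha, hmul c _ _ (hf a)
        (Finset.prod_ne_zero_iff.2 fun i _ => hf i), ih]
  have hϖother : ∀ c c', c ≠ c' → (ε c (ϖ c' : K)).order = 0 := by
    intro c c' hcc
    refine hunit0 c _ fun h => hcc ?_
    refine (gu_inj (c := c') (c' := c) ?_).symm
    rw [hker c', Ideal.span_le, Set.singleton_subset_iff]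
    exact h
  have := Fintype.ofFinite (A₁ →ₐ[k] k)
  let u : K := ∏ c, (ϖ c : K) ^ b c
  have hu0 : u ≠ 0 := Finset.prod_ne_zero_iff.2 fun c _ => zpow_ne_zero _ (hϖK c)
  have hordu : ∀ c, (ε c u).order = o c * b c := by
    intro c
    rw [hprod c _ _ (fun i => zpow_ne_zero _ (hϖK i)), Finset.sum_eq_single c]
    · rw [hzpow c _ (hϖK c), hordϖ, mul_comm]
    · intro c' _ hc'
      rw [hzpow c _ (hϖK c'), hϖother c c' hc'.symm, mul_zero]
    · intro h
      exact absurd (Finset.mem_univ _) h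
  -- membership
  have hmem : ∀ x : K, x ≠ 0 → (∀ c, 0 ≤ (ε c x).order) → x ∈ A₁ := by
    intro x hx h
    refine gu_mem hfin hunit fun c => ?_
    obtain ⟨-, m, a', b', hm, ha', hb', hx'⟩ := hε c x hx
    refine ⟨b', hb', ?_⟩
    have hm0 : 0 ≤ m := by
      have h1 := h c
      rw [hm] at h1
      exact nonneg_of_mul_nonneg_right h1 (ho c)
    obtain ⟨m', rfl⟩ := Int.eq_ofNat_of_zero_le hm0
    have h1 := hne c b' hb'
    have h2 : (b' : K) * x = (ϖ c : K) ^ m' * a' := by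
      rw [hx', zpow_natCast]
      field_simp
    rw [h2]
    exact mul_mem (pow_mem (ϖ c).2 _) a'.2
  have hordφ : ∀ c n, ∀ r ∈ 𝒜 n, φ r ≠ 0 → (ε c (u ^ n * φ r)).order =
      o c * b c * n + (ε c (φ r)).order := by
    intro c n r hr h
    rw [hmul c _ _ (pow_ne_zero _ hu0) h, hpow c u hu0, hordu]
    ring
  have hφmem : ∀ n, ∀ r ∈ 𝒜 n, u ^ n * φ r ∈ A₁ := by
    intro n r hr
    by_cases h : φ r = 0
    · rw [h, mul_zero]
      exact zero_mem _
    · refine hmem _ (mul_ne_zero (pow_ne_zero _ hu0) h) fun c => ?_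
      rw [hordφ c n r hr h]
      exact hb1 c n r hr ((hε c _ h).1)
  refine ⟨u, hu0, hφmem, ?_⟩
  -- a common degree
  have hnz : ∀ c (z : A₁), (z : K) ≠ 0 → (ε c (z : K)).order = 0 → c z ≠ 0 := by
    intro c z hz h hc
    have h1 : z ∈ RingHom.ker c := hc
    rw [hker c, Ideal.mem_span_singleton] at h1
    obtain ⟨w, hw⟩ := h1
    have h2 : (z : K) = (ϖ c : K) * w := congrArg Subtype.val hw
    have hw0 : (w : K) ≠ 0 := fun h3 => hz (by rw [h2, h3, mul_zero])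
    rw [h2, hmul c _ _ (hϖK c) hw0, hordϖ] at h
    have h3 := hnn c w hw0
    have h4 := ho c
    omega
  let N : ℕ := ∏ c, n c
  have hN : 0 < N := Finset.prod_pos fun c _ => hn c
  have hdvdN : ∀ c, n c ∣ N := fun c => Finset.dvd_prod_of_mem n (Finset.mem_univ c)
  let ℓ : (A₁ →ₐ[k] k) → Module.Dual k (𝒜 N) := fun c =>
    { toFun := fun z => c ⟨u ^ N * φ z, hφmem N z z.2⟩
      map_add' := fun z z' => by
        rw [← map_add]
        congr 1
        refine Subtype.ext ?_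
        change u ^ N * φ ((z : R) + z') = u ^ N * φ z + u ^ N * φ z'
        rw [map_add, mul_add]
      map_smul' := fun a z => by
        rw [RingHom.id_apply, ← map_smul]
        congr 1
        refine Subtype.ext ?_
        change u ^ N * φ (a • (z : R)) = a • (u ^ N * φ z)
        rw [map_smul, mul_smul_comm] }
  have hex : ∀ c, ∃ z, ℓ c z ≠ 0 := by
    intro c
    obtain ⟨q, hq⟩ := hdvdN c
    have hφr : φ (r c) ≠ 0 := fun h => hr0 c (by
      change ε c (φ (r c)) = 0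
      rw [h, map_zero])
    have hmem' : (r c) ^ q ∈ 𝒜 N := by
      have h1 := SetLike.pow_mem_graded q (hr c)
      rw [smul_eq_mul, mul_comm, ← hq] at h1
      exact h1
    refine ⟨⟨(r c) ^ q, hmem'⟩, ?_⟩
    have hval : u ^ N * φ ((r c) ^ q) = (u ^ (n c) * φ (r c)) ^ q := by
      rw [map_pow, mul_pow, ← pow_mul, ← hq]
    have hne0 : u ^ (n c) * φ (r c) ≠ 0 := mul_ne_zero (pow_ne_zero _ hu0) hφr
    refine hnz c ⟨u ^ N * φ ((r c) ^ q), _⟩ ?_ ?_
    · change u ^ N * φ ((r c) ^ q) ≠ 0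
      rw [hval]
      exact pow_ne_zero _ hne0
    · change (ε c (u ^ N * φ ((r c) ^ q))).order = 0
      rw [hval, hpow c _ hne0, hordφ c _ _ (hr c) hφr]
      have h1 := hb2 c
      change o c * b c * n c + (ε c (φ (r c))).order = 0 at h1
      rw [h1, mul_zero]
  have hinf : Infinite k := IsAlgClosed.instInfinite
  obtain ⟨z, hz⟩ := Module.Dual.exists_forall_ne_zero_of_forall_exists ℓ hex
  have hun : IsUnit (⟨u ^ N * φ z, hφmem N z z.2⟩ : A₁) := hunit _ fun c => hz c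
  obtain ⟨v, hv⟩ := hun
  have h3 : ((v⁻¹ : A₁ˣ) : A₁) * ⟨u ^ N * φ z, hφmem N z z.2⟩ = 1 := by
    rw [← hv, Units.inv_mul]
  have h5 : (((v⁻¹ : A₁ˣ) : A₁) : K) * (u ^ N * φ z) = 1 := congrArg Subtype.val h3
  refine ⟨N, hN, z, z.2, ?_, ?_⟩
  · intro h
    rw [h, mul_zero, mul_zero] at h5
    exact zero_ne_one h5
  · rw [← eq_inv_of_mul_eq_one_left h5]
    exact SetLike.coe_mem _

end Vale.Agent.P292.Dv
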