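import Vale.Agent.P292.D.T2Defs

/-! # P292, Part III, T2, C4: comparison of degrees. -/

namespace Vale.Agent.P292.Dv

open Vale.Agent.P292.Mo Module

universe u v w

namespace IdxLe

variable {k : Type u} [Field k] {K : Type w} [Field K] [Algebra k K] {A₀ A₁ : Subalgebra k K}

/-- Upper bound for the number of sections which vanish at marks (`l₀` is an extra mark). -/
theorem upper (hC : IsCD A₀ A₁) {u : K} (hu : u ≠ 0) (U : Submodule k K) {ι : Type} [Fintype ι]
    [DecidableEq ι] (l₀ : ι)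
    (c : ι → (A₀ →ₐ[k] k)) (hinj : Function.Injective c)
    (ex : ι → (A₀ →ₐ[k] PowerSeries k))
    (hc : ∀ l x, PowerSeries.constantCoeff (ex l x) = c l x)
    (hsurj : ∀ l (n : ℕ) (f : PowerSeries k), ∃ x, (PowerSeries.X : PowerSeries k) ^ n ∣ ex l x - f)
    (b : ι → ℕ) (hb0 : b l₀ = 0)
    (hU : ∀ a ∈ U, ∃ h : a ∈ A₀, u * a ∈ A₁ ∧
      ∀ l, (PowerSeries.X : PowerSeries k) ^ b l ∣ ex l ⟨a, h⟩)
    (N : ℕ) (hN : idx A₁ u < (∑ l, b l : ℕ) + N) :
    FiniteDimensional k U ∧ finrank k U ≤ N := by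
  classical
  have hA : ∀ a ∈ U, a ∈ A₀ := fun a ha => (hU a ha).1
  let T : ↥U →ₗ[k] (Fin N → k) :=
    LinearMap.pi fun j => (PowerSeries.coeff (j : ℕ)) ∘ₗ (ex l₀).toLinearMap ∘ₗ
      (Submodule.inclusion (show U ≤ Subalgebra.toSubmodule A₀ from hA))
  have hT : ∀ (x : U) (j : Fin N), T x j = PowerSeries.coeff (j : ℕ) (ex l₀ ⟨x, hA x x.2⟩) :=
    fun x j => rfl
  have hinjT : Function.Injective T := by
    rw [injective_iff_map_eq_zero]
    intro x hx
    by_contra hx0
    have hx0' : (x : K) ≠ 0 := fun h => hx0 (Subtype.ext h)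
    obtain ⟨h, h1, h2⟩ := hU x x.2
    have hsec : (x : K) ∈ Sec A₀ A₁ u 1 := ⟨h, by
      show u ^ 1 * (x : K) ∈ A₁
      rwa [pow_one]⟩
    have hb' : ∀ l, (PowerSeries.X : PowerSeries k) ^ (if l = l₀ then N else b l) ∣
        ex l ⟨x, h⟩ := by
      intro l
      split_ifs with hl
      · subst hl
        rw [PowerSeries.X_pow_dvd_iff]
        intro j hj
        have := congrFun hx ⟨j, hj⟩
        rw [hT] at this
        exact this
      · exact h2 l
    have h3 := Ct.sum_order_le hC hu hsec hx0' c hinj ex hc hsurj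
      (fun l => if l = l₀ then N else b l) hb'
    have h4 : (∑ l, if l = l₀ then N else b l) = (∑ l, b l) + N := by
      have h5 : ∀ l, (if l = l₀ then N else b l) = b l + if l = l₀ then N else 0 := by
        intro l
        split_ifs with hl
        · rw [hl, hb0, zero_add]
        · rw [add_zero]
      rw [Finset.sum_congr rfl fun l _ => h5 l, Finset.sum_add_distrib]
      simp
    rw [h4] at h3
    push_cast at h3 hN
    rw [one_mul] at h3
    omega
  have hfin : FiniteDimensional k U := FiniteDimensional.of_injective T hinjT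
  refine ⟨hfin, ?_⟩
  have h6 := LinearMap.finrank_le_finrank_of_injective hinjT
  rwa [Module.finrank_fin_fun] at h6

/-- Lower bound for the number of sections. -/
theorem lower (h : IsCD A₀ A₁) {u : K} (hu : u ≠ 0) :
    FiniteDimensional k ↥(Sec A₀ A₁ u 1) ∧ chi0 A₀ A₁ + idx A₁ u ≤ finrank k ↥(Sec A₀ A₁ u 1) := by
  obtain ⟨h1, -, h3⟩ := h.chi_Sec hu 1
  refine ⟨h1, ?_⟩
  rw [Nat.cast_one, one_mul] at h3
  omega

end IdxLe

/-- C4. Comparison of degrees. -/
theorem idx_le_of_sections {k : Type u} [Field k] {K : Type w} [Field K] [Algebra k K]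
    [IsAlgClosed k] {t : K} (ht : Transcendental k t)
    [FiniteDimensional (IntermediateField.adjoin k {t}) K]
    [Algebra.IsSeparable (IntermediateField.adjoin k {t}) K] {g g' : Polynomial k} (hg : g ≠ 0)
    (hg' : g' ≠ 0) {ℓ : k} (hℓ : g.eval ℓ ≠ 0) (hℓ' : g'.eval ℓ ≠ 0) {w w' : K} (hw : w ≠ 0)
    (hw' : w' ≠ 0) {m : ℕ} {c : Fin m → (IC (B0 t g) →ₐ[k] k)} (hc : Function.Injective c)
    (hsec : ∀ n M : ℕ, ∀ a ∈ IC (B0 t g'), w' ^ n * (t - algebraMap k K ℓ)⁻¹ ^ M * a ∈ IC (B1 t g') →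
      w ^ n * (t - algebraMap k K ℓ)⁻¹ ^ M * a ∈ IC (B1 t g) ∧ ∃ h : a ∈ IC (B0 t g),
        ∀ l, (⟨a, h⟩ : IC (B0 t g)) ∈ (RingHom.ker (c l)) ^ n) :
    idx (IC (B1 t g')) w' + m ≤ idx (IC (B1 t g)) w := by
  classical
  have hcd : IsCD (IC (B0 t g)) (IC (B1 t g)) := isCD_IC ht hg
  have hcd' : IsCD (IC (B0 t g')) (IC (B1 t g')) := isCD_IC ht hg'
  set s : K := (t - algebraMap k K ℓ)⁻¹ with hs
  have hs0 : s ≠ 0 := inv_ne_zero (by
    intro h0
    apply ht
    rw [sub_eq_zero] at h0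
    rw [h0]
    exact isAlgebraic_algebraMap ℓ)
  have hd : idx (IC (B1 t g)) s = Module.finrank (IntermediateField.adjoin k {t}) K :=
    idx_IC ht hg ℓ hℓ
  have hd' : idx (IC (B1 t g')) s = Module.finrank (IntermediateField.adjoin k {t}) K :=
    idx_IC ht hg' ℓ hℓ'
  have hdpos : 0 < Module.finrank (IntermediateField.adjoin k {t}) K := Module.finrank_pos
  set d := Module.finrank (IntermediateField.adjoin k {t}) K with hdd
  -- an extra mark
  obtain ⟨c₀, hc₀⟩ : ∃ c₀ : IC (B0 t g) →ₐ[k] k, ∀ l, c l ≠ c₀ := by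
    have h1 := infinite_IC ht hg (1 : IC (B0 t g)) one_ne_zero
    have h2 : (Set.range c).Finite := Set.finite_range c
    obtain ⟨c₀, -, h3⟩ := (h1.sdiff h2).nonempty
    exact ⟨c₀, fun l hl => h3 ⟨l, hl⟩⟩
  let c' : Option (Fin m) → (IC (B0 t g) →ₐ[k] k) := fun o => o.elim c₀ c
  have hc' : Function.Injective c' := by
    rintro (_ | i) (_ | j) hij
    · rfl
    · exact absurd hij.symm (hc₀ j)
    · exact absurd hij (hc₀ i)
    · rw [hc hij]
  choose ex hex1 hex2 hex3 using fun o => expansion_IC ht hg (c' o)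
  -- the estimate for each `n`
  have key : ∀ n : ℕ, chi0 (IC (B0 t g')) (IC (B1 t g')) + n * idx (IC (B1 t g')) w' + m * n ≤
      n * idx (IC (B1 t g)) w + 1 := by
    intro n
    -- choose `M` large
    obtain ⟨M, hM⟩ : ∃ M : ℕ, (m : ℤ) * n ≤ n * idx (IC (B1 t g)) w + M * d + 1 := by
      refine ⟨((m : ℤ) * n - n * idx (IC (B1 t g)) w).toNat, ?_⟩
      have h1 := Int.self_le_toNat ((m : ℤ) * n - n * idx (IC (B1 t g)) w)
      have h2 : (1 : ℤ) ≤ d := by exact_mod_cast hdpos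
      have h3 := mul_le_mul_of_nonneg_left h2
        (Int.natCast_nonneg ((m : ℤ) * n - n * idx (IC (B1 t g)) w).toNat)
      linarith
    have hu : w ^ n * s ^ M ≠ 0 := mul_ne_zero (pow_ne_zero _ hw) (pow_ne_zero _ hs0)
    have hu' : w' ^ n * s ^ M ≠ 0 := mul_ne_zero (pow_ne_zero _ hw') (pow_ne_zero _ hs0)
    have hidx : idx (IC (B1 t g)) (w ^ n * s ^ M) = n * idx (IC (B1 t g)) w + M * d := by
      rw [hcd.idx_mul (pow_ne_zero _ hw) (pow_ne_zero _ hs0), hcd.idx_pow hw, hcd.idx_pow hs0, hd]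
    have hidx' : idx (IC (B1 t g')) (w' ^ n * s ^ M) = n * idx (IC (B1 t g')) w' + M * d := by
      rw [hcd'.idx_mul (pow_ne_zero _ hw') (pow_ne_zero _ hs0), hcd'.idx_pow hw',
        hcd'.idx_pow hs0, hd']
    obtain ⟨-, hlow⟩ := IdxLe.lower hcd' hu'
    obtain ⟨N, hN⟩ : ∃ N : ℕ, (N : ℤ) = n * idx (IC (B1 t g)) w + M * d + 1 - m * n :=
      ⟨(n * idx (IC (B1 t g)) w + M * d + 1 - m * n).toNat, Int.toNat_of_nonneg (by linarith)⟩
    have hup := IdxLe.upper hcd hu (Sec (IC (B0 t g')) (IC (B1 t g')) (w' ^ n * s ^ M) 1)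
      (none : Option (Fin m)) c' hc' ex hex2 hex3 (fun o => o.elim 0 fun _ => n) rfl (by
        intro a ha
        obtain ⟨ha0, ha1⟩ := ha
        have ha1' : w' ^ n * s ^ M * a ∈ IC (B1 t g') := by
          have : (w' ^ n * s ^ M) ^ 1 * a ∈ IC (B1 t g') := ha1
          rwa [pow_one] at this
        obtain ⟨h1, h2, h3⟩ := hsec n M a ha0 ha1'
        refine ⟨h2, h1, ?_⟩
        rintro (_ | l)
        · exact one_dvd _
        · have h4 : RingHom.ker (c l) ≤ (Ideal.span {(PowerSeries.X : PowerSeries k)}).comap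
              (ex (some l)) := by
            intro x hx
            rw [Ideal.mem_comap, Ideal.mem_span_singleton, PowerSeries.X_dvd_iff, hex2]
            exact hx
          have h5 := (Ideal.pow_right_mono h4 n) (h3 l)
          have h6 := Ideal.le_comap_pow (ex (some l)) n h5
          rw [Ideal.mem_comap, Ideal.span_singleton_pow, Ideal.mem_span_singleton] at h6
          exact h6) N (by
        rw [hidx, hN, Fintype.sum_option]
        simp)
    have h7 : (finrank k ↥(Sec (IC (B0 t g')) (IC (B1 t g')) (w' ^ n * s ^ M) 1) : ℤ) ≤ N := by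
      exact_mod_cast hup.2
    rw [hidx'] at hlow
    linarith
  -- let `n` tend to infinity
  by_contra hcon
  push Not at hcon
  have h1 := key (2 - chi0 (IC (B0 t g')) (IC (B1 t g'))).toNat
  have h2 := Int.self_le_toNat (2 - chi0 (IC (B0 t g')) (IC (B1 t g')))
  set n : ℕ := (2 - chi0 (IC (B0 t g')) (IC (B1 t g'))).toNat
  have h3 : idx (IC (B1 t g)) w + 1 ≤ idx (IC (B1 t g')) w' + m := hcon
  have h4 : (n : ℤ) * (idx (IC (B1 t g)) w + 1) ≤ n * (idx (IC (B1 t g')) w' + m) :=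
    mul_le_mul_of_nonneg_left h3 (Int.natCast_nonneg n)
  nlinarith

end Vale.Agent.P292.Dv
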