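import Vale.Agent.P292.D.T2Defs
import Vale.Agent.P292.D.Chart

/-! # Places of a function field and expansions at closed points. -/

namespace Vale.Agent.P292.Dv.VT

open Vale.Agent.P292.Mo

universe u w

/-- A uniformizer. -/
theorem unif {A : Type*} [CommRing A] [IsDomain A] (𝔪 : Ideal A) [𝔪.IsPrime]
    (hdvr : IsDiscreteValuationRing (Localization.AtPrime 𝔪)) :
    ∃ π ∈ 𝔪, ∀ c ∈ 𝔪, ∃ v u, v ∉ 𝔪 ∧ v * c = π * u := by
  let L := Localization.AtPrime 𝔪
  obtain ⟨ϖ, hϖ⟩ := IsDiscreteValuationRing.exists_irreducible L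
  have hmax := (IsDiscreteValuationRing.irreducible_iff_uniformizer ϖ).mp hϖ
  obtain ⟨⟨π, s⟩, hπ⟩ := IsLocalization.surj 𝔪.primeCompl ϖ
  have hinj : Function.Injective (algebraMap A L) :=
    IsLocalization.injective L (Ideal.primeCompl_le_nonZeroDivisors 𝔪)
  have hπp : π ∈ 𝔪 := by
    have h1 : algebraMap A L π ∈ IsLocalRing.maximalIdeal L := by
      rw [← hπ]
      refine Ideal.mul_mem_right _ _ ?_
      rw [hmax]
      exact Ideal.mem_span_singleton_self _
    have h2 := IsLocalization.AtPrime.to_map_mem_maximal_iff L 𝔪 π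
    exact h2.mp h1
  refine ⟨π, hπp, fun c hc => ?_⟩
  have h1 : algebraMap A L c ∈ IsLocalRing.maximalIdeal L :=
    (IsLocalization.AtPrime.to_map_mem_maximal_iff L 𝔪 c).mpr hc
  rw [hmax, Ideal.mem_span_singleton'] at h1
  obtain ⟨z, hz⟩ := h1
  obtain ⟨⟨u, t⟩, hu⟩ := IsLocalization.surj 𝔪.primeCompl z
  refine ⟨s * t, u, ?_, ?_⟩
  · intro h2
    rcases (inferInstance : 𝔪.IsPrime).mem_or_mem h2 with h3 | h3
    · exact s.2 h3
    · exact t.2 h3
  · apply hinj
    rw [map_mul, map_mul, map_mul, ← hz, ← hu, ← hπ]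
    ring

variable {k : Type u} [Field k] {K : Type w} [Field K] [Algebra k K]

/-- The center of a place on an affine chart. -/
def cen (A : Subalgebra k K) (V : ValuationSubring K) (hA : ∀ a ∈ A, a ∈ V) : Ideal A where
  carrier := {a | V.valuation (a : K) < 1}
  add_mem' := by
    intro a b ha hb
    exact (V.valuation.map_add _ _).trans_lt (max_lt ha hb)
  zero_mem' := by
    change V.valuation ((0 : A) : K) < 1
    rw [ZeroMemClass.coe_zero, map_zero]
    exact zero_lt_one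
  smul_mem' := by
    intro c a ha
    change V.valuation ((c * a : A) : K) < 1
    rw [MulMemClass.coe_mul, map_mul]
    exact mul_lt_one_of_nonneg_of_lt_one_right ((V.valuation_le_one_iff _).2 (hA c c.2))
      zero_le ha

theorem mem_cen {A : Subalgebra k K} {V : ValuationSubring K} {hA : ∀ a ∈ A, a ∈ V} {a : A} :
    a ∈ cen A V hA ↔ V.valuation (a : K) < 1 := Iff.rfl

theorem val_le {A : Subalgebra k K} {V : ValuationSubring K} (hA : ∀ a ∈ A, a ∈ V) (a : A) :
    V.valuation (a : K) ≤ 1 := (V.valuation_le_one_iff _).2 (hA a a.2)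

theorem cen_prime {A : Subalgebra k K} {V : ValuationSubring K} (hA : ∀ a ∈ A, a ∈ V) :
    (cen A V hA).IsPrime := by
  refine ⟨?_, ?_⟩
  · intro h
    have h1 : (1 : A) ∈ cen A V hA := by rw [h]; trivial
    rw [mem_cen, OneMemClass.coe_one, map_one] at h1
    exact lt_irrefl _ h1
  · intro a b hab
    by_contra hcon
    push Not at hcon
    rw [mem_cen, mem_cen] at hcon
    have ha := le_antisymm (val_le hA a) (not_lt.1 hcon.1)
    have hb := le_antisymm (val_le hA b) (not_lt.1 hcon.2)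
    rw [mem_cen, MulMemClass.coe_mul, map_mul, ha, hb, mul_one] at hab
    exact lt_irrefl _ hab

theorem cen_ne {A : Subalgebra k K} {V : ValuationSubring K} (hA : ∀ a ∈ A, a ∈ V)
    (hfr : ∀ x : K, ∃ a ∈ A, ∃ b ∈ A, b ≠ 0 ∧ x = a / b) (hV : V ≠ ⊤) : cen A V hA ≠ ⊥ := by
  intro h
  apply hV
  rw [eq_top_iff]
  intro x _
  obtain ⟨a, ha, b, hb, hb0, rfl⟩ := hfr x
  have h1 : V.valuation b = 1 := by
    refine le_antisymm (val_le hA ⟨b, hb⟩) (not_lt.1 fun h2 => ?_)
    have h3 : (⟨b, hb⟩ : A) ∈ cen A V hA := h2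
    rw [h] at h3
    exact hb0 (congrArg Subtype.val h3)
  rw [← V.valuation_le_one_iff, map_div₀, h1, div_one]
  exact val_le hA ⟨a, ha⟩

/-- The expansion at the center of a place. -/
theorem exists_ex (A : Subalgebra k K) [IsDedekindDomain A]
    (hcl : ∀ 𝔭 : Ideal A, 𝔭.IsPrime → 𝔭 ≠ ⊥ → ∃ c : A →ₐ[k] k, ∀ a, a ∈ 𝔭 ↔ c a = 0)
    (hfr : ∀ x : K, ∃ a ∈ A, ∃ b ∈ A, b ≠ 0 ∧ x = a / b) (V : ValuationSubring K)
    (hA : ∀ a ∈ A, a ∈ V) (hV : V ≠ ⊤) :
    ∃ (c : A →ₐ[k] k) (ex : A →ₐ[k] PowerSeries k) (γ : V.ValueGroup),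
      Function.Injective ex ∧ (∀ a, PowerSeries.constantCoeff (ex a) = c a) ∧
      (∀ (n : ℕ) (s : PowerSeries k), ∃ a, PowerSeries.X ^ n ∣ ex a - s) ∧
      (∀ a : A, c a = 0 ↔ V.valuation (a : K) < 1) ∧
      (∀ (n : ℕ) (a : A), PowerSeries.X ^ n ∣ ex a ↔ a ∈ (RingHom.ker c) ^ n) ∧
      0 < γ ∧ γ < 1 ∧
      (∀ (n : ℕ) (a : A), PowerSeries.X ^ n ∣ ex a → V.valuation (a : K) ≤ γ ^ n) ∧
      (∀ (n : ℕ) (a : A), ¬ PowerSeries.X ^ (n + 1) ∣ ex a → γ ^ n ≤ V.valuation (a : K)) := by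
  classical
  set 𝔪 := cen A V hA with h𝔪
  have hp : 𝔪.IsPrime := cen_prime hA
  have hne : 𝔪 ≠ ⊥ := cen_ne hA hfr hV
  obtain ⟨c, hc⟩ := hcl 𝔪 hp hne
  have hker : RingHom.ker c = 𝔪 := by
    ext a
    rw [RingHom.mem_ker, ← hc]
  have hdvr : IsDiscreteValuationRing (Localization.AtPrime 𝔪) :=
    IsLocalization.AtPrime.isDiscreteValuationRing_of_dedekind_domain A hne _
  obtain ⟨ex, hinj, hcc, happ, hpow⟩ := exists_expansion_at c 𝔪 hc
  obtain ⟨π, hπ, hunif⟩ := unif 𝔪 hdvr
  have hnot : ∀ a : A, a ∉ 𝔪 → V.valuation (a : K) = 1 := fun a ha =>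
    le_antisymm (val_le hA a) (not_lt.1 ha)
  have hπ0 : (π : K) ≠ 0 := by
    intro h0
    have h1 : π = 0 := Subtype.ext h0
    obtain ⟨a, ha, ha0⟩ := Submodule.exists_mem_ne_zero_of_ne_bot hne
    obtain ⟨s, y, hs, hsy⟩ := hunif a ha
    rw [h1, zero_mul] at hsy
    rcases mul_eq_zero.1 hsy with h2 | h2
    · exact hs (h2 ▸ 𝔪.zero_mem)
    · exact ha0 h2
  -- elements of the center
  have hdiv : ∀ a ∈ 𝔪, ∃ y : A, V.valuation (a : K) = V.valuation (y : K) *
      V.valuation (π : K) ∧ ∀ n, a ∉ 𝔪 ^ (n + 1) → y ∉ 𝔪 ^ n := by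
    intro a ha
    obtain ⟨s, y, hs, hsy⟩ := hunif a ha
    refine ⟨y, ?_, ?_⟩
    · have h1 := congrArg (fun z : A => V.valuation (z : K)) hsy
      simp only [MulMemClass.coe_mul, map_mul] at h1
      rw [hnot s hs, one_mul] at h1
      rw [h1, mul_comm]
    · intro n ha1 hy
      apply ha1
      have h1 : s * a ∈ 𝔪 ^ (n + 1) := by
        rw [hsy, pow_succ, mul_comm π y]
        exact Ideal.mul_mem_mul hy hπ
      rw [← hpow, map_mul] at h1
      rw [← hpow]
      have h2 : IsUnit (ex s) := by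
        rw [PowerSeries.isUnit_iff_constantCoeff, hcc]
        exact isUnit_iff_ne_zero.2 fun h0 => hs ((hc s).2 h0)
      exact (IsUnit.dvd_mul_left h2).1 h1
  refine ⟨c, ex, V.valuation (π : K), hinj, hcc, ?_, fun a => (hc a).symm.trans mem_cen, ?_, ?_,
    hπ, ?_, ?_⟩
  · intro n s
    obtain ⟨a, ha⟩ := happ n s
    exact ⟨a, by rw [← neg_sub]; exact (dvd_neg).2 ha⟩
  · intro n a
    rw [hker]
    exact hpow n a
  · exact zero_lt_iff.2 ((map_ne_zero _).2 hπ0)
  · intro n a ha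
    rw [hpow] at ha
    -- induction on the power
    have key : ∀ (n : ℕ) (a : A), a ∈ 𝔪 ^ n → V.valuation (a : K) ≤ V.valuation (π : K) ^ n := by
      intro n
      induction n with
      | zero => intro a _; rw [pow_zero]; exact val_le hA a
      | succ n ih =>
        intro a ha
        rw [pow_succ] at ha
        refine Submodule.mul_induction_on ha ?_ ?_
        · intro x hx y hy
          obtain ⟨z, hz, -⟩ := hdiv y hy
          rw [MulMemClass.coe_mul, map_mul, hz, pow_succ]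
          calc V.valuation (x : K) * (V.valuation (z : K) * V.valuation (π : K))
              ≤ V.valuation (π : K) ^ n * (1 * V.valuation (π : K)) :=
                mul_le_mul' (ih x hx) (mul_le_mul' (val_le hA z) le_rfl)
            _ = V.valuation (π : K) ^ n * V.valuation (π : K) := by rw [one_mul]
        · intro x y hx hy
          exact (V.valuation.map_add _ _).trans (max_le hx hy)
    exact key n a ha
  · intro n a ha
    rw [hpow] at ha
    have key : ∀ (n : ℕ) (a : A), a ∉ 𝔪 ^ (n + 1) → V.valuation (π : K) ^ n ≤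
        V.valuation (a : K) := by
      intro n
      induction n with
      | zero =>
        intro a ha
        rw [zero_add, pow_one] at ha
        rw [hnot a ha, pow_zero]
      | succ n ih =>
        intro a ha
        by_cases h1 : a ∈ 𝔪
        · obtain ⟨y, hy, hy'⟩ := hdiv a h1
          rw [hy, pow_succ]
          exact mul_le_mul' (ih y (hy' _ ha)) le_rfl
        · rw [hnot a h1]
          exact pow_le_one' (val_le hA π) _
    exact key n a ha

end Vale.Agent.P292.Dv.VT
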