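import Vale.Agent.P292.D.T2Defs
import Vale.Agent.P292.D.VTool
import Vale.Agent.P292.D.IdxLe

/-! # C5: the degrees of the central fibre. -/

namespace Vale.Agent.P292.Dv.IdxLimP

open Vale.Agent.P292.Mo

universe u v w

variable {k : Type u} [Field k] {K : Type w} [Field K] [Algebra k K]

/-- Points with residue field `k`. -/
theorem hcl_aux {A : Type v} [CommRing A] [Algebra k A] (𝔭 : Ideal A) (h𝔭 : 𝔭.IsPrime)
    (hs : Function.Surjective (algebraMap k (A ⧸ 𝔭))) :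
    ∃ c : A →ₐ[k] k, ∀ a, a ∈ 𝔭 ↔ c a = 0 := by
  have : Nontrivial (A ⧸ 𝔭) := Ideal.Quotient.nontrivial_iff.2 h𝔭.ne_top
  have hb : Function.Bijective (Algebra.ofId k (A ⧸ 𝔭)) :=
    ⟨(algebraMap k (A ⧸ 𝔭)).injective, hs⟩
  let e := AlgEquiv.ofBijective _ hb
  refine ⟨e.symm.toAlgHom.comp (Ideal.Quotient.mkₐ k 𝔭), fun a => ?_⟩
  rw [← Ideal.Quotient.eq_zero_iff_mem, AlgHom.comp_apply]
  constructor
  · intro h
    have h1 : Ideal.Quotient.mkₐ k 𝔭 a = 0 := h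
    rw [h1, map_zero]
  · intro h
    have h1 : e.symm (Ideal.Quotient.mkₐ k 𝔭 a) = 0 := h
    have h2 := congrArg e h1
    rw [AlgEquiv.apply_symm_apply, map_zero] at h2
    exact h2

/-- Closed points of the first chart. -/
theorem hcl0 [IsAlgClosed k] {t : K} (ht : Transcendental k t)
    [FiniteDimensional (IntermediateField.adjoin k {t}) K] {g : Polynomial k} (hg : g ≠ 0)
    (𝔭 : Ideal (IC (B0 t g))) (h𝔭 : 𝔭.IsPrime) (h0 : 𝔭 ≠ ⊥) :
    ∃ c : IC (B0 t g) →ₐ[k] k, ∀ a, a ∈ 𝔭 ↔ c a = 0 :=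
  hcl_aux 𝔭 h𝔭 (closed_IC0 ht hg 𝔭 h𝔭 h0)

/-- Closed points of the second chart. -/
theorem hcl1 [IsAlgClosed k] {t : K} (ht : Transcendental k t)
    [FiniteDimensional (IntermediateField.adjoin k {t}) K]
    [Algebra.IsSeparable (IntermediateField.adjoin k {t}) K] {g : Polynomial k} (hg : g ≠ 0)
    (𝔭 : Ideal (IC (B1 t g))) (h𝔭 : 𝔭.IsPrime) (h0 : 𝔭 ≠ ⊥) :
    ∃ c : IC (B1 t g) →ₐ[k] k, ∀ a, a ∈ 𝔭 ↔ c a = 0 := by
  classical
  have : Infinite k := IsAlgClosed.instInfinite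
  have hcl := closed_IC1 (K := K) ht hg
  have : Finite (IC (B1 t g) →ₐ[k] k) := hcl.1
  have : Fintype (IC (B1 t g) →ₐ[k] k) := Fintype.ofFinite _
  have hded : IsDedekindDomain (IC (B1 t g)) := (crv_basis1 (K := K) ht hg).1
  have hne : Nonempty (IC (B1 t g) →ₐ[k] k) := by
    by_contra h
    rw [not_nonempty_iff] at h
    exact not_isUnit_zero (hcl.2 0 fun c => h.elim c)
  have h1 : (𝔭 : Set (IC (B1 t g))) ⊆
      ⋃ c ∈ (↑(Finset.univ : Finset (IC (B1 t g) →ₐ[k] k)) : Set (IC (B1 t g) →ₐ[k] k)),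
      ((RingHom.ker c.toRingHom : Ideal (IC (B1 t g))) : Set (IC (B1 t g))) := by
    intro a ha
    by_contra hcon
    apply h𝔭.ne_top
    refine Ideal.eq_top_of_isUnit_mem 𝔭 ha (hcl.2 a fun c hc => hcon ?_)
    exact Set.mem_biUnion (Finset.mem_coe.2 (Finset.mem_univ c)) hc
  obtain ⟨c, -, hc⟩ := (Ideal.subset_union_prime
    (s := (Finset.univ : Finset (IC (B1 t g) →ₐ[k] k)))
    (f := fun c => RingHom.ker c.toRingHom) (Classical.arbitrary _) (Classical.arbitrary _)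
    (fun c _ _ _ => RingHom.ker_isPrime _)).1 h1
  have hm : 𝔭.IsMaximal := h𝔭.isMaximal h0
  have h2 := hm.eq_of_le (RingHom.ker_isPrime c.toRingHom).ne_top hc
  refine ⟨c, fun a => ?_⟩
  rw [h2]
  exact Iff.rfl

/-- The relation between the line bundles at a place. -/
theorem quot_mem (V : ValuationSubring K) {γ : V.ValueGroup} (hγ : 0 < γ)
    {U U' W W' f e : K} (hU' : U' ≠ 0) (hW' : W' ≠ 0) {n i β : ℕ} (hn : 0 < n) (he : e ≠ 0)
    (h1 : U' ^ n * f ∈ V) (h2 : γ ^ (β * n) ≤ V.valuation (U ^ n * f))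
    (h3 : (U' ^ i * W' * e)⁻¹ ∈ V) (h4 : V.valuation (U ^ i * W * e) ≤ γ ^ (β * i)) :
    W / W' ∈ V := by
  set ρ : K := U / U' with hρ
  have e1 : U ^ n * f = ρ ^ n * (U' ^ n * f) := by
    rw [hρ, div_pow]
    field_simp
  have h5 : γ ^ β ≤ V.valuation ρ := by
    rw [e1, map_mul, map_pow, pow_mul] at h2
    have h6 : (γ ^ β) ^ n ≤ V.valuation ρ ^ n :=
      h2.trans (mul_le_of_le_one_right' ((V.valuation_le_one_iff _).2 h1))
    exact le_of_pow_le_pow_left₀ hn.ne' zero_le h6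
  have e2 : ρ ^ i * (W / W') = (U ^ i * W * e) * (U' ^ i * W' * e)⁻¹ := by
    rw [hρ, div_pow]
    field_simp
  have h6 : V.valuation ρ ^ i * V.valuation (W / W') ≤ γ ^ (β * i) := by
    rw [← map_pow, ← map_mul, e2, map_mul]
    exact (mul_le_of_le_one_right' ((V.valuation_le_one_iff _).2 h3)).trans h4
  have h7 : γ ^ (β * i) * V.valuation (W / W') ≤ γ ^ (β * i) := by
    refine le_trans (mul_le_mul' ?_ le_rfl) h6
    rw [pow_mul]
    exact pow_le_pow_left' h5 i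
  rw [← V.valuation_le_one_iff]
  have h8 : 0 < γ ^ (β * i) := pow_pos hγ _
  exact (mul_le_iff_le_one_right h8).1 h7

/-- Elements of the maximal ideal of a place. -/
theorem lt_one_le {A : Subalgebra k K} (hfr : ∀ x : K, ∃ a ∈ A, ∃ b ∈ A, b ≠ 0 ∧ x = a / b)
    {V : ValuationSubring K} {ex : A →ₐ[k] PowerSeries k} {γ : V.ValueGroup}
    (hinj : Function.Injective ex) (h0 : 0 < γ)
    (hle : ∀ (n : ℕ) (a : A), PowerSeries.X ^ n ∣ ex a → V.valuation (a : K) ≤ γ ^ n)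
    (hge : ∀ (n : ℕ) (a : A), ¬ PowerSeries.X ^ (n + 1) ∣ ex a → γ ^ n ≤ V.valuation (a : K))
    {x : K} (hx : V.valuation x < 1) : V.valuation x ≤ γ := by
  classical
  obtain ⟨a, ha, b, hb, hb0, rfl⟩ := hfr x
  have hb' : ex ⟨b, hb⟩ ≠ 0 := by
    intro h
    exact hb0 (congrArg Subtype.val (hinj (h.trans (map_zero ex).symm)))
  set m := (ex ⟨b, hb⟩).order.toNat with hm
  have h1 : PowerSeries.X ^ m ∣ ex ⟨b, hb⟩ := PowerSeries.X_pow_order_dvd
  have h2 : ¬ PowerSeries.X ^ (m + 1) ∣ ex ⟨b, hb⟩ := by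
    intro h
    rw [PowerSeries.X_pow_dvd_iff] at h
    exact PowerSeries.coeff_order hb' (h m (Nat.lt_succ_self m))
  have e1 : V.valuation b = γ ^ m := le_antisymm (hle m ⟨b, hb⟩ h1) (hge m ⟨b, hb⟩ h2)
  have hγm : 0 < γ ^ m := pow_pos h0 _
  by_cases h3 : PowerSeries.X ^ (m + 1) ∣ ex ⟨a, ha⟩
  · have h4 := hle _ ⟨a, ha⟩ h3
    rw [map_div₀, e1]
    rw [div_le_iff₀ hγm, mul_comm, ← pow_succ]
    exact h4
  · exfalso
    have h4 := hge _ ⟨a, ha⟩ h3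
    rw [map_div₀, e1, div_lt_one₀ hγm] at hx
    exact absurd h4 (not_le.2 hx)

/-- Transitivity of integrality. -/
theorem int_aux {S : Type v} [CommRing S] [Algebra S K] (x : K)
    (hx : IsIntegral (integralClosure S K) x) : IsIntegral S x :=
  isIntegral_trans x hx

/-- The charts are intersections of valuation rings. -/
theorem isNor_IC (B : Subalgebra k K) : IsNor (IC B) :=
  isNor_of_isIntegrallyClosedIn fun x hx => int_aux (S := B) x hx

section main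

variable {R : Type v} [CommRing R] [Algebra k R]
  {𝒜 : ℕ → Submodule k R} [GradedAlgebra 𝒜] {P : R →ₗ[k] R →ₗ[k] R} {J : Ideal R}

/-- The inclusion of sections. -/
theorem incl [IsAlgClosed k] {t : K} (ht : Transcendental k t)
    {g g' : Polynomial k} (hg' : g' ≠ 0) {ℓ : k} (hℓ : g.eval ℓ ≠ 0) {w w' : K} (hw' : w' ≠ 0)
    (c10 : ∀ V : ValuationSubring K, (∀ x ∈ IC (B1 t g'), x ∈ V) → (∀ x ∈ IC (B0 t g), x ∈ V) →
      1 / w' ∈ V)
    (c01 : ∀ V : ValuationSubring K, (∀ x ∈ IC (B0 t g'), x ∈ V) → (∀ x ∈ IC (B1 t g), x ∈ V) →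
      w / 1 ∈ V)
    (c11 : ∀ V : ValuationSubring K, (∀ x ∈ IC (B1 t g'), x ∈ V) → (∀ x ∈ IC (B1 t g), x ∈ V) →
      w / w' ∈ V) (n M : ℕ) (a : K) (ha : a ∈ IC (B0 t g'))
    (ha' : w' ^ n * (t - algebraMap k K ℓ)⁻¹ ^ M * a ∈ IC (B1 t g')) :
    w ^ n * (t - algebraMap k K ℓ)⁻¹ ^ M * a ∈ IC (B1 t g) ∧ a ∈ IC (B0 t g) := by
  have hs0 : t - algebraMap k K ℓ ≠ 0 := crv_ne_C ht ℓ
  refine ⟨isNor_IC _ _ fun V hV => ?_, isNor_IC _ _ fun V hV => ?_⟩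
  · have hk : ∀ c : k, algebraMap k K c ∈ V := fun c => hV _ (Subalgebra.algebraMap_mem _ c)
    have hs : (t - algebraMap k K ℓ)⁻¹ ∈ V := hV _ (le_IC _ (crv_s_mem_B1 ht hℓ))
    rcases place_IC ht hg' V hk with h | h
    · have h1 := c01 V h hV
      rw [div_one] at h1
      exact mul_mem (mul_mem (pow_mem h1 n) (pow_mem hs M)) (h a ha)
    · have h1 : w ^ n * (t - algebraMap k K ℓ)⁻¹ ^ M * a =
          (w / w') ^ n * (w' ^ n * (t - algebraMap k K ℓ)⁻¹ ^ M * a) := by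
        rw [div_pow]
        field_simp
      rw [h1]
      exact mul_mem (pow_mem (c11 V h hV) n) (h _ ha')
  · have hk : ∀ c : k, algebraMap k K c ∈ V := fun c => hV _ (Subalgebra.algebraMap_mem _ c)
    rcases place_IC ht hg' V hk with h | h
    · exact h a ha
    · have h0 : ∀ z : K, z ≠ 0 → a = (1 / w') ^ n * z ^ M * (w' ^ n * z⁻¹ ^ M * a) := by
        intro z hz
        have h2 : w' ^ n ≠ 0 := pow_ne_zero _ hw'
        have h3 : z ^ M ≠ 0 := pow_ne_zero _ hz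
        rw [one_div, inv_pow, inv_pow]
        calc a = ((w' ^ n)⁻¹ * w' ^ n) * (z ^ M * (z ^ M)⁻¹) * a := by
              rw [inv_mul_cancel₀ h2, mul_inv_cancel₀ h3, one_mul, one_mul]
          _ = _ := by ring
      have h1 := h0 _ hs0
      have ht' : t - algebraMap k K ℓ ∈ V :=
        sub_mem (hV _ (le_IC _ (crv_t_mem_B0 t g))) (hk ℓ)
      rw [h1]
      exact mul_mem (mul_mem (pow_mem (c10 V h hV) n) (pow_mem ht' M)) (h _ ha')

variable {g g' : Polynomial k} {t : K} {u v u' v' : K} {φ' : R →ₐ[k] K} {η' : J →ₗ[k] K}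

/-- Claim 1. -/
theorem claim1 [IsAlgClosed k] (ht : Transcendental k t)
    [FiniteDimensional (IntermediateField.adjoin k {t}) K]
    [Algebra.IsSeparable (IntermediateField.adjoin k {t}) K] (hg : g ≠ 0) (hg' : g' ≠ 0)
    (hu : u ≠ 0) (f0 : ∀ r, φ' r ∈ IC (B0 t g)) (f1 : ∀ n, ∀ r ∈ 𝒜 n, u ^ n * φ' r ∈ IC (B1 t g))
    {m : ℕ} {c : Fin m → (IC (B0 t g) →ₐ[k] k)} (hc : Function.Injective c)
    (hm : ∀ l, ∀ j, 0 < j → ∀ r ∈ 𝒜 j, c l ⟨φ' r, f0 r⟩ = 0)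
    (hmp : IsMp 𝒜 (IC (B0 t g')) (IC (B1 t g')) u' φ') :
    idx (IC (B1 t g')) u' + m ≤ idx (IC (B1 t g)) u := by
  classical
  have : Infinite k := IsAlgClosed.instInfinite
  obtain ⟨ℓ, hℓ⟩ := crv_exists_l (mul_ne_zero hg hg')
  rw [Polynomial.eval_mul] at hℓ
  have hℓ1 : g.eval ℓ ≠ 0 := left_ne_zero_of_mul hℓ
  have hℓ2 : g'.eval ℓ ≠ 0 := right_ne_zero_of_mul hℓ
  have hu' := hmp.u_ne
  obtain ⟨n0, hn0, r0, hr0, hr00, hr0i⟩ := hmp.unit0
  obtain ⟨n1, hn1, r1, hr1, hr10, hr1i⟩ := hmp.unit1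
  have c10 : ∀ V : ValuationSubring K, (∀ x ∈ IC (B1 t g'), x ∈ V) →
      (∀ x ∈ IC (B0 t g), x ∈ V) → 1 / u' ∈ V := by
    intro V h1 h2
    refine mem_of_pow_mem hn1 ?_
    have h3 : (1 / u') ^ n1 = φ' r1 * (u' ^ n1 * φ' r1)⁻¹ := by
      rw [one_div, inv_pow]
      field_simp
    rw [h3]
    exact mul_mem (h2 _ (f0 r1)) (h1 _ hr1i)
  have c01 : ∀ V : ValuationSubring K, (∀ x ∈ IC (B0 t g'), x ∈ V) →
      (∀ x ∈ IC (B1 t g), x ∈ V) → u / 1 ∈ V := by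
    intro V h1 h2
    refine mem_of_pow_mem hn0 ?_
    have h3 : (u / 1) ^ n0 = (u ^ n0 * φ' r0) * (φ' r0)⁻¹ := by
      rw [div_one]
      field_simp
    rw [h3]
    exact mul_mem (h2 _ (f1 _ r0 hr0)) (h1 _ hr0i)
  have c11 : ∀ V : ValuationSubring K, (∀ x ∈ IC (B1 t g'), x ∈ V) →
      (∀ x ∈ IC (B1 t g), x ∈ V) → u / u' ∈ V := by
    intro V h1 h2
    refine mem_of_pow_mem hn1 ?_
    have h3 : (u / u') ^ n1 = (u ^ n1 * φ' r1) * (u' ^ n1 * φ' r1)⁻¹ := by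
      rw [div_pow]
      field_simp
    rw [h3]
    exact mul_mem (h2 _ (f1 _ r1 hr1)) (h1 _ hr1i)
  refine idx_le_of_sections ht hg hg' hℓ1 hℓ2 hu hu' hc fun n M a ha ha' => ?_
  obtain ⟨h1, h2⟩ := incl ht hg' hℓ1 hu' c10 c01 c11 n M a ha ha'
  refine ⟨h1, h2, fun l => ?_⟩
  -- the order at a mark
  rcases Nat.eq_zero_or_pos n with rfl | hn
  · rw [pow_zero, Ideal.one_eq_top]
    trivial
  have hded : IsDedekindDomain (IC (B0 t g)) := (crv_basis0 (K := K) ht hg).1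
  have hkne : RingHom.ker (c l) ≠ ⊤ := (RingHom.ker_isPrime (c l)).ne_top
  obtain ⟨V, hV1, hV2⟩ := Ideal.image_subset_nonunits_valuationSubring (K := K)
    (A := (IC (B0 t g)).toSubring) (RingHom.ker (c l) : Ideal (IC (B0 t g))) hkne
  have hVA : ∀ a ∈ IC (B0 t g), a ∈ V := fun a ha => hV1 ha
  have hkV : ∀ a : IC (B0 t g), c l a = 0 → V.valuation (a : K) < 1 := by
    intro a ha
    have h3 : (a : K) ∈ V.nonunits := hV2 ⟨a, ha, rfl⟩
    exact V.mem_nonunits_iff.1 h3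
  have hk : ∀ c : k, algebraMap k K c ∈ V := fun c => hVA _ (Subalgebra.algebraMap_mem _ c)
  have htm : t ∈ IC (B0 t g) := le_IC _ (crv_t_mem_B0 t g)
  have hVt : V ≠ ⊤ := by
    intro h
    have h3 := hkV (⟨t, htm⟩ - algebraMap k (IC (B0 t g)) (c l ⟨t, htm⟩)) (by
      rw [map_sub, AlgHom.commutes]
      simp)
    have h4 : ((⟨t, htm⟩ - algebraMap k (IC (B0 t g)) (c l ⟨t, htm⟩) : IC (B0 t g)) : K) =
        t - algebraMap k K (c l ⟨t, htm⟩) := rfl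
    rw [h4] at h3
    have h5 : V.valuation (t - algebraMap k K (c l ⟨t, htm⟩))⁻¹ ≤ 1 :=
      (V.valuation_le_one_iff _).2 (by rw [h]; trivial)
    rw [map_inv₀] at h5
    have h6 : V.valuation (t - algebraMap k K (c l ⟨t, htm⟩)) ≠ 0 :=
      (map_ne_zero _).2 (crv_ne_C ht _)
    exact absurd h5 (not_le.2 ((one_lt_inv₀ (zero_lt_iff.2 h6)).2 h3))
  obtain ⟨c', ex, γ, hinj, hcc, happ, hcv, hpow, hγ0, hγ1, hle, hge⟩ :=
    VT.exists_ex (IC (B0 t g)) (hcl0 ht hg) (frac0_IC g) V hVA hVt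
  have hcc' : RingHom.ker (c l) = RingHom.ker c' := by
    have hmax : (RingHom.ker (c l)).IsMaximal := by
      refine RingHom.ker_isMaximal_of_surjective (c l) fun z => ⟨algebraMap k (IC (B0 t g)) z, ?_⟩
      rw [AlgHom.commutes]
      rfl
    refine hmax.eq_of_le (RingHom.ker_isPrime c').ne_top fun a ha => ?_
    rw [RingHom.mem_ker, hcv]
    exact hkV a ha
  rw [hcc', ← hpow]
  by_contra hcon
  obtain ⟨n', rfl⟩ : ∃ n', n = n' + 1 := ⟨n - 1, by omega⟩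
  have h3 := hge n' ⟨a, h2⟩ hcon
  -- the place is on the second chart of the limit
  have hφr : ∀ j, 0 < j → ∀ r ∈ 𝒜 j, V.valuation (φ' r) < 1 := fun j hj r hr =>
    hkV ⟨φ' r, f0 r⟩ (hm l j hj r hr)
  have hV1' : ∀ a ∈ IC (B1 t g'), a ∈ V := by
    rcases place_IC ht hg' V hk with h | h
    · exfalso
      have h4 := hφr n0 hn0 r0 hr0
      have h5 : V.valuation (φ' r0)⁻¹ ≤ 1 := (V.valuation_le_one_iff _).2 (h _ hr0i)
      rw [map_inv₀] at h5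
      exact absurd h5 (not_le.2 ((one_lt_inv₀ (zero_lt_iff.2 ((map_ne_zero _).2 hr00))).2 h4))
    · exact h
  have h4 : V.valuation (1 / u') ≤ γ := by
    refine lt_one_le (frac0_IC g) hinj hγ0 hle hge ?_
    have h5 : (1 / u') ^ n1 = φ' r1 * (u' ^ n1 * φ' r1)⁻¹ := by
      rw [one_div, inv_pow]
      field_simp
    have h6 : V.valuation (1 / u') ^ n1 < 1 := by
      rw [← map_pow, h5, map_mul]
      exact mul_lt_one_of_lt_of_le (hφr n1 hn1 r1 hr1) ((V.valuation_le_one_iff _).2 (hV1' _ hr1i))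
    by_contra h7
    exact absurd h6 (not_lt.2 (one_le_pow₀ (not_lt.1 h7)))
  have h5 : V.valuation a ≤ γ ^ (n' + 1) := by
    have h6 : a = (1 / u') ^ (n' + 1) * (t - algebraMap k K ℓ) ^ M *
        (u' ^ (n' + 1) * (t - algebraMap k K ℓ)⁻¹ ^ M * a) := by
      have h7 : u' ^ (n' + 1) ≠ 0 := pow_ne_zero _ hu'
      have h8 : (t - algebraMap k K ℓ) ^ M ≠ 0 := pow_ne_zero _ (crv_ne_C ht ℓ)
      rw [one_div, inv_pow, inv_pow]
      calc a = ((u' ^ (n' + 1))⁻¹ * u' ^ (n' + 1)) *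
            ((t - algebraMap k K ℓ) ^ M * ((t - algebraMap k K ℓ) ^ M)⁻¹) * a := by
            rw [inv_mul_cancel₀ h7, mul_inv_cancel₀ h8, one_mul, one_mul]
        _ = _ := by ring
    rw [h6, map_mul, map_mul, map_pow]
    have h9 : V.valuation ((t - algebraMap k K ℓ) ^ M) ≤ 1 :=
      (V.valuation_le_one_iff _).2 (pow_mem (sub_mem (hVA _ htm) (hk ℓ)) M)
    have h10 : V.valuation (u' ^ (n' + 1) * (t - algebraMap k K ℓ)⁻¹ ^ M * a) ≤ 1 :=
      (V.valuation_le_one_iff _).2 (hV1' _ ha')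
    calc V.valuation (1 / u') ^ (n' + 1) * V.valuation ((t - algebraMap k K ℓ) ^ M) *
          V.valuation (u' ^ (n' + 1) * (t - algebraMap k K ℓ)⁻¹ ^ M * a)
        ≤ γ ^ (n' + 1) * 1 * 1 := mul_le_mul' (mul_le_mul' (pow_le_pow_left' h4 _) h9) h10
      _ = γ ^ (n' + 1) := by rw [mul_one, mul_one]
  have h6 : γ ^ n' ≤ γ ^ (n' + 1) := h3.trans h5
  rw [pow_succ] at h6
  have h7 : 0 < γ ^ n' := pow_pos hγ0 _
  have h8 : 1 ≤ γ := (le_mul_iff_one_le_right h7).1 h6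
  exact absurd hγ1 (not_lt.2 h8)

end main

end Vale.Agent.P292.Dv.IdxLimP
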