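import Vale.Agent.P292.D.T2Defs
import Vale.Agent.P292.D.DegCmp

/-! # C5, second half: the degree of the divisor on the central fibre. -/

namespace Vale.Agent.P292.Dv

open TensorProduct
open Vale.Agent.P292.Mo

set_option linter.unusedSectionVars false

universe u v w

namespace IdxLimV

variable {k : Type u} [Field k] {K : Type w} [Field K] [Algebra k K]

theorem mem_of_pow_mem (V : ValuationSubring K) {x : K} {n : ℕ} (hn : 0 < n) (h : x ^ n ∈ V) :
    x ∈ V := by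
  rcases V.mem_or_inv_mem x with h1 | h1
  · exact h1
  · by_cases hx : x = 0
    · rw [hx]; exact zero_mem V
    · have h2 := mul_mem h (pow_mem h1 (n - 1))
      have h3 : x ^ n * x⁻¹ ^ (n - 1) = x := by
        obtain ⟨m, rfl⟩ : ∃ m, n = m + 1 := ⟨n - 1, by omega⟩
        rw [Nat.add_sub_cancel, pow_succ, inv_pow, mul_comm (x ^ m) x, mul_assoc,
          mul_inv_cancel₀ (pow_ne_zero m hx), mul_one]
      rwa [h3] at h2

/-- Expansions at the centre of a valuation ring above a Dedekind chart. -/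
theorem exists_ex (A : Subalgebra k K) [IsDedekindDomain A]
    (hfrac : ∀ x : K, ∃ a ∈ A, ∃ b ∈ A, b ≠ 0 ∧ x = a / b)
    (hpt : ∀ 𝔭 : Ideal A, 𝔭.IsPrime → 𝔭 ≠ ⊥ → ∃ c : A →ₐ[k] k, ∀ a, a ∈ 𝔭 ↔ c a = 0)
    (V : ValuationSubring K) (hV : ∀ a ∈ A, a ∈ V) (hVt : ∃ x, x ∉ V) :
    ∃ ex : A →ₐ[k] PowerSeries k, Function.Injective ex ∧
      (∀ (n : ℕ) (s : PowerSeries k), ∃ a, PowerSeries.X ^ n ∣ ex a - s) ∧
      ∀ (a b : A) (n : ℕ), (PowerSeries.X : PowerSeries k) ^ n ∣ ex a →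
        PowerSeries.coeff n (ex b) ≠ 0 → (a : K) / b ∈ V := by
  classical
  let f : A →+* V := (algebraMap A K).codRestrict V.toSubring (fun a => hV a a.2)
  set m : Ideal A := Ideal.comap f (IsLocalRing.maximalIdeal V) with hmdef
  have hmp : m.IsPrime := Ideal.IsPrime.comap f
  have hunit : ∀ a : A, a ∉ m → (a : K)⁻¹ ∈ V := by
    intro a ha
    have h1 : IsUnit (f a) := by
      by_contra hcon
      exact ha ((IsLocalRing.mem_maximalIdeal _).2 hcon)
    obtain ⟨b, hb⟩ := h1.exists_right_inv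
    have h2 : (a : K) * (b : K) = 1 := congrArg (fun z : V => (z : K)) hb
    have h3 : (a : K)⁻¹ = b := (eq_inv_of_mul_eq_one_right h2).symm
    rw [h3]
    exact b.2
  have hne : m ≠ ⊥ := by
    intro h0
    obtain ⟨x, hx⟩ := hVt
    obtain ⟨a, ha, b, hb, hb0, rfl⟩ := hfrac x
    apply hx
    rw [div_eq_mul_inv]
    refine mul_mem (hV a ha) (hunit ⟨b, hb⟩ ?_)
    rw [h0, Ideal.mem_bot]
    exact fun h => hb0 (congrArg Subtype.val h)
  obtain ⟨c, hc⟩ := hpt m hmp hne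
  have hdvr : IsDiscreteValuationRing (Localization.AtPrime m) :=
    IsLocalization.AtPrime.isDiscreteValuationRing_of_dedekind_domain A hne _
  obtain ⟨ex, hinj, hcc, hd, hiff⟩ := exists_expansion_at c m hc
  refine ⟨ex, hinj, fun n s => ?_, fun a b n ha hb => ?_⟩
  · obtain ⟨x, hx⟩ := hd n s
    refine ⟨x, ?_⟩
    have h1 : ex x - s = -(s - ex x) := by ring
    rw [h1]
    exact (dvd_neg).2 hx
  · set O := Localization.AtPrime m
    have hOinj : Function.Injective (algebraMap A O) :=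
      IsLocalization.injective O (Ideal.primeCompl_le_nonZeroDivisors m)
    have hprim : ∀ x : A, algebraMap A O x ∈ (IsLocalRing.maximalIdeal O) ^ (n + 1) →
        (PowerSeries.X : PowerSeries k) ^ (n + 1) ∣ ex x := by
      intro x hx
      rw [← Localization.AtPrime.map_eq_maximalIdeal, ← Ideal.map_pow,
        IsLocalization.mem_map_algebraMap_iff m.primeCompl] at hx
      obtain ⟨⟨i, s⟩, h1⟩ := hx
      have h2 : x * (s : A) = (i : A) := by
        apply hOinj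
        rw [map_mul]
        exact h1
      have h3 := (hiff (n + 1) (i : A)).2 i.2
      rw [← h2, map_mul] at h3
      have h4 : IsUnit (ex (s : A)) := by
        rw [PowerSeries.isUnit_iff_constantCoeff, hcc]
        exact isUnit_iff_ne_zero.2 fun h => s.2 ((hc _).2 h)
      exact (h4.dvd_mul_right).1 h3
    have hb0 : b ≠ 0 := by
      rintro rfl
      apply hb
      rw [map_zero, map_zero]
    have hb0' : (b : K) ≠ 0 := fun h => hb0 (Subtype.ext h)
    have main : algebraMap A O b ∣ algebraMap A O a → (a : K) / b ∈ V := by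
      rintro ⟨z, hz⟩
      obtain ⟨⟨x, s⟩, hx⟩ := IsLocalization.surj m.primeCompl z
      have h1 : a * (s : A) = b * x := by
        apply hOinj
        rw [map_mul, map_mul, hz, mul_assoc]
        exact congrArg _ hx
      have hs0 : ((s : A) : K) ≠ 0 := by
        intro h
        apply s.2
        have : (s : A) = 0 := Subtype.ext h
        rw [this]
        exact zero_mem m
      have h2 : (a : K) / b = x * ((s : A) : K)⁻¹ := by
        have h3 : (a : K) * ((s : A) : K) = b * x := congrArg (fun z : A => (z : K)) h1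
        field_simp
        linear_combination h3
      rw [h2]
      exact mul_mem (hV x x.2) (hunit _ s.2)
    rcases ValuationRing.dvd_total (algebraMap A O b) (algebraMap A O a) with h | h
    · exact main h
    · obtain ⟨z, hz⟩ := h
      by_cases hzu : IsUnit z
      · refine main ?_
        obtain ⟨z', hz'⟩ := hzu.exists_right_inv
        exact ⟨z', by rw [hz, mul_assoc, hz', mul_one]⟩
      · exfalso
        have h1 : algebraMap A O a ∈ (IsLocalRing.maximalIdeal O) ^ n := by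
          rw [← Localization.AtPrime.map_eq_maximalIdeal, ← Ideal.map_pow]
          exact Ideal.mem_map_of_mem _ ((hiff n a).1 ha)
        have h2 : algebraMap A O b ∈ (IsLocalRing.maximalIdeal O) ^ (n + 1) := by
          rw [hz, pow_succ]
          exact Ideal.mul_mem_mul h1 ((IsLocalRing.mem_maximalIdeal _).2 hzu)
        exact hb (PowerSeries.X_pow_dvd_iff.1 (hprim b h2) n (Nat.lt_succ_self n))

/-- A closed point from a surjection. -/
theorem exists_pt {A : Type*} [CommRing A] [Algebra k A] (𝔭 : Ideal A) (hp : 𝔭.IsPrime)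
    (h : Function.Surjective (algebraMap k (A ⧸ 𝔭))) :
    ∃ c : A →ₐ[k] k, ∀ a, a ∈ 𝔭 ↔ c a = 0 := by
  have hnt : Nontrivial (A ⧸ 𝔭) := Ideal.Quotient.nontrivial_iff.2 hp.ne_top
  let e : k ≃ₐ[k] (A ⧸ 𝔭) := AlgEquiv.ofBijective (Algebra.ofId k (A ⧸ 𝔭))
    ⟨(algebraMap k (A ⧸ 𝔭)).injective, h⟩
  refine ⟨(e.symm : (A ⧸ 𝔭) →ₐ[k] k).comp (Ideal.Quotient.mkₐ k 𝔭), fun a => ?_⟩
  rw [← Ideal.Quotient.eq_zero_iff_mem]
  change _ ↔ e.symm (Ideal.Quotient.mk 𝔭 a) = 0
  exact (map_eq_zero_iff e.symm e.symm.injective).symm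

theorem exists_ex0 [IsAlgClosed k] {t : K} (ht : Transcendental k t)
    [FiniteDimensional (IntermediateField.adjoin k {t}) K]
    [Algebra.IsSeparable (IntermediateField.adjoin k {t}) K] {g : Polynomial k} (hg : g ≠ 0)
    (V : ValuationSubring K) (hV : ∀ a ∈ IC (B0 t g), a ∈ V) (hVt : ∃ x, x ∉ V) :
    ∃ ex : IC (B0 t g) →ₐ[k] PowerSeries k, Function.Injective ex ∧
      (∀ (n : ℕ) (s : PowerSeries k), ∃ a, PowerSeries.X ^ n ∣ ex a - s) ∧
      ∀ (a b : IC (B0 t g)) (n : ℕ), (PowerSeries.X : PowerSeries k) ^ n ∣ ex a →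
        PowerSeries.coeff n (ex b) ≠ 0 → (a : K) / b ∈ V := by
  have hded : IsDedekindDomain (IC (B0 t g)) := (crv_basis0 ht hg).1
  exact exists_ex _ (frac0_IC g)
    (fun 𝔭 hp h0 => exists_pt 𝔭 hp (closed_IC0 ht hg 𝔭 hp h0)) V hV hVt

theorem exists_ex1 [IsAlgClosed k] {t : K} (ht : Transcendental k t)
    [FiniteDimensional (IntermediateField.adjoin k {t}) K]
    [Algebra.IsSeparable (IntermediateField.adjoin k {t}) K] {g : Polynomial k} (hg : g ≠ 0)
    (V : ValuationSubring K) (hV : ∀ a ∈ IC (B1 t g), a ∈ V) (hVt : ∃ x, x ∉ V) :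
    ∃ ex : IC (B1 t g) →ₐ[k] PowerSeries k, Function.Injective ex ∧
      (∀ (n : ℕ) (s : PowerSeries k), ∃ a, PowerSeries.X ^ n ∣ ex a - s) ∧
      ∀ (a b : IC (B1 t g)) (n : ℕ), (PowerSeries.X : PowerSeries k) ^ n ∣ ex a →
        PowerSeries.coeff n (ex b) ≠ 0 → (a : K) / b ∈ V := by
  classical
  have hded : IsDedekindDomain (IC (B1 t g)) := (crv_basis1 (K := K) ht hg).1
  obtain ⟨hfin, hunit⟩ := closed_IC1 (K := K) ht hg
  have : Fintype (IC (B1 t g) →ₐ[k] k) := Fintype.ofFinite _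
  refine exists_ex _ (isCD_IC ht hg).frac (fun I hI h0 => ?_) V hV hVt
  have hmax : ∀ c : IC (B1 t g) →ₐ[k] k, (RingHom.ker c.toRingHom).IsPrime :=
    fun c => RingHom.ker_isPrime _
  have h1 : (I : Set (IC (B1 t g))) ⊆
      ⋃ c ∈ (↑(Finset.univ : Finset (IC (B1 t g) →ₐ[k] k)) : Set (IC (B1 t g) →ₐ[k] k)),
      ((RingHom.ker c.toRingHom : Ideal (IC (B1 t g))) : Set (IC (B1 t g))) := by
    intro a ha
    by_contra hcon
    apply hI.ne_top
    refine Ideal.eq_top_of_isUnit_mem I ha (hunit a fun c hc => hcon ?_)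
    exact Set.mem_biUnion (Finset.mem_coe.2 (Finset.mem_univ c)) hc
  have hne : Nonempty (IC (B1 t g) →ₐ[k] k) := by
    by_contra h
    rw [not_nonempty_iff] at h
    exact not_isUnit_zero (hunit 0 fun c => h.elim c)
  obtain ⟨c, -, hc⟩ := (Ideal.subset_union_prime
    (s := (Finset.univ : Finset (IC (B1 t g) →ₐ[k] k)))
    (f := fun c => RingHom.ker c.toRingHom) (Classical.arbitrary _) (Classical.arbitrary _)
    (fun c _ _ _ => hmax c)).1 h1
  have hm : I.IsMaximal := hI.isMaximal h0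
  have h2 : I = RingHom.ker c.toRingHom := hm.eq_of_le (hmax c).ne_top hc
  exact ⟨c, fun a => by rw [h2]; exact RingHom.mem_ker⟩

theorem int_closed {B : Subalgebra k K} {x : K} (hx : IsIntegral (IC B) x) : x ∈ IC B := by
  have h1 : IsIntegral (integralClosure B K) x := hx
  exact isIntegral_trans (R := B) (A := integralClosure B K) x h1

/-- Comparison of the orders of powers. -/
theorem coeff_pow_ne {f : PowerSeries k} {n : ℕ} (hd : (PowerSeries.X : PowerSeries k) ^ n ∣ f)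
    (hc : PowerSeries.coeff n f ≠ 0) (i : ℕ) : PowerSeries.coeff (n * i) (f ^ i) ≠ 0 := by
  obtain ⟨q, rfl⟩ := hd
  have h1 : PowerSeries.constantCoeff q ≠ 0 := by
    intro h
    apply hc
    have := PowerSeries.coeff_X_pow_mul q n 0
    rw [zero_add] at this
    rw [this, PowerSeries.coeff_zero_eq_constantCoeff_apply, h]
  rw [mul_pow, ← pow_mul]
  have := PowerSeries.coeff_X_pow_mul (q ^ i) (n * i) 0
  rw [zero_add] at this
  rw [this, PowerSeries.coeff_zero_eq_constantCoeff_apply, map_pow]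
  exact pow_ne_zero i h1

/-- The core computation: `y` of degree `i` vanishes to order `β i`, `ρ` of degree `n` has exact
order `β n`, and the twist of `ρ` is regular. -/
theorem core {A : Subalgebra k K} {V : ValuationSubring K} {ex : A →ₐ[k] PowerSeries k}
    (hex : ∀ (a b : A) (n : ℕ), (PowerSeries.X : PowerSeries k) ^ n ∣ ex a →
        PowerSeries.coeff n (ex b) ≠ 0 → (a : K) / b ∈ V) {β n i : ℕ} (hn : 0 < n) (y ρ : A)
    (hy : (PowerSeries.X : PowerSeries k) ^ (β * i) ∣ ex y)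
    (hρ : (PowerSeries.X : PowerSeries k) ^ (β * n) ∣ ex ρ)
    (hρc : PowerSeries.coeff (β * n) (ex ρ) ≠ 0) (z : K) (hz : z ^ n * ρ ∈ V) :
    z ^ i * y ∈ V := by
  have hρ0 : (ρ : K) ≠ 0 := by
    intro h
    have h1 : ρ = 0 := Subtype.ext h
    apply hρc
    rw [h1, map_zero, map_zero]
  have h1 : ((y ^ n : A) : K) / ((ρ ^ i : A) : K) ∈ V := by
    refine hex (y ^ n) (ρ ^ i) (β * n * i) ?_ ?_
    · rw [map_pow]
      have := pow_dvd_pow_of_dvd hy n
      rw [← pow_mul] at this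
      convert this using 2
      ring
    · rw [map_pow]
      exact coeff_pow_ne hρ hρc i
  refine mem_of_pow_mem V hn ?_
  have h2 : (z ^ i * y) ^ n = (((y ^ n : A) : K) / ((ρ ^ i : A) : K)) * (z ^ n * ρ) ^ i := by
    push_cast
    rw [mul_pow, mul_pow, ← pow_mul, ← pow_mul, mul_comm i n]
    field_simp
  rw [h2]
  exact mul_mem h1 (pow_mem hz i)

end IdxLimV

section main

variable {k : Type u} [Field k] {R : Type v} [CommRing R] [Algebra k R]
  {𝒜 : ℕ → Submodule k R} [GradedAlgebra 𝒜] {P : R →ₗ[k] R →ₗ[k] R} {J : Ideal R}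
  {K : Type w} [Field K] [Algebra k K]

/-- C5, second half. -/
theorem idx_limit_v [IsAlgClosed k] {t : K} (ht : Transcendental k t)
    [FiniteDimensional (IntermediateField.adjoin k {t}) K]
    [Algebra.IsSeparable (IntermediateField.adjoin k {t}) K]
    {A₀ A₁ A₀' A₁' : Subalgebra k K} {u v u' v' : K} {φ φ' : R →ₐ[k] K} {η η' : J →ₗ[k] K}
    (hch : IsCh t A₀ A₁) (hch' : IsCh t A₀' A₁') {N N' : ℕ}
    (h : IsGP 𝒜 P J N A₀ A₁ u v φ η)
    {F : R →ₐ[k] PowerSeries A₀} {H : J →ₗ[k] PowerSeries A₀} (hF : IsPF 𝒜 J A₀ A₁ u v F H)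
    (hφ' : ∀ r, φ' r = ((PowerSeries.constantCoeff (F r) : A₀) : K))
    (hη' : ∀ x, η' x = ((PowerSeries.constantCoeff (H x) : A₀) : K))
    (h' : IsGP 𝒜 P J N' A₀' A₁' u' v' φ' η')
    (hS0 : ∀ ex : A₀ →ₐ[k] PowerSeries k, Function.Injective ex →
        (∀ (n : ℕ) (s : PowerSeries k), ∃ a, PowerSeries.X ^ n ∣ ex a - s) →
        ∃ β : ℕ, (∀ n, ∀ r ∈ 𝒜 n, (PowerSeries.X : PowerSeries k) ^ (β * n) ∣
            ex (PowerSeries.constantCoeff (F r))) ∧
          (∃ n, 0 < n ∧ ∃ r ∈ 𝒜 n, PowerSeries.coeff (β * n)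
            (ex (PowerSeries.constantCoeff (F r))) ≠ 0) ∧
          ∀ i, ∀ x : J, (x : R) ∈ 𝒜 i → (PowerSeries.X : PowerSeries k) ^ (β * i) ∣
            ex (PowerSeries.constantCoeff (H x)))
    (hS1 : ∀ ex : A₁ →ₐ[k] PowerSeries k, Function.Injective ex →
        (∀ (n : ℕ) (s : PowerSeries k), ∃ a, PowerSeries.X ^ n ∣ ex a - s) →
        ∃ β : ℕ, (∀ n, ∀ r ∈ 𝒜 n, ∀ a : A₁, (a : K) = u ^ n * φ' r →
            (PowerSeries.X : PowerSeries k) ^ (β * n) ∣ ex a) ∧
          (∃ n, 0 < n ∧ ∃ r ∈ 𝒜 n, ∃ a : A₁, (a : K) = u ^ n * φ' r ∧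
            PowerSeries.coeff (β * n) (ex a) ≠ 0) ∧
          ∀ i, ∀ x : J, (x : R) ∈ 𝒜 i → ∀ a : A₁, (a : K) = u ^ i * v * η' x →
            (PowerSeries.X : PowerSeries k) ^ (β * i) ∣ ex a) :
    idx A₁' v' ≤ idx A₁ v := by
  classical
  obtain ⟨g, hg, rfl, rfl⟩ := hch
  obtain ⟨g', hg', rfl, rfl⟩ := hch'
  have hu := h.mp.u_ne
  have hu' := h'.mp.u_ne
  have hsec1 : ∀ n, ∀ r ∈ 𝒜 n, u ^ n * φ' r ∈ IC (B1 t g) := by
    intro n r hr
    have h1 := hF.sec n r hr 0
    rw [PowerSeries.coeff_zero_eq_constantCoeff_apply] at h1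
    rw [hφ']
    exact (mem_Sec.1 h1).2
  have hsecη1 : ∀ n, ∀ x : J, (x : R) ∈ 𝒜 n → u ^ n * v * η' x ∈ IC (B1 t g) := by
    intro n x hx
    have h1 := hF.secη n x hx 0
    rw [PowerSeries.coeff_zero_eq_constantCoeff_apply] at h1
    rw [hη']
    exact h1
  refine dc_idx_le (isCD_IC ht hg) (isCD_IC ht hg') (fun x hx => IdxLimV.int_closed hx)
    (fun x hx => IdxLimV.int_closed hx) (fun x hx => IdxLimV.int_closed hx)
    (fun x hx => IdxLimV.int_closed hx) (fun V hV => place_IC ht hg V hV)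
    (fun V hV => place_IC ht hg' V hV) h.v_ne h'.v_ne ?_ ?_ ?_
  · intro V hV hV'
    by_cases hVt : ∃ x, x ∉ V
    swap
    · push Not at hVt
      exact hVt _
    obtain ⟨ex, hinj, hd, hdiv⟩ := IdxLimV.exists_ex0 ht hg V hV hVt
    obtain ⟨β, hβ, ⟨n, hn, r, hr, hrc⟩, hβη⟩ := hS0 ex hinj hd
    obtain ⟨i, j, a, b, hj, ha, hb, -, -, -, hηa, hinv⟩ := h'.loc1
    have h1 := IdxLimV.core hdiv hn _ _ (hβη i a ha) (hβ n r hr) hrc u' (by
      rw [← hφ']
      exact hV' _ (mem_Sec.1 (h'.mp.sec n r hr)).2)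
    rw [← hη'] at h1
    have h2 := mul_mem h1 (hV' _ hinv)
    have h3 : u' ^ i * η' a * (u' ^ i * v' * η' a)⁻¹ = v'⁻¹ := by
      have := pow_ne_zero i hu'
      have := h'.v_ne
      field_simp
    rwa [h3] at h2
  · intro V hV hV'
    by_cases hVt : ∃ x, x ∉ V
    swap
    · push Not at hVt
      exact hVt _
    obtain ⟨ex, hinj, hd, hdiv⟩ := IdxLimV.exists_ex1 ht hg V hV hVt
    obtain ⟨β, hβ, ⟨n, hn, r, hr, ρ, hρ, hrc⟩, hβη⟩ := hS1 ex hinj hd
    obtain ⟨i, j, a, b, hj, ha, hb, -, -, -, hηa, hinv⟩ := h'.loc0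
    have h1 := IdxLimV.core hdiv hn (⟨_, hsecη1 i a ha⟩ : IC (B1 t g)) ρ
      (hβη i a ha ⟨_, hsecη1 i a ha⟩ rfl) (hβ n r hr ρ hρ) hrc u⁻¹ (by
      rw [hρ, inv_pow, inv_mul_cancel_left₀ (pow_ne_zero n hu)]
      exact hV' _ (mem_Sec.1 (h'.mp.sec n r hr)).1)
    have h2 := mul_mem h1 (hV' _ hinv)
    have h3 : u⁻¹ ^ i * (u ^ i * v * η' a) * (η' a)⁻¹ = v := by
      have h4 := pow_ne_zero i hu
      rw [inv_pow, mul_assoc (u ^ i) v, inv_mul_cancel_left₀ h4, mul_assoc,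
        mul_inv_cancel₀ hηa, mul_one]
    rwa [h3] at h2
  · intro V hV hV'
    by_cases hVt : ∃ x, x ∉ V
    swap
    · push Not at hVt
      exact hVt _
    obtain ⟨ex, hinj, hd, hdiv⟩ := IdxLimV.exists_ex1 ht hg V hV hVt
    obtain ⟨β, hβ, ⟨n, hn, r, hr, ρ, hρ, hrc⟩, hβη⟩ := hS1 ex hinj hd
    obtain ⟨i, j, a, b, hj, ha, hb, -, -, -, hηa, hinv⟩ := h'.loc1
    have h1 := IdxLimV.core hdiv hn (⟨_, hsecη1 i a ha⟩ : IC (B1 t g)) ρ
      (hβη i a ha ⟨_, hsecη1 i a ha⟩ rfl) (hβ n r hr ρ hρ) hrc (u' / u) (by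
      rw [hρ, div_pow, div_mul_eq_mul_div, mul_left_comm, mul_div_assoc, mul_div_assoc]
      have h2 : u ^ n * (u' ^ n * φ' r / u ^ n) = u' ^ n * φ' r := by
        have := pow_ne_zero n hu
        field_simp
      have h3 : u' ^ n * φ' r ∈ V := hV' _ (mem_Sec.1 (h'.mp.sec n r hr)).2
      convert h3 using 1
      have := pow_ne_zero n hu
      field_simp)
    have h2 := mul_mem h1 (hV' _ hinv)
    have h3 : (u' / u) ^ i * (u ^ i * v * η' a) * (u' ^ i * v' * η' a)⁻¹ = v * v'⁻¹ := by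
      have := pow_ne_zero i hu
      have := pow_ne_zero i hu'
      have := h'.v_ne
      rw [div_pow]
      field_simp
    rwa [h3] at h2

end main

end Vale.Agent.P292.Dv
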