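import Mathlib

/-! # P292 part III, LF4: the last coordinate avoids the other points of the fibre. -/

set_option linter.all false

namespace Vale.Agent.P292.Dv

universe u v

theorem lf_adjoin_sub {k : Type u} [Field k] {R : Type v} [CommRing R] [Algebra k R]
    (y : R →ₐ[k] k) {s : ℕ} (x : Fin s → R) (hx : ∀ i, y (x i) = 0) {b : R}
    (hb : b ∈ Algebra.adjoin k (Set.range x)) :
    b - algebraMap k R (y b) ∈ Ideal.span (Set.range x) := by
  induction hb using Algebra.adjoin_induction with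
  | mem b hb =>
    obtain ⟨i, rfl⟩ := hb
    rw [hx i, map_zero, sub_zero]
    exact Ideal.subset_span ⟨i, rfl⟩
  | algebraMap c => simp
  | add a b _ _ ha hb =>
    rw [map_add, map_add]
    have := Ideal.add_mem _ ha hb
    convert this using 1
    ring
  | mul a b _ _ ha hb =>
    rw [map_mul, map_mul]
    have h1 := Ideal.mul_mem_right b _ ha
    have h2 := Ideal.mul_mem_left _ (algebraMap k R (y a)) hb
    have := Ideal.add_mem _ h1 h2
    convert this using 1
    ring

theorem lf_quot_finite {k : Type u} [Field k] {R : Type v} [CommRing R] [Algebra k R]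
    (y : R →ₐ[k] k) (𝔭 : Ideal R) {s : ℕ} (x : Fin s → R)
    (hx : ∀ i, y (x i) = 0)
    (hfin : ∃ F : Finset R, Submodule.span ↥(Algebra.adjoin k (Set.range x)) (F : Set R) ⊔
      𝔭.restrictScalars ↥(Algebra.adjoin k (Set.range x)) = ⊤) :
    Module.Finite k (R ⧸ (𝔭 ⊔ Ideal.span (Set.range x))) := by
  obtain ⟨F, hF⟩ := hfin
  set I := 𝔭 ⊔ Ideal.span (Set.range x) with hI
  have key : ∀ r ∈ Submodule.span ↥(Algebra.adjoin k (Set.range x)) (F : Set R),
      Ideal.Quotient.mk I r ∈ Submodule.span k (Ideal.Quotient.mk I '' (F : Set R)) := by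
    intro r hr
    induction hr using Submodule.span_induction with
    | mem r hr => exact Submodule.subset_span ⟨r, hr, rfl⟩
    | zero => rw [map_zero]; exact Submodule.zero_mem _
    | add a b _ _ ha hb => rw [map_add]; exact Submodule.add_mem _ ha hb
    | smul b m _ hm =>
      have h1 : (b : R) - algebraMap k R (y b) ∈ I :=
        (le_sup_right : Ideal.span (Set.range x) ≤ I) (lf_adjoin_sub y x hx b.2)
      have h2 : Ideal.Quotient.mk I (b • m) = (y (b : R)) • Ideal.Quotient.mk I m := by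
        rw [Algebra.smul_def (y (b : R)) (Ideal.Quotient.mk I m)]
        have h3 : b • m = (b : R) * m := rfl
        rw [h3, map_mul]
        congr 1
        exact (Ideal.Quotient.eq.2 h1)
      rw [h2]
      exact Submodule.smul_mem _ _ hm
  refine ⟨⟨(F.finite_toSet.image (Ideal.Quotient.mk I)).toFinset, ?_⟩⟩
  rw [Set.Finite.coe_toFinset, eq_top_iff]
  rintro r -
  obtain ⟨r, rfl⟩ := Ideal.Quotient.mk_surjective r
  have hr : r ∈ Submodule.span ↥(Algebra.adjoin k (Set.range x)) (F : Set R) ⊔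
      𝔭.restrictScalars ↥(Algebra.adjoin k (Set.range x)) := by
    rw [hF]; trivial
  obtain ⟨a, ha, b, hb, rfl⟩ := Submodule.mem_sup.1 hr
  have hb' : b ∈ 𝔭 := hb
  have : Ideal.Quotient.mk I (a + b) = Ideal.Quotient.mk I a := by
    rw [map_add, Ideal.Quotient.eq_zero_iff_mem.2 ((le_sup_left : 𝔭 ≤ I) hb'), add_zero]
  rw [this]
  exact key a ha

/-- LF4: the last coordinate avoids the other points of the fibre. -/
theorem lf_avoid {k : Type u} [Field k] {R : Type v} [CommRing R] [Algebra k R]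
    (y : R →ₐ[k] k) (𝔭 : Ideal R) (hy : ∀ p ∈ 𝔭, y p = 0) {s : ℕ} (x : Fin s → R)
    (hx : ∀ i, y (x i) = 0)
    (hfin : ∃ F : Finset R, Submodule.span ↥(Algebra.adjoin k (Set.range x)) (F : Set R) ⊔
      𝔭.restrictScalars ↥(Algebra.adjoin k (Set.range x)) = ⊤)
    (l : R) (hl : y l = 0) :
    ∃ t : R, y t = 0 ∧ t - l ∈ RingHom.ker y ^ 2 ∧
      ∀ 𝔮 : Ideal R, 𝔮.IsPrime → 𝔭 ≤ 𝔮 → t ∈ 𝔮 → (∀ i, x i ∈ 𝔮) → 𝔮 = RingHom.ker y := by
  classical
  set I := 𝔭 ⊔ Ideal.span (Set.range x) with hI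
  have hfd : Module.Finite k (R ⧸ I) := lf_quot_finite y 𝔭 x hx hfin
  have hart : IsArtinianRing (R ⧸ I) := IsArtinianRing.of_finite k (R ⧸ I)
  have hmax : (RingHom.ker y).IsMaximal :=
    RingHom.ker_isMaximal_of_surjective y (fun c => ⟨algebraMap k R c, by simp⟩)
  -- primes over `I`
  have hT : {𝔮 : Ideal R | 𝔮.IsPrime ∧ I ≤ 𝔮}.Finite := by
    have : Finite (PrimeSpectrum (R ⧸ I)) := inferInstance
    have h2 : (Set.range fun P : PrimeSpectrum (R ⧸ I) => P.asIdeal.comap (Ideal.Quotient.mk I)).Finite :=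
      Set.finite_range _
    refine h2.subset ?_
    rintro 𝔮 ⟨hq, hIq⟩
    have hprime : (𝔮.map (Ideal.Quotient.mk I)).IsPrime :=
      Ideal.map_isPrime_of_surjective Ideal.Quotient.mk_surjective (by rwa [Ideal.mk_ker])
    refine ⟨⟨_, hprime⟩, ?_⟩
    show (𝔮.map (Ideal.Quotient.mk I)).comap (Ideal.Quotient.mk I) = 𝔮
    rw [Ideal.comap_map_of_surjective _ Ideal.Quotient.mk_surjective]
    rw [← RingHom.ker_eq_comap_bot, Ideal.mk_ker]
    exact sup_eq_left.2 hIq
  have hTmax : ∀ 𝔮 ∈ {𝔮 : Ideal R | 𝔮.IsPrime ∧ I ≤ 𝔮}, 𝔮.IsMaximal := by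
    rintro 𝔮 ⟨hq, hIq⟩
    have hprime : (𝔮.map (Ideal.Quotient.mk I)).IsPrime :=
      Ideal.map_isPrime_of_surjective Ideal.Quotient.mk_surjective (by rwa [Ideal.mk_ker])
    have hm : (𝔮.map (Ideal.Quotient.mk I)).IsMaximal := IsArtinianRing.isMaximal_of_isPrime _
    have := Ideal.comap_isMaximal_of_surjective (Ideal.Quotient.mk I) Ideal.Quotient.mk_surjective
      (K := 𝔮.map (Ideal.Quotient.mk I))
    rwa [Ideal.comap_map_of_surjective _ Ideal.Quotient.mk_surjective,
      ← RingHom.ker_eq_comap_bot, Ideal.mk_ker, sup_eq_left.2 hIq] at this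
  let J : Ideal R → Ideal R := fun 𝔮 => if 𝔮 = RingHom.ker y then RingHom.ker y ^ 2 else 𝔮
  let g : Ideal R → R := fun 𝔮 => if 𝔮 = RingHom.ker y then l else 1
  have hcop : Pairwise (Function.onFun IsCoprime
      fun a : ↥(insert (RingHom.ker y : Ideal R) hT.toFinset) => J a.1) := by
    rintro ⟨a, ha⟩ ⟨b, hb⟩ hab
    have hab : a ≠ b := fun h => hab (Subtype.ext h)
    show IsCoprime (J a) (J b)
    have ha' : a.IsMaximal := by
      rw [Finset.mem_insert, Set.Finite.mem_toFinset] at ha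
      rcases ha with rfl | ha
      · exact hmax
      · exact hTmax a ha
    have hb' : b.IsMaximal := by
      rw [Finset.mem_insert, Set.Finite.mem_toFinset] at hb
      rcases hb with rfl | hb
      · exact hmax
      · exact hTmax b hb
    have hc : IsCoprime a b := Ideal.isCoprime_of_isMaximal hab
    simp only [J]
    split_ifs with h1 h2 h2
    · exact absurd (h1.trans h2.symm) hab
    · rw [← h1]; exact hc.pow_left
    · rw [← h2]; exact hc.pow_right
    · exact hc
  obtain ⟨t, ht⟩ := Ideal.exists_forall_sub_mem_ideal hcop (fun a => g a.1)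
  have h0 : t - l ∈ RingHom.ker y ^ 2 := by
    have := ht ⟨RingHom.ker y, Finset.mem_insert_self _ _⟩
    simpa [J, g] using this
  refine ⟨t, ?_, h0, ?_⟩
  · have : t - l ∈ RingHom.ker y := Ideal.pow_le_self two_ne_zero h0
    rw [RingHom.mem_ker, map_sub, hl, sub_zero] at this
    exact this
  · intro 𝔮 hq h𝔭 htq hxq
    by_contra hne
    have hmem : 𝔮 ∈ insert (RingHom.ker y : Ideal R) hT.toFinset := by
      rw [Finset.mem_insert]
      right
      rw [Set.Finite.mem_toFinset]
      refine ⟨hq, ?_⟩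
      rw [hI, sup_le_iff]
      refine ⟨h𝔭, ?_⟩
      rw [Ideal.span_le]
      rintro _ ⟨i, rfl⟩
      exact hxq i
    have := ht ⟨𝔮, hmem⟩
    simp only [J, g, if_neg hne] at this
    have h1 : (1 : R) ∈ 𝔮 := by
      have := Ideal.sub_mem _ htq this
      simpa using this
    exact hq.ne_top ((Ideal.eq_top_iff_one _).2 h1)

end Vale.Agent.P292.Dv
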