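import Vale.Agent.P292.Bn.N16

/-! # P292: coordinates at a non-vertex point. -/

namespace Vale.Agent.P292.Dv

open MvPolynomial Vale.Agent.P292

universe u v

variable {R : Type u} [CommRing R] [Algebra ℂ R] {𝒜 : ℕ → Submodule ℂ R} [GradedAlgebra 𝒜]
  {P : R →ₗ[ℂ] R →ₗ[ℂ] R}

/-- LF7a: coordinates at a non-vertex point. -/
theorem lf_coord (hX : IsContactFano 𝒜 P) [IsDomain R] (y : R →ₐ[ℂ] ℂ) (hy : ¬ IsVertex 𝒜 y) :
    ∃ l : Fin (cdim R) → R, (∀ i, y (l i) = 0) ∧
      ∀ r, y r = 0 → ∃ a : Fin (cdim R) → ℂ, r - ∑ i, a i • l i ∈ RingHom.ker y ^ 2 := by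
  classical
  have hnv : IsNV 𝒜 y := by
    unfold IsVertex at hy
    push Not at hy
    exact hy
  obtain ⟨x, hx, -⟩ := fr_exists_coord hX y hnv
  have hyc : ∀ c : ℂ, y (algebraMap ℂ R c) = c := fun c => by
    rw [AlgHom.commutes, Algebra.algebraMap_self, RingHom.id_apply]
  refine ⟨fun i => x i - algebraMap ℂ R (y (x i)), fun i => by
    rw [map_sub, hyc, sub_self], ?_⟩
  set l : Fin (cdim R) → R := fun i => x i - algebraMap ℂ R (y (x i)) with hl
  let W : Submodule ℂ R := Submodule.span ℂ (Set.range l) ⊔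
    (RingHom.ker y ^ 2).restrictScalars ℂ
  intro r hr
  by_cases hrW : r ∈ W
  · obtain ⟨a, ha, b, hb, hab⟩ := Submodule.mem_sup.1 hrW
    obtain ⟨c, hc⟩ := (Submodule.mem_span_range_iff_exists_fun ℂ).1 ha
    refine ⟨c, ?_⟩
    rw [hc, ← hab, add_sub_cancel_left]
    exact hb
  · exfalso
    obtain ⟨f, hf, hfW⟩ := Submodule.exists_le_ker_of_notMem hrW
    let δ : R →ₗ[ℂ] ℂ :=
      { toFun := fun s => f (s - algebraMap ℂ R (y s))
        map_add' := fun a b => by
          rw [← map_add, map_add y, map_add]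
          congr 1
          ring
        map_smul' := fun c a => by
          rw [RingHom.id_apply, ← map_smul, map_smul y, smul_sub, smul_eq_mul, map_mul,
            Algebra.smul_def c (algebraMap ℂ R (y a))] }
    have hδa : ∀ s, δ s = f (s - algebraMap ℂ R (y s)) := fun s => rfl
    have hm : ∀ s, s - algebraMap ℂ R (y s) ∈ RingHom.ker y := fun s => by
      rw [RingHom.mem_ker, map_sub, hyc, sub_self]
    have hδ : IsDer y δ := by
      intro a b
      have e : a * b - algebraMap ℂ R (y (a * b)) =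
          y a • (b - algebraMap ℂ R (y b)) + y b • (a - algebraMap ℂ R (y a)) +
            (a - algebraMap ℂ R (y a)) * (b - algebraMap ℂ R (y b)) := by
        rw [map_mul, map_mul, Algebra.smul_def, Algebra.smul_def]
        ring
      have h2 : f ((a - algebraMap ℂ R (y a)) * (b - algebraMap ℂ R (y b))) = 0 := by
        refine hfW (Submodule.mem_sup_right ?_)
        change _ ∈ RingHom.ker y ^ 2
        rw [sq]
        exact Ideal.mul_mem_mul (hm a) (hm b)
      rw [hδa, e, map_add, map_add, map_smul, map_smul, h2, add_zero, hδa, hδa, smul_eq_mul,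
        smul_eq_mul]
    have h0 : δ = 0 := hx δ hδ fun i =>
      hfW (Submodule.mem_sup_left (Submodule.subset_span ⟨i, rfl⟩))
    apply hf
    have h1 : δ r = 0 := by rw [h0]; rfl
    rw [hδa, hr, map_zero, sub_zero] at h1
    exact h1

end Vale.Agent.P292.Dv
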