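import Mathlib

/-! # P292, local principality of prime divisors: the core. -/

namespace Vale.Agent.P292.Dv

open MvPolynomial

universe u v

/-- LF1: local principality from coordinates. -/
theorem lf_core {k : Type u} [Field k] {R : Type v} [CommRing R] [Algebra k R] [IsNoetherianRing R]
    (y : R →ₐ[k] k) (𝔭 : Ideal R) (hy : ∀ p ∈ 𝔭, y p = 0) {s : ℕ} (x : Fin s → R) (t : R)
    (hx : ∀ i, y (x i) = 0) (ht : y t = 0)
    (h1 : ∃ c, y c ≠ 0 ∧ ∀ r, y r = 0 → c * r ∈ Ideal.span (insert t (Set.range x)))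
    (h2 : ∀ r : R, ∃ s₀ ∈ Algebra.adjoin k (insert t (Set.range x)), y s₀ ≠ 0 ∧
      ∃ a ∈ Algebra.adjoin k (insert t (Set.range x)), s₀ * r - a ∈ 𝔭)
    (h3 : ∃ G ∈ 𝔭, ∀ a ∈ Algebra.adjoin k (insert t (Set.range x)), a ∈ 𝔭 → ∃ c, a = G * c) :
    ∃ a ∈ 𝔭, ∃ b, y b ≠ 0 ∧ ∀ p ∈ 𝔭, ∃ r, b * p = a * r := by
  classical
  obtain ⟨c, hc, hcr⟩ := h1
  obtain ⟨G, hG, hGa⟩ := h3
  set A := Algebra.adjoin k (insert t (Set.range x)) with hA
  obtain ⟨𝔪, h𝔪⟩ : ∃ 𝔪 : Ideal R, 𝔪 = RingHom.ker y := ⟨_, rfl⟩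
  have hm : ∀ r, r ∈ 𝔪 ↔ y r = 0 := fun r => by rw [h𝔪, RingHom.mem_ker]
  have hmp : 𝔪 * 𝔭 ≤ 𝔭 := Ideal.mul_le_right
  have hxA : ∀ i, x i ∈ A := fun i => Algebra.subset_adjoin (Or.inr ⟨i, rfl⟩)
  have htA : t ∈ A := Algebra.subset_adjoin (Or.inl rfl)
  have hgen : ∀ z ∈ insert t (Set.range x), z ∈ A ∧ y z = 0 := by
    rintro z (rfl | ⟨i, rfl⟩)
    · exact ⟨htA, ht⟩
    · exact ⟨hxA i, hx i⟩
  -- every element of the span is, up to a multiplier, in `A + 𝔪 𝔭`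
  have key : ∀ z ∈ Ideal.span (insert t (Set.range x)), ∃ s₀ ∈ A, y s₀ ≠ 0 ∧ ∃ a ∈ A,
      y a = 0 ∧ s₀ * z - a ∈ 𝔪 * 𝔭 := by
    intro z hz
    refine Submodule.span_induction (p := fun z _ => ∃ s₀ ∈ A, y s₀ ≠ 0 ∧ ∃ a ∈ A,
      y a = 0 ∧ s₀ * z - a ∈ 𝔪 * 𝔭) ?_ ?_ ?_ ?_ hz
    · intro z hz
      exact ⟨1, one_mem _, by rw [map_one]; exact one_ne_zero, z, (hgen z hz).1, (hgen z hz).2, by
          rw [one_mul, sub_self]; exact zero_mem _⟩
    · exact ⟨1, one_mem _, by rw [map_one]; exact one_ne_zero, 0, zero_mem _, map_zero _, by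
        rw [mul_zero, sub_self]; exact zero_mem _⟩
    · rintro z z' - - ⟨s₀, hs, hs0, a, ha, ha0, h⟩ ⟨s₁, hs', hs0', a', ha', ha0', h'⟩
      refine ⟨s₀ * s₁, mul_mem hs hs', by rw [map_mul]; exact mul_ne_zero hs0 hs0',
        s₁ * a + s₀ * a', add_mem (mul_mem hs' ha) (mul_mem hs ha'), by
          rw [map_add, map_mul, map_mul, ha0, ha0', mul_zero, mul_zero, add_zero], ?_⟩
      have e : s₀ * s₁ * (z + z') - (s₁ * a + s₀ * a') =
          s₁ * (s₀ * z - a) + s₀ * (s₁ * z' - a') := by ring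
      rw [e]
      exact add_mem (Ideal.mul_mem_left _ _ h) (Ideal.mul_mem_left _ _ h')
    · rintro r z - ⟨s₀, hs, hs0, a, ha, ha0, h⟩
      obtain ⟨s₁, hs', hs0', a', ha', h'⟩ := h2 r
      refine ⟨s₀ * s₁, mul_mem hs hs', by rw [map_mul]; exact mul_ne_zero hs0 hs0',
        a * a', mul_mem ha ha', by rw [map_mul, ha0, zero_mul], ?_⟩
      have e : s₀ * s₁ * (r • z) - a * a' =
          (s₁ * r) * (s₀ * z - a) + a * (s₁ * r - a') := by rw [smul_eq_mul]; ring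
      rw [e]
      exact add_mem (Ideal.mul_mem_left _ _ h) (Ideal.mul_mem_mul ((hm a).2 ha0) h')
  -- hence `𝔭 ≤ (G) + 𝔪 𝔭`
  have hle : 𝔭 ≤ Ideal.span {G} ⊔ 𝔪 • 𝔭 := by
    intro p hp
    obtain ⟨s₀, hs, hs0, a, ha, ha0, h⟩ := key _ (hcr p (hy p hp))
    have hap : a ∈ 𝔭 := by
      have h4 : s₀ * (c * p) - (s₀ * (c * p) - a) ∈ 𝔭 :=
        𝔭.sub_mem (𝔭.mul_mem_left _ (𝔭.mul_mem_left _ hp)) (hmp h)
      rwa [sub_sub_cancel] at h4
    obtain ⟨c', hc'⟩ := hGa a ha hap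
    have hu : y (s₀ * c) ≠ 0 := by rw [map_mul]; exact mul_ne_zero hs0 hc
    obtain ⟨u, hu'⟩ : ∃ u : R, u = algebraMap k R (y (s₀ * c))⁻¹ := ⟨_, rfl⟩
    have hyu : y (1 - u * (s₀ * c)) = 0 := by
      rw [map_sub, map_one, map_mul, hu', AlgHom.commutes]
      rw [Algebra.algebraMap_self, RingHom.id_apply, inv_mul_cancel₀ hu, sub_self]
    have e : p = u * (G * c') + (u * (s₀ * (c * p) - a) + (1 - u * (s₀ * c)) * p) := by
      rw [← hc']; ring
    rw [e]
    refine add_mem (Submodule.mem_sup_left ?_) (Submodule.mem_sup_right (add_mem ?_ ?_))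
    · exact Ideal.mul_mem_left _ _ (Ideal.mul_mem_right _ _ (Ideal.mem_span_singleton_self G))
    · rw [smul_eq_mul]
      exact Ideal.mul_mem_left _ _ h
    · rw [smul_eq_mul]
      exact Ideal.mul_mem_mul ((hm _).2 hyu) hp
  obtain ⟨r, hr1, hr⟩ := Submodule.exists_sub_one_mem_and_smul_le_of_fg_of_le_sup
    (IsNoetherian.noetherian 𝔭) le_rfl hle
  refine ⟨G, hG, r, ?_, fun p hp => ?_⟩
  · have h4 := (hm _).1 hr1
    rw [map_sub, map_one, sub_eq_zero] at h4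
    rw [h4]
    exact one_ne_zero
  · have h4 : r * p ∈ Ideal.span {G} := hr (Submodule.smul_mem_pointwise_smul _ _ _ hp)
    obtain ⟨d, hd⟩ := Ideal.mem_span_singleton.1 h4
    exact ⟨d, hd⟩

/-- LF2: the fibre is one reduced point, so locally `R = A + 𝔭`. -/
theorem lf_fibre {k : Type u} [Field k] {R : Type v} [CommRing R] [Algebra k R]
    (y : R →ₐ[k] k) (𝔭 : Ideal R) (hy : ∀ p ∈ 𝔭, y p = 0) {s : ℕ} (x : Fin s → R) (t : R)
    (hx : ∀ i, y (x i) = 0) (ht : y t = 0)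
    (h1 : ∃ c, y c ≠ 0 ∧ ∀ r, y r = 0 → c * r ∈ Ideal.span (insert t (Set.range x)))
    (hfin : ∃ F : Finset R, Submodule.span ↥(Algebra.adjoin k (insert t (Set.range x))) (F : Set R) ⊔
      𝔭.restrictScalars ↥(Algebra.adjoin k (insert t (Set.range x))) = ⊤)
    (hV : ∀ 𝔮 : Ideal R, 𝔮.IsPrime → 𝔭 ≤ 𝔮 → t ∈ 𝔮 → (∀ i, x i ∈ 𝔮) → 𝔮 = RingHom.ker y) :
    ∀ r : R, ∃ s₀ ∈ Algebra.adjoin k (insert t (Set.range x)), y s₀ ≠ 0 ∧
      ∃ a ∈ Algebra.adjoin k (insert t (Set.range x)), s₀ * r - a ∈ 𝔭 := by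
  classical
  obtain ⟨c, hc, hcr⟩ := h1
  obtain ⟨F, hF⟩ := hfin
  set A := Algebra.adjoin k (insert t (Set.range x)) with hA
  set X : Ideal R := Ideal.span (insert t (Set.range x)) with hX
  have hXt : t ∈ X := Ideal.subset_span (Or.inl rfl)
  have hXx : ∀ i, x i ∈ X := fun i => Ideal.subset_span (Or.inr ⟨i, rfl⟩)
  -- `ker y ≤ X + 𝔭`
  have hker : ∀ r, y r = 0 → r ∈ X ⊔ 𝔭 := by
    have htop : X ⊔ 𝔭 ⊔ Ideal.span {c} = ⊤ := by
      by_contra hne
      obtain ⟨𝔫, h𝔫, hle⟩ := Ideal.exists_le_maximal _ hne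
      have h4 : 𝔫 = RingHom.ker y := hV 𝔫 h𝔫.isPrime
        ((le_sup_right.trans le_sup_left).trans hle)
        (hle (Submodule.mem_sup_left (Submodule.mem_sup_left hXt)))
        (fun i => hle (Submodule.mem_sup_left (Submodule.mem_sup_left (hXx i))))
      have h5 : c ∈ 𝔫 := hle (Submodule.mem_sup_right (Ideal.mem_span_singleton_self c))
      rw [h4, RingHom.mem_ker] at h5
      exact hc h5
    intro r hr
    have h4 : (1 : R) ∈ X ⊔ 𝔭 ⊔ Ideal.span {c} := by rw [htop]; trivial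
    obtain ⟨j, hj, d, hd, hjd⟩ := Submodule.mem_sup.1 h4
    obtain ⟨e, rfl⟩ := Ideal.mem_span_singleton.1 hd
    have e1 : r = r * j + e * (c * r) := by
      linear_combination (-r) * hjd
    rw [e1]
    exact add_mem (Ideal.mul_mem_left _ _ hj)
      (Ideal.mul_mem_left _ _ (Submodule.mem_sup_left (hcr r hr)))
  -- the ideal of `A`
  let 𝔞 : Ideal A := RingHom.ker (y.comp A.val)
  have h𝔞 : ∀ a : A, a ∈ 𝔞 ↔ y (a : R) = 0 := fun a => Iff.rfl
  -- the module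
  let N : Submodule A R := Submodule.span A {1} ⊔ 𝔭.restrictScalars A
  have hXN : ∀ z ∈ X, z ∈ 𝔞 • (⊤ : Submodule A R) := by
    intro z hz
    refine Submodule.span_induction (p := fun z _ => z ∈ 𝔞 • (⊤ : Submodule A R)) ?_ ?_ ?_ ?_ hz
    · intro z hz
      have hzA : z ∈ A := Algebra.subset_adjoin hz
      have hz0 : y z = 0 := by
        rcases hz with rfl | ⟨i, rfl⟩
        · exact ht
        · exact hx i
      have h4 := Submodule.smul_mem_smul (I := 𝔞) (N := (⊤ : Submodule A R))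
          (r := ⟨z, hzA⟩) (n := 1) hz0 trivial
      have e : (⟨z, hzA⟩ : A) • (1 : R) = z := by
        rw [Subalgebra.smul_def, smul_eq_mul, mul_one]
      rwa [e] at h4
    · exact zero_mem _
    · intro a b _ _ ha hb
      exact add_mem ha hb
    · intro r z _ hz
      refine Submodule.smul_induction_on hz ?_ ?_
      · intro a ha n _
        have e : r • (a • n) = a • (r * n) := by
          rw [Subalgebra.smul_def, Subalgebra.smul_def, smul_eq_mul, smul_eq_mul, smul_eq_mul]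
          ring
        rw [e]
        exact Submodule.smul_mem_smul ha trivial
      · intro a b ha hb
        rw [smul_add]
        exact add_mem ha hb
  have hN1 : (1 : R) ∈ N := Submodule.mem_sup_left (Submodule.subset_span rfl)
  have hNp : ∀ p ∈ 𝔭, p ∈ N := fun p hp => Submodule.mem_sup_right hp
  have hle : (⊤ : Submodule A R) ≤ N ⊔ 𝔞 • Submodule.span A (F : Set R) := by
    intro r _
    -- `r = y r + (r - y r)`
    have h4 : r - algebraMap k R (y r) ∈ X ⊔ 𝔭 := hker _ (by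
      rw [map_sub, AlgHom.commutes, Algebra.algebraMap_self, RingHom.id_apply, sub_self])
    obtain ⟨z, hz, p, hp, hzp⟩ := Submodule.mem_sup.1 h4
    have e : r = (algebraMap k R (y r) + p) + z := by
      linear_combination -hzp
    rw [e]
    refine add_mem (Submodule.mem_sup_left (add_mem ?_ (hNp p hp))) ?_
    · refine Submodule.mem_sup_left (Submodule.mem_span_singleton.2 ⟨algebraMap k A (y r), ?_⟩)
      rw [Subalgebra.smul_def, smul_eq_mul, mul_one]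
      rfl
    · have h5 := hXN z hz
      rw [← hF] at h5
      refine Submodule.smul_induction_on h5 ?_ ?_
      · intro a ha n hn
        obtain ⟨f, hf, q, hq, rfl⟩ := Submodule.mem_sup.1 hn
        rw [smul_add]
        refine add_mem (Submodule.mem_sup_right (Submodule.smul_mem_smul ha hf))
          (Submodule.mem_sup_left (hNp _ ?_))
        rw [Subalgebra.smul_def, smul_eq_mul]
        exact 𝔭.mul_mem_left _ hq
      · intro a b ha hb
        exact add_mem ha hb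
  obtain ⟨s₀, hs1, hs⟩ := Submodule.exists_sub_one_mem_and_smul_le_of_fg_of_le_sup
    (N := N) (N' := Submodule.span A (F : Set R)) (P := ⊤) ⟨F, rfl⟩ le_top hle
  intro r
  have h4 : s₀ • r ∈ N := hs (Submodule.smul_mem_pointwise_smul _ _ _ trivial)
  obtain ⟨a, ha, p, hp, hap⟩ := Submodule.mem_sup.1 h4
  obtain ⟨a', rfl⟩ := Submodule.mem_span_singleton.1 ha
  refine ⟨s₀, s₀.2, ?_, a', a'.2, ?_⟩
  · have h5 : y ((s₀ : R) - 1) = 0 := hs1
    rw [map_sub, map_one, sub_eq_zero] at h5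
    rw [h5]
    exact one_ne_zero
  · rw [Subalgebra.smul_def, Subalgebra.smul_def, smul_eq_mul, smul_eq_mul, mul_one] at hap
    rw [← hap, add_sub_cancel_left]
    exact hp

end Vale.Agent.P292.Dv
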