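import Vale.Agent.P292.Bn.N16

/-! # A prime divisor of the cone has codimension one. -/

namespace Vale.Agent.P292.Dv

open Polynomial Vale.Agent.P292

universe u v

section alg

variable {R : Type u} [CommRing R] [Algebra ℂ R]

/-- A nonzero element of a prime is algebraically independent from lifts of elements which are
independent modulo the prime. -/
theorem lfd_independent [IsDomain R] (𝔭 : Ideal R) [𝔭.IsPrime] {s : ℕ} (x : Fin s → R)
    (hind : AlgebraicIndependent ℂ fun i => Ideal.Quotient.mk 𝔭 (x i)) {π : R} (hπ : π ∈ 𝔭)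
    (hπ0 : π ≠ 0) : AlgebraicIndependent ℂ fun o : Option (Fin s) => o.elim π x := by
  have hx : AlgebraicIndependent ℂ x := by
    have h1 : AlgebraicIndependent ℂ ((Ideal.Quotient.mkₐ ℂ 𝔭) ∘ x) := hind
    exact AlgebraicIndependent.of_comp _ h1
  rw [AlgebraicIndependent.option_iff_transcendental hx]
  have hinjq : ∀ a ∈ Algebra.adjoin ℂ (Set.range x), a ∈ 𝔭 → a = 0 := by
    intro a ha hap
    rw [Algebra.adjoin_range_eq_range_aeval] at ha
    obtain ⟨F, rfl⟩ := ha
    have h1 : MvPolynomial.aeval (fun i => Ideal.Quotient.mk 𝔭 (x i)) F = 0 := by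
      have h2 : MvPolynomial.aeval (fun i => Ideal.Quotient.mkₐ ℂ 𝔭 (x i)) F =
        Ideal.Quotient.mkₐ ℂ 𝔭 (MvPolynomial.aeval x F) :=
        (MvPolynomial.comp_aeval_apply (f := x) (Ideal.Quotient.mkₐ ℂ 𝔭) F).symm
      have h3 : Ideal.Quotient.mkₐ ℂ 𝔭 (MvPolynomial.aeval x F) = 0 :=
        Ideal.Quotient.eq_zero_iff_mem.2 hap
      rw [← h2] at h3
      exact h3
    have h4 : F = 0 := (injective_iff_map_eq_zero _).1 hind F h1
    rw [h4]
    exact map_zero _
  intro halg
  obtain ⟨p, hp, hp0⟩ := halg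
  obtain ⟨q, hq, hqd⟩ := Polynomial.exists_eq_pow_rootMultiplicity_mul_and_not_dvd p hp 0
  rw [C_0, sub_zero] at hq hqd
  rw [hq, map_mul, map_pow, aeval_X, mul_eq_zero] at hp0
  have h1 : aeval π q = 0 := hp0.resolve_left (pow_ne_zero _ hπ0)
  apply hqd
  rw [X_dvd_iff]
  have h2 : ((q.coeff 0 : Algebra.adjoin ℂ (Set.range x)) : R) ∈ 𝔭 := by
    have h3 : aeval π q = aeval π (divX q) * π + ((q.coeff 0 : Algebra.adjoin ℂ (Set.range x)) : R) := by
      conv_lhs => rw [← divX_mul_X_add q]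
      rw [map_add, map_mul, aeval_X, aeval_C]
      rfl
    rw [h1] at h3
    have h4 : ((q.coeff 0 : Algebra.adjoin ℂ (Set.range x)) : R) = - (aeval π (divX q) * π) := by
      linear_combination -h3
    rw [h4]
    exact neg_mem (𝔭.mul_mem_left _ hπ)
  exact Subtype.ext (hinjq _ (q.coeff 0).2 h2)

/-- A derivation of a domain which is integral over a subalgebra is determined by its
restriction to the subalgebra. -/
theorem lfd_derivation_eq_zero {S : Type v} [CommRing S] [IsDomain S] [Algebra ℂ S] {E : Type v}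
    [Field E] [Algebra ℂ E] (ι : S →ₐ[ℂ] E) (hι : Function.Injective ι) (B : Subalgebra ℂ S)
    (hB : ∀ r : S, IsIntegral B r) (δ : S →ₗ[ℂ] E)
    (hδ : ∀ r s, δ (r * s) = ι r * δ s + ι s * δ r) (h0 : ∀ b ∈ B, δ b = 0) : δ = 0 := by
  classical
  ext r
  rw [LinearMap.zero_apply]
  have hex : ∃ n : ℕ, ∃ f : B[X], f ≠ 0 ∧ aeval r f = 0 ∧ f.natDegree = n := by
    obtain ⟨f, hf, hfr⟩ := hB r
    exact ⟨_, f, hf.ne_zero, hfr, rfl⟩
  obtain ⟨f, hf0, hfr, hfn⟩ := Nat.find_spec hex
  have hmin : ∀ g : B[X], g ≠ 0 → aeval r g = 0 → f.natDegree ≤ g.natDegree := by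
    intro g hg hgr
    rw [hfn]
    exact Nat.find_min' hex ⟨g, hg, hgr, rfl⟩
  have hchar : CharZero S := charZero_of_injective_algebraMap (algebraMap ℂ S).injective
  have hcharB : CharZero B := ⟨fun a b h => by
    have := congrArg (B.val) h
    simpa using this⟩
  -- the derivative does not vanish at `r`
  have hpos : 0 < f.natDegree := by
    by_contra h
    have h1 : f.natDegree = 0 := by omega
    rw [Polynomial.eq_C_of_natDegree_eq_zero h1, aeval_C] at hfr
    have h2 : f.coeff 0 = 0 := Subtype.ext hfr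
    apply hf0
    rw [Polynomial.eq_C_of_natDegree_eq_zero h1, h2, C_0]
  have hder : aeval r (derivative f) ≠ 0 := by
    intro h
    have h1 : derivative f ≠ 0 := by
      intro h2
      have := Polynomial.derivative_eq_zero.1 h2
      omega
    have h2 := hmin _ h1 h
    have h3 := Polynomial.natDegree_derivative_lt (p := f) (by omega)
    omega
  -- chain rule
  have h1 : δ 1 = 0 := by
    have := hδ 1 1
    rw [mul_one, map_one ι, one_mul] at this
    linear_combination -this
  have hpow : ∀ n : ℕ, δ (r ^ n) = (n : E) * ι r ^ (n - 1) * δ r := by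
    intro n
    induction n with
    | zero => rw [pow_zero, h1]; simp
    | succ n ih =>
      rw [pow_succ, hδ, ih, map_pow]
      rcases Nat.eq_zero_or_pos n with rfl | hn
      · simp
      · obtain ⟨m, rfl⟩ : ∃ m, n = m + 1 := ⟨n - 1, by omega⟩
        simp only [Nat.add_sub_cancel]
        push_cast
        ring
  have hchain : ∀ g : B[X], δ (aeval r g) = ι (aeval r (derivative g)) * δ r := by
    intro g
    induction g using Polynomial.induction_on' with
    | add p q hp hq => rw [map_add, map_add, hp, hq, derivative_add, map_add, map_add]; ring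
    | monomial n b =>
      rw [aeval_monomial, derivative_monomial, aeval_monomial, hδ, hpow, map_mul, map_pow, map_mul,
        map_mul]
      have h2 : δ (algebraMap B S b) = 0 := h0 _ b.2
      rw [h2, map_natCast, map_natCast, map_pow]
      ring
  have h2 := hchain f
  rw [hfr, map_zero] at h2
  rcases mul_eq_zero.1 h2.symm with h3 | h3
  · exact absurd ((map_eq_zero_iff ι hι).1 h3) hder
  · exact h3

end alg

variable {R : Type u} [CommRing R] [Algebra ℂ R] {𝒜 : ℕ → Submodule ℂ R} [GradedAlgebra 𝒜]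
  {P : R →ₗ[ℂ] R →ₗ[ℂ] R}

/-- A uniformiser. -/
theorem lfd_exists_uniformiser {R : Type u} [CommRing R] [IsDomain R] (𝔭 : Ideal R) [𝔭.IsPrime]
    (hdvr : IsDiscreteValuationRing (Localization.AtPrime 𝔭)) :
    ∃ ϖ ∈ 𝔭, ϖ ≠ 0 ∧ ∀ p ∈ 𝔭, ∃ b, b ∉ 𝔭 ∧ ∃ r, b * p = ϖ * r := by
  obtain ⟨ω, hω⟩ := IsDiscreteValuationRing.exists_irreducible (Localization.AtPrime 𝔭)
  have hmax := hω.maximalIdeal_eq
  obtain ⟨⟨a, s⟩, hs⟩ := IsLocalization.surj 𝔭.primeCompl ω
  dsimp at hs
  have hinj : Function.Injective (algebraMap R (Localization.AtPrime 𝔭)) :=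
    IsLocalization.injective _ 𝔭.primeCompl_le_nonZeroDivisors
  have hsu : IsUnit (algebraMap R (Localization.AtPrime 𝔭) s) :=
    IsLocalization.map_units _ s
  refine ⟨a, ?_, ?_, ?_⟩
  · rw [← IsLocalization.AtPrime.to_map_mem_maximal_iff (Localization.AtPrime 𝔭) 𝔭, hmax, ← hs]
    exact Ideal.mul_mem_right _ _ (Ideal.mem_span_singleton_self _)
  · rintro rfl
    rw [map_zero] at hs
    rcases mul_eq_zero.1 hs with h | h
    · exact hω.ne_zero h
    · exact hsu.ne_zero h
  · intro p hp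
    rw [← IsLocalization.AtPrime.to_map_mem_maximal_iff (Localization.AtPrime 𝔭) 𝔭, hmax,
      Ideal.mem_span_singleton'] at hp
    obtain ⟨c, hc⟩ := hp
    obtain ⟨⟨r, t⟩, ht⟩ := IsLocalization.surj 𝔭.primeCompl c
    dsimp at ht
    refine ⟨s * t, fun h => (s * t).2 (by simpa using h), r, ?_⟩
    apply hinj
    rw [map_mul, map_mul, map_mul, ← hc, ← ht, ← hs]
    ring

/-- LF6: a prime divisor has codimension one. -/
theorem lf_dim (hX : IsContactFano 𝒜 P) [IsDomain R] (𝔭 : Ideal R) [𝔭.IsPrime]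
    (hdvr : IsDiscreteValuationRing (Localization.AtPrime 𝔭))
    (hnv : ∃ k, 0 < k ∧ ∃ r ∈ 𝒜 k, r ∉ 𝔭) {s : ℕ} (z : Fin s → R ⧸ 𝔭)
    (hind : AlgebraicIndependent ℂ z)
    (hz : ∀ r : R ⧸ 𝔭, IsIntegral ↥(Algebra.adjoin ℂ (Set.range z)) r) : s + 1 = cdim R := by
  classical
  have := hX.finiteType
  have hsurj := Ideal.Quotient.mk_surjective (I := 𝔭)
  choose x hx using fun i => hsurj (z i)
  obtain ⟨ϖ, hϖ, hϖ0, hunif⟩ := lfd_exists_uniformiser 𝔭 hdvr
  refine le_antisymm ?_ ?_
  · have h1 : AlgebraicIndependent ℂ fun i => Ideal.Quotient.mk 𝔭 (x i) := by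
      simpa only [hx] using hind
    have h2 := lfd_independent 𝔭 x h1 hϖ hϖ0
    let e : Fin (s + 1) ≃ Option (Fin s) := finSuccEquiv s
    exact le_cdim_of_algebraicIndependent (h2.comp e e.injective)
  · let E := FractionRing (R ⧸ 𝔭)
    let ι : R ⧸ 𝔭 →ₐ[ℂ] E := IsScalarTower.toAlgHom ℂ _ _
    have hι : Function.Injective ι := IsFractionRing.injective (R ⧸ 𝔭) E
    let ρ : R →ₐ[ℂ] E := ι.comp (Ideal.Quotient.mkₐ ℂ 𝔭)
    have hρ : ∀ r, ρ r = 0 ↔ r ∈ 𝔭 := by
      intro r
      change ι (Ideal.Quotient.mk 𝔭 r) = 0 ↔ _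
      rw [map_eq_zero_iff ι hι, Ideal.Quotient.eq_zero_iff_mem]
    have hNV : IsNV 𝒜 ρ := by
      obtain ⟨k, hk, r, hr, hrp⟩ := hnv
      exact ⟨k, hk, r, hr, fun h => hrp ((hρ r).1 h)⟩
    obtain ⟨y, -, hy⟩ := fr_exists_coord hX ρ hNV
    have := dim_finite_DerAt ρ
    let T : DerAt ρ →ₗ[E] (Option (Fin s) → E) :=
      { toFun := fun δ o => δ.1 (o.elim ϖ x)
        map_add' := fun _ _ => rfl
        map_smul' := fun _ _ => rfl }
    have hT : Function.Injective T := by
      rw [injective_iff_map_eq_zero]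
      intro δ hδ
      have hd : IsDer ρ δ.1 := δ.2
      have hδϖ : δ.1 ϖ = 0 := congrFun hδ none
      have hδx : ∀ i, δ.1 (x i) = 0 := fun i => congrFun hδ (some i)
      have hδp : ∀ p ∈ 𝔭, δ.1 p = 0 := by
        intro p hp
        obtain ⟨b, hb, r, hr⟩ := hunif p hp
        have h1 := congrArg δ.1 hr
        rw [hd, hd, hδϖ, (hρ p).2 hp, (hρ ϖ).2 hϖ, zero_mul, zero_mul, mul_zero, add_zero,
          add_zero] at h1
        exact (mul_eq_zero.1 h1).resolve_left fun h => hb ((hρ b).1 h)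
      let δ' : R ⧸ 𝔭 →ₗ[ℂ] E :=
        (𝔭.restrictScalars ℂ).liftQ δ.1 (fun p hp => hδp p hp)
      have hδ' : ∀ r, δ' (Ideal.Quotient.mk 𝔭 r) = δ.1 r := fun r => rfl
      have hleib : ∀ a b, δ' (a * b) = ι a * δ' b + ι b * δ' a := by
        intro a b
        obtain ⟨a, rfl⟩ := hsurj a
        obtain ⟨b, rfl⟩ := hsurj b
        rw [← map_mul, hδ', hδ', hδ', hd]
        rfl
      have h0 : ∀ b ∈ Algebra.adjoin ℂ (Set.range z), δ' b = 0 := by
        intro b hb
        induction hb using Algebra.adjoin_induction with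
        | mem a ha =>
          obtain ⟨i, rfl⟩ := ha
          rw [← hx, hδ', hδx]
        | algebraMap c =>
          have h1 : δ' 1 = 0 := by
            have := hleib 1 1
            rw [mul_one, map_one ι, one_mul] at this
            linear_combination -this
          rw [Algebra.algebraMap_eq_smul_one, map_smul, h1, smul_zero]
        | add a b _ _ ha hb => rw [map_add, ha, hb, add_zero]
        | mul a b _ _ ha hb => rw [hleib, ha, hb, mul_zero, mul_zero, add_zero]
      have h1 := lfd_derivation_eq_zero ι hι (Algebra.adjoin ℂ (Set.range z)) hz δ' hleib h0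
      apply Subtype.ext
      ext r
      rw [← hδ', h1]
      rfl
    have h1 := LinearMap.finrank_le_finrank_of_injective hT
    rw [Module.finrank_fintype_fun_eq_card, Fintype.card_option, Fintype.card_fin] at h1
    refine le_trans ?_ h1
    let T' : DerAt ρ →ₗ[E] (Fin (cdim R) → E) :=
      { toFun := fun δ i => δ.1 (y i)
        map_add' := fun _ _ => rfl
        map_smul' := fun _ _ => rfl }
    have hT' : Function.Surjective T' := by
      intro b
      obtain ⟨δ, hδ, hb⟩ := hy b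
      exact ⟨⟨δ, hδ⟩, funext hb⟩
    have h2 := LinearMap.finrank_le_finrank_of_surjective hT'
    rwa [Module.finrank_fin_fun] at h2

end Vale.Agent.P292.Dv
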