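import Mathlib

/-! # P292 Part III, block LF: LF3, change of Noether parameters -/

namespace Vale.Agent.P292.Dv

universe u v

/-- monomials of bounded degree times generators -/
def lf3Mon {S : Type v} [CommRing S] {s : ℕ} (z : Fin s → S) (F : Finset S) (d : ℕ) : Set S :=
  {x | ∃ γ : Fin s → ℕ, ∑ i, γ i ≤ d ∧ ∃ w ∈ F, x = (∏ i, z i ^ γ i) * w}

theorem lf3Mon_mono {S : Type v} [CommRing S] {s : ℕ} (z : Fin s → S) (F : Finset S) {d e : ℕ}
    (h : d ≤ e) : lf3Mon z F d ⊆ lf3Mon z F e := by
  rintro x ⟨γ, hγ, w, hw, rfl⟩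
  exact ⟨γ, hγ.trans h, w, hw, rfl⟩

theorem lf3_mul_var {k : Type u} [Field k] {S : Type v} [CommRing S] [Algebra k S] {s : ℕ}
    (z : Fin s → S) (F : Finset S) (i : Fin s) (d : ℕ) :
    ∀ x ∈ Submodule.span k (lf3Mon z F d), z i * x ∈ Submodule.span k (lf3Mon z F (d + 1)) := by
  classical
  intro x hx
  refine Submodule.span_induction
    (p := fun x _ => z i * x ∈ Submodule.span k (lf3Mon z F (d + 1))) ?_ ?_ ?_ ?_ hx
  · rintro x ⟨γ, hγ, w, hw, rfl⟩
    refine Submodule.subset_span ⟨γ + Pi.single i 1, ?_, w, hw, ?_⟩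
    · have h1 : ∑ j, (γ + (Pi.single i 1 : Fin s → ℕ)) j = ∑ j, γ j + 1 := by
        simp only [Pi.add_apply, Finset.sum_add_distrib]
        rw [Finset.sum_pi_single']
        simp
      rw [h1]
      omega
    · simp only [Pi.add_apply, pow_add, Finset.prod_mul_distrib]
      have h2 : ∏ j, z j ^ (Pi.single i 1 : Fin s → ℕ) j = z i := by
        rw [Finset.prod_eq_single i]
        · simp
        · intro j _ hj
          rw [Pi.single_eq_of_ne hj, pow_zero]
        · intro h
          exact absurd (Finset.mem_univ i) h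
      rw [h2]
      ring
  · simp
  · intro a b _ _ ha hb
    rw [mul_add]; exact Submodule.add_mem _ ha hb
  · intro c a _ ha
    rw [mul_smul_comm]; exact Submodule.smul_mem _ _ ha

theorem lf3_mul_adjoin {k : Type u} [Field k] {S : Type v} [CommRing S] [Algebra k S] {s : ℕ}
    (z : Fin s → S) (F : Finset S) (a : S) (ha : a ∈ Algebra.adjoin k (Set.range z)) :
    ∀ d : ℕ, ∃ e : ℕ, ∀ x ∈ Submodule.span k (lf3Mon z F d),
      a * x ∈ Submodule.span k (lf3Mon z F e) := by
  refine Algebra.adjoin_induction (p := fun a _ => ∀ d : ℕ, ∃ e : ℕ,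
    ∀ x ∈ Submodule.span k (lf3Mon z F d), a * x ∈ Submodule.span k (lf3Mon z F e)) ?_ ?_ ?_ ?_ ha
  · rintro x ⟨i, rfl⟩ d
    exact ⟨d + 1, lf3_mul_var z F i d⟩
  · intro r d
    refine ⟨d, fun x hx => ?_⟩
    rw [← Algebra.smul_def]
    exact Submodule.smul_mem _ _ hx
  · intro a b _ _ ha hb d
    obtain ⟨e1, h1⟩ := ha d
    obtain ⟨e2, h2⟩ := hb d
    refine ⟨max e1 e2, fun x hx => ?_⟩
    rw [add_mul]
    exact Submodule.add_mem _
      (Submodule.span_mono (lf3Mon_mono z F (le_max_left _ _)) (h1 x hx))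
      (Submodule.span_mono (lf3Mon_mono z F (le_max_right _ _)) (h2 x hx))
  · intro a b _ _ ha hb d
    obtain ⟨e1, h1⟩ := hb d
    obtain ⟨e2, h2⟩ := ha e1
    refine ⟨e2, fun x hx => ?_⟩
    rw [mul_assoc]
    exact h2 _ (h1 x hx)

theorem lf3_exists_deg {k : Type u} [Field k] {S : Type v} [CommRing S] [Algebra k S] {s : ℕ}
    (z : Fin s → S) (F : Finset S)
    (hF : Submodule.span ↥(Algebra.adjoin k (Set.range z)) (F : Set S) = ⊤) (x : S) :
    ∃ d : ℕ, x ∈ Submodule.span k (lf3Mon z F d) := by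
  have hx : x ∈ Submodule.span ↥(Algebra.adjoin k (Set.range z)) (F : Set S) := by
    rw [hF]; trivial
  refine Submodule.span_induction
    (p := fun x _ => ∃ d : ℕ, x ∈ Submodule.span k (lf3Mon z F d)) ?_ ?_ ?_ ?_ hx
  · intro w hw
    exact ⟨0, Submodule.subset_span ⟨0, by simp, w, hw, by simp⟩⟩
  · exact ⟨0, Submodule.zero_mem _⟩
  · rintro a b _ _ ⟨d, hd⟩ ⟨e, he⟩
    exact ⟨max d e, Submodule.add_mem _
      (Submodule.span_mono (lf3Mon_mono z F (le_max_left _ _)) hd)
      (Submodule.span_mono (lf3Mon_mono z F (le_max_right _ _)) he)⟩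
  · rintro ⟨a, ha⟩ b _ ⟨d, hd⟩
    obtain ⟨e, he⟩ := lf3_mul_adjoin z F a ha d
    exact ⟨e, he b hd⟩

/-- LF3: Noether parameters `z` can be replaced by `z i ^ M + l i`, `M` large. -/
theorem lf_finite {k : Type u} [Field k] {S : Type v} [CommRing S] [Algebra k S] {s : ℕ}
    (z : Fin s → S) (hz : ∃ F : Finset S,
      Submodule.span ↥(Algebra.adjoin k (Set.range z)) (F : Set S) = ⊤) (l : Fin s → S) :
    ∃ M : ℕ, 2 ≤ M ∧ ∃ F : Finset S,
      Submodule.span ↥(Algebra.adjoin k (Set.range fun i => z i ^ M + l i)) (F : Set S) = ⊤ := by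
  classical
  obtain ⟨F, hF⟩ := hz
  choose dg hdg using fun (i : Fin s) (w : S) => lf3_exists_deg z F hF (l i * w)
  set e : ℕ := ∑ i, ∑ w ∈ F, dg i w with he
  have hle : ∀ i, ∀ w ∈ F, dg i w ≤ e := by
    intro i w hw
    calc dg i w ≤ ∑ w ∈ F, dg i w := Finset.single_le_sum (fun _ _ => Nat.zero_le _) hw
      _ ≤ e := Finset.single_le_sum (f := fun i => ∑ w ∈ F, dg i w)
        (fun _ _ => Nat.zero_le _) (Finset.mem_univ i)
  set M : ℕ := e + 2 with hM
  set B := Algebra.adjoin k (Set.range fun i => z i ^ M + l i) with hB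
  set G : Finset S := Finset.image (fun q : (Fin s → Fin M) × S => (∏ i, z i ^ (q.1 i : ℕ)) * q.2)
    ((Finset.univ : Finset (Fin s → Fin M)) ×ˢ F) with hG
  refine ⟨M, by omega, G, ?_⟩
  set Nn : Submodule B S := Submodule.span B (G : Set S) with hNn
  have hmem : ∀ d : ℕ, ∀ γ : Fin s → ℕ, ∑ i, γ i = d → ∀ w ∈ F, (∏ i, z i ^ γ i) * w ∈ Nn := by
    intro d
    induction d using Nat.strong_induction_on with
    | _ d ih =>
      intro γ hγ w hw
      by_cases hall : ∀ i, γ i < M
      · refine Submodule.subset_span ?_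
        rw [hG, Finset.mem_coe, Finset.mem_image]
        exact ⟨(fun i => ⟨γ i, hall i⟩, w), Finset.mem_product.2 ⟨Finset.mem_univ _, hw⟩, rfl⟩
      · push Not at hall
        obtain ⟨i, hi⟩ := hall
        -- `γ = γ' + M e_i`
        set γ' : Fin s → ℕ := Function.update γ i (γ i - M) with hγ'
        have hsum : ∑ j, γ' j + M = d := by
          rw [← hγ, hγ', Finset.sum_update_of_mem (Finset.mem_univ i),
            ← Finset.add_sum_erase Finset.univ γ (Finset.mem_univ i), Finset.sdiff_singleton_eq_erase]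
          omega
        have hprod : (∏ j, z j ^ γ j) = (∏ j, z j ^ γ' j) * z i ^ M := by
          rw [← Finset.mul_prod_erase Finset.univ (fun j => z j ^ γ j) (Finset.mem_univ i),
            ← Finset.mul_prod_erase Finset.univ (fun j => z j ^ γ' j) (Finset.mem_univ i)]
          have h1 : ∏ j ∈ Finset.univ.erase i, z j ^ γ' j
              = ∏ j ∈ Finset.univ.erase i, z j ^ γ j := by
            refine Finset.prod_congr rfl fun j hj => ?_
            rw [hγ', Function.update_of_ne (Finset.ne_of_mem_erase hj)]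
          rw [h1]
          have h2 : z i ^ γ i = z i ^ γ' i * z i ^ M := by
            rw [hγ', Function.update_self, ← pow_add, Nat.sub_add_cancel hi]
          rw [h2]
          ring
        have hexp : (∏ j, z j ^ γ j) * w
            = (⟨z i ^ M + l i, Algebra.subset_adjoin ⟨i, rfl⟩⟩ : B) • ((∏ j, z j ^ γ' j) * w)
              - (∏ j, z j ^ γ' j) * (l i * w) := by
          rw [hprod]
          change _ = (z i ^ M + l i) * _ - _
          ring
        rw [hexp]
        have hlt : ∑ j, γ' j < d := by omega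
        refine Submodule.sub_mem _ (Submodule.smul_mem _ _ (ih _ hlt γ' rfl w hw)) ?_
        -- the second term
        have hspan : l i * w ∈ Submodule.span k (lf3Mon z F e) :=
          Submodule.span_mono (lf3Mon_mono z F (hle i w hw)) (hdg i w)
        refine Submodule.span_induction (p := fun x _ => (∏ j, z j ^ γ' j) * x ∈ Nn)
          ?_ ?_ ?_ ?_ hspan
        · rintro x ⟨δ, hδ, w', hw', rfl⟩
          have h3 : (∏ j, z j ^ γ' j) * ((∏ j, z j ^ δ j) * w')
              = (∏ j, z j ^ (γ' j + δ j)) * w' := by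
            simp only [pow_add, Finset.prod_mul_distrib]
            ring
          rw [h3]
          have h4 : ∑ j, (γ' j + δ j) < d := by
            rw [Finset.sum_add_distrib]
            omega
          exact ih _ h4 (fun j => γ' j + δ j) rfl w' hw'
        · rw [mul_zero]; exact Submodule.zero_mem _
        · intro a b _ _ ha hb
          rw [mul_add]; exact Submodule.add_mem _ ha hb
        · intro c a _ ha
          rw [mul_smul_comm]
          exact Submodule.smul_of_tower_mem _ c ha
  rw [Submodule.eq_top_iff']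
  intro x
  obtain ⟨d, hd⟩ := lf3_exists_deg z F hF x
  refine Submodule.span_induction (p := fun x _ => x ∈ Nn) ?_ ?_ ?_ ?_ hd
  · rintro x ⟨δ, hδ, w', hw', rfl⟩
    exact hmem _ δ rfl w' hw'
  · exact Submodule.zero_mem _
  · intro a b _ _ ha hb
    exact Submodule.add_mem _ ha hb
  · intro c a _ ha
    exact Submodule.smul_of_tower_mem _ c ha

end Vale.Agent.P292.Dv
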