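import Mathlib

namespace Vale.Agent.P292.Dv

open DirectSum

universe u v

/-- LF8: homogeneous version of local principality. `a = ∑ a_i`, `b a_i = a r_i`; if some
`y r_i ≠ 0` then `a_i` generates near `y`, otherwise `𝔭` vanishes near `y`; the ideal `(a') : 𝔭`
is homogeneous. -/
theorem lf_homog {k : Type u} [Field k] {R : Type v} [CommRing R] [Algebra k R]
    [IsNoetherianRing R] {𝒜 : ℕ → Submodule k R} [GradedAlgebra 𝒜] (𝔭 : Ideal R)
    (hh : 𝔭.IsHomogeneous 𝒜) (y : R →ₐ[k] k)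
    (h : ∃ a ∈ 𝔭, ∃ b, y b ≠ 0 ∧ ∀ p ∈ 𝔭, ∃ r, b * p = a * r) :
    ∃ i, ∃ a ∈ 𝒜 i, a ∈ 𝔭 ∧ ∃ j, ∃ b ∈ 𝒜 j, y b ≠ 0 ∧ ∀ p ∈ 𝔭, ∃ r, b * p = a * r := by
  classical
  obtain ⟨a, ha, b, hb, hab⟩ := h
  -- a homogeneous generator near `y`
  have step1 : ∃ i, ∃ a' ∈ 𝒜 i, a' ∈ 𝔭 ∧ ∃ b', y b' ≠ 0 ∧ ∀ p ∈ 𝔭, ∃ r, b' * p = a' * r := by
    have h1 : ∀ i, ∃ r, b * (decompose 𝒜 a i : R) = a * r := fun i => hab _ (hh i ha)
    choose r hr using h1
    have hsum : b * a = a * ∑ i ∈ (decompose 𝒜 a).support, r i := by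
      conv_lhs => rw [← sum_support_decompose 𝒜 a]
      rw [Finset.mul_sum, Finset.mul_sum]
      exact Finset.sum_congr rfl fun i _ => hr i
    by_cases hy : ∃ i ∈ (decompose 𝒜 a).support, y (r i) ≠ 0
    · obtain ⟨i, _, hi⟩ := hy
      refine ⟨i, decompose 𝒜 a i, (decompose 𝒜 a i).2, hh i ha, r i * b, ?_, ?_⟩
      · rw [map_mul]
        exact mul_ne_zero hi hb
      · intro p hp
        obtain ⟨s, hs⟩ := hab p hp
        refine ⟨b * s, ?_⟩
        calc r i * b * p = r i * (b * p) := by ring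
          _ = r i * (a * s) := by rw [hs]
          _ = (a * r i) * s := by ring
          _ = (b * (decompose 𝒜 a i : R)) * s := by rw [hr i]
          _ = (decompose 𝒜 a i : R) * (b * s) := by ring
    · push Not at hy
      have hu : y (b - ∑ i ∈ (decompose 𝒜 a).support, r i) ≠ 0 := by
        rw [map_sub, map_sum, Finset.sum_eq_zero hy, sub_zero]
        exact hb
      have hau : a * (b - ∑ i ∈ (decompose 𝒜 a).support, r i) = 0 := by
        rw [mul_sub, ← hsum]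
        ring
      refine ⟨0, 0, (𝒜 0).zero_mem, 𝔭.zero_mem,
        b * (b - ∑ i ∈ (decompose 𝒜 a).support, r i), ?_, ?_⟩
      · rw [map_mul]
        exact mul_ne_zero hb hu
      · intro p hp
        obtain ⟨s, hs⟩ := hab p hp
        refine ⟨0, ?_⟩
        calc b * (b - ∑ i ∈ (decompose 𝒜 a).support, r i) * p
            = (b * p) * (b - ∑ i ∈ (decompose 𝒜 a).support, r i) := by ring
          _ = (a * (b - ∑ i ∈ (decompose 𝒜 a).support, r i)) * s := by rw [hs]; ring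
          _ = 0 * 0 := by rw [hau]; ring
  obtain ⟨i, a', ha'i, ha'p, b', hb', hb'p⟩ := step1
  refine ⟨i, a', ha'i, ha'p, ?_⟩
  -- some homogeneous component of `b'` does not vanish at `y`
  have h2 : ∃ j, y (decompose 𝒜 b' j : R) ≠ 0 := by
    by_contra hcon
    push Not at hcon
    apply hb'
    rw [← sum_support_decompose 𝒜 b', map_sum]
    exact Finset.sum_eq_zero fun j _ => hcon j
  obtain ⟨j, hj⟩ := h2
  refine ⟨j, decompose 𝒜 b' j, (decompose 𝒜 b' j).2, hj, ?_⟩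
  have hI : (Ideal.span {a'} : Ideal R).IsHomogeneous 𝒜 := by
    apply Ideal.homogeneous_span
    intro x hx
    rw [Set.mem_singleton_iff] at hx
    rw [hx]
    exact ⟨i, ha'i⟩
  have h3 : ∀ d, ∀ p ∈ 𝔭, p ∈ 𝒜 d → (decompose 𝒜 b' j : R) * p ∈ Ideal.span {a'} := by
    intro d p hp hpd
    have h4 : b' * p ∈ Ideal.span {a'} := by
      obtain ⟨s, hs⟩ := hb'p p hp
      rw [hs]
      exact Ideal.mul_mem_right _ _ (Ideal.mem_span_singleton_self a')
    have h5 := hI (j + d) h4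
    rwa [coe_decompose_mul_add_of_right_mem 𝒜 hpd] at h5
  intro p hp
  have h6 : (decompose 𝒜 b' j : R) * p ∈ Ideal.span {a'} := by
    have h7 : (decompose 𝒜 b' j : R) * p =
        ∑ d ∈ (decompose 𝒜 p).support, (decompose 𝒜 b' j : R) * (decompose 𝒜 p d : R) := by
      rw [← Finset.mul_sum, sum_support_decompose 𝒜 p]
    rw [h7]
    exact Ideal.sum_mem _ fun d _ => h3 d _ (hh d hp) (decompose 𝒜 p d).2
  obtain ⟨r, hr⟩ := Ideal.mem_span_singleton'.1 h6
  exact ⟨r, by rw [← hr]; ring⟩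

end Vale.Agent.P292.Dv
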