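import Mathlib

/-! # P292 part III, LF5: relations modulo `𝔭` are generated by one. -/

set_option linter.all false

namespace Vale.Agent.P292.Dv

open MvPolynomial

universe u v

/-- LF5: the relations between the coordinates modulo `𝔭` are generated by one of them (the
minimal polynomial of `t` over `k[x]`, which is integrally closed). -/
theorem lf_ker {k : Type u} [Field k] {R : Type v} [CommRing R] [Algebra k R] (𝔭 : Ideal R)
    [𝔭.IsPrime] {s : ℕ} (x : Fin s → R) (t : R)
    (hind : AlgebraicIndependent k fun i => Ideal.Quotient.mk 𝔭 (x i))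
    (hint : IsIntegral ↥(Algebra.adjoin k (Set.range fun i => Ideal.Quotient.mk 𝔭 (x i)))
      (Ideal.Quotient.mk 𝔭 t)) :
    ∃ G ∈ 𝔭, ∀ a ∈ Algebra.adjoin k (insert t (Set.range x)), a ∈ 𝔭 → ∃ c, a = G * c := by
  classical
  letI : Algebra (MvPolynomial (Fin s) k) R := (aeval x : MvPolynomial (Fin s) k →ₐ[k] R).toRingHom.toAlgebra
  have hal : ∀ f : MvPolynomial (Fin s) k, algebraMap (MvPolynomial (Fin s) k) R f = aeval x f :=
    fun f => rfl
  have hal' : ∀ f : MvPolynomial (Fin s) k, algebraMap (MvPolynomial (Fin s) k) (R ⧸ 𝔭) f =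
      aeval (fun i => Ideal.Quotient.mk 𝔭 (x i)) f := by
    intro f
    have h1 : algebraMap (MvPolynomial (Fin s) k) (R ⧸ 𝔭) f = Ideal.Quotient.mk 𝔭 (aeval x f) := rfl
    rw [h1]
    have h2 : Ideal.Quotient.mk 𝔭 (aeval x f) = (Ideal.Quotient.mkₐ k 𝔭) (aeval x f) := rfl
    rw [h2, ← AlgHom.comp_apply, comp_aeval]
    rfl
  have hinj : Function.Injective (algebraMap (MvPolynomial (Fin s) k) (R ⧸ 𝔭)) := by
    intro f g hfg
    rw [hal', hal'] at hfg
    exact hind hfg
  haveI : FaithfulSMul (MvPolynomial (Fin s) k) (R ⧸ 𝔭) :=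
    (faithfulSMul_iff_algebraMap_injective _ _).2 hinj
  have hI : IsIntegral (MvPolynomial (Fin s) k) (Ideal.Quotient.mk 𝔭 t) := by
    obtain ⟨p, hp, hpt⟩ := hint
    let φ : MvPolynomial (Fin s) k →+*
        ↥(Algebra.adjoin k (Set.range fun i => Ideal.Quotient.mk 𝔭 (x i))) :=
      ((aeval fun i => Ideal.Quotient.mk 𝔭 (x i) : MvPolynomial (Fin s) k →ₐ[k] R ⧸ 𝔭).codRestrict
        (Algebra.adjoin k (Set.range fun i => Ideal.Quotient.mk 𝔭 (x i))) (fun f => by
          rw [Algebra.adjoin_range_eq_range_aeval]; exact ⟨f, rfl⟩)).toRingHom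
    have hφ : ∀ f, ((φ f : ↥(Algebra.adjoin k (Set.range fun i => Ideal.Quotient.mk 𝔭 (x i)))) :
        R ⧸ 𝔭) = aeval (fun i => Ideal.Quotient.mk 𝔭 (x i)) f := fun f => rfl
    have hsurj : Function.Surjective φ := by
      rintro ⟨b, hb⟩
      have hb' := hb
      rw [Algebra.adjoin_range_eq_range_aeval] at hb'
      obtain ⟨f, hf⟩ := hb'
      exact ⟨f, Subtype.ext hf⟩
    have hlift : p ∈ Polynomial.lifts φ := by
      rw [Polynomial.lifts_iff_coeff_lifts]
      intro n
      exact hsurj _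
    obtain ⟨q, hq, -, hqm⟩ := Polynomial.lifts_and_degree_eq_and_monic hlift hp
    refine ⟨q, hqm, ?_⟩
    rw [← hq, Polynomial.eval₂_map] at hpt
    rw [← hpt]
    congr 1
    refine RingHom.ext fun f => ?_
    rw [hal']
    rfl
  have hm0 : Polynomial.aeval (Ideal.Quotient.mk 𝔭 t) (minpoly (MvPolynomial (Fin s) k) (Ideal.Quotient.mk 𝔭 t)) = 0 :=
    minpoly.aeval _ _
  have hev : ∀ q : Polynomial (MvPolynomial (Fin s) k),
      Polynomial.aeval (Ideal.Quotient.mk 𝔭 t) q = Ideal.Quotient.mk 𝔭 (Polynomial.aeval t q) := by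
    intro q
    have := Polynomial.aeval_algHom_apply (Ideal.Quotient.mkₐ (MvPolynomial (Fin s) k) 𝔭) t q
    exact this
  refine ⟨Polynomial.aeval t (minpoly (MvPolynomial (Fin s) k) (Ideal.Quotient.mk 𝔭 t)), ?_, ?_⟩
  · rw [← Ideal.Quotient.eq_zero_iff_mem, ← hev, hm0]
  · intro a ha hap
    have hrep : ∃ q : Polynomial (MvPolynomial (Fin s) k), Polynomial.aeval t q = a := by
      clear hap
      induction ha using Algebra.adjoin_induction with
      | mem b hb =>
        rcases hb with rfl | ⟨i, rfl⟩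
        · exact ⟨Polynomial.X, by simp⟩
        · refine ⟨Polynomial.C (X i), ?_⟩
          rw [Polynomial.aeval_C, hal, aeval_X]
      | algebraMap c =>
        refine ⟨Polynomial.C (C c), ?_⟩
        rw [Polynomial.aeval_C, hal, aeval_C]
      | add a b _ _ ha hb =>
        obtain ⟨p, rfl⟩ := ha
        obtain ⟨q, rfl⟩ := hb
        exact ⟨p + q, map_add _ _ _⟩
      | mul a b _ _ ha hb =>
        obtain ⟨p, rfl⟩ := ha
        obtain ⟨q, rfl⟩ := hb
        exact ⟨p * q, map_mul _ _ _⟩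
    obtain ⟨q, rfl⟩ := hrep
    have hq : Polynomial.aeval (Ideal.Quotient.mk 𝔭 t) q = 0 := by
      rw [hev]; exact Ideal.Quotient.eq_zero_iff_mem.2 hap
    obtain ⟨c, rfl⟩ := (minpoly.isIntegrallyClosed_dvd_iff hI q).1 hq
    exact ⟨Polynomial.aeval t c, map_mul _ _ _⟩

end Vale.Agent.P292.Dv
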