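import Vale.Agent.P292.D.LFCore
import Vale.Agent.P292.D.LFFin
import Vale.Agent.P292.D.LFDim
import Vale.Agent.P292.D.LFAvoid
import Vale.Agent.P292.D.LFKer
import Vale.Agent.P292.D.LFHom
import Vale.Agent.P292.D.LFCoord
import Vale.Agent.P292.Bn.N16

/-! # P292: prime divisors are locally principal away from the vertex. -/

namespace Vale.Agent.P292.Dv

open MvPolynomial Vale.Agent.P292

universe u v

variable {R : Type u} [CommRing R] [Algebra ℂ R] {𝒜 : ℕ → Submodule ℂ R} [GradedAlgebra 𝒜]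
  {P : R →ₗ[ℂ] R →ₗ[ℂ] R}

/-- Lifting generators from `R / 𝔭` to `R`. -/
theorem lf_lift {k : Type v} [Field k] {R : Type u} [CommRing R] [Algebra k R] (𝔭 : Ideal R)
    {s : ℕ} (x : Fin s → R) (F : Finset (R ⧸ 𝔭))
    (hF : Submodule.span ↥(Algebra.adjoin k (Set.range fun i => Ideal.Quotient.mk 𝔭 (x i)))
      (F : Set (R ⧸ 𝔭)) = ⊤) :
    ∃ F' : Finset R, Submodule.span ↥(Algebra.adjoin k (Set.range x)) (F' : Set R) ⊔
      𝔭.restrictScalars ↥(Algebra.adjoin k (Set.range x)) = ⊤ := by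
  classical
  choose g hg using Ideal.Quotient.mk_surjective (I := 𝔭)
  set A := Algebra.adjoin k (Set.range x) with hA
  have hB : ∀ b ∈ Algebra.adjoin k (Set.range fun i => Ideal.Quotient.mk 𝔭 (x i)),
      ∃ a ∈ A, Ideal.Quotient.mk 𝔭 a = b := by
    intro b hb
    have h1 : Algebra.adjoin k (Set.range fun i => Ideal.Quotient.mk 𝔭 (x i)) ≤
        A.map (Ideal.Quotient.mkₐ k 𝔭) := by
      rw [Algebra.adjoin_le_iff]
      rintro _ ⟨i, rfl⟩
      exact ⟨x i, Algebra.subset_adjoin ⟨i, rfl⟩, rfl⟩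
    exact h1 hb
  refine ⟨F.image g, ?_⟩
  rw [eq_top_iff]
  intro r _
  have key : ∀ b ∈ Submodule.span
      ↥(Algebra.adjoin k (Set.range fun i => Ideal.Quotient.mk 𝔭 (x i))) (F : Set (R ⧸ 𝔭)),
      ∃ a ∈ Submodule.span A (↑(F.image g) : Set R), Ideal.Quotient.mk 𝔭 a = b := by
    intro b hb
    refine Submodule.span_induction (p := fun b _ =>
      ∃ a ∈ Submodule.span A (↑(F.image g) : Set R), Ideal.Quotient.mk 𝔭 a = b) ?_ ?_ ?_ ?_ hb
    · intro b hb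
      exact ⟨g b, Submodule.subset_span (by
        rw [Finset.coe_image]
        exact ⟨b, hb, rfl⟩), hg b⟩
    · exact ⟨0, zero_mem _, map_zero _⟩
    · rintro b b' - - ⟨a, ha, rfl⟩ ⟨a', ha', rfl⟩
      exact ⟨a + a', add_mem ha ha', map_add _ _ _⟩
    · rintro ⟨c, hc⟩ b - ⟨a, ha, rfl⟩
      obtain ⟨c', hc', rfl⟩ := hB c hc
      refine ⟨c' * a, ?_, ?_⟩
      · have h2 := Submodule.smul_mem _ (⟨c', hc'⟩ : A) ha
        rwa [Subalgebra.smul_def, smul_eq_mul] at h2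
      · rw [map_mul, Subalgebra.smul_def, smul_eq_mul]
  obtain ⟨a, ha, har⟩ := key (Ideal.Quotient.mk 𝔭 r) (by rw [hF]; trivial)
  have e : r = a + (r - a) := by ring
  rw [e]
  refine add_mem (Submodule.mem_sup_left ha) (Submodule.mem_sup_right ?_)
  have h3 : Ideal.Quotient.mk 𝔭 (r - a) = 0 := by rw [map_sub, har, sub_self]
  exact Ideal.Quotient.eq_zero_iff_mem.1 h3

/-- Enlarging the base ring. -/
theorem lf_enlarge {k : Type v} [Field k] {R : Type u} [CommRing R] [Algebra k R] (𝔭 : Ideal R)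
    {A B : Subalgebra k R} (hAB : A ≤ B) (F : Set R)
    (hF : Submodule.span ↥A F ⊔ 𝔭.restrictScalars ↥A = ⊤) :
    Submodule.span ↥B F ⊔ 𝔭.restrictScalars ↥B = ⊤ := by
  rw [eq_top_iff]
  intro r _
  have h1 : r ∈ Submodule.span ↥A F ⊔ 𝔭.restrictScalars ↥A := by rw [hF]; trivial
  obtain ⟨a, ha, p, hp, rfl⟩ := Submodule.mem_sup.1 h1
  refine add_mem (Submodule.mem_sup_left ?_) (Submodule.mem_sup_right hp)
  refine Submodule.span_induction (p := fun a _ => a ∈ Submodule.span ↥B F) ?_ ?_ ?_ ?_ ha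
  · exact fun a ha => Submodule.subset_span ha
  · exact zero_mem _
  · exact fun a b _ _ ha hb => add_mem ha hb
  · rintro ⟨c, hc⟩ a - ha
    exact Submodule.smul_mem _ (⟨c, hAB hc⟩ : B) ha

/-- the abstract form of LF7 -/
theorem lf_local_aux {k : Type v} [Field k] {R : Type u} [CommRing R] [Algebra k R]
    [Algebra.FiniteType k R] (y : R →ₐ[k] k) (𝔭 : Ideal R) [𝔭.IsPrime]
    (hy : ∀ p ∈ 𝔭, y p = 0) {s : ℕ} (z : Fin s → R ⧸ 𝔭)
    (hind : AlgebraicIndependent k z)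
    (hz : ∃ F : Finset (R ⧸ 𝔭), Submodule.span ↥(Algebra.adjoin k (Set.range z))
      (F : Set (R ⧸ 𝔭)) = ⊤)
    (l : Fin (s + 1) → R) (hl0 : ∀ i, y (l i) = 0)
    (hl : ∀ r, y r = 0 → ∃ a : Fin (s + 1) → k, r - ∑ i, a i • l i ∈ RingHom.ker y ^ 2) :
    ∃ a ∈ 𝔭, ∃ b, y b ≠ 0 ∧ ∀ p ∈ 𝔭, ∃ r, b * p = a * r := by
  classical
  have hnoeth : IsNoetherianRing R := Algebra.FiniteType.isNoetherianRing k R
  -- lift the parameters, vanishing at `y`
  have hlift : ∀ i, ∃ w : R, y w = 0 ∧ ∃ c : k,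
      z i = Ideal.Quotient.mk 𝔭 w + algebraMap k (R ⧸ 𝔭) c := by
    intro i
    obtain ⟨w, hw⟩ := Ideal.Quotient.mk_surjective (z i)
    refine ⟨w - algebraMap k R (y w), ?_, y w, ?_⟩
    · rw [map_sub, AlgHom.commutes, Algebra.algebraMap_self, RingHom.id_apply, sub_self]
    · rw [map_sub, hw]
      change z i = z i - algebraMap k (R ⧸ 𝔭) (y w) + _
      rw [sub_add_cancel]
  choose w hw0 c hwc using hlift
  set w' : Fin s → R ⧸ 𝔭 := fun i => Ideal.Quotient.mk 𝔭 (w i) with hw'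
  -- the adjoin of `w'` is the adjoin of `z`
  have hadj : Algebra.adjoin k (Set.range w') = Algebra.adjoin k (Set.range z) := by
    apply le_antisymm
    · rw [Algebra.adjoin_le_iff]
      rintro _ ⟨i, rfl⟩
      have e : w' i = z i - algebraMap k _ (c i) := by rw [hwc i, add_sub_cancel_right]
      rw [e]
      exact sub_mem (Algebra.subset_adjoin ⟨i, rfl⟩) (Subalgebra.algebraMap_mem _ _)
    · rw [Algebra.adjoin_le_iff]
      rintro _ ⟨i, rfl⟩
      rw [hwc i]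
      exact add_mem (Algebra.subset_adjoin ⟨i, rfl⟩) (Subalgebra.algebraMap_mem _ _)
  obtain ⟨M, hM, F, hF⟩ := lf_finite w' (by rw [hadj]; exact hz)
    (fun i => Ideal.Quotient.mk 𝔭 (l i.castSucc))
  -- the new parameters
  obtain ⟨x, hx⟩ : ∃ x : Fin s → R, ∀ i, x i = w i ^ M + l i.castSucc := ⟨_, fun i => rfl⟩
  have hx0 : ∀ i, y (x i) = 0 := fun i => by
    rw [hx, map_add, map_pow, hw0, hl0, add_zero, zero_pow (by omega)]
  have hxb : (fun i => w' i ^ M + Ideal.Quotient.mk 𝔭 (l i.castSucc)) =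
      fun i => Ideal.Quotient.mk 𝔭 (x i) := by
    funext i
    rw [hx, map_add, map_pow]
  rw [hxb] at hF
  have hfinite : Module.Finite ↥(Algebra.adjoin k (Set.range fun i => Ideal.Quotient.mk 𝔭 (x i)))
      (R ⧸ 𝔭) := ⟨⟨F, hF⟩⟩
  have hint : Algebra.IsIntegral
      ↥(Algebra.adjoin k (Set.range fun i => Ideal.Quotient.mk 𝔭 (x i))) (R ⧸ 𝔭) :=
    Algebra.IsIntegral.of_finite _ _
  have hind' : AlgebraicIndependent k fun i => Ideal.Quotient.mk 𝔭 (x i) :=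
    (Algebra.IsAlgebraic.isTranscendenceBasis_of_lift_le_trdeg_of_finite k
      (fun i => Ideal.Quotient.mk 𝔭 (x i)) hind.lift_cardinalMk_le_trdeg).1
  obtain ⟨F', hF'⟩ := lf_lift 𝔭 x F hF
  obtain ⟨t, ht0, htl, hV⟩ := lf_avoid y 𝔭 hy x hx0 ⟨F', hF'⟩ (l (Fin.last s)) (hl0 _)
  -- the coordinates generate the maximal ideal near `y`
  have hle : RingHom.ker y ≤ Ideal.span (insert t (Set.range x)) ⊔
      RingHom.ker y • RingHom.ker y := by
    have hlmem : ∀ i, l i ∈ Ideal.span (insert t (Set.range x)) ⊔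
        RingHom.ker y • RingHom.ker y := by
      intro i
      refine Fin.lastCases ?_ (fun i => ?_) i
      · have e : l (Fin.last s) = t - (t - l (Fin.last s)) := by ring
        rw [e]
        refine sub_mem (Submodule.mem_sup_left (Ideal.subset_span (Or.inl rfl)))
          (Submodule.mem_sup_right ?_)
        rw [smul_eq_mul, ← sq]
        exact htl
      · have e : l i.castSucc = x i - w i ^ M := by rw [hx]; ring
        rw [e]
        refine sub_mem (Submodule.mem_sup_left (Ideal.subset_span (Or.inr ⟨i, rfl⟩)))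
          (Submodule.mem_sup_right ?_)
        rw [smul_eq_mul, ← sq]
        exact Ideal.pow_le_pow_right hM (Ideal.pow_mem_pow (hw0 i) M)
    intro r hr
    obtain ⟨a, ha⟩ := hl r hr
    have e : r = (∑ i, a i • l i) + (r - ∑ i, a i • l i) := by ring
    rw [e]
    refine add_mem (sum_mem fun i _ => ?_) (Submodule.mem_sup_right ?_)
    · have e1 : a i • l i = algebraMap k R (a i) * l i := Algebra.smul_def _ _
      rw [e1]
      exact Ideal.mul_mem_left _ _ (hlmem i)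
    · rw [smul_eq_mul, ← sq]
      exact ha
  obtain ⟨c₁, hc1, hc2⟩ := Submodule.exists_sub_one_mem_and_smul_le_of_fg_of_le_sup
    (IsNoetherian.noetherian (RingHom.ker y)) le_rfl hle
  have h1 : ∃ c, y c ≠ 0 ∧ ∀ r, y r = 0 → c * r ∈ Ideal.span (insert t (Set.range x)) := by
    refine ⟨c₁, ?_, fun r hr => hc2 (Submodule.smul_mem_pointwise_smul _ _ _ hr)⟩
    have h4 : y (c₁ - 1) = 0 := hc1
    rw [map_sub, map_one, sub_eq_zero] at h4
    rw [h4]
    exact one_ne_zero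
  have hfin' : Submodule.span ↥(Algebra.adjoin k (insert t (Set.range x))) (F' : Set R) ⊔
      𝔭.restrictScalars ↥(Algebra.adjoin k (insert t (Set.range x))) = ⊤ :=
    lf_enlarge 𝔭 (Algebra.adjoin_mono (Set.subset_insert _ _)) _ hF'
  exact lf_core y 𝔭 hy x t hx0 ht0 h1
    (lf_fibre y 𝔭 hy x t hx0 ht0 h1 ⟨F', hfin'⟩ hV)
    (lf_ker 𝔭 x t hind' (hint.isIntegral _))

/-- LF7: prime divisors are locally principal away from the vertex. -/
theorem lf_local (hX : IsContactFano 𝒜 P) [IsDomain R] (𝔭 : Ideal R) [𝔭.IsPrime]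
    (hdvr : IsDiscreteValuationRing (Localization.AtPrime 𝔭)) (y : R →ₐ[ℂ] ℂ)
    (hy : ¬ IsVertex 𝒜 y) : ∃ a ∈ 𝔭, ∃ b, y b ≠ 0 ∧ ∀ p ∈ 𝔭, ∃ r, b * p = a * r := by
  classical
  have := hX.finiteType
  by_cases hyp : ∀ p ∈ 𝔭, y p = 0
  swap
  · push Not at hyp
    obtain ⟨a, ha, hya⟩ := hyp
    exact ⟨a, ha, a, hya, fun p _ => ⟨p, rfl⟩⟩
  obtain ⟨s, g, hginj, hgfin⟩ := exists_finite_inj_algHom_of_fg ℂ (R ⧸ 𝔭)
  set z : Fin s → R ⧸ 𝔭 := fun i => g (X i) with hz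
  have hgz : g = aeval z := by
    ext i
    rw [aeval_X]
  have hind : AlgebraicIndependent ℂ z := by
    rw [AlgebraicIndependent, ← hgz]
    exact hginj
  have hrange : Algebra.adjoin ℂ (Set.range z) = g.range := by
    rw [hgz, Algebra.adjoin_range_eq_range_aeval]
  have hfin : ∃ F : Finset (R ⧸ 𝔭), Submodule.span ↥(Algebra.adjoin ℂ (Set.range z))
      (F : Set (R ⧸ 𝔭)) = ⊤ := by
    let _ : Algebra (MvPolynomial (Fin s) ℂ) (R ⧸ 𝔭) := g.toRingHom.toAlgebra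
    have h1 : Module.Finite (MvPolynomial (Fin s) ℂ) (R ⧸ 𝔭) := hgfin
    obtain ⟨F, hF⟩ := h1.fg_top
    refine ⟨F, ?_⟩
    rw [eq_top_iff]
    intro b _
    have hb : b ∈ Submodule.span (MvPolynomial (Fin s) ℂ) (F : Set (R ⧸ 𝔭)) := by
      rw [hF]; trivial
    refine Submodule.span_induction (p := fun b _ => b ∈
      Submodule.span ↥(Algebra.adjoin ℂ (Set.range z)) (F : Set (R ⧸ 𝔭))) ?_ ?_ ?_ ?_ hb
    · exact fun a ha => Submodule.subset_span ha
    · exact zero_mem _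
    · exact fun a b _ _ ha hb => add_mem ha hb
    · intro c a _ ha
      have h2 : g c ∈ Algebra.adjoin ℂ (Set.range z) := by
        rw [hrange]
        exact ⟨c, rfl⟩
      exact Submodule.smul_mem _ (⟨g c, h2⟩ : ↥(Algebra.adjoin ℂ (Set.range z))) ha
  have hnv : ∃ k, 0 < k ∧ ∃ r ∈ 𝒜 k, r ∉ 𝔭 := by
    unfold IsVertex at hy
    push Not at hy
    obtain ⟨k, hk, r, hr, hyr⟩ := hy
    exact ⟨k, hk, r, hr, fun h => hyr (hyp r h)⟩
  have hdim : s + 1 = cdim R := lf_dim hX 𝔭 hdvr hnv z hind (by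
    obtain ⟨F, hF⟩ := hfin
    have hfinite : Module.Finite ↥(Algebra.adjoin ℂ (Set.range z)) (R ⧸ 𝔭) := ⟨⟨F, hF⟩⟩
    exact (Algebra.IsIntegral.of_finite _ _).isIntegral)
  obtain ⟨l, hl0, hl⟩ := lf_coord hX y hy
  refine lf_local_aux y 𝔭 hyp z hind hfin (fun i => l (Fin.cast hdim i)) (fun i => hl0 _) ?_
  intro r hr
  obtain ⟨a, ha⟩ := hl r hr
  refine ⟨fun i => a (Fin.cast hdim i), ?_⟩
  have e : ∑ i, a (Fin.cast hdim i) • l (Fin.cast hdim i) = ∑ i, a i • l i :=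
    Fintype.sum_equiv (finCongr hdim) _ _ fun i => rfl
  rw [e]
  exact ha

/-- Prime divisors are locally principal away from the vertex. -/
theorem isInv_of_dvr (hX : IsContactFano 𝒜 P) [IsDomain R] (𝔭 : Ideal R) [𝔭.IsPrime]
    (hdvr : IsDiscreteValuationRing (Localization.AtPrime 𝔭)) (hh : 𝔭.IsHomogeneous 𝒜)
    (y : R →ₐ[ℂ] ℂ) (hy : ¬ IsVertex 𝒜 y) :
    ∃ i, ∃ a ∈ 𝒜 i, a ∈ 𝔭 ∧ ∃ j, ∃ b ∈ 𝒜 j, y b ≠ 0 ∧ ∀ p ∈ 𝔭, ∃ r, b * p = a * r := by
  have := hX.finiteType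
  have : IsNoetherianRing R := Algebra.FiniteType.isNoetherianRing ℂ R
  exact lf_homog 𝔭 hh y (lf_local hX 𝔭 hdvr y hy)

end Vale.Agent.P292.Dv
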