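import Vale.Agent.P292.Bn.N10

/-! # P292, T2, Q2, part a: the two charts of the line. -/

namespace Vale.Agent.P292.Dv.LineQ2

open Polynomial Vale.Agent.P292.Mo

universe u

variable {k : Type u} [Field k]


theorem q2_aeval (p : k[X]) : aeval (RatFunc.X : RatFunc k) p = (algebraMap (Polynomial k) (RatFunc k)) p := by
  rw [← RatFunc.algebraMap_X, aeval_algebraMap_apply, aeval_X_left_apply]

theorem q2_ne {p : k[X]} (hp : p ≠ 0) : (algebraMap (Polynomial k) (RatFunc k)) p ≠ 0 := RatFunc.algebraMap_ne_zero hp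

theorem q2_transc : Transcendental k (RatFunc.X : RatFunc k) := by
  rw [transcendental_iff]
  intro p hp
  rw [q2_aeval] at hp
  by_contra h
  exact q2_ne h hp

theorem q2_finrank : Module.finrank (IntermediateField.adjoin k {(RatFunc.X : RatFunc k)})
    (RatFunc k) = 1 := by
  rw [RatFunc.adjoin_X]
  exact IntermediateField.finrank_top

theorem q2_fin : FiniteDimensional (IntermediateField.adjoin k {(RatFunc.X : RatFunc k)})
    (RatFunc k) := FiniteDimensional.of_finrank_pos (by rw [q2_finrank]; exact one_pos)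

theorem q2_sep : Algebra.IsSeparable (IntermediateField.adjoin k {(RatFunc.X : RatFunc k)})
    (RatFunc k) := by
  rw [RatFunc.adjoin_X]
  refine ⟨fun x => ?_⟩
  have h := isSeparable_algebraMap (F := (⊤ : IntermediateField k (RatFunc k))) (K := RatFunc k)
    (⟨x, IntermediateField.mem_top⟩ : (⊤ : IntermediateField k (RatFunc k)))
  exact h

theorem q2_int (B : Subalgebra k (RatFunc k)) (M : Submonoid k[X])
    (hB : ∀ b ∈ B, ∃ d ∈ M, ∃ p : k[X], (algebraMap (Polynomial k) (RatFunc k)) d * b = (algebraMap (Polynomial k) (RatFunc k)) p) {x : RatFunc k} (hx : x ∈ IC B) :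
    ∃ d ∈ M, ∃ p : k[X], (algebraMap (Polynomial k) (RatFunc k)) d * x = (algebraMap (Polynomial k) (RatFunc k)) p := by
  classical
  obtain ⟨f, hf, hfx⟩ := (hx : IsIntegral B x)
  set n := f.natDegree with hn
  have hB' : ∀ i, ∃ d ∈ M, ∃ p : k[X], (algebraMap (Polynomial k) (RatFunc k)) d * (f.coeff i : RatFunc k) = (algebraMap (Polynomial k) (RatFunc k)) p := fun i =>
    hB _ (f.coeff i).2
  choose D hDM P hP using hB'
  set d := ∏ i ∈ Finset.range n, D i with hd
  have hdM : d ∈ M := Submonoid.prod_mem _ fun i _ => hDM i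
  have hc : ∀ i, ∃ c : k[X], i ∈ Finset.range n → (algebraMap (Polynomial k) (RatFunc k)) d * (f.coeff i : RatFunc k) = (algebraMap (Polynomial k) (RatFunc k)) c := by
    intro i
    refine ⟨(∏ j ∈ (Finset.range n).erase i, D j) * P i, fun hi => ?_⟩
    rw [hd, ← Finset.mul_prod_erase _ _ hi, map_mul, map_mul, ← hP i]
    ring
  choose c hc using hc
  let h : Polynomial k[X] := X ^ n + ∑ i ∈ Finset.range n, C (d ^ (n - 1 - i) * c i) * X ^ i
  have hmon : h.Monic := by
    refine monic_X_pow_add ?_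
    refine (degree_sum_le _ _).trans_lt ((Finset.sup_lt_iff (WithBot.bot_lt_coe n)).2 ?_)
    intro i hi
    exact (degree_C_mul_X_pow_le _ _).trans_lt (Nat.cast_lt.2 (Finset.mem_range.1 hi))
  have h0 : eval₂ (algebraMap (Polynomial k) (RatFunc k)) ((algebraMap (Polynomial k) (RatFunc k)) d * x) h = 0 := by
    have h1 : eval₂ (algebraMap (Polynomial k) (RatFunc k)) ((algebraMap (Polynomial k) (RatFunc k)) d * x) h = (algebraMap (Polynomial k) (RatFunc k)) d ^ n * eval₂ (algebraMap B (RatFunc k)) x f := by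
      rw [eval₂_eq_sum_range (p := f), ← hn, Finset.sum_range_succ, hn, hf.coeff_natDegree, ← hn, map_one,
        one_mul, mul_add, Finset.mul_sum]
      simp only [h, eval₂_add, eval₂_pow, eval₂_X, eval₂_finsetSum, eval₂_mul, eval₂_C]
      rw [mul_pow, add_comm]
      congr 1
      refine Finset.sum_congr rfl fun i hi => ?_
      have h2 := hc i hi
      have hi' := Finset.mem_range.1 hi
      have h3 : n = (n - 1 - i) + 1 + i := by omega
      have h4 : algebraMap B (RatFunc k) (f.coeff i) = (f.coeff i : RatFunc k) := rfl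
      rw [map_mul, map_pow, ← h2, h4, mul_pow]
      conv_rhs => rw [h3, pow_add, pow_succ]
      ring
    rw [h1, hfx, mul_zero]
  have hint : IsIntegral k[X] ((algebraMap (Polynomial k) (RatFunc k)) d * x) := ⟨h, hmon, h0⟩
  obtain ⟨p, hp⟩ := IsIntegrallyClosed.isIntegral_iff.1 hint
  exact ⟨d, hdM, p, hp.symm⟩

/-- The first chart. -/
theorem q2_IC0 {g : k[X]} (hg : g ≠ 0) {x : RatFunc k} (hx : x ∈ IC (B0 RatFunc.X g)) :
    ∃ (p : k[X]) (n : ℕ), (algebraMap (Polynomial k) (RatFunc k)) (g ^ n) * x = (algebraMap (Polynomial k) (RatFunc k)) p := by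
  obtain ⟨d, ⟨n, rfl⟩, p, hp⟩ := q2_int (B0 RatFunc.X g) (Submonoid.powers g) (fun b hb => by
    obtain ⟨a, n, ha⟩ := pf_B0_elim q2_transc hg hb
    refine ⟨g ^ n, ⟨n, rfl⟩, a, ?_⟩
    rw [q2_aeval, q2_aeval] at ha
    rw [map_pow, mul_comm, ha]) hx
  exact ⟨p, n, hp⟩

/-- The polynomials prime to `g`. -/
def q2_M (g : k[X]) : Submonoid k[X] where
  carrier := {d | d ≠ 0 ∧ IsCoprime d g}
  one_mem' := ⟨one_ne_zero, isCoprime_one_left⟩
  mul_mem' := fun ha hb => ⟨mul_ne_zero ha.1 hb.1, ha.2.mul_left hb.2⟩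

theorem q2_deg [DecidableEq (RatFunc k)] {p q : k[X]} (hq : q ≠ 0) :
    RatFunc.inftyValuation k ((algebraMap (Polynomial k) (RatFunc k)) p / (algebraMap (Polynomial k) (RatFunc k)) q) ≤ 1 ↔ p.natDegree ≤ q.natDegree := by
  by_cases hp : p = 0
  · subst hp
    simp
  · rw [map_div₀, RatFunc.inftyValuation_apply, RatFunc.inftyValuation_apply,
      RatFunc.inftyValuation.polynomial _ hp,
      RatFunc.inftyValuation.polynomial _ hq, div_le_one₀ (by simp)]
    simp

/-- The second chart. -/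
theorem q2_IC1 {g : k[X]} {x : RatFunc k} (hx : x ∈ IC (B1 RatFunc.X g)) :
    ∃ p q : k[X], q ≠ 0 ∧ IsCoprime q g ∧ p.natDegree ≤ q.natDegree ∧ x = (algebraMap (Polynomial k) (RatFunc k)) p / (algebraMap (Polynomial k) (RatFunc k)) q := by
  classical
  obtain ⟨d, hd, p, hp⟩ := q2_int (B1 RatFunc.X g) (q2_M g) (fun b hb => by
    obtain ⟨a, q, hq, hc, -, rfl⟩ := hb
    rw [q2_aeval] at hq
    have hq0 : q ≠ 0 := fun h => hq (by rw [h, map_zero])
    refine ⟨q, ⟨hq0, hc⟩, a, ?_⟩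
    rw [q2_aeval, q2_aeval]
    field_simp) hx
  have hx' : x = (algebraMap (Polynomial k) (RatFunc k)) p / (algebraMap (Polynomial k) (RatFunc k)) d := by
    rw [← hp]
    have := q2_ne hd.1
    field_simp
  refine ⟨p, d, hd.1, hd.2, ?_, hx'⟩
  rw [← q2_deg hd.1, ← hx']
  let v := RatFunc.inftyValuation k
  have hle : ∀ b : B1 (RatFunc.X : RatFunc k) g, (b : RatFunc k) ∈ v.integer := by
    rintro ⟨_, a, q, hq, hc, hdeg, rfl⟩
    rw [q2_aeval] at hq
    have hq0 : q ≠ 0 := fun h => hq (by rw [h, map_zero])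
    change v (aeval RatFunc.X a / aeval RatFunc.X q) ≤ 1
    rw [q2_aeval, q2_aeval]
    exact (q2_deg hq0).2 hdeg
  obtain ⟨f, hf, hfx⟩ := (hx : IsIntegral (B1 (RatFunc.X : RatFunc k) g) x)
  let ρ : B1 (RatFunc.X : RatFunc k) g →+* v.integer :=
    ((B1 (RatFunc.X : RatFunc k) g).val : _ →+* RatFunc k).codRestrict v.integer hle
  have hint : IsIntegral v.integer x := by
    refine ⟨f.map ρ, hf.map ρ, ?_⟩
    rw [eval₂_map]
    exact hfx
  exact (Valuation.integer.integers v).mem_of_integral hint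

section
variable [IsAlgClosed k]

theorem q2_cd {g : k[X]} (hg : g ≠ 0) :
    IsCD (IC (B0 (RatFunc.X : RatFunc k) g)) (IC (B1 (RatFunc.X : RatFunc k) g)) := by
  have := q2_fin (k := k)
  have := q2_sep (k := k)
  exact isCD_IC q2_transc hg

omit [IsAlgClosed k] in
theorem q2_B1_le {g : k[X]} {x : RatFunc k} (hx : x ∈ B1 (RatFunc.X : RatFunc k) g) :
    x ∈ IC (B1 (RatFunc.X : RatFunc k) g) :=
  (integralClosure (B1 (RatFunc.X : RatFunc k) g) (RatFunc k)).algebraMap_mem ⟨x, hx⟩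

omit [IsAlgClosed k] in
theorem q2_B0_le {g : k[X]} {x : RatFunc k} (hx : x ∈ B0 (RatFunc.X : RatFunc k) g) :
    x ∈ IC (B0 (RatFunc.X : RatFunc k) g) :=
  (integralClosure (B0 (RatFunc.X : RatFunc k) g) (RatFunc k)).algebraMap_mem ⟨x, hx⟩

theorem q2_idx {g α : k[X]} (hg : g ≠ 0) (hα : α ≠ 0) (hc : IsCoprime α g) :
    idx (IC (B1 (RatFunc.X : RatFunc k) g)) ((algebraMap (Polynomial k) (RatFunc k)) α) = - (α.natDegree : ℤ) := by
  have hinf : Infinite k := IsAlgClosed.instInfinite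
  have h1 := q2_fin (k := k)
  have h2 := q2_sep (k := k)
  obtain ⟨l, hl⟩ : ∃ l : k, g.eval l ≠ 0 := by
    by_contra hcon
    push Not at hcon
    exact hg (Polynomial.funext (fun r => by rw [hcon r, eval_zero]))
  have hcd := q2_cd hg
  have hs := idx_IC (K := RatFunc k) q2_transc hg l hl
  rw [q2_finrank] at hs
  set A₁ := IC (B1 (RatFunc.X : RatFunc k) g) with hA₁
  have e1 : (RatFunc.X : RatFunc k) - algebraMap k (RatFunc k) l = (algebraMap (Polynomial k) (RatFunc k)) (X - C l) := by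
    rw [map_sub, RatFunc.algebraMap_X]
    rfl
  rw [e1] at hs
  have hl0 : (algebraMap (Polynomial k) (RatFunc k)) (X - C l) ≠ 0 := q2_ne (X_sub_C_ne_zero l)
  have hα0 := q2_ne (k := k) hα
  have hcl : IsCoprime ((X - C l) ^ α.natDegree) g := by
    refine IsCoprime.pow_left ?_
    rw [(irreducible_X_sub_C l).coprime_iff_not_dvd, dvd_iff_isRoot]
    exact hl
  have hdeg : ((X - C l) ^ α.natDegree).natDegree = α.natDegree := by
    rw [natDegree_pow, natDegree_X_sub_C, mul_one]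
  have hp0 : (X - C l) ^ α.natDegree ≠ 0 := pow_ne_zero _ (X_sub_C_ne_zero l)
  have hm1 : (algebraMap (Polynomial k) (RatFunc k)) α * ((algebraMap (Polynomial k) (RatFunc k)) (X - C l))⁻¹ ^ α.natDegree ∈ A₁ := by
    refine q2_B1_le ⟨α, (X - C l) ^ α.natDegree, ?_, hcl, hdeg.ge, ?_⟩
    · rw [q2_aeval]; exact q2_ne hp0
    · rw [q2_aeval, q2_aeval, map_pow, inv_pow, div_eq_mul_inv]
  have hm2 : ((algebraMap (Polynomial k) (RatFunc k)) α * ((algebraMap (Polynomial k) (RatFunc k)) (X - C l))⁻¹ ^ α.natDegree)⁻¹ ∈ A₁ := by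
    refine q2_B1_le ⟨(X - C l) ^ α.natDegree, α, ?_, hc, hdeg.le, ?_⟩
    · rw [q2_aeval]; exact hα0
    · rw [q2_aeval, q2_aeval, map_pow, mul_inv, inv_pow, inv_inv, div_eq_mul_inv, mul_comm]
  have h3 := hcd.idx_unit1 hm1 hm2 (mul_ne_zero hα0 (pow_ne_zero _ (inv_ne_zero hl0)))
  rw [hcd.idx_mul hα0 (pow_ne_zero _ (inv_ne_zero hl0)), hcd.idx_pow (inv_ne_zero hl0), hs] at h3
  push_cast at h3
  linarith

end

end Vale.Agent.P292.Dv.LineQ2
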