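import Vale.Agent.P292.Bn.N13

/-! # Part III, block S: the local lemma, part 1 (semilinear maps, blowing up). -/

namespace Vale.Agent.P292.Dv

open Polynomial Vale.Agent.P292.Mo

universe u v w

section eta

variable {k : Type u} [CommRing k] {R : Type v} [CommRing R] [Algebra k R]

/-- A graded semilinear map along `φ` on the homogeneous elements of the ideal `p`. -/
structure IsEta (𝒜 : ℕ → Submodule k R) (p : Ideal R) {S : Type w} [CommRing S] [Algebra k S]
    (φ : R →ₐ[k] S) (η : ℕ → R → S) : Prop where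
  add : ∀ j x y, x ∈ 𝒜 j → x ∈ p → y ∈ 𝒜 j → y ∈ p → η j (x + y) = η j x + η j y
  mul : ∀ i j r x, r ∈ 𝒜 i → x ∈ 𝒜 j → x ∈ p → η (i + j) (r * x) = φ r * η j x

/-- The ideal `p` is generated in degrees at most `M`, as an induction principle. -/
def GenIn (𝒜 : ℕ → Submodule k R) (p : Ideal R) (M : ℕ) : Prop :=
  ∀ P : ℕ → R → Prop, (∀ j ≤ M, ∀ x ∈ 𝒜 j, x ∈ p → P j x) →
    (∀ j x y, x ∈ 𝒜 j → x ∈ p → y ∈ 𝒜 j → y ∈ p → P j x → P j y → P j (x + y)) →
    (∀ i j r x, r ∈ 𝒜 i → x ∈ 𝒜 j → x ∈ p → P j x → P (i + j) (r * x)) →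
    ∀ j x, x ∈ 𝒜 j → x ∈ p → P j x

variable {𝒜 : ℕ → Submodule k R} {p : Ideal R}

theorem IsEta.map {S : Type*} [CommRing S] [Algebra k S] {S' : Type*} [CommRing S']
    [Algebra k S'] {φ : R →ₐ[k] S} {η : ℕ → R → S} (h : IsEta 𝒜 p φ η) (g : S →ₐ[k] S') :
    IsEta 𝒜 p (g.comp φ) (fun j x => g (η j x)) :=
  ⟨fun j x y h1 h2 h3 h4 => by rw [h.add j x y h1 h2 h3 h4, map_add],
   fun i j r x h1 h2 h3 => by rw [h.mul i j r x h1 h2 h3, map_mul, AlgHom.comp_apply]⟩

theorem eta_div [GradedAlgebra 𝒜] {B : Type*} [CommRing B] [IsDomain B] [Algebra k B]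
    {Φ F : R →ₐ[k] B} {H : ℕ → R → B} {t s u : B} (ht : t ≠ 0) (hu : u ≠ 0)
    (hF : ∀ j, ∀ r ∈ 𝒜 j, Φ r = t ^ j * F r) (hH : IsEta 𝒜 p Φ H)
    (hdvd : ∀ j x, x ∈ 𝒜 j → x ∈ p → t ^ j * u ∣ s * H j x) :
    ∃ H' : ℕ → R → B, IsEta 𝒜 p F H' ∧
      ∀ j x, x ∈ 𝒜 j → x ∈ p → s * H j x = t ^ j * u * H' j x := by
  classical
  have h1 : ∀ j x, ∃ c, x ∈ 𝒜 j → x ∈ p → s * H j x = t ^ j * u * c := by
    intro j x
    by_cases h : x ∈ 𝒜 j ∧ x ∈ p
    · obtain ⟨c, hc⟩ := hdvd j x h.1 h.2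
      exact ⟨c, fun _ _ => hc⟩
    · exact ⟨0, fun h1 h2 => absurd ⟨h1, h2⟩ h⟩
  choose H' hH' using h1
  have hne : ∀ j, t ^ j * u ≠ 0 := fun j => mul_ne_zero (pow_ne_zero _ ht) hu
  refine ⟨H', ⟨fun j x y hx hx' hy hy' => ?_, fun i j r x hr hx hx' => ?_⟩, hH'⟩
  · apply mul_left_cancel₀ (hne j)
    rw [← hH' j _ ((𝒜 j).add_mem hx hy) (p.add_mem hx' hy'), hH.add j x y hx hx' hy hy',
      mul_add, mul_add, hH' j x hx hx', hH' j y hy hy']
  · apply mul_left_cancel₀ (hne (i + j))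
    rw [← hH' (i + j) _ (SetLike.mul_mem_graded hr hx) (p.mul_mem_left _ hx'),
      hH.mul i j r x hr hx hx', hF i r hr]
    calc s * (t ^ i * F r * H j x) = t ^ i * F r * (s * H j x) := by ring
      _ = _ := by rw [hH' j x hx hx']; ring

theorem ord_dvd {S : Type*} [CommRing S] [Algebra k S] {Φ : R →ₐ[k] PowerSeries S}
    {H : ℕ → R → PowerSeries S} {β M : ℕ} (hM : GenIn 𝒜 p M)
    (hΦ : ∀ j, ∀ r ∈ 𝒜 j, PowerSeries.X ^ (β * j) ∣ Φ r) (hH : IsEta 𝒜 p Φ H) :
    ∀ j x, x ∈ 𝒜 j → x ∈ p → PowerSeries.X ^ (β * j) ∣ PowerSeries.X ^ (β * M) * H j x := by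
  refine hM _ ?_ ?_ ?_
  · intro j hj x _ _
    exact Dvd.dvd.mul_right (pow_dvd_pow _ (Nat.mul_le_mul_left _ hj)) _
  · intro j x y hx hx' hy hy' h1 h2
    rw [hH.add j x y hx hx' hy hy', mul_add]
    exact dvd_add h1 h2
  · intro i j r x hr hx hx' h1
    rw [hH.mul i j r x hr hx hx', mul_add, pow_add, mul_left_comm]
    exact mul_dvd_mul (hΦ i r hr) h1

theorem exists_ord {S : Type*} [CommRing S] [Algebra k S] {Φ : R →ₐ[k] PowerSeries S}
    {H : ℕ → R → PowerSeries S} {β M : ℕ} (hM : GenIn 𝒜 p M)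
    (hΦ : ∀ j, ∀ r ∈ 𝒜 j, PowerSeries.X ^ (β * j) ∣ Φ r) (hH : IsEta 𝒜 p Φ H)
    (hne : ∃ j x, x ∈ 𝒜 j ∧ x ∈ p ∧ H j x ≠ 0) :
    ∃ b, (∀ j x, x ∈ 𝒜 j → x ∈ p →
        PowerSeries.X ^ (β * j + b) ∣ PowerSeries.X ^ (β * M) * H j x) ∧
      ∃ j x, x ∈ 𝒜 j ∧ x ∈ p ∧
        PowerSeries.coeff (β * j + b) (PowerSeries.X ^ (β * M) * H j x) ≠ 0 := by
  by_contra hcon
  push Not at hcon
  have h1 : ∀ b, ∀ j x, x ∈ 𝒜 j → x ∈ p →
      PowerSeries.X ^ (β * j + b) ∣ PowerSeries.X ^ (β * M) * H j x := by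
    intro b
    induction b with
    | zero => exact ord_dvd hM hΦ hH
    | succ b ih =>
      intro j x hx hx'
      rw [PowerSeries.X_pow_dvd_iff]
      intro m hm
      rcases Nat.lt_or_ge m (β * j + b) with h | h
      · exact (PowerSeries.X_pow_dvd_iff.mp (ih j x hx hx')) m h
      · have h2 : m = β * j + b := by omega
        rw [h2]
        exact hcon b ih j x hx hx'
  obtain ⟨j, x, hx, hx', hne⟩ := hne
  apply hne
  ext m
  have h2 := (PowerSeries.X_pow_dvd_iff.mp (h1 (m + β * M + 1) j x hx hx')) (m + β * M)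
    (by omega)
  rw [PowerSeries.coeff_X_pow_mul'] at h2
  rw [if_pos (by omega), Nat.add_sub_cancel] at h2
  rw [h2, map_zero]

end eta

section ps

theorem xp_dvd {S : Type*} [CommRing S] {m a : ℕ} {g : PowerSeries S} :
    PowerSeries.X ^ m ∣ PowerSeries.X ^ a * g ↔ PowerSeries.X ^ (m - a) ∣ g := by
  rw [PowerSeries.X_pow_dvd_iff, PowerSeries.X_pow_dvd_iff]
  constructor
  · intro h i hi
    have := h (i + a) (by omega)
    rwa [PowerSeries.coeff_X_pow_mul', if_pos (by omega), Nat.add_sub_cancel] at this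
  · intro h i hi
    rw [PowerSeries.coeff_X_pow_mul']
    split_ifs with h1
    · exact h _ (by omega)
    · rfl

variable {k : Type u} [Field k]

/-- Exchange of the two variables. -/
noncomputable def sw : PowerSeries (PowerSeries k) →ₐ[k] PowerSeries (PowerSeries k) where
  toFun f := PowerSeries.mk fun n => col n f
  map_one' := by
    ext l m
    rw [PowerSeries.coeff_mk, ← map_one (PowerSeries.C (R := PowerSeries k)), col_C,
      PowerSeries.coeff_C, PowerSeries.coeff_C, PowerSeries.coeff_one]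
    split_ifs <;> simp_all
  map_mul' f g := by
    ext l m
    rw [PowerSeries.coeff_mk, col_mul, PowerSeries.coeff_mul]
    simp only [PowerSeries.coeff_mk]
  map_zero' := by
    ext l m
    simp
  map_add' f g := by
    ext l m
    simp
  commutes' c := by
    ext l m
    rw [PowerSeries.coeff_mk, PowerSeries.algebraMap_apply, PowerSeries.algebraMap_apply, col_C,
      PowerSeries.coeff_C, PowerSeries.coeff_C, PowerSeries.coeff_C]
    split_ifs <;> simp_all [PowerSeries.coeff_C]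

@[simp] theorem coeff_sw (n l : ℕ) (f : PowerSeries (PowerSeries k)) :
    PowerSeries.coeff n (PowerSeries.coeff l (sw f)) =
      PowerSeries.coeff l (PowerSeries.coeff n f) := by
  change PowerSeries.coeff n (PowerSeries.coeff l (PowerSeries.mk fun n => col n f)) = _
  rw [PowerSeries.coeff_mk, coeff_col]

theorem sw_C_X : sw (PowerSeries.C (PowerSeries.X : PowerSeries k)) = PowerSeries.X := by
  ext l m
  rw [coeff_sw, PowerSeries.coeff_C, PowerSeries.coeff_X]
  split_ifs with h1 h2 h2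
  · rw [h1, h2, PowerSeries.coeff_X]; simp
  · rw [PowerSeries.coeff_X, if_neg h2, map_zero]
  · rw [map_zero, PowerSeries.coeff_one, if_neg h1]
  · rw [map_zero, map_zero]

/-- The blowing up. -/
noncomputable def th : PowerSeries (PowerSeries k) →ₐ[k] PowerSeries k[X] :=
  theta 1 1 one_ne_zero one_pos

theorem coeff_th (f : PowerSeries (PowerSeries k)) (m n : ℕ) :
    (PowerSeries.coeff m (th f)).coeff n =
      if n ≤ m then PowerSeries.coeff n (PowerSeries.coeff (m - n) f) else 0 := by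
  rw [th, coeff_theta]
  split_ifs with h
  · have h1 := coeff_scol 1 1 one_ne_zero n (m - n) f
    rw [one_mul, one_mul, Nat.sub_add_cancel h] at h1
    exact h1
  · exact coeff_scol_of_lt _ _ _ _ _ _ (by omega)

theorem th_X : th (PowerSeries.X : PowerSeries (PowerSeries k)) = PowerSeries.X := by
  rw [th, theta_X, pow_one]

theorem th_injective : Function.Injective (th (k := k)) := by
  intro f g h
  ext l m
  have h1 := coeff_th f (l + m) m
  have h2 := coeff_th g (l + m) m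
  rw [if_pos (by omega), Nat.add_sub_cancel] at h1 h2
  rw [← h1, ← h2, h]

theorem natDegree_coeff_th (f : PowerSeries (PowerSeries k)) (m : ℕ) :
    (PowerSeries.coeff m (th f)).natDegree ≤ m := by
  rw [natDegree_le_iff_coeff_eq_zero]
  intro n hn
  rw [coeff_th, if_neg (by omega)]

theorem coeff_th_sw (f : PowerSeries (PowerSeries k)) (m n : ℕ) :
    (PowerSeries.coeff m (th (sw f))).coeff n =
      if n ≤ m then (PowerSeries.coeff m (th f)).coeff (m - n) else 0 := by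
  rw [coeff_th]
  by_cases h : n ≤ m
  · rw [if_pos h, if_pos h, coeff_th, if_pos (by omega), coeff_sw, Nat.sub_sub_self h]
  · rw [if_neg h, if_neg h]

theorem dvd_th_sw {f : PowerSeries (PowerSeries k)} {m : ℕ} (h : PowerSeries.X ^ m ∣ th f) :
    PowerSeries.X ^ m ∣ th (sw f) := by
  rw [PowerSeries.X_pow_dvd_iff] at h ⊢
  intro i hi
  ext n
  rw [coeff_th_sw, h i hi]
  simp

/-- Restriction to the strict transform of `τ = 0`. -/
noncomputable def lam : PowerSeries k[X] →ₐ[k] PowerSeries k :=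
  ((ccA k (PowerSeries k)).comp sw).comp (recen 0)

theorem coeff_lam (f : PowerSeries k[X]) (n : ℕ) :
    PowerSeries.coeff n (lam f) = (PowerSeries.coeff n f).coeff 0 := by
  rw [lam, AlgHom.comp_apply, AlgHom.comp_apply, ccA_apply,
    ← PowerSeries.coeff_zero_eq_constantCoeff_apply, coeff_sw, recen_apply,
    PowerSeries.coeff_map]
  change PowerSeries.coeff 0 (expandAt 0 _) = _
  rw [coeff_expandAt, taylor_zero]

theorem lam_X : lam (PowerSeries.X : PowerSeries k[X]) = PowerSeries.X := by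
  ext n
  rw [coeff_lam, PowerSeries.coeff_X, PowerSeries.coeff_X]
  split_ifs <;> simp

theorem lam_th_sw (f : PowerSeries (PowerSeries k)) :
    lam (th (sw f)) = PowerSeries.constantCoeff f := by
  ext n
  rw [coeff_lam, coeff_th, if_pos (Nat.zero_le _), coeff_sw, Nat.sub_zero,
    PowerSeries.coeff_zero_eq_constantCoeff_apply]

end ps

section idl

variable {k : Type u} [Field k] {R : Type v} [CommRing R] [Algebra k R] {𝒜 : ℕ → Submodule k R}

theorem imI_div {Φ F : R →ₐ[k] PowerSeries k[X]} {μ L : ℕ}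
    (hF : ∀ j, ∀ r ∈ 𝒜 j, Φ r = PowerSeries.X ^ (μ * j) * F r)
    (h : PowerSeries.X ^ L ∈ imI 𝒜 Φ) :
    μ ≤ L ∧ PowerSeries.X ^ (L - μ) ∈ imI 𝒜 F := by
  have h2 : imI 𝒜 Φ ≤ Ideal.span {PowerSeries.X ^ μ} * imI 𝒜 F := by
    rw [Mo.imI, Ideal.span_le]
    rintro _ ⟨j, hj, r, hr, rfl⟩
    rw [SetLike.mem_coe, Ideal.mem_span_singleton_mul]
    refine ⟨PowerSeries.X ^ (μ * (j - 1)) * F r,
      Ideal.mul_mem_left _ _ (Ideal.subset_span ⟨j, hj, r, hr, rfl⟩), ?_⟩
    rw [hF j r hr, ← mul_assoc, ← pow_add]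
    congr 2
    obtain ⟨i, rfl⟩ : ∃ i, j = i + 1 := ⟨j - 1, by omega⟩
    rw [Nat.add_sub_cancel]
    ring
  have h3 := h2 h
  rw [Ideal.mem_span_singleton_mul] at h3
  obtain ⟨y, hy, hy'⟩ := h3
  by_cases hle : μ ≤ L
  · refine ⟨hle, ?_⟩
    have h4 : (PowerSeries.X : PowerSeries k[X]) ^ L =
        PowerSeries.X ^ μ * PowerSeries.X ^ (L - μ) := by
      rw [← pow_add]; congr 1; omega
    rw [h4] at hy'
    rw [← mul_left_cancel₀ (pow_ne_zero _ PowerSeries.X_ne_zero) hy']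
    exact hy
  · exfalso
    have h4 : (PowerSeries.X : PowerSeries k[X]) ^ μ =
        PowerSeries.X ^ L * PowerSeries.X ^ (μ - L) := by
      rw [← pow_add]; congr 1; omega
    rw [h4, mul_assoc] at hy'
    have h5 : PowerSeries.X ^ (μ - L) * y = 1 := by
      apply mul_left_cancel₀ (pow_ne_zero L (PowerSeries.X_ne_zero (R := k[X])))
      rw [hy', mul_one]
    have h6 := congrArg PowerSeries.constantCoeff h5
    rw [map_mul, map_pow, PowerSeries.constantCoeff_X, map_one, zero_pow (by omega),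
      zero_mul] at h6
    exact zero_ne_one h6

theorem imI_inner {φ : R →ₐ[k] PowerSeries (PowerSeries k)} {L j : ℕ} {r : R}
    (hj : 0 < j) (hr : r ∈ 𝒜 j) (h : PowerSeries.X ^ L ∈ imI 𝒜 φ)
    (hne : PowerSeries.constantCoeff (φ r) ≠ 0) :
    ∃ A, (PowerSeries.C (PowerSeries.X : PowerSeries k)) ^ A ∈ imI 𝒜 φ := by
  set f := φ r with hf
  have hfI : f ∈ imI 𝒜 φ := Ideal.subset_span ⟨j, hj, r, hr, rfl⟩
  set f₀ := PowerSeries.constantCoeff f with hf₀
  set m := f₀.order.toNat with hm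
  obtain ⟨g, hg⟩ : PowerSeries.X ^ m ∣ f₀ := PowerSeries.X_pow_order_dvd
  have hg0 : PowerSeries.constantCoeff g ≠ 0 := by
    have h1 : PowerSeries.coeff m f₀ ≠ 0 := PowerSeries.coeff_order hne
    rw [hg, PowerSeries.coeff_X_pow_mul', if_pos le_rfl, Nat.sub_self,
      PowerSeries.coeff_zero_eq_constantCoeff] at h1
    exact h1
  have hgu : IsUnit g := by
    rw [PowerSeries.isUnit_iff_constantCoeff]
    exact isUnit_iff_ne_zero.mpr hg0
  obtain ⟨f₁, hf₁⟩ : PowerSeries.X ∣ f - PowerSeries.C f₀ := by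
    rw [PowerSeries.X_dvd_iff, map_sub, PowerSeries.constantCoeff_C, hf₀, sub_self]
  have h1 : PowerSeries.C (PowerSeries.X : PowerSeries k) ^ m * PowerSeries.C g =
      f - PowerSeries.X * f₁ := by
    rw [← hf₁, sub_sub_cancel, hg, map_mul, map_pow]
  refine ⟨m * L, ?_⟩
  have h2 : (PowerSeries.C (PowerSeries.X : PowerSeries k) ^ m * PowerSeries.C g) ^ L ∈
      imI 𝒜 φ := by
    rw [h1, ← Ideal.Quotient.eq_zero_iff_mem, map_pow, map_sub,
      Ideal.Quotient.eq_zero_iff_mem.mpr hfI, zero_sub, neg_pow, ← map_pow, mul_pow, map_mul,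
      Ideal.Quotient.eq_zero_iff_mem.mpr h, zero_mul, mul_zero]
  rw [mul_pow, ← pow_mul] at h2
  have h3 : IsUnit ((PowerSeries.C g : PowerSeries (PowerSeries k)) ^ L) :=
    (hgu.map (PowerSeries.C (R := PowerSeries k))).pow L
  exact (Ideal.mul_unit_mem_iff_mem _ h3).mp h2

end idl

end Vale.Agent.P292.Dv
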