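import Vale.Agent.P292.D.Loc1

/-! # Part III, block S: the local lemma, part 2 (the data of a blowing up). -/

namespace Vale.Agent.P292.Dv

open Polynomial Vale.Agent.P292.Mo

universe u v w

section blow

variable {k : Type u} [Field k] {R : Type v} [CommRing R] [Algebra k R] {𝒜 : ℕ → Submodule k R}
  [GradedAlgebra 𝒜] {n : ℕ} {x : Fin n → R} {d : Fin n → ℕ} {p : Ideal R}

/-- The order along the exceptional curve. -/
theorem exists_mult [Infinite k] (hLB : IsLB 𝒜) (hx : ∀ i, x i ∈ 𝒜 (d i))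
    (hgen : Algebra.adjoin k (Set.range x) = ⊤) (Φ : R →ₐ[k] PowerSeries k[X])
    (hΦ : ∃ j > 0, ∃ r ∈ 𝒜 j, Φ r ≠ 0) :
    ∃ (μ : ℕ) (F : R →ₐ[k] PowerSeries k[X]),
      (∀ j, ∀ r ∈ 𝒜 j, Φ r = PowerSeries.X ^ (μ * j) * F r) ∧
      ∃ j > 0, ∃ r ∈ 𝒜 j, PowerSeries.constantCoeff (F r) ≠ 0 := by
  classical
  obtain ⟨i₁, hi₁, hi₁'⟩ := exists_gen_ne_zero hx hgen Φ hΦ
  set o : Fin n → ℕ := fun i => (Φ (x i)).order.toNat with ho
  set P : k[X] := ∏ i, if Φ (x i) = 0 then 1 else PowerSeries.coeff (o i) (Φ (x i)) with hP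
  have hP0 : P ≠ 0 := by
    rw [hP, Finset.prod_ne_zero_iff]
    intro i _
    split_ifs with h
    · exact one_ne_zero
    · exact PowerSeries.coeff_order h
  obtain ⟨c, hc⟩ : ∃ c, P.eval c ≠ 0 := by
    by_contra hcon
    push Not at hcon
    exact hP0 (Polynomial.funext fun c => by rw [hcon c, eval_zero])
  have hco : ∀ i, Φ (x i) ≠ 0 → (PowerSeries.coeff (o i) (Φ (x i))).eval c ≠ 0 := by
    intro i hi h0
    apply hc
    rw [hP, eval_prod, Finset.prod_eq_zero (Finset.mem_univ i)]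
    rw [if_neg hi, h0]
  let E : PowerSeries k[X] →ₐ[k] PowerSeries k := PowerSeries.mapAlgHom (aeval c)
  have hE : ∀ f m, PowerSeries.coeff m (E f) = (PowerSeries.coeff m f).eval c := by
    intro f m
    change PowerSeries.coeff m (PowerSeries.map _ f) = _
    rw [PowerSeries.coeff_map]
    rfl
  have hEX : E PowerSeries.X = PowerSeries.X := PowerSeries.map_X _
  obtain ⟨ν, G, hG, j₀, hj₀, r₀, hr₀, hne₀⟩ := lead hLB hx hgen (E.comp Φ)
    ⟨d i₁, hi₁, x i₁, hx i₁, by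
      intro h0
      apply hco i₁ hi₁'
      rw [← hE, ← AlgHom.comp_apply, h0, map_zero]⟩
  have hdvd : ∀ i, (PowerSeries.X ^ ν) ^ d i ∣ Φ (x i) := by
    intro i
    by_cases h : Φ (x i) = 0
    · rw [h]; exact dvd_zero _
    · have h1 : ν * d i ≤ o i := by
        by_contra h2
        push Not at h2
        apply hco i h
        rw [← hE, ← AlgHom.comp_apply, hG _ _ (hx i), PowerSeries.coeff_X_pow_mul',
          if_neg (by omega)]
      rw [← pow_mul]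
      exact (pow_dvd_pow _ h1).trans PowerSeries.X_pow_order_dvd
  obtain ⟨F, hF⟩ := exists_untwist 𝒜 Φ (PowerSeries.X ^ ν)
    (pow_ne_zero _ PowerSeries.X_ne_zero) hx hgen hdvd
  refine ⟨ν, F, fun j r hr => by rw [hF j r hr, ← pow_mul], j₀, hj₀, r₀, hr₀,
    fun h0 => hne₀ ?_⟩
  have h1 : G r₀ = E (F r₀) := by
    apply mul_left_cancel₀ (pow_ne_zero (ν * j₀) PowerSeries.X_ne_zero)
    rw [← hG j₀ r₀ hr₀, AlgHom.comp_apply, hF j₀ r₀ hr₀, map_mul, map_pow, map_pow, hEX,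
      ← pow_mul]
  rw [h1, ← PowerSeries.coeff_zero_eq_constantCoeff_apply, hE,
    PowerSeries.coeff_zero_eq_constantCoeff_apply, h0, eval_zero]

/-- The germ of the curve `τ = 0`, with the orders of the two maps. -/
structure Germ (𝒜 : ℕ → Submodule k R) (p : Ideal R) (φ : R →ₐ[k] PowerSeries (PowerSeries k))
    (η : ℕ → R → PowerSeries (PowerSeries k)) (β a b : ℕ) : Prop where
  eta : IsEta 𝒜 p φ η
  dvd : ∀ j, ∀ r ∈ 𝒜 j, PowerSeries.X ^ (β * j) ∣ PowerSeries.constantCoeff (φ r)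
  ne : ∃ j > 0, ∃ r ∈ 𝒜 j, PowerSeries.coeff (β * j) (PowerSeries.constantCoeff (φ r)) ≠ 0
  dvdη : ∀ j x, x ∈ 𝒜 j → x ∈ p →
    PowerSeries.X ^ (β * j + b) ∣ PowerSeries.X ^ a * PowerSeries.constantCoeff (η j x)
  neη : ∃ j x, x ∈ 𝒜 j ∧ x ∈ p ∧
    PowerSeries.coeff (β * j + b) (PowerSeries.X ^ a * PowerSeries.constantCoeff (η j x)) ≠ 0

/-- The germ of the exceptional curve at a point. -/
theorem exists_point (hLB : IsLB 𝒜) (hx : ∀ i, x i ∈ 𝒜 (d i))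
    (hgen : Algebra.adjoin k (Set.range x) = ⊤) {M : ℕ} (hM : GenIn 𝒜 p M)
    {F : R →ₐ[k] PowerSeries k[X]} {η : ℕ → R → PowerSeries k[X]} (hη : IsEta 𝒜 p F η)
    (hF : ∃ j > 0, ∃ r ∈ 𝒜 j, PowerSeries.constantCoeff (F r) ≠ 0)
    (hη0 : ∃ j x, x ∈ 𝒜 j ∧ x ∈ p ∧ PowerSeries.constantCoeff (η j x) ≠ 0) (c : k) :
    ∃ ν a b, Germ 𝒜 p ((recen c).comp F) (fun j x => recen c (η j x)) ν a b := by
  obtain ⟨ν, G, hG, j₀, hj₀, r₀, hr₀, hne₀⟩ := lead hLB hx hgen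
    ((expandAt c).comp ((ccA k k[X]).comp F)) (by
      obtain ⟨j, hj, r, hr, h⟩ := hF
      refine ⟨j, hj, r, hr, fun h0 => h ?_⟩
      exact expandAt_injective c (h0.trans (map_zero _).symm))
  have hdvd : ∀ j, ∀ r ∈ 𝒜 j, PowerSeries.X ^ (ν * j) ∣
      ((expandAt c).comp ((ccA k k[X]).comp F)) r := fun j r hr => ⟨G r, hG j r hr⟩
  obtain ⟨b, hb, hb'⟩ := exists_ord (β := ν) hM hdvd ((hη.map (ccA k k[X])).map (expandAt c)) (by
    obtain ⟨j, y, hy, hy', h⟩ := hη0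
    refine ⟨j, y, hy, hy', fun h0 => h ?_⟩
    exact expandAt_injective c (h0.trans (map_zero _).symm))
  refine ⟨ν, ν * M, b, hη.map (recen c), fun j r hr => ?_, ⟨j₀, hj₀, r₀, hr₀, ?_⟩,
    fun j y hy hy' => ?_, ?_⟩
  · rw [AlgHom.comp_apply, constantCoeff_recen]; exact hdvd j r hr
  · rw [AlgHom.comp_apply, constantCoeff_recen]
    have h1 : expandAt c (PowerSeries.constantCoeff (F r₀)) = _ := hG j₀ r₀ hr₀
    rw [h1, PowerSeries.coeff_X_pow_mul', if_pos le_rfl, Nat.sub_self,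
      PowerSeries.coeff_zero_eq_constantCoeff]
    exact hne₀
  · rw [constantCoeff_recen]; exact hb j y hy hy'
  · obtain ⟨j, y, hy, hy', h⟩ := hb'
    refine ⟨j, y, hy, hy', ?_⟩
    rw [constantCoeff_recen]; exact h

theorem cc_of_eq {f : PowerSeries k[X]} {g : PowerSeries k[X]} {s N : ℕ}
    (h : PowerSeries.X ^ s * f = PowerSeries.X ^ N * g) :
    PowerSeries.constantCoeff g = if s ≤ N then PowerSeries.coeff (N - s) f else 0 := by
  have h1 := congrArg (PowerSeries.coeff N) h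
  rw [PowerSeries.coeff_X_pow_mul', PowerSeries.coeff_X_pow_mul', if_pos le_rfl, Nat.sub_self,
    PowerSeries.coeff_zero_eq_constantCoeff] at h1
  exact h1.symm

theorem natDegree_cc {f : PowerSeries (PowerSeries k)} {g : PowerSeries k[X]} {s N : ℕ}
    (h : PowerSeries.X ^ s * th f = PowerSeries.X ^ N * g)
    (hne : PowerSeries.constantCoeff g ≠ 0) :
    (PowerSeries.constantCoeff g).natDegree + s ≤ N := by
  have h1 := cc_of_eq h
  split_ifs at h1 with h2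
  · have h3 := natDegree_coeff_th f (N - s)
    rw [← h1] at h3
    omega
  · exact absurd h1 hne

theorem coeff_cc {f : PowerSeries (PowerSeries k)} {g g' : PowerSeries k[X]} {s N : ℕ}
    (h : PowerSeries.X ^ s * th f = PowerSeries.X ^ N * g)
    (h' : PowerSeries.X ^ s * th (sw f) = PowerSeries.X ^ N * g') (m : ℕ) :
    (PowerSeries.constantCoeff g').coeff m =
      if m + s ≤ N then (PowerSeries.constantCoeff g).coeff (N - s - m) else 0 := by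
  rw [cc_of_eq h', cc_of_eq h]
  by_cases h1 : s ≤ N
  · rw [if_pos h1, if_pos h1, coeff_th_sw]
    by_cases h2 : m ≤ N - s
    · rw [if_pos h2, if_pos (by omega)]
    · rw [if_neg h2, if_neg (by omega)]
  · rw [if_neg h1, if_neg (by omega), coeff_zero]

/-- The data of a blowing up. -/
structure Blow (𝒜 : ℕ → Submodule k R) (p : Ideal R) (φ : R →ₐ[k] PowerSeries (PowerSeries k))
    (η : ℕ → R → PowerSeries (PowerSeries k)) (μ s t : ℕ) (F F' : R →ₐ[k] PowerSeries k[X])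
    (ζ ζ' : ℕ → R → PowerSeries k[X]) : Prop where
  eta : IsEta 𝒜 p F ζ
  eta' : IsEta 𝒜 p F' ζ'
  eq : ∀ j, ∀ r ∈ 𝒜 j, th (φ r) = PowerSeries.X ^ (μ * j) * F r
  eq' : ∀ j, ∀ r ∈ 𝒜 j, th (sw (φ r)) = PowerSeries.X ^ (μ * j) * F' r
  ne : ∃ j > 0, ∃ r ∈ 𝒜 j, PowerSeries.constantCoeff (F r) ≠ 0
  eqη : ∀ j x, x ∈ 𝒜 j → x ∈ p →
    PowerSeries.X ^ s * th (η j x) = PowerSeries.X ^ (μ * j + t) * ζ j x
  eqη' : ∀ j x, x ∈ 𝒜 j → x ∈ p →
    PowerSeries.X ^ s * th (sw (η j x)) = PowerSeries.X ^ (μ * j + t) * ζ' j x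
  neη : ∃ j x, x ∈ 𝒜 j ∧ x ∈ p ∧ PowerSeries.constantCoeff (ζ j x) ≠ 0

theorem exists_blow [Infinite k] (hLB : IsLB 𝒜) (hx : ∀ i, x i ∈ 𝒜 (d i))
    (hgen : Algebra.adjoin k (Set.range x) = ⊤) {M : ℕ} (hM : GenIn 𝒜 p M)
    {φ : R →ₐ[k] PowerSeries (PowerSeries k)} {η : ℕ → R → PowerSeries (PowerSeries k)}
    {β a b : ℕ} (hG : Germ 𝒜 p φ η β a b) :
    ∃ (μ s t : ℕ) (F F' : R →ₐ[k] PowerSeries k[X]) (ζ ζ' : ℕ → R → PowerSeries k[X]),
      Blow 𝒜 p φ η μ s t F F' ζ ζ' := by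
  obtain ⟨μ, F, hF, hFne⟩ := exists_mult hLB hx hgen (th.comp φ) (by
    obtain ⟨j, hj, r, hr, h⟩ := hG.ne
    refine ⟨j, hj, r, hr, fun h0 => h ?_⟩
    have h1 : φ r = 0 := th_injective (h0.trans (map_zero _).symm)
    rw [h1, map_zero, map_zero])
  obtain ⟨F', hF'⟩ := exists_untwist 𝒜 ((th.comp sw).comp φ) (PowerSeries.X ^ μ)
    (pow_ne_zero _ PowerSeries.X_ne_zero) hx hgen (fun i => by
      rw [← pow_mul]
      exact dvd_th_sw ⟨_, hF _ _ (hx i)⟩)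
  have hdvd : ∀ j, ∀ r ∈ 𝒜 j, PowerSeries.X ^ (μ * j) ∣ (th.comp φ) r :=
    fun j r hr => ⟨_, hF j r hr⟩
  obtain ⟨t, ht, ht'⟩ := exists_ord (β := μ) hM hdvd (hG.eta.map th) (by
    obtain ⟨j, y, hy, hy', h⟩ := hG.neη
    refine ⟨j, y, hy, hy', fun h0 => h ?_⟩
    have h1 : η j y = 0 := th_injective (h0.trans (map_zero _).symm)
    rw [h1, map_zero, mul_zero, map_zero])
  obtain ⟨ζ, hζ, hζ'⟩ := eta_div (F := F) (s := PowerSeries.X ^ (μ * M)) (t := PowerSeries.X ^ μ)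
    (u := PowerSeries.X ^ t) (pow_ne_zero _ PowerSeries.X_ne_zero)
    (pow_ne_zero _ PowerSeries.X_ne_zero)
    (fun j r hr => by rw [hF j r hr, ← pow_mul]) (hG.eta.map th) (fun j y hy hy' => by
      rw [← pow_mul, ← pow_add]; exact ht j y hy hy')
  obtain ⟨ζ', hζ₁, hζ₁'⟩ := eta_div (s := PowerSeries.X ^ (μ * M)) (t := PowerSeries.X ^ μ)
    (u := PowerSeries.X ^ t) (pow_ne_zero _ PowerSeries.X_ne_zero)
    (pow_ne_zero _ PowerSeries.X_ne_zero)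
    hF' (hG.eta.map (th.comp sw)) (fun j y hy hy' => by
      rw [← pow_mul, ← pow_add, xp_dvd]
      exact dvd_th_sw (xp_dvd.mp (ht j y hy hy')))
  refine ⟨μ, μ * M, t, F, F', ζ, ζ', hζ, hζ₁, hF, fun j r hr => ?_, hFne, fun j y hy hy' => ?_,
    fun j y hy hy' => ?_, ?_⟩
  · rw [pow_mul]; exact hF' j r hr
  · rw [pow_add, pow_mul _ μ j]; exact hζ' j y hy hy'
  · rw [pow_add, pow_mul _ μ j]; exact hζ₁' j y hy hy'
  · obtain ⟨j, y, hy, hy', h⟩ := ht'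
    refine ⟨j, y, hy, hy', fun h0 => h ?_⟩
    rw [hζ' j y hy hy', ← pow_mul, ← pow_add, PowerSeries.coeff_X_pow_mul', if_pos le_rfl,
      Nat.sub_self, PowerSeries.coeff_zero_eq_constantCoeff, h0]

end blow

end Vale.Agent.P292.Dv
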