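import Vale.Agent.P292.D.Loc2

/-! # Part III, block S: the local lemma, part 3 (curves, the induction). -/

namespace Vale.Agent.P292.Dv

open Polynomial Vale.Agent.P292.Mo

universe u v w

section curve

variable {k : Type u} [Field k] {R : Type v} [CommRing R] [Algebra k R] {𝒜 : ℕ → Submodule k R}
  [GradedAlgebra 𝒜] {n : ℕ} {x : Fin n → R} {d : Fin n → ℕ} {p : Ideal R}

/-- A closed rational curve of degree at most `β`, positive on the divisor of `p`, in affine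
coordinates. -/
def PosC (𝒜 : ℕ → Submodule k R) (p : Ideal R) (β : ℕ) : Prop :=
  ∃ (e δ : ℕ) (Ψ : R →ₐ[k] k[X]) (η : ℕ → R → k[X]), 0 < e ∧ e ≤ β ∧ 0 < δ ∧
    (∀ j, ∀ r ∈ 𝒜 j, (Ψ r).natDegree ≤ e * j) ∧
    (∃ j > 0, ∃ r ∈ 𝒜 j, (Ψ r).coeff (e * j) ≠ 0) ∧
    (∀ a : k, ∃ j > 0, ∃ r ∈ 𝒜 j, (Ψ r).eval a ≠ 0) ∧
    IsEta 𝒜 p Ψ η ∧
    (∀ j x, x ∈ 𝒜 j → x ∈ p → η j x ≠ 0 → (η j x).natDegree + δ ≤ e * j) ∧
    ∃ j x, x ∈ 𝒜 j ∧ x ∈ p ∧ η j x ≠ 0

theorem PosC.mono {β β' : ℕ} (h : PosC 𝒜 p β) (hle : β ≤ β') : PosC 𝒜 p β' := by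
  obtain ⟨e, δ, Ψ, η, h1, h2, h3⟩ := h
  exact ⟨e, δ, Ψ, η, h1, h2.trans hle, h3⟩

theorem expandAt_X_sub_C (c : k) : expandAt c (X - C c) = PowerSeries.X := by
  rw [expandAt_apply, map_sub, taylor_X, taylor_C, add_sub_cancel_right, Polynomial.coe_X]

/-- The degree estimate on a closed curve. -/
theorem curve_pos [IsAlgClosed k] (hLB : IsLB 𝒜) (hx : ∀ i, x i ∈ 𝒜 (d i))
    (hgen : Algebra.adjoin k (Set.range x) = ⊤) {e₀ s t : ℕ} {Ψ : R →ₐ[k] k[X]}
    {ζ : ℕ → R → k[X]} (hdeg : ∀ j, ∀ r ∈ 𝒜 j, (Ψ r).natDegree ≤ e₀ * j)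
    (hinf : ∃ j > 0, ∃ r ∈ 𝒜 j, (Ψ r).coeff (e₀ * j) ≠ 0) (hζ : IsEta 𝒜 p Ψ ζ)
    (hdegζ : ∀ j y, y ∈ 𝒜 j → y ∈ p → ζ j y ≠ 0 → (ζ j y).natDegree + s ≤ e₀ * j + t)
    (hne : ∃ j y, y ∈ 𝒜 j ∧ y ∈ p ∧ ζ j y ≠ 0)
    (H : ∀ c : k, ∃ ν, (∃ j > 0, ∃ r ∈ 𝒜 j, PowerSeries.coeff (ν * j) (expandAt c (Ψ r)) ≠ 0) ∧
      ∀ j y, y ∈ 𝒜 j → y ∈ p → PowerSeries.X ^ (ν * j) ∣ expandAt c (ζ j y)) :
    s ≤ t ∨ PosC 𝒜 p e₀ := by
  classical
  obtain ⟨b, e, h, Ψ', hbe, hmon, hb, h3, h4, h5, h6⟩ := base_points hLB hx hgen e₀ Ψ hdeg hinf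
  have hdvd : ∀ j y, y ∈ 𝒜 j → y ∈ p → h ^ j * 1 ∣ 1 * ζ j y := by
    intro j y hy hy'
    rw [mul_one, one_mul]
    by_cases h0 : ζ j y = 0
    · rw [h0]; exact dvd_zero _
    rw [IsAlgClosed.dvd_iff_roots_le_roots (pow_ne_zero _ hmon.ne_zero) h0, Multiset.le_iff_count]
    intro c
    rw [roots_pow, Multiset.count_nsmul, count_roots, count_roots, le_rootMultiplicity_iff h0]
    obtain ⟨ν, ⟨j₁, hj₁, r₁, hr₁, hne₁⟩, hν⟩ := H c
    refine (pow_dvd_pow _ ?_).trans (pow_dvd_of_expandAt c _ _ (hν j y hy hy'))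
    rw [mul_comm]
    refine Nat.mul_le_mul_right _ ?_
    by_contra hcon
    push Not at hcon
    apply hne₁
    have h7 : (X - C c) ^ (rootMultiplicity c h) ∣ h := pow_rootMultiplicity_dvd h c
    obtain ⟨g, hg⟩ := h7
    have h8 : Ψ r₁ = (X - C c) ^ (rootMultiplicity c h * j₁) * (g ^ j₁ * Ψ' r₁) := by
      rw [h3 j₁ r₁ hr₁, pow_mul, ← mul_assoc, ← mul_pow, ← hg]
    rw [h8, map_mul, map_pow, expandAt_X_sub_C, PowerSeries.coeff_X_pow_mul', if_neg]
    have := Nat.mul_lt_mul_of_pos_right hcon hj₁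
    omega
  obtain ⟨ξ, hξ, hξ'⟩ := eta_div (s := (1 : k[X])) (u := 1) hmon.ne_zero one_ne_zero h3 hζ hdvd
  have hdegξ : ∀ j y, y ∈ 𝒜 j → y ∈ p → ξ j y ≠ 0 → (ξ j y).natDegree + s ≤ e * j + t := by
    intro j y hy hy' h0
    have h1 := hξ' j y hy hy'
    rw [one_mul, mul_one] at h1
    have h2 : ζ j y ≠ 0 := by
      rw [h1]; exact mul_ne_zero (pow_ne_zero _ hmon.ne_zero) h0
    have h7 := hdegζ j y hy hy' h2
    rw [h1, (hmon.pow j).natDegree_mul' h0, hmon.natDegree_pow, hb, ← hbe, add_mul,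
      mul_comm j b] at h7
    omega
  rcases Nat.lt_or_ge t s with hst | hst
  · right
    obtain ⟨j₀, y₀, hy₀, hy₀', hne₀⟩ := hne
    have hne₁ : ξ j₀ y₀ ≠ 0 := by
      intro h0
      apply hne₀
      have h1 := hξ' j₀ y₀ hy₀ hy₀'
      rwa [one_mul, mul_one, h0, mul_zero] at h1
    refine ⟨e, s - t, Ψ', ξ, ?_, by omega, by omega, h4, ?_, h6, hξ, ?_, j₀, y₀, hy₀, hy₀', hne₁⟩
    · rcases Nat.eq_zero_or_pos e with h0 | h0
      · have := hdegξ j₀ y₀ hy₀ hy₀' hne₁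
        rw [h0, zero_mul] at this
        omega
      · exact h0
    · obtain ⟨j, hj, r, hr, hne'⟩ := hinf
      exact ⟨j, hj, r, hr, by rwa [h5 j r hr]⟩
    · intro j y hy hy' h0
      have := hdegξ j y hy hy' h0
      omega
  · exact Or.inl hst

theorem Germ.dvd_of_le {φ : R →ₐ[k] PowerSeries (PowerSeries k)}
    {η : ℕ → R → PowerSeries (PowerSeries k)} {β a b : ℕ} (hG : Germ 𝒜 p φ η β a b)
    (hab : a ≤ b) {j : ℕ} {y : R} (hy : y ∈ 𝒜 j) (hy' : y ∈ p) :
    PowerSeries.X ^ (β * j) ∣ PowerSeries.constantCoeff (η j y) := by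
  have h1 := xp_dvd.mp (hG.dvdη j y hy hy')
  exact (pow_dvd_pow _ (by omega)).trans h1

section blow

variable {φ : R →ₐ[k] PowerSeries (PowerSeries k)} {η : ℕ → R → PowerSeries (PowerSeries k)}
  {μ s t : ℕ} {F F' : R →ₐ[k] PowerSeries k[X]} {ζ ζ' : ℕ → R → PowerSeries k[X]}

theorem Blow.deg (hB : Blow 𝒜 p φ η μ s t F F' ζ ζ') {j : ℕ} {r : R} (hr : r ∈ 𝒜 j) :
    (PowerSeries.constantCoeff (F r)).natDegree ≤ μ * j := by
  by_cases h : PowerSeries.constantCoeff (F r) = 0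
  · rw [h, natDegree_zero]; exact Nat.zero_le _
  · have h1 := natDegree_cc (s := 0) (N := μ * j) (by rw [pow_zero, one_mul]; exact hB.eq j r hr) h
    omega

theorem Blow.coeff' (hB : Blow 𝒜 p φ η μ s t F F' ζ ζ') {j : ℕ} {r : R} (hr : r ∈ 𝒜 j) (m : ℕ) :
    (PowerSeries.constantCoeff (F' r)).coeff m =
      if m ≤ μ * j then (PowerSeries.constantCoeff (F r)).coeff (μ * j - m) else 0 := by
  have h1 := coeff_cc (s := 0) (N := μ * j) (by rw [pow_zero, one_mul]; exact hB.eq j r hr)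
    (by rw [pow_zero, one_mul]; exact hB.eq' j r hr) m
  simpa using h1

theorem Blow.coeffη' (hB : Blow 𝒜 p φ η μ s t F F' ζ ζ') {j : ℕ} {y : R} (hy : y ∈ 𝒜 j)
    (hy' : y ∈ p) (m : ℕ) :
    (PowerSeries.constantCoeff (ζ' j y)).coeff m = if m + s ≤ μ * j + t then
      (PowerSeries.constantCoeff (ζ j y)).coeff (μ * j + t - s - m) else 0 :=
  coeff_cc (hB.eqη j y hy hy') (hB.eqη' j y hy hy') m

theorem Blow.ne' (hB : Blow 𝒜 p φ η μ s t F F' ζ ζ') :
    ∃ j > 0, ∃ r ∈ 𝒜 j, PowerSeries.constantCoeff (F' r) ≠ 0 := by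
  obtain ⟨j, hj, r, hr, h⟩ := hB.ne
  refine ⟨j, hj, r, hr, fun h0 => ?_⟩
  have h1 := hB.deg hr
  have h2 := hB.coeff' hr (μ * j - (PowerSeries.constantCoeff (F r)).natDegree)
  rw [if_pos (by omega), Nat.sub_sub_self h1, h0, coeff_zero] at h2
  exact h (leadingCoeff_eq_zero.mp h2.symm)

theorem Blow.neη' (hB : Blow 𝒜 p φ η μ s t F F' ζ ζ') :
    ∃ j y, y ∈ 𝒜 j ∧ y ∈ p ∧ PowerSeries.constantCoeff (ζ' j y) ≠ 0 := by
  obtain ⟨j, y, hy, hy', h⟩ := hB.neη
  refine ⟨j, y, hy, hy', fun h0 => ?_⟩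
  have h1 := natDegree_cc (hB.eqη j y hy hy') h
  have h2 := hB.coeffη' hy hy'
    (μ * j + t - s - (PowerSeries.constantCoeff (ζ j y)).natDegree)
  rw [if_pos (by omega), Nat.sub_sub_self (by omega), h0, coeff_zero] at h2
  exact h (leadingCoeff_eq_zero.mp h2.symm)

/-- The germ of the strict transform. -/
theorem Blow.strict {β a b : ℕ} (hB : Blow 𝒜 p φ η μ s t F F' ζ ζ') (hG : Germ 𝒜 p φ η β a b)
    (hμ : μ ≤ β) :
    Germ 𝒜 p (sw.comp ((recen 0).comp F')) (fun j y => sw (recen 0 (ζ' j y))) (β - μ) (a + t)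
      (b + s) := by
  have hlam : ∀ f : PowerSeries k[X], PowerSeries.constantCoeff (sw (recen 0 f)) = lam f :=
    fun f => rfl
  have hφ : ∀ j, ∀ r ∈ 𝒜 j, PowerSeries.constantCoeff (φ r) =
      PowerSeries.X ^ (μ * j) * lam (F' r) := by
    intro j r hr
    rw [← lam_th_sw, hB.eq' j r hr, map_mul, map_pow, lam_X]
  have hη : ∀ j y, y ∈ 𝒜 j → y ∈ p → PowerSeries.X ^ s * PowerSeries.constantCoeff (η j y) =
      PowerSeries.X ^ (μ * j + t) * lam (ζ' j y) := by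
    intro j y hy hy'
    have h1 := congrArg lam (hB.eqη' j y hy hy')
    rwa [map_mul, map_mul, map_pow, map_pow, lam_X, lam_th_sw] at h1
  have hsub : ∀ j, (β - μ) * j = β * j - μ * j := fun j => Nat.sub_mul _ _ _
  have hle : ∀ j, μ * j ≤ β * j := fun j => Nat.mul_le_mul_right _ hμ
  refine ⟨(hB.eta'.map (recen 0)).map sw, fun j r hr => ?_, ?_, fun j y hy hy' => ?_, ?_⟩
  · rw [AlgHom.comp_apply, AlgHom.comp_apply, hlam, hsub]
    have h1 := hG.dvd j r hr
    rw [hφ j r hr, xp_dvd] at h1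
    exact h1
  · obtain ⟨j, hj, r, hr, h⟩ := hG.ne
    refine ⟨j, hj, r, hr, ?_⟩
    rw [AlgHom.comp_apply, AlgHom.comp_apply, hlam, hsub]
    rw [hφ j r hr, PowerSeries.coeff_X_pow_mul', if_pos (hle j)] at h
    exact h
  · rw [hlam, xp_dvd]
    have h1 := hG.dvdη j y hy hy'
    have h2 : PowerSeries.X ^ (β * j + b + s) ∣
        PowerSeries.X ^ (μ * j + t + a) * lam (ζ' j y) := by
      have h3 : PowerSeries.X ^ (μ * j + t + a) * lam (ζ' j y) =
          PowerSeries.X ^ s * (PowerSeries.X ^ a * PowerSeries.constantCoeff (η j y)) := by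
        rw [mul_left_comm, hη j y hy hy']; ring
      rw [h3, pow_add, mul_comm (PowerSeries.X ^ (β * j + b))]
      exact mul_dvd_mul_left _ h1
    rw [xp_dvd] at h2
    have h4 := hle j
    have h5 : (β - μ) * j + (b + s) - (a + t) = β * j + b + s - (μ * j + t + a) := by
      rw [hsub]; omega
    rw [h5]
    exact h2
  · obtain ⟨j, y, hy, hy', h⟩ := hG.neη
    refine ⟨j, y, hy, hy', ?_⟩
    rw [hlam]
    have h3 : PowerSeries.X ^ (μ * j) * (PowerSeries.X ^ (a + t) * lam (ζ' j y)) =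
        PowerSeries.X ^ s * (PowerSeries.X ^ a * PowerSeries.constantCoeff (η j y)) := by
      rw [mul_left_comm (PowerSeries.X ^ s), hη j y hy hy']; ring
    have h4 := congrArg (PowerSeries.coeff (β * j + b + s)) h3
    rw [PowerSeries.coeff_X_pow_mul', PowerSeries.coeff_X_pow_mul' _ s,
      if_pos (by have := hle j; omega), if_pos (by omega), Nat.add_sub_cancel] at h4
    have h5 : (β - μ) * j + (b + s) = β * j + b + s - μ * j := by
      rw [hsub]; have := hle j; omega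
    rw [h5, h4]
    exact h

end blow

/-- The local lemma: without positive curves of degree at most `β`, the order of `η` on a germ
on which the order of `φ` is `β` is at least `β j`. -/
theorem germ_main [IsAlgClosed k] (hLB : IsLB 𝒜) (hx : ∀ i, x i ∈ 𝒜 (d i))
    (hgen : Algebra.adjoin k (Set.range x) = ⊤) {M : ℕ} (hM : GenIn 𝒜 p M) :
    ∀ (β L : ℕ) (φ : R →ₐ[k] PowerSeries (PowerSeries k))
      (η : ℕ → R → PowerSeries (PowerSeries k)) (a b : ℕ), Germ 𝒜 p φ η β a b →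
      PowerSeries.X ^ L ∈ imI 𝒜 φ → a ≤ b ∨ PosC 𝒜 p β := by
  intro β
  induction β using Nat.strong_induction_on with
  | _ β ihβ =>
  intro L
  induction L using Nat.strong_induction_on with
  | _ L ihL =>
  intro φ η a b hG hL
  by_cases hpos : PosC 𝒜 p β
  · exact Or.inr hpos
  left
  rcases Nat.eq_zero_or_pos β with h0 | hβ
  · subst h0
    obtain ⟨j, y, hy, hy', h⟩ := hG.neη
    by_contra hab
    apply h
    rw [PowerSeries.coeff_X_pow_mul', if_neg (by omega)]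
  obtain ⟨μ, s, t, F, F', ζ, ζ', hB⟩ := exists_blow hLB hx hgen hM hG
  have hmono : ∀ β' ≤ β, ¬ PosC 𝒜 p β' := fun β' h h' => hpos (h'.mono h)
  have hμ1 : 1 ≤ μ := by
    by_contra h0
    have h0' : μ = 0 := by omega
    obtain ⟨j, hj, r, hr, h⟩ := hB.ne
    apply h
    have h1 := hB.eq j r hr
    rw [h0', zero_mul, pow_zero, one_mul] at h1
    ext m
    rw [← h1, ← PowerSeries.coeff_zero_eq_constantCoeff_apply, coeff_th, coeff_zero]
    split_ifs with h2
    · have h3 : m = 0 := by omega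
      subst h3
      rw [Nat.sub_zero, show PowerSeries.coeff 0 (φ r) = PowerSeries.constantCoeff (φ r) from
        PowerSeries.coeff_zero_eq_constantCoeff_apply _]
      exact (PowerSeries.X_pow_dvd_iff.mp (hG.dvd j r hr)) 0 (Nat.mul_pos hβ hj)
    · rfl
  have hμne : ∃ j > 0, ∃ r ∈ 𝒜 j, (PowerSeries.coeff (β * j) (th (φ r))).coeff (β * j) ≠ 0 := by
    obtain ⟨j, hj, r, hr, h⟩ := hG.ne
    refine ⟨j, hj, r, hr, ?_⟩
    rw [coeff_th, if_pos le_rfl, Nat.sub_self, PowerSeries.coeff_zero_eq_constantCoeff_apply]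
    exact h
  have hμβ : μ ≤ β := by
    obtain ⟨j, hj, r, hr, h⟩ := hμne
    by_contra hcon
    apply h
    rw [hB.eq j r hr, PowerSeries.coeff_X_pow_mul', if_neg, coeff_zero]
    have := Nat.mul_lt_mul_of_pos_right (not_le.mp hcon) hj
    omega
  obtain ⟨hμL, hI⟩ : μ ≤ L ∧ PowerSeries.X ^ (L - μ) ∈ imI 𝒜 F := by
    refine imI_div (Φ := th.comp φ) hB.eq ?_
    have := imI_map φ th hL
    rwa [map_pow, th_X] at this
  -- the points of the exceptional curve
  have hpt : ∀ c : k, ∃ ν, (∃ j > 0, ∃ r ∈ 𝒜 j,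
      PowerSeries.coeff (ν * j) (expandAt c (((ccA k k[X]).comp F) r)) ≠ 0) ∧
      ∀ j y, y ∈ 𝒜 j → y ∈ p →
        PowerSeries.X ^ (ν * j) ∣ expandAt c (ccA k k[X] (ζ j y)) := by
    intro c
    obtain ⟨ν, a', b', hg⟩ := exists_point hLB hx hgen hM hB.eta hB.ne hB.neη c
    have hν : ν ≤ μ := by
      obtain ⟨j, hj, r, hr, h⟩ := hg.ne
      rw [AlgHom.comp_apply, constantCoeff_recen, coeff_expandAt] at h
      have h1 := le_natDegree_of_ne_zero h
      rw [natDegree_taylor] at h1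
      have h2 := hB.deg hr
      exact Nat.le_of_mul_le_mul_right (h1.trans h2) hj
    have h2 : PowerSeries.X ^ (L - μ) ∈ imI 𝒜 ((recen c).comp F) := by
      have := imI_map F (recen c) hI
      rwa [map_pow, recen_X] at this
    have hab : a' ≤ b' := by
      rcases Nat.lt_or_ge ν β with h | h
      · exact (ihβ ν h _ _ _ _ _ hg h2).resolve_right (hmono _ h.le)
      · obtain rfl : ν = β := by omega
        exact (ihL (L - μ) (by omega) _ _ _ _ hg h2).resolve_right hpos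
    refine ⟨ν, ?_, fun j y hy hy' => ?_⟩
    · obtain ⟨j, hj, r, hr, h⟩ := hg.ne
      rw [AlgHom.comp_apply, constantCoeff_recen] at h
      exact ⟨j, hj, r, hr, h⟩
    · have h3 := hg.dvd_of_le hab hy hy'
      rwa [constantCoeff_recen] at h3
  -- the point at infinity
  obtain ⟨β', a', b', hg⟩ := exists_point hLB hx hgen hM hB.eta' hB.ne' hB.neη' 0
  have hcc : ∀ (f : PowerSeries k[X]) (m : ℕ), PowerSeries.coeff m
      (PowerSeries.constantCoeff (recen 0 f)) = (PowerSeries.constantCoeff f).coeff m := by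
    intro f m
    rw [constantCoeff_recen, coeff_expandAt, taylor_zero]
  obtain ⟨j₁, hj₁, r₁, hr₁, hne₁⟩ := hg.ne
  rw [AlgHom.comp_apply, hcc] at hne₁
  have hβ'μ : β' ≤ μ := by
    by_contra hcon
    apply hne₁
    rw [hB.coeff' hr₁, if_neg]
    have := Nat.mul_lt_mul_of_pos_right (not_le.mp hcon) hj₁
    omega
  have hsub : ∀ j, (μ - β') * j = μ * j - β' * j := fun j => Nat.sub_mul _ _ _
  have hle : ∀ j, β' * j ≤ μ * j := fun j => Nat.mul_le_mul_right _ hβ'μ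
  have hlow : ∀ j, ∀ r ∈ 𝒜 j, ∀ m < β' * j, (PowerSeries.constantCoeff (F' r)).coeff m = 0 := by
    intro j r hr m hm
    rw [← hcc, ← AlgHom.comp_apply]
    exact PowerSeries.X_pow_dvd_iff.mp (hg.dvd j r hr) m hm
  have hdeg : ∀ j, ∀ r ∈ 𝒜 j,
      (((ccA k k[X]).comp F) r).natDegree ≤ (μ - β') * j := by
    intro j r hr
    change (PowerSeries.constantCoeff (F r)).natDegree ≤ _
    by_contra hcon
    have h1 := hB.deg hr
    have h2 := hB.coeff' hr (μ * j - (PowerSeries.constantCoeff (F r)).natDegree)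
    rw [if_pos (by omega), Nat.sub_sub_self h1, hlow j r hr _ (by
      rw [hsub] at hcon; have := hle j; omega)] at h2
    have h3 : PowerSeries.constantCoeff (F r) = 0 := leadingCoeff_eq_zero.mp h2.symm
    rw [h3, natDegree_zero] at hcon
    exact hcon (Nat.zero_le _)
  have hβ'β : β' < β := by
    rcases Nat.lt_or_ge μ β with h | h
    · omega
    · have h1 : μ = β := by omega
      obtain ⟨j, hj, r, hr, h2⟩ := hμne
      rw [hB.eq j r hr, h1, PowerSeries.coeff_X_pow_mul', if_pos le_rfl, Nat.sub_self,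
        PowerSeries.coeff_zero_eq_constantCoeff_apply] at h2
      have h3 := le_natDegree_of_ne_zero h2
      have h4 := hdeg j r hr
      change (PowerSeries.constantCoeff (F r)).natDegree ≤ _ at h4
      rw [hsub, h1] at h4
      have h5 : β' * j = 0 := by have := hle j; rw [h1] at this; omega
      rcases Nat.mul_eq_zero.mp h5 with h6 | h6 <;> omega
  obtain ⟨A, hA⟩ : ∃ A, (PowerSeries.C (PowerSeries.X : PowerSeries k)) ^ A ∈ imI 𝒜 φ := by
    obtain ⟨j, hj, r, hr, h⟩ := hG.ne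
    refine imI_inner hj hr hL fun h0 => h ?_
    rw [h0, map_zero]
  have hI' : PowerSeries.X ^ (A - μ) ∈ imI 𝒜 ((recen 0).comp F') := by
    have h1 : PowerSeries.X ^ A ∈ imI 𝒜 ((th.comp sw).comp φ) := by
      have := imI_map φ (th.comp sw) hA
      rwa [AlgHom.comp_apply, map_pow, sw_C_X, map_pow, th_X] at this
    have h2 := imI_map F' (recen 0) (imI_div (F := F') (μ := μ) hB.eq' h1).2
    rwa [map_pow, recen_X] at h2
  have hab : a' ≤ b' := (ihβ β' hβ'β _ _ _ _ _ hg hI').resolve_right (hmono _ hβ'β.le)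
  -- the closed exceptional curve
  have hst : s ≤ t := by
    refine (curve_pos (s := s) (t := t) hLB hx hgen hdeg ⟨j₁, hj₁, r₁, hr₁, ?_⟩
      (hB.eta.map (ccA k k[X])) ?_ ?_ hpt).resolve_right (hmono _ (by omega))
    · change (PowerSeries.constantCoeff (F r₁)).coeff _ ≠ 0
      rw [hsub]
      rw [hB.coeff' hr₁, if_pos (hle j₁)] at hne₁
      exact hne₁
    · intro j y hy hy' hne
      change PowerSeries.constantCoeff (ζ j y) ≠ 0 at hne
      change (PowerSeries.constantCoeff (ζ j y)).natDegree + s ≤ _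
      have h1 := natDegree_cc (hB.eqη j y hy hy') hne
      have h2 := hB.coeffη' hy hy'
        (μ * j + t - s - (PowerSeries.constantCoeff (ζ j y)).natDegree)
      rw [if_pos (by omega), Nat.sub_sub_self (by omega)] at h2
      have h3 : (PowerSeries.constantCoeff (ζ' j y)).coeff
          (μ * j + t - s - (PowerSeries.constantCoeff (ζ j y)).natDegree) ≠ 0 := by
        rw [h2]
        exact fun h4 => hne (leadingCoeff_eq_zero.mp h4)
      have h4 : β' * j ≤ μ * j + t - s - (PowerSeries.constantCoeff (ζ j y)).natDegree := by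
        by_contra hcon
        apply h3
        rw [← hcc]
        exact PowerSeries.X_pow_dvd_iff.mp (hg.dvd_of_le hab hy hy') _ (by omega)
      rw [hsub]
      have := hle j
      omega
    · obtain ⟨j, y, hy, hy', h⟩ := hB.neη
      exact ⟨j, y, hy, hy', h⟩
  -- the strict transform
  have hS := hB.strict hG hμβ
  obtain ⟨A', hA'⟩ : ∃ A', (PowerSeries.C (PowerSeries.X : PowerSeries k)) ^ A' ∈
      imI 𝒜 ((recen 0).comp F') := by
    refine imI_inner hj₁ hr₁ hI' fun h0 => hne₁ ?_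
    rw [← hcc, ← AlgHom.comp_apply, h0, map_zero]
  have hIS : PowerSeries.X ^ A' ∈ imI 𝒜 (sw.comp ((recen 0).comp F')) := by
    have := imI_map ((recen 0).comp F') sw hA'
    rwa [map_pow, sw_C_X] at this
  have hfin := (ihβ (β - μ) (by omega) _ _ _ _ _ hS hIS).resolve_right (hmono _ (by omega))
  omega

end curve

end Vale.Agent.P292.Dv
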