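import Vale.Agent.P292.D.Loc3
import Vale.Agent.P292.D.Defs

/-! # Part III, block S: part 4 (finite generation, from affine to closed pairs). -/

namespace Vale.Agent.P292.Dv

open Polynomial Vale.Agent.P292.Mo

universe u v w

section gen

variable {k : Type u} [Field k] {R : Type v} [CommRing R] [Algebra k R] {𝒜 : ℕ → Submodule k R}
  [GradedAlgebra 𝒜] {p : Ideal R}

theorem mem_of_homog (hp : p.IsHomogeneous 𝒜) {x : R} (hx : x ∈ p) (j : ℕ) :
    (DirectSum.decompose 𝒜 x j : R) ∈ p := hp j hx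

/-- A homogeneous ideal of a Noetherian ring is generated in bounded degrees. -/
theorem exists_genIn [IsNoetherianRing R] (hp : p.IsHomogeneous 𝒜) : ∃ M, GenIn 𝒜 p M := by
  classical
  obtain ⟨s, hs⟩ := (isNoetherianRing_iff_ideal_fg R).mp inferInstance p
  obtain ⟨M, hM⟩ : ∃ M, ∀ g ∈ s, ∀ j, M < j → (DirectSum.decompose 𝒜 g j : R) = 0 := by
    refine ⟨s.sup fun g => (DirectSum.decompose 𝒜 g).support.sup id, fun g hg j hj => ?_⟩
    by_contra hne
    have h1 : j ∈ (DirectSum.decompose 𝒜 g).support := by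
      rw [DFinsupp.mem_support_iff]
      intro h0
      exact hne (by rw [h0]; rfl)
    have h2 : j ≤ (DirectSum.decompose 𝒜 g).support.sup id := Finset.le_sup (f := id) h1
    have h3 : (DirectSum.decompose 𝒜 g).support.sup id ≤
      s.sup fun g => (DirectSum.decompose 𝒜 g).support.sup id :=
      Finset.le_sup (f := fun g => (DirectSum.decompose 𝒜 g).support.sup id) hg
    omega
  refine ⟨M, fun P h1 h2 h3 => ?_⟩
  have h0 : ∀ j, P j 0 := by
    intro j
    have h4 := h3 j 0 0 0 (zero_mem _) (zero_mem _) (zero_mem _)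
      (h1 0 (Nat.zero_le _) 0 (zero_mem _) (zero_mem _))
    rwa [mul_zero, add_zero] at h4
  have key : ∀ x, x ∈ Ideal.span (s : Set R) → x ∈ p ∧ ∀ j, P j (DirectSum.decompose 𝒜 x j : R) := by
    intro x hx
    induction hx using Submodule.span_induction with
    | mem g hg =>
      refine ⟨hs ▸ Ideal.subset_span hg, fun j => ?_⟩
      rcases Nat.lt_or_ge M j with h | h
      · rw [hM g hg j h]; exact h0 j
      · exact h1 j h _ (SetLike.coe_mem _) (mem_of_homog hp (hs ▸ Ideal.subset_span hg) j)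
    | zero =>
      refine ⟨zero_mem _, fun j => ?_⟩
      rw [DirectSum.decompose_zero]
      exact h0 j
    | add x y _ _ hx hy =>
      refine ⟨add_mem hx.1 hy.1, fun j => ?_⟩
      rw [DirectSum.decompose_add, DirectSum.add_apply, Submodule.coe_add]
      exact h2 j _ _ (SetLike.coe_mem _) (mem_of_homog hp hx.1 j) (SetLike.coe_mem _)
        (mem_of_homog hp hy.1 j) (hx.2 j) (hy.2 j)
    | smul r x _ hx =>
      refine ⟨p.mul_mem_left _ hx.1, fun j => ?_⟩
      rw [smul_eq_mul]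
      have h5 : ∀ r : R, r * x ∈ p := fun r => p.mul_mem_left _ hx.1
      induction r using DirectSum.Decomposition.inductionOn 𝒜 generalizing j with
      | zero => rw [zero_mul, DirectSum.decompose_zero]; exact h0 j
      | @homogeneous i r =>
        rcases Nat.lt_or_ge j i with h | h
        · rw [DirectSum.coe_decompose_mul_of_left_mem_of_not_le 𝒜 r.2 (by omega)]
          exact h0 j
        · rw [DirectSum.coe_decompose_mul_of_left_mem_of_le 𝒜 r.2 h]
          have h6 := h3 i (j - i) _ _ r.2 (SetLike.coe_mem (DirectSum.decompose 𝒜 x (j - i)))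
            (mem_of_homog hp hx.1 _) (hx.2 _)
          rwa [Nat.add_sub_cancel' h] at h6
      | add a b ha hb =>
        rw [add_mul, DirectSum.decompose_add, DirectSum.add_apply, Submodule.coe_add]
        exact h2 j _ _ (SetLike.coe_mem _) (mem_of_homog hp (h5 a) j) (SetLike.coe_mem _)
          (mem_of_homog hp (h5 b) j) (ha j) (hb j)
  intro j x hx hx'
  have h4 := (key x (hs ▸ hx')).2 j
  rwa [DirectSum.decompose_of_mem_same 𝒜 hx] at h4

/-- The homogenisation of a homomorphism to polynomials. -/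
theorem exists_homog {e : ℕ} {Ψ : R →ₐ[k] k[X]}
    (hdeg : ∀ j, ∀ r ∈ 𝒜 j, (Ψ r).natDegree ≤ e * j) :
    ∃ ψ : R →ₐ[k] MvPolynomial (Fin 2) k, ∀ j, ∀ r ∈ 𝒜 j, ψ r = (Ψ r).homogenize (e * j) := by
  let f : ∀ i, 𝒜 i →ₗ[k] MvPolynomial (Fin 2) k := fun i =>
    (homogenizeLM (e * i)) ∘ₗ Ψ.toLinearMap ∘ₗ (𝒜 i).subtype
  have hf : ∀ i (y : 𝒜 i), f i y = (Ψ (y : R)).homogenize (e * i) := fun i y => rfl
  let G : (DirectSum ℕ fun i => 𝒜 i) →ₐ[k] MvPolynomial (Fin 2) k :=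
    DirectSum.toAlgebra k (fun i => 𝒜 i) f
    (by rw [hf]; simp) (fun {i j} a b => by
      rw [hf, hf, hf, SetLike.coe_gMul, map_mul, mul_add,
        homogenize_mul _ _ (hdeg _ _ a.2) (hdeg _ _ b.2)])
  refine ⟨G.comp (DirectSum.decomposeAlgEquiv 𝒜 : R →ₐ[k] _), fun j r hr => ?_⟩
  have h1 : (DirectSum.decomposeAlgEquiv 𝒜 : R →ₐ[k] DirectSum ℕ fun i => 𝒜 i) r =
      DirectSum.of (fun i => 𝒜 i) j ⟨r, hr⟩ := DirectSum.decompose_of_mem 𝒜 hr
  rw [AlgHom.comp_apply, h1]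
  have h2 : G (DirectSum.of (fun i => 𝒜 i) j ⟨r, hr⟩) = f j ⟨r, hr⟩ := by
    simp only [G, DirectSum.toAlgebra_apply]
    exact DirectSum.toSemiring_of _ _ _ _ _
  rw [h2, hf]

/-- A graded family of linear maps on the homogeneous elements of `p` comes from a linear map. -/
theorem exists_total {N : Type*} [AddCommGroup N] [Module k N] (H : ℕ → R → N)
    (hadd : ∀ j x y, x ∈ 𝒜 j → x ∈ p → y ∈ 𝒜 j → y ∈ p → H j (x + y) = H j x + H j y)
    (hsmul : ∀ j (c : k) x, x ∈ 𝒜 j → x ∈ p → H j (c • x) = c • H j x) :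
    ∃ T : R →ₗ[k] N, ∀ j x, x ∈ 𝒜 j → x ∈ p → T x = H j x := by
  have h1 : ∀ j, ∃ g : R →ₗ[k] N, ∀ x, x ∈ 𝒜 j → x ∈ p → g x = H j x := by
    intro j
    let W : Submodule k R := 𝒜 j ⊓ p.restrictScalars k
    let f : W →ₗ[k] N :=
      { toFun := fun x => H j x
        map_add' := fun x y => hadd j x y x.2.1 x.2.2 y.2.1 y.2.2
        map_smul' := fun c x => hsmul j c x x.2.1 x.2.2 }
    obtain ⟨g, hg⟩ := LinearMap.exists_extend f
    refine ⟨g, fun x hx hx' => ?_⟩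
    have h2 := LinearMap.congr_fun hg ⟨x, hx, hx'⟩
    exact h2
  choose g hg using h1
  refine ⟨(DirectSum.toModule k ℕ N fun j => (g j) ∘ₗ (𝒜 j).subtype) ∘ₗ
    (DirectSum.decomposeLinearEquiv 𝒜).toLinearMap, fun j x hx hx' => ?_⟩
  have h2 : (DirectSum.decomposeLinearEquiv 𝒜) x = DirectSum.lof k ℕ (fun j => 𝒜 j) j ⟨x, hx⟩ :=
    DirectSum.decompose_of_mem 𝒜 hx
  rw [LinearMap.comp_apply, LinearEquiv.coe_coe, h2, DirectSum.toModule_lof, LinearMap.comp_apply]
  exact hg j x hx hx'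

theorem IsEta.smul {S : Type*} [CommRing S] [Algebra k S] {φ : R →ₐ[k] S} {η : ℕ → R → S}
    (h : IsEta 𝒜 p φ η) {j : ℕ} (c : k) {x : R} (hx : x ∈ 𝒜 j) (hx' : x ∈ p) :
    η j (c • x) = c • η j x := by
  have h1 := h.mul 0 j (algebraMap k R c) x (SetLike.algebraMap_mem_graded 𝒜 c) hx hx'
  rwa [zero_add, ← Algebra.smul_def, AlgHom.commutes, ← Algebra.smul_def] at h1

theorem IsEta.zero {S : Type*} [CommRing S] [Algebra k S] {φ : R →ₐ[k] S} {η : ℕ → R → S}
    (h : IsEta 𝒜 p φ η) (j : ℕ) : η j 0 = 0 := by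
  have h1 := h.smul (j := j) (0 : k) (zero_mem _) (zero_mem _)
  rwa [zero_smul, zero_smul] at h1

/-- From affine coordinates to a closed pair. -/
theorem PosC.pair (hp : p.IsHomogeneous 𝒜) {β : ℕ} (h : PosC 𝒜 p β) :
    ∃ (e δ : ℕ) (φ : R →ₐ[k] MvPolynomial (Fin 2) k) (η : p →ₗ[k] MvPolynomial (Fin 2) k),
      0 < e ∧ e ≤ β ∧ 0 < δ ∧ IsPair 𝒜 p e δ φ η := by
  classical
  obtain ⟨e, δ₀, Ψ, η₀, he, heβ, hδ₀, hdeg, hinf, hbpf, hη₀, hdegη₀, j₀, x₀, hx₀, hx₀', hne₀⟩ := h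
  -- the largest `δ`
  let Q : ℕ → Prop := fun δ => ∃ η : ℕ → R → k[X], IsEta 𝒜 p Ψ η ∧
    (∀ j x, x ∈ 𝒜 j → x ∈ p → η j x ≠ 0 → (η j x).natDegree + δ ≤ e * j) ∧ η j₀ x₀ ≠ 0
  have hQb : ∀ δ, Q δ → δ ≤ e * j₀ := by
    rintro δ ⟨η, -, h2, h3⟩
    have := h2 j₀ x₀ hx₀ hx₀' h3
    omega
  have hQ₀ : Q δ₀ := ⟨η₀, hη₀, hdegη₀, hne₀⟩
  set δ := Nat.findGreatest Q (e * j₀) with hδ
  have hQ : Q δ := Nat.findGreatest_spec (hQb δ₀ hQ₀) hQ₀
  have hδδ : δ₀ ≤ δ := Nat.le_findGreatest (hQb δ₀ hQ₀) hQ₀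
  have hmax : ¬ Q (δ + 1) := by
    intro h1
    have := Nat.le_findGreatest (hQb _ h1) h1
    omega
  obtain ⟨η, hη, hdegη, hne⟩ := hQ
  have hfin : ∀ c : k, ∃ j x, x ∈ 𝒜 j ∧ x ∈ p ∧ (η j x).eval c ≠ 0 := by
    intro c
    by_contra hcon
    push Not at hcon
    apply hmax
    obtain ⟨ξ, hξ, hξ'⟩ := eta_div (F := Ψ) (s := (1 : k[X])) (t := 1) (u := X - C c) one_ne_zero
      (X_sub_C_ne_zero c) (fun j r _ => by rw [one_pow, one_mul]) hη (fun j x hx hx' => by
        rw [one_pow, one_mul, one_mul, dvd_iff_isRoot]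
        exact hcon j x hx hx')
    have hξ'' : ∀ j x, x ∈ 𝒜 j → x ∈ p → η j x = (X - C c) * ξ j x := by
      intro j x hx hx'
      have := hξ' j x hx hx'
      rwa [one_mul, one_pow, one_mul] at this
    refine ⟨ξ, hξ, fun j x hx hx' h0 => ?_, fun h0 => ?_⟩
    · have h1 : η j x ≠ 0 := by
        rw [hξ'' j x hx hx']; exact mul_ne_zero (X_sub_C_ne_zero c) h0
      have h2 := hdegη j x hx hx' h1
      rw [hξ'' j x hx hx', natDegree_mul (X_sub_C_ne_zero c) h0, natDegree_X_sub_C] at h2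
      omega
    · exact hne (by rw [hξ'' j₀ x₀ hx₀ hx₀', h0, mul_zero])
  obtain ⟨j₁, x₁, hx₁, hx₁', hne₁, hdeg₁⟩ : ∃ j x, x ∈ 𝒜 j ∧ x ∈ p ∧ η j x ≠ 0 ∧
      (η j x).natDegree + δ = e * j := by
    by_contra hcon
    push Not at hcon
    apply hmax
    refine ⟨η, hη, fun j x hx hx' h0 => ?_, hne⟩
    have h1 := hdegη j x hx hx' h0
    have h2 := hcon j x hx hx' h0
    omega
  -- the homogenisation
  obtain ⟨ψ, hψ⟩ := exists_homog hdeg
  obtain ⟨T, hT⟩ := exists_total (𝒜 := 𝒜) (p := p)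
    (fun j x => (η j x).homogenize (e * j - δ)) (fun j x y hx hx' hy hy' => by
      change homogenizeLM (e * j - δ) (η j (x + y)) = homogenizeLM _ (η j x) + homogenizeLM _ (η j y)
      rw [hη.add j x y hx hx' hy hy', map_add]) (fun j c x hx hx' => by
      change homogenizeLM (e * j - δ) (η j (c • x)) = c • homogenizeLM _ (η j x)
      rw [hη.smul c hx hx', map_smul])
  have hlow : ∀ j x, x ∈ 𝒜 j → x ∈ p → e * j < δ → η j x = 0 := by
    intro j x hx hx' hlt
    by_contra h0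
    have := hdegη j x hx hx' h0
    omega
  have hlin₁ : ∀ i, ∀ r ∈ 𝒜 i, ∀ j x, x ∈ 𝒜 j → x ∈ p → T (r * x) = ψ r * T x := by
    intro i r hr j x hx hx'
    rw [hT (i + j) _ (SetLike.mul_mem_graded hr hx) (p.mul_mem_left _ hx'), hT j x hx hx',
      hψ i r hr, hη.mul i j r x hr hx hx']
    by_cases h0 : η j x = 0
    · rw [h0, mul_zero]
      change homogenizeLM _ 0 = _ * homogenizeLM _ 0
      rw [map_zero, map_zero, mul_zero]
    · have h1 := hdegη j x hx hx' h0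
      rw [← homogenize_mul _ _ (hdeg i r hr) (show (η j x).natDegree ≤ e * j - δ by omega)]
      congr 1
      rw [mul_add]
      omega
  have hlin₂ : ∀ i, ∀ r ∈ 𝒜 i, ∀ x ∈ p, T (r * x) = ψ r * T x := by
    intro i r hr x hx
    have e1 : T (r * ∑ j ∈ (DirectSum.decompose 𝒜 x).support, (DirectSum.decompose 𝒜 x j : R)) =
        ψ r * T (∑ j ∈ (DirectSum.decompose 𝒜 x).support, (DirectSum.decompose 𝒜 x j : R)) := by
      rw [Finset.mul_sum, map_sum, map_sum, Finset.mul_sum]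
      exact Finset.sum_congr rfl fun j _ => hlin₁ i r hr j _ (SetLike.coe_mem _)
        (mem_of_homog hp hx j)
    rwa [DirectSum.sum_support_decompose] at e1
  have hlin : ∀ r, ∀ x ∈ p, T (r * x) = ψ r * T x := by
    intro r x hx
    have e1 : T ((∑ j ∈ (DirectSum.decompose 𝒜 r).support, (DirectSum.decompose 𝒜 r j : R)) * x) =
        ψ (∑ j ∈ (DirectSum.decompose 𝒜 r).support, (DirectSum.decompose 𝒜 r j : R)) * T x := by
      rw [Finset.sum_mul, map_sum, map_sum, Finset.sum_mul]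
      exact Finset.sum_congr rfl fun j _ => hlin₂ j _ (SetLike.coe_mem _) x hx
    rwa [DirectSum.sum_support_decompose] at e1
  refine ⟨e, δ, ψ, T ∘ₗ (Submodule.subtype (p.restrictScalars k)), he, heβ, by omega,
    fun j r hr => ?_, fun a ha => ?_, fun r x => ?_, fun j x hx m hm => ?_, fun j x hx hlt => ?_,
    fun a ha => ?_⟩
  · rw [hψ j r hr]
    exact isHomogeneous_homogenize _
  · by_cases h1 : a 1 = 0
    · have h0 : a 0 ≠ 0 := by
        intro h0
        apply ha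
        funext i
        fin_cases i
        · exact h0
        · exact h1
      obtain ⟨j, hj, r, hr, h⟩ := hinf
      refine ⟨j, hj, r, hr, ?_⟩
      rw [hψ j r hr, eval_homogenize_infty _ _ _ h1]
      exact mul_ne_zero h (pow_ne_zero _ h0)
    · obtain ⟨j, hj, r, hr, h⟩ := hbpf (a 0 / a 1)
      refine ⟨j, hj, r, hr, ?_⟩
      rw [hψ j r hr, eval_homogenize (hdeg j r hr) _ h1]
      exact mul_ne_zero h (pow_ne_zero _ h1)
  · exact hlin r x x.2
  · change (T x).IsHomogeneous m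
    rw [hT j x hx x.2]
    have h1 : m = e * j - δ := by omega
    rw [h1]
    exact isHomogeneous_homogenize _
  · change T x = 0
    rw [hT j x hx x.2, hlow j x hx x.2 hlt]
    change homogenizeLM _ 0 = 0
    rw [map_zero]
  · by_cases h1 : a 1 = 0
    · have h0 : a 0 ≠ 0 := by
        intro h0
        apply ha
        funext i
        fin_cases i
        · exact h0
        · exact h1
      refine ⟨⟨x₁, hx₁'⟩, ?_⟩
      change MvPolynomial.eval a (T x₁) ≠ 0
      rw [hT j₁ x₁ hx₁ hx₁', eval_homogenize_infty _ _ _ h1]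
      refine mul_ne_zero ?_ (pow_ne_zero _ h0)
      have h2 : e * j₁ - δ = (η j₁ x₁).natDegree := by omega
      rw [h2]
      exact leadingCoeff_ne_zero.mpr hne₁
    · obtain ⟨j, x, hx, hx', h⟩ := hfin (a 0 / a 1)
      refine ⟨⟨x, hx'⟩, ?_⟩
      change MvPolynomial.eval a (T x) ≠ 0
      have h2 : η j x ≠ 0 := by
        intro h0
        apply h
        rw [h0, eval_zero]
      have h3 := hdegη j x hx hx' h2
      rw [hT j x hx hx', eval_homogenize (by omega) _ h1]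
      exact mul_ne_zero h (pow_ne_zero _ h1)

theorem PosC.pos (hp : p.IsHomogeneous 𝒜) {β : ℕ} (h : PosC 𝒜 p β) (hβ : β ≤ 2) :
    Pos 𝒜 p k := by
  obtain ⟨e, δ, φ, η, h1, h2, h3, h4⟩ := h.pair hp
  exact ⟨e, δ, φ, η, by omega, h3, h4⟩

end gen

end Vale.Agent.P292.Dv
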