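import Vale.Agent.P292.Bn.N16
import Vale.Agent.P292.D.Defs

/-! # Locally principal ideals: a finite cover. -/

namespace Vale.Agent.P292.Dv

open Vale.Agent.P292

universe u

theorem isInv_of_forall {R : Type u} [CommRing R] [Algebra ℂ R] {𝒜 : ℕ → Submodule ℂ R}
    [GradedAlgebra 𝒜] [Algebra.FiniteType ℂ R] (𝔭 : Ideal R)
    (h : ∀ y : R →ₐ[ℂ] ℂ, ¬ IsVertex 𝒜 y → ∃ i, ∃ a ∈ 𝒜 i, a ∈ 𝔭 ∧ ∃ j, ∃ b ∈ 𝒜 j, y b ≠ 0 ∧
      ∀ x ∈ 𝔭, ∃ r, b * x = a * r) : IsInv 𝒜 𝔭 := by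
  classical
  have : IsNoetherianRing R := Algebra.FiniteType.isNoetherianRing ℂ R
  let s : Set R := {b | ∃ i, ∃ a ∈ 𝒜 i, a ∈ 𝔭 ∧ ∃ j, b ∈ 𝒜 j ∧ ∀ x ∈ 𝔭, ∃ r, b * x = a * r}
  have hfg : (Submodule.span R s).FG := IsNoetherian.noetherian _
  obtain ⟨F, hF, hFs⟩ := (Submodule.fg_span_iff_fg_span_finset_subset s).mp hfg
  let e := F.equivFin
  have hs : ∀ t : Fin F.card, ((e.symm t : F) : R) ∈ s := fun t => hF (e.symm t).2
  choose i a ha hap j hb hbp using hs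
  refine ⟨F.card, a, fun t => (e.symm t : F), i, j, ha, hb, hap, ?_, ?_⟩
  · intro t x hx
    obtain ⟨r, hr⟩ := hbp t x hx
    exact ⟨r, by rw [hr, mul_comm]⟩
  · intro n hn r hr
    have h1 : Ideal.span (Set.range fun t : Fin F.card => ((e.symm t : F) : R)) =
        Submodule.span R s := by
      rw [hFs]
      congr 1
      ext x
      constructor
      · rintro ⟨t, rfl⟩
        exact (e.symm t).2
      · intro hx
        exact ⟨e ⟨x, hx⟩, congrArg Subtype.val (Equiv.symm_apply_apply e ⟨x, hx⟩)⟩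
    rw [h1]
    have h2 : r ∈ (Ideal.span s).radical := by
      apply mem_radical_of_forall
      intro p hp
      by_cases hv : IsVertex 𝒜 p
      · exact hv n hn r hr
      · exfalso
        obtain ⟨i, a, ha, hap, j, b, hb, hne, hbp⟩ := h p hv
        exact hne (hp b (Ideal.subset_span ⟨i, a, ha, hap, j, hb, hbp⟩))
    exact h2

end Vale.Agent.P292.Dv
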