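import Vale.Agent.P292.Bn.N12
import Vale.Agent.P292.D.Defs

/-! # A pair from finitely many forms with finitely many relations. -/

namespace Vale.Agent.P292.Dv

open MvPolynomial Vale.Agent.P292.Mo

universe u w

/-- Values of weighted homogeneous polynomials at forms are forms. -/
theorem sp_aeval_homog {K : Type w} [Field K] [Algebra ℂ K] {M : ℕ} {e : Fin M → ℕ} {d : ℕ}
    {Ψ : Fin M → MvPolynomial (Fin 2) K} (hΨ : ∀ i, (Ψ i).IsHomogeneous (d * e i)) {n : ℕ}
    {G : MvPolynomial (Fin M) ℂ} (hG : G.IsWeightedHomogeneous e n) :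
    (aeval Ψ G).IsHomogeneous (d * n) := by
  rw [aeval_def, eval₂_eq']
  refine IsHomogeneous.sum _ _ _ fun m hm => ?_
  have h8 : Finsupp.weight e m = n := hG (mem_support_iff.mp hm)
  have h9 : (∏ i, Ψ i ^ m i).IsHomogeneous (∑ i, d * e i * m i) :=
    IsHomogeneous.prod _ _ _ fun i _ => (hΨ i).pow (m i)
  have h10 : ∑ i, d * e i * m i = d * n := by
    rw [← h8, Finsupp.weight_apply, Finsupp.sum_fintype _ _ (fun i => by simp),
      Finset.mul_sum]
    refine Finset.sum_congr rfl fun i _ => ?_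
    rw [smul_eq_mul]
    ring
  rw [h10] at h9
  exact h9.C_mul _

theorem sp_syz {K : Type w} [Field K] [Algebra ℂ K] {M N : ℕ}
    (Ψ : Fin M → MvPolynomial (Fin 2) K) (E : Fin N → MvPolynomial (Fin 2) K)
    {Z : Set (Fin N → MvPolynomial (Fin M) ℂ)}
    (hsyz : ∀ z ∈ Z, ∑ l, aeval Ψ (z l) * E l = 0) (c : Fin N → MvPolynomial (Fin M) ℂ)
    (hc : c ∈ Submodule.span (MvPolynomial (Fin M) ℂ) Z) : ∑ l, aeval Ψ (c l) * E l = 0 := by
  induction hc using Submodule.span_induction with
  | mem z hz => exact hsyz z hz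
  | zero => simp
  | add a b _ _ ha hb =>
    have h : ∀ l, aeval Ψ ((a + b) l) * E l = aeval Ψ (a l) * E l + aeval Ψ (b l) * E l := by
      intro l
      rw [Pi.add_apply, map_add, add_mul]
    rw [Finset.sum_congr rfl fun l _ => h l, Finset.sum_add_distrib, ha, hb, add_zero]
  | smul r a _ ha =>
    have h : ∀ l, aeval Ψ ((r • a) l) * E l = aeval Ψ r * (aeval Ψ (a l) * E l) := by
      intro l
      rw [Pi.smul_apply, smul_eq_mul, map_mul, mul_assoc]
    rw [Finset.sum_congr rfl fun l _ => h l, ← Finset.mul_sum, ha, mul_zero]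

/-- A pair from the forms `Ψ i`, `E l`. -/
theorem isPair_of_data {R : Type u} [CommRing R] [Algebra ℂ R]
    {𝒜 : ℕ → Submodule ℂ R} [GradedAlgebra 𝒜] {M : ℕ} (x : Fin M → R) (e : Fin M → ℕ)
    (he : ∀ i, 0 < e i) (hx : ∀ i, x i ∈ 𝒜 (e i))
    (hgen : Function.Surjective (aeval x : MvPolynomial (Fin M) ℂ →ₐ[ℂ] R))
    {L : Set (MvPolynomial (Fin M) ℂ)}
    (hL : Ideal.span L = RingHom.ker (aeval x : MvPolynomial (Fin M) ℂ →ₐ[ℂ] R))
    {N : ℕ} (q : Fin N → MvPolynomial (Fin M) ℂ) (j : Fin N → ℕ)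
    (hq : ∀ l, aeval x (q l) ∈ 𝒜 (j l)) (p : Ideal R)
    (hp : p = Ideal.span (Set.range fun l => aeval x (q l)))
    {Z : Set (Fin N → MvPolynomial (Fin M) ℂ)}
    (hZ : ∀ c : Fin N → MvPolynomial (Fin M) ℂ, aeval x (∑ l, c l * q l) = 0 →
      c ∈ Submodule.span (MvPolynomial (Fin M) ℂ) Z)
    {K : Type w} [Field K] [Algebra ℂ K] {d δ : ℕ}
    {Ψ : Fin M → MvPolynomial (Fin 2) K} {E : Fin N → MvPolynomial (Fin 2) K}
    (hΨdeg : ∀ i, (Ψ i).IsHomogeneous (d * e i))
    (hEdeg : ∀ l, (E l).IsHomogeneous (d * j l - δ))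
    (hEle : ∀ l, E l = 0 ∨ δ ≤ d * j l)
    (hΨb : ∀ a : Fin 2 → K, a ≠ 0 → ∃ i, eval a (Ψ i) ≠ 0)
    (hEb : ∀ a : Fin 2 → K, a ≠ 0 → ∃ l, eval a (E l) ≠ 0)
    (hker : ∀ G ∈ L, aeval Ψ G = 0)
    (hsyz : ∀ z ∈ Z, ∑ l, aeval Ψ (z l) * E l = 0) :
    ∃ (φ : R →ₐ[ℂ] MvPolynomial (Fin 2) K) (η : p →ₗ[ℂ] MvPolynomial (Fin 2) K),
      IsPair 𝒜 p d δ φ η := by
  classical
  have hker : ∀ G ∈ RingHom.ker (aeval x : MvPolynomial (Fin M) ℂ →ₐ[ℂ] R), aeval Ψ G = 0 := by
    have h9 : Ideal.span L ≤ RingHom.ker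
        (aeval Ψ : MvPolynomial (Fin M) ℂ →ₐ[ℂ] MvPolynomial (Fin 2) K) := by
      rw [Ideal.span_le]
      intro G hG
      rw [SetLike.mem_coe, RingHom.mem_ker]
      exact hker G hG
    intro G hG
    rw [← hL] at hG
    exact h9 hG
  -- syzygies
  have hsyz : ∀ c : Fin N → MvPolynomial (Fin M) ℂ,
      (∑ l, c l * q l) ∈ RingHom.ker (aeval x : MvPolynomial (Fin M) ℂ →ₐ[ℂ] R) →
      ∑ l, aeval Ψ (c l) * E l = 0 := by
    intro c hc
    rw [RingHom.mem_ker] at hc
    exact sp_syz Ψ E hsyz c (hZ c hc)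
  have hsurj : Function.Surjective (aeval x : MvPolynomial (Fin M) ℂ →ₐ[ℂ] R) := hgen
  choose rep hrep using hgen
  let Φ : R →ₐ[ℂ] MvPolynomial (Fin 2) K :=
    (Ideal.Quotient.liftₐ (RingHom.ker (aeval x : MvPolynomial (Fin M) ℂ →ₐ[ℂ] R))
      (aeval Ψ) hker).comp
      (Ideal.quotientKerAlgEquivOfSurjective hsurj).symm.toAlgHom
  have hΦ : ∀ G : MvPolynomial (Fin M) ℂ, Φ (aeval x G) = aeval Ψ G := by
    intro G
    change (Ideal.Quotient.liftₐ (RingHom.ker (aeval x : MvPolynomial (Fin M) ℂ →ₐ[ℂ] R))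
      (aeval Ψ) hker) ((Ideal.quotientKerAlgEquivOfSurjective hsurj).symm (aeval x G)) = _
    have : (Ideal.quotientKerAlgEquivOfSurjective hsurj).symm (aeval x G) =
        Ideal.Quotient.mk _ G := by
      rw [AlgEquiv.symm_apply_eq]
      rfl
    rw [this]
    rfl
  have hΦX : ∀ i, Φ (x i) = Ψ i := by
    intro i
    have := hΦ (X i)
    rwa [aeval_X, aeval_X] at this
  -- the map on the ideal
  have hcex : ∀ y : p, ∃ c : Fin N → MvPolynomial (Fin M) ℂ,
      ∑ l, aeval x (c l) * aeval x (q l) = (y : R) := by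
    intro y
    have hy : (y : R) ∈ Ideal.span (Set.range fun l => aeval x (q l)) := hp ▸ y.2
    obtain ⟨c, hc⟩ := (Submodule.mem_span_range_iff_exists_fun R).mp hy
    refine ⟨fun l => rep (c l), ?_⟩
    rw [← hc]
    refine Finset.sum_congr rfl fun l _ => ?_
    rw [hrep, smul_eq_mul]
  choose cf hcf using hcex
  have hwd : ∀ (y : p) (c : Fin N → MvPolynomial (Fin M) ℂ),
      ∑ l, aeval x (c l) * aeval x (q l) = (y : R) →
      ∑ l, aeval Ψ (cf y l) * E l = ∑ l, aeval Ψ (c l) * E l := by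
    intro y c hc
    have h9 := hsyz (fun l => cf y l - c l) (by
      rw [RingHom.mem_ker, map_sum]
      simp only [sub_mul, map_sub, map_mul]
      rw [Finset.sum_sub_distrib, hcf, hc, sub_self])
    simp only [map_sub, sub_mul] at h9
    rw [Finset.sum_sub_distrib] at h9
    exact sub_eq_zero.mp h9
  have hR : ∀ (r : R) (y : p), ∑ l, aeval Ψ (cf (r • y) l) * E l =
      Φ r * ∑ l, aeval Ψ (cf y l) * E l := by
    intro r y
    rw [hwd (r • y) (fun l => rep r * cf y l)]
    · rw [Finset.mul_sum]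
      refine Finset.sum_congr rfl fun l _ => ?_
      have : Φ r = aeval Ψ (rep r) := by rw [← hΦ, hrep]
      rw [map_mul, this, mul_assoc]
    · have : ((r • y : p) : R) = r * (y : R) := rfl
      rw [this, ← hcf y, Finset.mul_sum]
      refine Finset.sum_congr rfl fun l _ => ?_
      rw [map_mul, hrep, mul_assoc]
  let η' : p →ₗ[ℂ] MvPolynomial (Fin 2) K :=
    { toFun := fun y => ∑ l, aeval Ψ (cf y l) * E l
      map_add' := by
        intro y y'
        rw [hwd (y + y') (fun l => cf y l + cf y' l)]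
        · simp only [map_add, add_mul]
          rw [Finset.sum_add_distrib]
        · simp only [map_add, add_mul]
          rw [Finset.sum_add_distrib, hcf, hcf]
          rfl
      map_smul' := by
        intro z y
        have h9 : z • y = algebraMap ℂ R z • y := by
          apply Subtype.ext
          change z • (y : R) = algebraMap ℂ R z * (y : R)
          rw [Algebra.smul_def]
        rw [RingHom.id_apply, h9, hR, AlgHom.commutes, ← Algebra.smul_def] }
  have hη' : ∀ (y : p) (c : Fin N → MvPolynomial (Fin M) ℂ),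
      ∑ l, aeval x (c l) * aeval x (q l) = (y : R) → η' y = ∑ l, aeval Ψ (c l) * E l := hwd
  have hηq : ∀ (l : Fin N) (h : aeval x (q l) ∈ p), η' ⟨aeval x (q l), h⟩ = E l := by
    intro l h
    rw [hη' _ (fun i => if i = l then 1 else 0)]
    · rw [Finset.sum_eq_single l]
      · simp
      · intro i _ hi
        simp [hi]
      · intro hl
        exact absurd (Finset.mem_univ l) hl
    · rw [Finset.sum_eq_single l]
      · simp
      · intro i _ hi
        simp [hi]
      · intro hl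
        exact absurd (Finset.mem_univ l) hl
  have hsum : ∀ n, ∀ y : p, (y : R) ∈ 𝒜 n → η' y = ∑ l, aeval Ψ (if j l ≤ n then
      weightedHomogeneousComponent e (n - j l) (cf y l) else 0) * E l := by
    intro n y hy
    refine hη' y _ ?_
    symm
    conv_lhs => rw [← DirectSum.decompose_of_mem_same 𝒜 hy, ← hcf y]
    rw [DirectSum.decompose_sum, DFinsupp.finsetSum_apply, AddSubmonoidClass.coe_finsetSum]
    refine Finset.sum_congr rfl fun l _ => ?_
    split_ifs with hl
    · rw [DirectSum.coe_decompose_mul_of_right_mem_of_le 𝒜 (hq l) hl, decompose_aeval hx]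
    · rw [DirectSum.coe_decompose_mul_of_right_mem_of_not_le 𝒜 (hq l) hl, map_zero, zero_mul]
  refine ⟨Φ, η', ?_, ?_, hR, ?_, ?_, ?_⟩
  · intro n r hr
    have h9 : r = aeval x (weightedHomogeneousComponent e n (rep r)) := by
      rw [← decompose_aeval hx (n := n) (G := rep r), hrep, DirectSum.decompose_of_mem_same 𝒜 hr]
    rw [h9, hΦ]
    exact sp_aeval_homog hΨdeg (weightedHomogeneousComponent_isWeightedHomogeneous n (rep r))
  · intro a ha
    obtain ⟨i, hi⟩ := hΨb a ha
    exact ⟨e i, he i, x i, hx i, by rwa [hΦX]⟩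
  · intro n y hy m hm
    rw [hsum n y hy]
    refine IsHomogeneous.sum _ _ _ fun l _ => ?_
    rcases hEle l with h11 | h11
    · rw [h11, mul_zero]
      exact isHomogeneous_zero _ _ _
    · split_ifs with hl
      · have h12 := (sp_aeval_homog hΨdeg
          (weightedHomogeneousComponent_isWeightedHomogeneous (n - j l) (cf y l))).mul (hEdeg l)
        have h13 : d * (n - j l) + (d * j l - δ) = m := by
          have h14 : d * n = d * (n - j l) + d * j l := by
            rw [← Nat.mul_add, Nat.sub_add_cancel hl]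
          omega
        rwa [h13] at h12
      · rw [map_zero, zero_mul]
        exact isHomogeneous_zero _ _ _
  · intro n y hy hn
    rw [hsum n y hy]
    refine Finset.sum_eq_zero fun l _ => ?_
    split_ifs with hl
    · rcases hEle l with h12 | h12
      · rw [h12, mul_zero]
      · have h13 : d * j l ≤ d * n := Nat.mul_le_mul_left _ hl
        omega
    · rw [map_zero, zero_mul]
  · intro a ha
    obtain ⟨l, hl⟩ := hEb a ha
    have hmem : aeval x (q l) ∈ p := by
      rw [hp]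
      exact Ideal.subset_span ⟨l, rfl⟩
    exact ⟨⟨_, hmem⟩, by rwa [hηq]⟩

end Vale.Agent.P292.Dv
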