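import Vale.Agent.P292.D.SpDesc
import Vale.Agent.P292.D.SpPack0

/-! # Spreading out, back direction: the packaging. -/

namespace Vale.Agent.P292.Dv

open MvPolynomial

universe u w

/-- Finitely many values occur for arbitrarily large finite sets. -/
theorem sp_pigeonhole (Q : ℕ → ℕ → Finset ℂ → Prop) (D : ℕ)
    (hmono : ∀ d δ T T', T ⊆ T' → Q d δ T' → Q d δ T)
    (H : ∀ T, ∃ d δ, (d = 1 ∨ d = 2) ∧ 1 ≤ δ ∧ δ ≤ D ∧ Q d δ T) :
    ∃ d δ, (d = 1 ∨ d = 2) ∧ 1 ≤ δ ∧ ∀ T, Q d δ T := by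
  classical
  by_contra hcon
  have hcon' : ∀ dδ : ℕ × ℕ, (dδ.1 = 1 ∨ dδ.1 = 2) ∧ 1 ≤ dδ.2 → ∃ T : Finset ℂ,
      ¬ Q dδ.1 dδ.2 T := by
    intro dδ h
    by_contra h3
    exact hcon ⟨dδ.1, dδ.2, h.1, h.2, fun T => by
      by_contra h4
      exact h3 ⟨T, h4⟩⟩
  let T₀ : ℕ × ℕ → Finset ℂ := fun dδ =>
    if h : (dδ.1 = 1 ∨ dδ.1 = 2) ∧ 1 ≤ dδ.2 then (hcon' dδ h).choose else ∅
  obtain ⟨d, δ, h2, h3, hb, hQ⟩ :=
    H ((Finset.range 3 ×ˢ Finset.range (D + 1)).biUnion T₀)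
  have hT : T₀ (d, δ) = (hcon' (d, δ) ⟨h2, h3⟩).choose := dif_pos ⟨h2, h3⟩
  refine (hcon' (d, δ) ⟨h2, h3⟩).choose_spec ?_
  rw [← hT]
  refine hmono d δ _ _ ?_ hQ
  refine Finset.subset_biUnion_of_mem T₀ ?_
  rw [Finset.mem_product, Finset.mem_range, Finset.mem_range]
  exact ⟨by rcases h2 with h | h <;> simp [h], Nat.lt_succ_of_le hb⟩

/-- The data in large characteristic. -/
def RedData {M : ℕ} (e : Fin M → ℕ) (L : Finset (MvPolynomial (Fin M) ℂ)) {N : ℕ}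
    (j : Fin N → ℕ) (Z : Finset (Fin N → MvPolynomial (Fin M) ℂ)) (d δ : ℕ)
    (T : Finset ℂ) : Prop :=
  ∃ (B : Subring ℂ) (k : Type) (_ : Field k) (_ : IsAlgClosed k) (π : B →+* k)
    (ψ : Fin M → MvPolynomial (Fin 2) k) (η : Fin N → MvPolynomial (Fin 2) k),
    (T : Set ℂ) ⊆ B ∧
    (∀ i, (ψ i).IsHomogeneous (d * e i)) ∧
    (∀ a : Fin 2 → k, a ≠ 0 → ∃ i, eval a (ψ i) ≠ 0) ∧
    (∀ G : MvPolynomial (Fin M) B, map B.subtype G ∈ L → aeval ψ (map π G) = 0) ∧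
    (∀ l, (η l = 0 ∨ δ ≤ d * j l) ∧ (η l).IsHomogeneous (d * j l - δ)) ∧
    (∀ a : Fin 2 → k, a ≠ 0 → ∃ l, eval a (η l) ≠ 0) ∧
    (∀ z ∈ Z, ∀ c : Fin N → MvPolynomial (Fin M) B, (∀ l, map B.subtype (c l) = z l) →
      ∑ l, aeval ψ (map π (c l)) * η l = 0)

theorem RedData.le {M : ℕ} {e : Fin M → ℕ} {L : Finset (MvPolynomial (Fin M) ℂ)} {N : ℕ}
    {j : Fin N → ℕ} {Z : Finset (Fin N → MvPolynomial (Fin M) ℂ)} {d δ : ℕ}
    {T : Finset ℂ} (h : RedData e L j Z d δ T) (hd : d = 1 ∨ d = 2) :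
    δ ≤ 2 * ∑ l, j l := by
  obtain ⟨B, k, _, _, π, ψ, η, h1, h4, h5, h6, h7, h8, h9⟩ := h
  obtain ⟨l, hl⟩ := h8 ![1, 0] (by
    intro h
    have := congrFun h 0
    simp at this)
  have h10 : η l ≠ 0 := by
    rintro h
    rw [h, map_zero] at hl
    exact hl rfl
  have h11 : δ ≤ d * j l := ((h7 l).1).resolve_left h10
  have h12 : d * j l ≤ 2 * j l := Nat.mul_le_mul_right _ (by
    rcases hd with h | h <;> omega)
  have h13 : j l ≤ ∑ l, j l := Finset.single_le_sum (fun i _ => Nat.zero_le _)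
    (Finset.mem_univ l)
  omega

theorem RedData.mono {M : ℕ} {e : Fin M → ℕ} {L : Finset (MvPolynomial (Fin M) ℂ)} {N : ℕ}
    {j : Fin N → ℕ} {Z : Finset (Fin N → MvPolynomial (Fin M) ℂ)} {d δ : ℕ}
    {T T' : Finset ℂ} (hT : T ⊆ T') (h : RedData e L j Z d δ T') : RedData e L j Z d δ T := by
  obtain ⟨B, k, ik, ia, π, ψ, η, h1, h2⟩ := h
  exact ⟨B, k, ik, ia, π, ψ, η, (Finset.coe_subset.mpr hT).trans h1, h2⟩

/-- The relations of the system over the complex numbers. -/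
noncomputable def sysL {M : ℕ} (L : Finset (MvPolynomial (Fin M) ℂ)) {N : ℕ}
    (j : Fin N → ℕ) (Z : Finset (Fin N → MvPolynomial (Fin M) ℂ)) (d δ : ℕ) :
    Finset (MvPolynomial (Fin M ⊕ Fin N) ℂ) := by
  classical
  exact L.image (rename Sum.inl) ∪
    (Z.image fun z => ∑ l, rename Sum.inl (z l) * X (Sum.inr l)) ∪
    (Finset.univ.filter fun l => d * j l < δ).image fun l => X (Sum.inr l)

theorem mem_sysL {M : ℕ} {L : Finset (MvPolynomial (Fin M) ℂ)} {N : ℕ}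
    {j : Fin N → ℕ} {Z : Finset (Fin N → MvPolynomial (Fin M) ℂ)} {d δ : ℕ}
    {G : MvPolynomial (Fin M ⊕ Fin N) ℂ} : G ∈ sysL L j Z d δ ↔
      (∃ F ∈ L, rename Sum.inl F = G) ∨
      (∃ z ∈ Z, ∑ l, rename Sum.inl (z l) * X (Sum.inr l) = G) ∨
      ∃ l, d * j l < δ ∧ X (Sum.inr l) = G := by
  classical
  rw [sysL, Finset.mem_union, Finset.mem_union, Finset.mem_image, Finset.mem_image,
    Finset.mem_image, or_assoc]
  simp only [Finset.mem_filter, Finset.mem_univ, true_and]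

/-- Lifts to a subring which contains the coefficients. -/
theorem sp_lift {σ : Type} (B : Subring ℂ) (G : MvPolynomial σ ℂ)
    (h : ∀ c ∈ G.coeffs, c ∈ B) : ∃ G' : MvPolynomial σ B, map B.subtype G' = G := by
  have : G ∈ Set.range (map B.subtype : MvPolynomial σ B →+* _) := by
    rw [MvPolynomial.mem_range_map_iff_coeffs_subset]
    intro c hc
    exact ⟨⟨c, h c hc⟩, rfl⟩
  exact this

theorem sp_aeval_inl {M N : ℕ} {B : Subring ℂ} {k : Type} [Field k] (π : B →+* k)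
    (ψ : Fin M → MvPolynomial (Fin 2) k) (η : Fin N → MvPolynomial (Fin 2) k)
    (F : MvPolynomial (Fin M) B) :
    aeval (Sum.elim ψ η) (map π (rename Sum.inl F)) = aeval ψ (map π F) := by
  rw [map_rename, aeval_rename]
  rfl

/-- The relations in large characteristic. -/
theorem RedData.sys {M : ℕ} {e : Fin M → ℕ} {L : Finset (MvPolynomial (Fin M) ℂ)} {N : ℕ}
    {j : Fin N → ℕ} {Z : Finset (Fin N → MvPolynomial (Fin M) ℂ)} {d δ : ℕ}
    (H : ∀ T, RedData e L j Z d δ T) (T : Finset ℂ) :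
    ∃ (B : Subring ℂ) (k : Type) (_ : Field k) (_ : IsAlgClosed k)
        (π : B →+* k) (ψ : Fin M ⊕ Fin N → MvPolynomial (Fin 2) k), (T : Set ℂ) ⊆ B ∧
        (∀ i, (ψ i).IsHomogeneous (Sum.elim (fun i => d * e i) (fun l => d * j l - δ) i)) ∧
        (∀ J ∈ ({Set.range Sum.inl, Set.range Sum.inr} : Set (Set (Fin M ⊕ Fin N))),
          ∀ a : Fin 2 → k, a ≠ 0 → ∃ i ∈ J, eval a (ψ i) ≠ 0) ∧
        (∀ G : MvPolynomial (Fin M ⊕ Fin N) B, map B.subtype G ∈ sysL L j Z d δ →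
          aeval ψ (map π G) = 0) := by
  classical
  obtain ⟨B, k, ik, ia, π, ψ, η, h1, h4, h5, h6, h7, h8, h9⟩ :=
    H (T ∪ (L.biUnion fun G => G.coeffs) ∪ Z.biUnion fun z => Finset.univ.biUnion fun l =>
      (z l).coeffs)
  have hinj : Function.Injective
      (map B.subtype : MvPolynomial (Fin M ⊕ Fin N) B →+* _) :=
    MvPolynomial.map_injective B.subtype Subtype.val_injective
  refine ⟨B, k, ik, ia, π, Sum.elim ψ η, ?_, ?_, ?_, ?_⟩
  · intro c hc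
    apply h1
    rw [Finset.mem_coe, Finset.mem_union, Finset.mem_union]
    exact Or.inl (Or.inl hc)
  · rintro (i | l)
    · exact h4 i
    · exact (h7 l).2
  · rintro J (rfl | rfl) a ha
    · obtain ⟨i, hi⟩ := h5 a ha
      exact ⟨Sum.inl i, ⟨i, rfl⟩, hi⟩
    · obtain ⟨i, hi⟩ := h8 a ha
      exact ⟨Sum.inr i, ⟨i, rfl⟩, hi⟩
  · intro G hG
    rw [mem_sysL] at hG
    rcases hG with ⟨F, hF, hG⟩ | ⟨z, hz, hG⟩ | ⟨l, hl, hG⟩
    · obtain ⟨F', hF'⟩ := sp_lift B F (by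
        intro c hc
        apply h1
        rw [Finset.mem_coe, Finset.mem_union, Finset.mem_union]
        exact Or.inl (Or.inr (Finset.mem_biUnion.mpr ⟨F, hF, hc⟩)))
      have h10 : G = rename Sum.inl F' := hinj (by rw [← hG, map_rename, hF'])
      rw [h10, sp_aeval_inl]
      exact h6 F' (by rw [hF']; exact hF)
    · choose z' hz' using fun l => sp_lift B (z l) (by
        intro c hc
        apply h1
        rw [Finset.mem_coe, Finset.mem_union]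
        refine Or.inr (Finset.mem_biUnion.mpr ⟨z, hz, ?_⟩)
        exact Finset.mem_biUnion.mpr ⟨l, Finset.mem_univ l, hc⟩)
      have h10 : G = ∑ l, rename Sum.inl (z' l) * X (Sum.inr l) := hinj (by
        rw [← hG, map_sum]
        refine Finset.sum_congr rfl fun l _ => ?_
        rw [map_mul, map_rename, hz', map_X])
      rw [h10, map_sum, map_sum, ← h9 z hz z' hz']
      refine Finset.sum_congr rfl fun l _ => ?_
      rw [map_mul, map_mul, sp_aeval_inl, map_X, aeval_X, Sum.elim_inr]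
    · have h10 : G = X (Sum.inr l) := hinj (by rw [← hG, map_X])
      rw [h10, map_X, aeval_X, Sum.elim_inr]
      rcases (h7 l).1 with h | h
      · exact h
      · omega

/-- T5, back: reductions with a positive pair give a positive pair over the complex numbers. -/
theorem pos_of_reductions {R : Type u} [CommRing R] [Algebra ℂ R]
    {𝒜 : ℕ → Submodule ℂ R} [GradedAlgebra 𝒜] {M : ℕ} (x : Fin M → R) (e : Fin M → ℕ)
    (he : ∀ i, 0 < e i) (hx : ∀ i, x i ∈ 𝒜 (e i))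
    (hgen : Function.Surjective (aeval x : MvPolynomial (Fin M) ℂ →ₐ[ℂ] R))
    (L : Finset (MvPolynomial (Fin M) ℂ))
    (hL : Ideal.span (L : Set (MvPolynomial (Fin M) ℂ)) =
      RingHom.ker (aeval x : MvPolynomial (Fin M) ℂ →ₐ[ℂ] R))
    {N : ℕ} (q : Fin N → MvPolynomial (Fin M) ℂ) (j : Fin N → ℕ)
    (hq : ∀ l, aeval x (q l) ∈ 𝒜 (j l)) (p : Ideal R)
    (hp : p = Ideal.span (Set.range fun l => aeval x (q l)))
    (Z : Finset (Fin N → MvPolynomial (Fin M) ℂ))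
    (hZ : ∀ c : Fin N → MvPolynomial (Fin M) ℂ, aeval x (∑ l, c l * q l) = 0 →
      c ∈ Submodule.span (MvPolynomial (Fin M) ℂ) (Z : Set (Fin N → MvPolynomial (Fin M) ℂ)))
    (H : ∀ T : Finset ℂ, ∃ d δ, (d = 1 ∨ d = 2) ∧ 1 ≤ δ ∧ RedData e L j Z d δ T) :
    Pos 𝒜 p ℂ := by
  obtain ⟨d, δ, hd, hδ, Hd⟩ := sp_pigeonhole (RedData e L j Z) (2 * ∑ l, j l)
    (fun d δ T T' hT h => h.mono hT) (fun T => by
      obtain ⟨d, δ, hd, hδ, h⟩ := H T
      exact ⟨d, δ, hd, hδ, h.le hd, h⟩)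
  obtain ⟨Ψ, g1, g2, g3⟩ := sb_transfer (sysL L j Z d δ)
    (Sum.elim (fun i => d * e i) fun l => d * j l - δ)
    {Set.range Sum.inl, Set.range Sum.inr} (RedData.sys Hd)
  obtain ⟨φ, η, h⟩ := isPair_of_data x e he hx hgen hL q j hq p hp hZ (K := ℂ)
    (d := d) (δ := δ) (Ψ := fun i => Ψ (Sum.inl i)) (E := fun l => Ψ (Sum.inr l))
    (fun i => g1 (Sum.inl i)) (fun l => g1 (Sum.inr l)) (by
      intro l
      by_cases hl : d * j l < δ
      · left
        have := g3 (X (Sum.inr l)) (mem_sysL.mpr (Or.inr (Or.inr ⟨l, hl, rfl⟩)))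
        rwa [aeval_X] at this
      · exact Or.inr (not_lt.mp hl)) (by
      intro a ha
      obtain ⟨_, ⟨i, rfl⟩, hi⟩ := g2 _ (Or.inl rfl) a ha
      exact ⟨i, hi⟩) (by
      intro a ha
      obtain ⟨_, ⟨i, rfl⟩, hi⟩ := g2 _ (Or.inr rfl) a ha
      exact ⟨i, hi⟩) (by
      intro G hG
      have := g3 (rename Sum.inl G) (mem_sysL.mpr (Or.inl ⟨G, hG, rfl⟩))
      rwa [aeval_rename] at this) (by
      intro z hz
      have := g3 (∑ l, rename Sum.inl (z l) * X (Sum.inr l))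
        (mem_sysL.mpr (Or.inr (Or.inl ⟨z, hz, rfl⟩)))
      rw [map_sum] at this
      rw [← this]
      refine Finset.sum_congr rfl fun l _ => ?_
      rw [map_mul, aeval_rename, aeval_X]
      rfl)
  exact ⟨d, δ, φ, η, hd, hδ, h⟩

end Vale.Agent.P292.Dv
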