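import Vale.Agent.P292.D.SpFwd
import Vale.Agent.P292.D.SpPack

/-! # Spreading out, final form: block T5. -/

namespace Vale.Agent.P292.Dv

open MvPolynomial Vale.Agent.P292.Mo

universe u

/-- A homogeneous ideal is generated by finitely many homogeneous elements. -/
theorem sp_exists_gens {R : Type u} [CommRing R] [IsNoetherianRing R] [Algebra ℂ R]
    {𝒜 : ℕ → Submodule ℂ R} [GradedAlgebra 𝒜] {𝔭 : Ideal R} (hh : 𝔭.IsHomogeneous 𝒜) :
    ∃ (N : ℕ) (r : Fin N → R) (j : Fin N → ℕ), (∀ l, r l ∈ 𝒜 (j l)) ∧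
      𝔭 = Ideal.span (Set.range r) := by
  classical
  have h1 : 𝔭 = Ideal.span {x | x ∈ 𝔭 ∧ SetLike.IsHomogeneousElem 𝒜 x} := by
    refine le_antisymm ?_ (Ideal.span_le.mpr fun x hx => hx.1)
    intro x hx
    rw [← DirectSum.sum_support_decompose 𝒜 x]
    refine Ideal.sum_mem _ fun i _ => Ideal.subset_span ⟨hh i hx, ?_⟩
    exact ⟨i, SetLike.coe_mem _⟩
  obtain ⟨s, hs1, hs2⟩ := (Submodule.fg_span_iff_fg_span_finset_subset
    {x | x ∈ 𝔭 ∧ SetLike.IsHomogeneousElem 𝒜 x}).mp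
    (IsNoetherian.noetherian (Submodule.span R {x | x ∈ 𝔭 ∧ SetLike.IsHomogeneousElem 𝒜 x}))
  choose d hd using fun x : s => (hs1 x.2).2
  refine ⟨s.card, fun l => (s.equivFin.symm l : R), fun l => d (s.equivFin.symm l),
    fun l => hd _, ?_⟩
  have h2 : (Set.range fun l => (s.equivFin.symm l : R)) = (s : Set R) := by
    ext x
    constructor
    · rintro ⟨l, rfl⟩
      exact (s.equivFin.symm l).2
    · intro hx
      exact ⟨s.equivFin ⟨x, hx⟩, by simp⟩
  rw [h2]
  exact h1.trans hs2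

/-- **Block T5.** The characteristic `p` statement gives a curve of degree one or two which is
positive on the divisor, over the complex numbers. -/
theorem pos_of_moriD {R : Type u} [CommRing R] [Algebra ℂ R] {𝒜 : ℕ → Submodule ℂ R}
    [GradedAlgebra 𝒜] {P : R →ₗ[ℂ] R →ₗ[ℂ] R} (hX : IsContactFano 𝒜 P)
    (hdim : 3 ≤ Algebra.trdeg ℂ R) (mori : MoriD) (𝔭 : Ideal R) (hh : 𝔭.IsHomogeneous 𝒜)
    (hinv : IsInv 𝒜 𝔭) (h0 : 𝔭 ≠ ⊥)
    (hnv : ∃ y : R →ₐ[ℂ] ℂ, ¬ IsVertex 𝒜 y ∧ ∀ x ∈ 𝔭, y x = 0) : Pos 𝒜 𝔭 ℂ := by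
  classical
  have := hX.finiteType
  have : IsNoetherianRing R := Algebra.FiniteType.isNoetherianRing ℂ R
  obtain ⟨M, L, D, ev, hD⟩ := exists_isPres hX
  have hev : (aeval fun i => ev (X i) : MvPolynomial (Fin M) ℂ →ₐ[ℂ] R) = ev :=
    (aeval_unique ev).symm
  obtain ⟨N, r, j, hr, hspan⟩ := sp_exists_gens hh
  choose g hg hgr using fun l => hD.lift (j l) (r l) (hr l)
  have hgr' : (fun l => ev (g l)) = r := funext hgr
  -- syzygies
  let K : Submodule (MvPolynomial (Fin M) ℂ) (Fin N → MvPolynomial (Fin M) ℂ) :=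
    { carrier := {c | ev (∑ l, c l * g l) = 0}
      zero_mem' := by simp
      add_mem' := by
        intro a b ha hb
        have ha' : ev (∑ l, a l * g l) = 0 := ha
        have hb' : ev (∑ l, b l * g l) = 0 := hb
        change ev (∑ l, (a + b) l * g l) = 0
        have h : ∑ l, (a + b) l * g l = ∑ l, a l * g l + ∑ l, b l * g l := by
          rw [← Finset.sum_add_distrib]
          exact Finset.sum_congr rfl fun l _ => add_mul _ _ _
        rw [h, map_add, ha', hb', add_zero]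
      smul_mem' := by
        intro c a ha
        have ha' : ev (∑ l, a l * g l) = 0 := ha
        change ev (∑ l, (c • a) l * g l) = 0
        have h : ∑ l, (c • a) l * g l = c * ∑ l, a l * g l := by
          rw [Finset.mul_sum]
          exact Finset.sum_congr rfl fun l _ => mul_assoc _ _ _
        rw [h, map_mul, ha', mul_zero] }
  obtain ⟨Z, hZ⟩ := (IsNoetherian.noetherian K : K.FG)
  have hZ1 : ∀ z ∈ Z, ∑ l, ev (z l) * ev (g l) = 0 := by
    intro z hz
    have h1 : z ∈ K := by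
      rw [← hZ]
      exact Submodule.subset_span hz
    have h2 : ev (∑ l, z l * g l) = 0 := h1
    rw [← h2, map_sum]
    exact Finset.sum_congr rfl fun l _ => (map_mul ev _ _).symm
  refine pos_of_reductions (fun i => ev (X i)) D.d hD.ok.pos hD.hom
    (by rw [hev]; exact hD.surj) (Finset.univ.image D.F) ?_ g j ?_ 𝔭 ?_ Z ?_ ?_
  · rw [hev, Finset.coe_image, Finset.coe_univ, Set.image_univ]
    ext p
    rw [RingHom.mem_ker]
    exact (hD.ker p).symm
  · intro l
    rw [hev, hgr]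
    exact hr l
  · rw [hev, hgr']
    exact hspan
  · intro c hc
    rw [hev] at hc
    rw [hZ]
    exact hc
  · intro T
    obtain ⟨A, k, ik, ia, π, d, δ, ψ, η, h1, h2, h3, h4, h5, h6, h7, h8, h9, h10⟩ :=
      sf_reduction hX hdim mori hD g j hg 𝔭 (by rw [hgr']; exact hspan) hinv h0 hnv Z hZ1 T
    refine ⟨d, δ, h2, h3, A.toSubring, k, ik, ia, π, ψ, η, h1, h4, h5, ?_, ?_, h9, h10⟩
    · intro G hG
      obtain ⟨l, -, hl⟩ := Finset.mem_image.mp hG
      exact h6 l G hl.symm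
    · intro l
      by_cases hl : δ ≤ d * j l
      · exact ⟨Or.inr hl, h7 l _ (Nat.sub_add_cancel hl)⟩
      · have h11 : η l = 0 := h8 l (not_le.mp hl)
        rw [h11]
        exact ⟨Or.inl rfl, isHomogeneous_zero _ _ _⟩

end Vale.Agent.P292.Dv
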