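import Vale.Agent.P292.Bn.N16
import Vale.Agent.P292.D.LFMain
import Vale.Agent.P292.D.T1
import Vale.Agent.P292.D.SpFinal
import Vale.Agent.P292.D.SpCover

/-! # Contact Fano manifolds are adjoint varieties, without any condition on the Picard group:
assembly. -/

namespace Vale.Agent.P292.Dv

open MvPolynomial Vale.Agent.P292

universe u

variable {R : Type u} [CommRing R] [Algebra ℂ R] {𝒜 : ℕ → Submodule ℂ R} [GradedAlgebra 𝒜]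
  {P : R →ₗ[ℂ] R →ₗ[ℂ] R}

/-- A prime of height one has a zero outside the vertex. -/
theorem main_zero (hX : IsContactFano 𝒜 P) [IsDomain R] (hdim : 3 ≤ cdim R)
    (𝔭 : Ideal R) [𝔭.IsPrime] (hdvr : IsDiscreteValuationRing (Localization.AtPrime 𝔭)) :
    ∃ y : R →ₐ[ℂ] ℂ, ¬ IsVertex 𝒜 y ∧ ∀ x ∈ 𝔭, y x = 0 := by
  have := hX.finiteType
  obtain ⟨k, hk, r, hr, hrp⟩ := exists_notMem_of_dvr hX hdim 𝔭 hdvr
  by_contra hcon
  push Not at hcon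
  apply hrp
  have h1 : r ∈ 𝔭.radical := by
    apply mem_radical_of_forall
    intro y hy
    by_contra hyr
    obtain ⟨x, hx, hx'⟩ := hcon y (fun hv => hyr (hv k hk r hr))
    exact hx' (hy x hx)
  rwa [Ideal.IsPrime.radical ‹𝔭.IsPrime›] at h1

/-- The divisor avoided by the lines is met by a curve of degree one or two. -/
theorem main_pos (hX : IsContactFano 𝒜 P) [IsDomain R] (hdim : 3 ≤ Algebra.trdeg ℂ R)
    (mori : MoriD) (𝔭 : Ideal R) [𝔭.IsPrime]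
    (hdvr : IsDiscreteValuationRing (Localization.AtPrime 𝔭)) (hh : 𝔭.IsHomogeneous 𝒜)
    (h0 : 𝔭 ≠ ⊥) : IsInv 𝒜 𝔭 ∧ Pos 𝒜 𝔭 ℂ := by
  have := hX.finiteType
  have hinv : IsInv 𝒜 𝔭 := isInv_of_forall 𝔭 fun y hy => isInv_of_dvr hX 𝔭 hdvr hh y hy
  exact ⟨hinv, pos_of_moriD hX hdim mori 𝔭 hh hinv h0
    (main_zero hX (le_cdim_of_le_trdeg (n := 3) (by exact_mod_cast hdim)) 𝔭 hdvr)⟩

/-- Contact Fano manifolds are conic connected. -/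
theorem isConicConnected_of_mori (hX : IsContactFano 𝒜 P) [IsDomain R]
    (hdim : 3 ≤ Algebra.trdeg ℂ R) (mori : MoriD)
    (t3 : ∀ (𝔭 : Ideal R) (_ : 𝔭.IsPrime), IsDiscreteValuationRing (Localization.AtPrime 𝔭) →
      𝔭.IsHomogeneous 𝒜 → 𝔭 ≠ ⊥ → IsInv 𝒜 𝔭 → Pos 𝒜 𝔭 ℂ →
      (∀ (κ : Type u) [Field κ] [IsAlgClosed κ] [Algebra ℂ κ]
        (φ : R →ₐ[ℂ] MvPolynomial (Fin 2) κ), IsAnch 𝒜 1 φ → IsFull 𝒜 1 φ →
        ∀ a : Fin 2 → κ, a ≠ 0 → ∃ r ∈ 𝔭, pt φ a r ≠ 0) → IsConicConnected 𝒜) :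
    IsConicConnected 𝒜 := by
  classical
  obtain ⟨K, _, _, _, d, φ, hd, hφ⟩ := Mo.exists_isAnch_of_mori hX
    (le_trans (by norm_num) hdim) (fun k _ _ p _ hp2 hp0 S _ _ ℬ _ Q hPM e n y hN f hf => by
      have : Fact p.Prime := ⟨(CharP.char_is_prime_or_zero k p).resolve_right hp0⟩
      exact Mo.charp_main p hp2 hPM hN f hf)
  by_cases hl : ∃ (κ : Type u) (_ : Field κ) (_ : IsAlgClosed κ) (_ : Algebra ℂ κ)
      (ψ : R →ₐ[ℂ] MvPolynomial (Fin 2) κ), IsAnch 𝒜 1 ψ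
  · obtain ⟨κ, _, _, _, ψ, hψ⟩ := hl
    obtain ⟨κ, _, _, _, ψ, hψ, hψf⟩ := exists_full_line hX hψ
    by_cases hcon : ∃ (Ω : Type u) (_ : Field Ω) (_ : IsAlgClosed Ω) (_ : Algebra ℂ Ω)
      (ψ₁ ψ₂ : R →ₐ[ℂ] MvPolynomial (Fin 2) Ω), IsAnch 𝒜 1 ψ₁ ∧ IsAnch 𝒜 1 ψ₂ ∧
      pt ψ₁ ![1, 0] = pt ψ₂ ![1, 0] ∧
      om P (pt ψ₁ ![1, 0]) (evL ![1, 0] (pd ψ₁ 1)) (evL ![1, 0] (pd ψ₂ 1)) ≠ 0
    · obtain ⟨κ, _, _, _, ψ₁, ψ₂, h1, h2, h3, h4⟩ := hcon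
      obtain ⟨κ, _, _, _, φ, b, h5, h6, h7⟩ := exists_conic_of_lines hX h1 h2 h3 h4
      obtain ⟨κ, _, _, _, φ, h8, h9, b', h10, h11⟩ := exists_full_conic hX h5 h6 h7
      refine isConicConnected_of_generic hX h8.curve (g_injective hX h8 h9 ?_)
      intro D h12 h13 r m
      exact fc1_apply_coeff hX h8.curve h10 h11 D h12 h13 r m
    · obtain ⟨𝔭, h𝔭, hdvr, hhom, h0, hav⟩ := exists_avoided hX hψ hψf hcon
      obtain ⟨hinv, hpos⟩ := main_pos hX hdim mori 𝔭 hdvr hhom h0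
      exact t3 𝔭 h𝔭 hdvr hhom h0 hinv hpos hav
  · obtain rfl : d = 2 := by
      by_contra h2
      obtain rfl : d = 1 := by omega
      exact hl ⟨K, inferInstance, inferInstance, inferInstance, φ, hφ⟩
    obtain ⟨ψ, h1, h2⟩ := exists_nonProp hX (by norm_num) hφ
    obtain ⟨κ, _, _, _, ψ, h3, h4, h5⟩ := exists_full_conic' hX h1 h2
    refine isConicConnected_of_generic hX h3.curve (g_injective hX h3 h4 ?_)
    intro D h6 h7 r m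
    exact e2_apply_coeff hX (fun κ _ _ _ ψ hψ => hl ⟨κ, inferInstance, inferInstance,
      inferInstance, ψ, hψ⟩) h3 h5 D h6 h7 r m

/-- Contact Fano manifolds are adjoint varieties. -/
theorem isAdjointVariety_of_mori (hX : IsContactFano 𝒜 P) [IsDomain R]
    (hdim : 3 ≤ Algebra.trdeg ℂ R)
    (mori : MoriD)
    (t3 : ∀ (𝔭 : Ideal R) (_ : 𝔭.IsPrime), IsDiscreteValuationRing (Localization.AtPrime 𝔭) →
      𝔭.IsHomogeneous 𝒜 → 𝔭 ≠ ⊥ → IsInv 𝒜 𝔭 → Pos 𝒜 𝔭 ℂ →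
      (∀ (κ : Type u) [Field κ] [IsAlgClosed κ] [Algebra ℂ κ]
        (φ : R →ₐ[ℂ] MvPolynomial (Fin 2) κ), IsAnch 𝒜 1 φ → IsFull 𝒜 1 φ →
        ∀ a : Fin 2 → κ, a ≠ 0 → ∃ r ∈ 𝔭, pt φ a r ≠ 0) → IsConicConnected 𝒜) :
    IsAdjointVariety 𝒜 P := by
  have := hX.finiteType
  exact asm_conicConnected hX (le_cdim_of_le_trdeg (n := 3) (by exact_mod_cast hdim))
    (isConicConnected_of_mori hX hdim mori t3)

end Vale.Agent.P292.Dv
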