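import Mathlib
import Vale.Agent.P292.D.Defs

/-! # P292, Part III, block T2, B2: the pair at a mark. -/

namespace Vale.Agent.P292.Dv

universe u v w

namespace PFMark

/-- A divisor of a power of `X` with nonzero constant term is a unit. -/
theorem isUnit_of_dvd_X_pow {S : Type v} [CommRing S] [IsDomain S] {a : PowerSeries S} {L : ℕ}
    (h : a ∣ PowerSeries.X ^ L) (h0 : PowerSeries.constantCoeff a ≠ 0) : IsUnit a := by
  obtain ⟨j, hj, hja⟩ := (dvd_prime_pow (PowerSeries.X_prime (R := S)) L).1 h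
  rcases Nat.eq_zero_or_pos j with rfl | hj0
  · rw [pow_zero] at hja
    exact hja.symm.isUnit isUnit_one
  · exfalso
    apply h0
    obtain ⟨e, he⟩ := (hja.symm.dvd : PowerSeries.X ^ j ∣ a)
    rw [he, map_mul, map_pow, PowerSeries.constantCoeff_X, zero_pow hj0.ne', zero_mul]

end PFMark

/-- The pair at a mark: if the central fibre of `F` is not the vertex at the mark, the central
fibre of `H` does not vanish there. -/
theorem pf_mark {k : Type u} [Field k] {R : Type v} [CommRing R] [Algebra k R]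
    {𝒜 : ℕ → Submodule k R} {J : Ideal R} (hJ : IsInv 𝒜 J)
    {A : Type w} [CommRing A] [Algebra k A] (c : A →ₐ[k] k) (ex : A →ₐ[k] PowerSeries k)
    (hex : Function.Injective ex) (hc : ∀ a, PowerSeries.constantCoeff (ex a) = c a)
    (F : R →ₐ[k] PowerSeries A) (H : J →ₗ[k] PowerSeries A)
    (hlin : ∀ (r : R) (x : J), H (r • x) = F r * H x)
    (hnv : ∃ n, 0 < n ∧ ∃ r ∈ 𝒜 n, c (PowerSeries.constantCoeff (F r)) ≠ 0)
    (hb : ∃ L, (PowerSeries.X : PowerSeries A) ^ L ∈ Ideal.span (Set.range H))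
    (hne : ∃ x, PowerSeries.constantCoeff (H x) ≠ 0) :
    ∃ x, c (PowerSeries.constantCoeff (H x)) ≠ 0 := by
  classical
  obtain ⟨T, a, b, da, db, ha, hbm, haJ, hab, hN⟩ := hJ
  obtain ⟨n, hn, r, hr, hr0⟩ := hnv
  let M : PowerSeries A →+* PowerSeries (PowerSeries k) := PowerSeries.map (ex : A →+* _)
  have hM0 : ∀ f, PowerSeries.constantCoeff (M f) = ex (PowerSeries.constantCoeff f) := by
    intro f
    rw [← PowerSeries.coeff_zero_eq_constantCoeff_apply, PowerSeries.coeff_map,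
      PowerSeries.coeff_zero_eq_constantCoeff_apply]
    rfl
  have hunit : ∀ f : PowerSeries A, c (PowerSeries.constantCoeff f) ≠ 0 → IsUnit (M f) := by
    intro f hf
    rw [PowerSeries.isUnit_iff_constantCoeff, hM0, PowerSeries.isUnit_iff_constantCoeff, hc]
    exact isUnit_iff_ne_zero.2 hf
  -- a local generator at the mark
  obtain ⟨t, ht⟩ : ∃ t, c (PowerSeries.constantCoeff (F (b t))) ≠ 0 := by
    obtain ⟨N, hN'⟩ := hN n hn r hr
    by_contra hcon
    push Not at hcon
    let S : R →+* k := (c : A →+* k).comp ((PowerSeries.constantCoeff (R := A)).comp (F : R →+* _))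
    have h1 : Ideal.span (Set.range b) ≤ RingHom.ker S := by
      rw [Ideal.span_le]
      rintro _ ⟨t, rfl⟩
      exact hcon t
    have h2 : S (r ^ N) = 0 := h1 hN'
    rw [map_pow] at h2
    exact pow_ne_zero _ hr0 h2
  obtain ⟨β, hβ⟩ := (hunit _ ht).exists_right_inv
  have hdvd : ∀ x, M (H ⟨a t, haJ t⟩) ∣ M (H x) := by
    intro x
    obtain ⟨q, hq⟩ := hab t x x.2
    have h1 : b t • x = q • (⟨a t, haJ t⟩ : J) := Subtype.ext hq
    have h2 : M (F (b t)) * M (H x) = M (F q) * M (H ⟨a t, haJ t⟩) := by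
      rw [← map_mul, ← map_mul, ← hlin, ← hlin, h1]
    refine ⟨β * M (F q), ?_⟩
    calc M (H x) = M (F (b t)) * β * M (H x) := by rw [hβ, one_mul]
      _ = β * (M (F (b t)) * M (H x)) := by ring
      _ = _ := by rw [h2]; ring
  have hXL : ∃ L, M (H ⟨a t, haJ t⟩) ∣ PowerSeries.X ^ L := by
    obtain ⟨L, hL⟩ := hb
    refine ⟨L, ?_⟩
    have h1 := Ideal.mem_map_of_mem M hL
    rw [Ideal.map_span, map_pow, show M PowerSeries.X = PowerSeries.X from PowerSeries.map_X _] at h1
    rw [← Ideal.mem_span_singleton]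
    refine (Ideal.span_le.2 ?_ : Ideal.span (M '' Set.range H) ≤ _) h1
    rintro _ ⟨_, ⟨x, rfl⟩, rfl⟩
    rw [SetLike.mem_coe, Ideal.mem_span_singleton]
    exact hdvd x
  obtain ⟨L, hL⟩ := hXL
  have h0 : PowerSeries.constantCoeff (M (H ⟨a t, haJ t⟩)) ≠ 0 := by
    intro h0
    obtain ⟨x, hx⟩ := hne
    apply hx
    apply hex
    rw [map_zero, ← hM0]
    obtain ⟨e, he⟩ := hdvd x
    rw [he, map_mul, h0, zero_mul]
  have hu := PFMark.isUnit_of_dvd_X_pow hL h0
  refine ⟨⟨a t, haJ t⟩, ?_⟩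
  rw [PowerSeries.isUnit_iff_constantCoeff, hM0, PowerSeries.isUnit_iff_constantCoeff, hc] at hu
  exact hu.ne_zero

end Vale.Agent.P292.Dv
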