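import Vale.Agent.P292.Bn.N16
import Vale.Agent.P292.D.Defs

/-! # Forms in two variables: quotients, comparison, lifting of zeros. -/

namespace Vale.Agent.P292.Dv

open MvPolynomial Vale.Agent.P292

universe u v w

section forms

variable {K : Type v} [Field K]

/-- The quotient of a form by a form is a form. -/
theorem pz_homog_quot {l q : MvPolynomial (Fin 2) K} {n m : ℕ} (hl : l.IsHomogeneous n)
    (hl0 : l ≠ 0) (h : (l * q).IsHomogeneous (n + m)) : q.IsHomogeneous m := by
  classical
  let _ : GradedAlgebra (homogeneousSubmodule (Fin 2) K) := MvPolynomial.gradedAlgebra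
  have key : ∀ i, i ≠ m → homogeneousComponent i q = 0 := by
    intro i hi
    have h1 : (DirectSum.decompose (homogeneousSubmodule (Fin 2) K) (l * q) (n + i) :
        MvPolynomial (Fin 2) K) =
        l * (DirectSum.decompose (homogeneousSubmodule (Fin 2) K) q i :
          MvPolynomial (Fin 2) K) :=
      DirectSum.coe_decompose_mul_add_of_left_mem (homogeneousSubmodule (Fin 2) K)
        ((mem_homogeneousSubmodule _ _).2 hl)
    have h2 : (DirectSum.decompose (homogeneousSubmodule (Fin 2) K) (l * q) (n + i) :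
        MvPolynomial (Fin 2) K) = 0 :=
      DirectSum.decompose_of_mem_ne _ ((mem_homogeneousSubmodule _ _).2 h) (by omega)
    rw [h2] at h1
    have h3 := (mul_eq_zero.1 h1.symm).resolve_left hl0
    have h4 : (DirectSum.decompose (homogeneousSubmodule (Fin 2) K) q i :
          MvPolynomial (Fin 2) K) = homogeneousComponent i q :=
      decomposition.decompose'_apply q i
    rw [← h4]
    exact h3
  rw [← sum_homogeneousComponent q]
  refine IsHomogeneous.sum _ _ _ fun i _ => ?_
  by_cases hi : i = m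
  · subst hi
    exact homogeneousComponent_isHomogeneous _ _
  · rw [key i hi]
    exact isHomogeneous_zero _ _ _

/-- Rank one comparison: if `f i * A' = g i * A` for all `i`, and the form `A'` has larger degree
than the form `A`, then the `g i` have a common zero. -/
theorem pz_compare [IsAlgClosed K] {ι : Type w} (f g : ι → MvPolynomial (Fin 2) K) :
    ∀ (m m' : ℕ) (A A' : MvPolynomial (Fin 2) K), A.IsHomogeneous m → A'.IsHomogeneous m' →
      A ≠ 0 → A' ≠ 0 → (∀ i, f i * A' = g i * A) → m < m' →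
      ∃ a : Fin 2 → K, a ≠ 0 ∧ ∀ i, eval a (g i) = 0 := by
  intro m
  induction m with
  | zero =>
    intro m' A A' hA hA' hA0 hA'0 h hm
    obtain ⟨a, ha, ha0⟩ := fr_exists_zero hm hA'
    refine ⟨a, ha, fun i => ?_⟩
    have h1 := congrArg (eval a) (h i)
    rw [map_mul, map_mul, ha0, mul_zero] at h1
    refine (mul_eq_zero.1 h1.symm).resolve_right ?_
    have hAC : A = C (coeff 0 A) :=
      totalDegree_eq_zero_iff_eq_C.1 ((totalDegree_zero_iff_isHomogeneous _).2 hA)
    rw [hAC, eval_C]
    intro h2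
    apply hA0
    rw [hAC, h2, map_zero]
  | succ m ih =>
    intro m' A A' hA hA' hA0 hA'0 h hm
    obtain ⟨a, ha, ha0⟩ := fr_exists_zero (by omega : 0 < m') hA'
    by_cases hAa : eval a A = 0
    · obtain ⟨q, hq⟩ := frL_dvd ha hA hAa
      obtain ⟨q', hq'⟩ := frL_dvd ha hA' ha0
      obtain ⟨m'', rfl⟩ : ∃ m'', m' = 1 + m'' := ⟨m' - 1, by omega⟩
      refine ih m'' q q' (pz_homog_quot (frL_homog a) (frL_ne ha) ?_)
        (pz_homog_quot (frL_homog a) (frL_ne ha) ?_) ?_ ?_ ?_ (by omega)
      · rw [← hq, add_comm]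
        exact hA
      · rw [← hq']
        exact hA'
      · rintro rfl
        exact hA0 (by rw [hq, mul_zero])
      · rintro rfl
        exact hA'0 (by rw [hq', mul_zero])
      · intro i
        have h1 := h i
        rw [hq, hq'] at h1
        apply mul_left_cancel₀ (frL_ne ha)
        linear_combination h1
    · refine ⟨a, ha, fun i => ?_⟩
      have h1 := congrArg (eval a) (h i)
      rw [map_mul, map_mul, ha0, mul_zero] at h1
      exact (mul_eq_zero.1 h1.symm).resolve_right hAa

/-- The greatest common divisor of a family of forms. -/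
theorem pz_exists_gcd [IsAlgClosed K] {ι : Type w} (f : ι → MvPolynomial (Fin 2) K) (d : ι → ℕ)
    (hf : ∀ i, (f i).IsHomogeneous (d i)) (h0 : ∃ i, f i ≠ 0) :
    ∃ (g : ℕ) (G : MvPolynomial (Fin 2) K), G.IsHomogeneous g ∧ G ≠ 0 ∧ (∀ i, G ∣ f i) ∧
      ∀ h : ι → MvPolynomial (Fin 2) K, (∀ i, f i = G * h i) →
        ∀ a : Fin 2 → K, a ≠ 0 → ∃ i, eval a (h i) ≠ 0 := by
  classical
  obtain ⟨i₀, hi₀⟩ := h0
  let S : Set ℕ := {g | ∃ G : MvPolynomial (Fin 2) K, G.IsHomogeneous g ∧ G ≠ 0 ∧ ∀ i, G ∣ f i}
  have hne : S.Nonempty := ⟨0, 1, isHomogeneous_one _ _, one_ne_zero, fun i => one_dvd _⟩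
  have hb : ∀ g ∈ S, g ≤ d i₀ := by
    rintro g ⟨G, hG, hG0, hd⟩
    obtain ⟨q, hq⟩ := hd i₀
    have hq0 : q ≠ 0 := by
      rintro rfl
      exact hi₀ (by rw [hq, mul_zero])
    have h1 := totalDegree_mul_of_isDomain hG0 hq0
    rw [← hq, hG.totalDegree hG0, (hf i₀).totalDegree hi₀] at h1
    omega
  obtain ⟨g, ⟨G, hG, hG0, hd⟩, hmax⟩ : ∃ g ∈ S, ∀ g' ∈ S, g' ≤ g :=
    ⟨sSup S, Nat.sSup_mem hne ⟨_, hb⟩, fun g' hg' => le_csSup ⟨_, hb⟩ hg'⟩
  refine ⟨g, G, hG, hG0, hd, ?_⟩
  intro h hh a ha
  by_contra hcon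
  push Not at hcon
  have h1 : g + 1 ∈ S := by
    refine ⟨G * frL a, hG.mul (frL_homog a), mul_ne_zero hG0 (frL_ne ha), fun i => ?_⟩
    rw [hh i]
    apply mul_dvd_mul_left
    by_cases hi : h i = 0
    · rw [hi]
      exact dvd_zero _
    · have hfi : f i ≠ 0 := by rw [hh i]; exact mul_ne_zero hG0 hi
      have h2 := totalDegree_mul_of_isDomain hG0 hi
      rw [← hh i, hG.totalDegree hG0, (hf i).totalDegree hfi] at h2
      have h3 : (h i).IsHomogeneous (d i - g) := by
        apply pz_homog_quot hG hG0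
        rw [← hh i]
        have h4 : g + (d i - g) = d i := by omega
        rw [h4]
        exact hf i
      exact frL_dvd ha h3 (hcon i)
  have := hmax _ h1
  omega

/-- Forms without a common zero contain powers of the variables. -/
theorem pz_pow_mem [IsAlgClosed K] {ι : Type w} (Ψ : ι → MvPolynomial (Fin 2) K)
    (h : ∀ a : Fin 2 → K, a ≠ 0 → ∃ i, eval a (Ψ i) ≠ 0) (l : Fin 2) :
    ∃ N : ℕ, X l ^ N ∈ Ideal.span (Set.range Ψ) := by
  have h1 : (X l : MvPolynomial (Fin 2) K) ∈ (Ideal.span (Set.range Ψ)).radical := by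
    rw [← vanishingIdeal_zeroLocus_eq_radical (K := K), mem_vanishingIdeal_iff]
    intro a ha
    rw [mem_zeroLocus_iff] at ha
    rw [aeval_X]
    by_contra hne
    obtain ⟨i, hi⟩ := h a (fun h0 => hne (by rw [h0]; rfl))
    exact hi (ha _ (Ideal.subset_span ⟨i, rfl⟩))
  obtain ⟨N, hN⟩ := h1
  exact ⟨N, hN⟩

/-- Forms without a common zero have no common zero over any overfield. -/
theorem pz_base_change [IsAlgClosed K] {ι : Type w} (Ψ : ι → MvPolynomial (Fin 2) K)
    (h : ∀ a : Fin 2 → K, a ≠ 0 → ∃ i, eval a (Ψ i) ≠ 0) {κ : Type u} [Field κ] (j : K →+* κ)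
    (a : Fin 2 → κ) (ha : a ≠ 0) : ∃ i, eval a (MvPolynomial.map j (Ψ i)) ≠ 0 := by
  by_contra hcon
  push Not at hcon
  apply ha
  funext l
  obtain ⟨N, hN⟩ := pz_pow_mem Ψ h l
  have h1 : Ideal.span (Set.range Ψ) ≤ RingHom.ker ((eval a).comp (MvPolynomial.map j)) := by
    rw [Ideal.span_le]
    rintro _ ⟨i, rfl⟩
    exact hcon i
  have h2 := h1 hN
  rw [RingHom.mem_ker, RingHom.comp_apply, map_pow, map_pow, map_X, eval_X] at h2
  exact eq_zero_of_pow_eq_zero h2

/-- A nonzero form does not vanish on a line which does not pass through the origin. -/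
theorem pz_line_ne_zero [Infinite K] {m : ℕ} {H : MvPolynomial (Fin 2) K} (hH : H.IsHomogeneous m)
    (hH0 : H ≠ 0) {a w : Fin 2 → K} (haw : a 0 * w 1 - a 1 * w 0 ≠ 0) :
    ∃ x : K, eval (fun i => a i + w i * x) H ≠ 0 := by
  by_contra hcon
  push Not at hcon
  apply hH0
  have h1 : (X 0 : MvPolynomial (Fin 2) K) *
      aeval (fun i => C (a i) * X 0 + C (w i) * X 1) H = 0 := by
    apply MvPolynomial.funext
    intro z
    rw [map_mul, eval_X, map_zero]
    by_cases hz : z 0 = 0
    · rw [hz, zero_mul]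
    · have h2 : eval z (aeval (fun i => (C (a i) * X 0 + C (w i) * X 1 : MvPolynomial (Fin 2) K)) H)
          = eval (fun i => z 0 * (a i + w i * (z 1 / z 0))) H := by
        have h3 : (fun i => z 0 * (a i + w i * (z 1 / z 0))) =
            fun i => eval z (C (a i) * X 0 + C (w i) * X 1 : MvPolynomial (Fin 2) K) := by
          funext i
          simp only [map_add, map_mul, eval_C, eval_X]
          rw [mul_add]
          congr 1
          · ring
          · rw [mul_div_assoc', mul_div_assoc']
            rw [mul_comm (z 0), mul_div_cancel_right₀ _ hz]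
        rw [h3, ← aeval_eq_eval, ← aeval_eq_eval, MvPolynomial.comp_aeval_apply]
      rw [h2, ni7_eval_smul hH, hcon, mul_zero, mul_zero]
  have h2 := (mul_eq_zero.1 h1).resolve_left (X_ne_zero 0)
  apply MvPolynomial.funext
  intro z
  rw [map_zero]
  set D := a 0 * w 1 - a 1 * w 0 with hD
  have h3 := congrArg (eval ![(z 0 * w 1 - z 1 * w 0) / D, (a 0 * z 1 - a 1 * z 0) / D]) h2
  rw [map_zero] at h3
  rw [← h3]
  have h4 : z = fun i => eval ![(z 0 * w 1 - z 1 * w 0) / D, (a 0 * z 1 - a 1 * z 0) / D]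
      (C (a i) * X 0 + C (w i) * X 1 : MvPolynomial (Fin 2) K) := by
    funext i
    simp only [map_add, map_mul, eval_C, eval_X]
    fin_cases i
    · simp
      field_simp
      rw [hD]
      ring
    · simp
      field_simp
      rw [hD]
      ring
  conv_lhs => rw [h4]
  rw [← aeval_eq_eval, ← aeval_eq_eval, MvPolynomial.comp_aeval_apply]

end forms

section lift

variable {K : Type v} [Field K] [IsAlgClosed K] (O : ValuationSubring K) {κ : Type w} [Field κ]
  (π : O →+* κ) (hπ : Function.Surjective π)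

omit [IsAlgClosed K] in
theorem pz_val_lt_one {x : O} (h : π x = 0) : O.valuation (x : K) < 1 := by
  rw [← ValuationSubring.valuation_lt_one_iff, IsLocalRing.mem_maximalIdeal, mem_nonunits_iff]
  intro hu
  exact (hu.map π).ne_zero h

omit [IsAlgClosed K] in
include hπ in
theorem pz_val_eq_one {x : O} (h : π x ≠ 0) : O.valuation (x : K) = 1 := by
  rw [← ValuationSubring.valuation_eq_one_iff]
  by_contra hu
  have h1 : RingHom.ker π = IsLocalRing.maximalIdeal O :=
    IsLocalRing.eq_maximalIdeal (RingHom.ker_isMaximal_of_surjective π hπ)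
  apply h
  rw [← RingHom.mem_ker, h1, IsLocalRing.mem_maximalIdeal]
  exact hu

include hπ in
/-- Zeros of the reduction of a primitive form lift. -/
theorem pz_lift {m : ℕ} {H : MvPolynomial (Fin 2) O} (hH : H.IsHomogeneous m)
    (hH0 : MvPolynomial.map π H ≠ 0) {a : Fin 2 → κ} (ha : a ≠ 0)
    (h : eval a (MvPolynomial.map π H) = 0) :
    ∃ b : Fin 2 → O, (∀ i, π (b i) = a i) ∧ eval b H = 0 := by
  classical
  have hκ : Infinite κ := by
    have : IsAlgClosed κ := by
      have h1 : RingHom.ker π = IsLocalRing.maximalIdeal O :=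
        IsLocalRing.eq_maximalIdeal (RingHom.ker_isMaximal_of_surjective π hπ)
      refine IsAlgClosed.of_exists_root _ fun p hp hirr => ?_
      obtain ⟨q, hq, hqd, hqm⟩ := Polynomial.lifts_and_natDegree_eq_and_monic
        (f := π) (p := p) ((Polynomial.mem_lifts _).2
          (Polynomial.map_surjective π hπ p)) hp
      have hdeg : (q.map O.subtype).degree ≠ 0 := by
        rw [Polynomial.degree_map_eq_of_injective Subtype.val_injective]
        intro h2
        have h3 : q.natDegree = 0 := Polynomial.natDegree_eq_of_degree_eq_some h2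
        rw [hqd] at h3
        have h4 := hirr.natDegree_pos
        rw [h3] at h4
        exact lt_irrefl _ h4
      obtain ⟨x, hx⟩ := IsAlgClosed.exists_root _ hdeg
      have hx1 : IsIntegral O x := ⟨q, hqm, by
        rw [Polynomial.IsRoot, Polynomial.eval_map] at hx
        exact hx⟩
      obtain ⟨y, rfl⟩ := IsIntegrallyClosed.isIntegral_iff.1 hx1
      refine ⟨π y, ?_⟩
      rw [← hq, Polynomial.eval_map, Polynomial.eval₂_at_apply]
      have h4 : q.eval y = 0 := by
        apply Subtype.val_injective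
        rw [Polynomial.IsRoot, Polynomial.eval_map] at hx
        have h5 : Polynomial.eval₂ O.subtype (O.subtype y) q = 0 := hx
        rw [Polynomial.eval₂_at_apply] at h5
        exact h5
      rw [h4, map_zero]
    exact IsAlgClosed.instInfinite
  choose a₀ ha₀ using fun i => hπ (a i)
  obtain ⟨w, hw⟩ : ∃ w : Fin 2 → O, a 0 * π (w 1) - a 1 * π (w 0) ≠ 0 := by
    by_cases h0 : a 0 = 0
    · have h1 : a 1 ≠ 0 := fun h1 => ha (by ext i; fin_cases i <;> simp [h0, h1])
      exact ⟨![1, 0], by simpa [h0] using h1⟩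
    · exact ⟨![0, 1], by simpa using h0⟩
  let P : Polynomial O := aeval (fun i => Polynomial.C (a₀ i) + Polynomial.C (w i) * Polynomial.X) H
  have hPev : ∀ x : O, P.eval x = eval (fun i => a₀ i + w i * x) H := by
    intro x
    change Polynomial.eval x (aeval _ H) = _
    rw [← Polynomial.coe_aeval_eq_eval, ← aeval_eq_eval, MvPolynomial.comp_aeval_apply
      (f := fun i => Polynomial.C (a₀ i) + Polynomial.C (w i) * Polynomial.X)
      (Polynomial.aeval x) H]
    congr 2
    funext i
    simp
  have hP0 : O.valuation ((P.map O.subtype).coeff 0) < 1 := by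
    rw [Polynomial.coeff_map]
    apply pz_val_lt_one O π
    rw [Polynomial.coeff_zero_eq_eval_zero, hPev]
    have h1 : π (eval (fun i => a₀ i + w i * 0) H) = eval a (MvPolynomial.map π H) := by
      rw [MvPolynomial.map_eval]
      congr 2
      funext i
      simp [ha₀]
    rw [h1, h]
  have hPne : P.map π ≠ 0 := by
    intro h0
    obtain ⟨x, hx⟩ := pz_line_ne_zero (w := fun i => π (w i)) (hH.map π) hH0 hw
    obtain ⟨x, rfl⟩ := hπ x
    apply hx
    have h1 : eval (fun i => a i + π (w i) * π x) (MvPolynomial.map π H) = π (P.eval x) := by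
      rw [hPev, MvPolynomial.map_eval]
      congr 2
      funext i
      simp [ha₀]
    have h2 : π (P.eval x) = (P.map π).eval (π x) := by
      rw [Polynomial.eval_map, Polynomial.eval₂_at_apply]
    refine Eq.trans h1 ?_
    rw [h2, h0, Polynomial.eval_zero]
  obtain ⟨i, hi⟩ : ∃ i, (P.map π).coeff i ≠ 0 := by
    by_contra hcon
    push Not at hcon
    exact hPne (Polynomial.ext fun i => by rw [hcon i, Polynomial.coeff_zero])
  rw [Polynomial.coeff_map] at hi
  obtain ⟨x, hx1, hx0⟩ := exists_root_lt_one O (P.map O.subtype)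
    (fun i => by
      rw [Polynomial.coeff_map]
      exact (ValuationSubring.valuation_le_one_iff O _).2 (P.coeff i).2) hP0
    ⟨i, by
      rw [Polynomial.coeff_map]
      exact pz_val_eq_one O π hπ hi⟩
  have hxO : x ∈ O := (ValuationSubring.valuation_le_one_iff O _).1 hx1.le
  let y : O := ⟨x, hxO⟩
  have hy0 : π y = 0 := by
    by_contra hne
    have := pz_val_eq_one O π hπ hne
    exact hx1.ne this
  refine ⟨fun i => a₀ i + w i * y, fun i => ?_, ?_⟩
  · rw [map_add, map_mul, hy0, mul_zero, add_zero, ha₀]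
  · rw [← hPev]
    apply Subtype.val_injective
    have h5 : Polynomial.eval₂ O.subtype (O.subtype y) P = 0 := by
      rw [← Polynomial.eval_map]
      exact hx0
    rw [Polynomial.eval₂_at_apply] at h5
    exact h5

end lift

end Vale.Agent.P292.Dv
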