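import Vale.Agent.P292.D.PairA

/-! # D-pairs on closed rational curves: existence, uniqueness of the degree, specialisation. -/

namespace Vale.Agent.P292.Dv

open MvPolynomial Vale.Agent.P292

universe u v w

section pairs

variable {k : Type*} [CommRing k] {R : Type u} [CommRing R] [Algebra k R] (𝒜 : ℕ → Submodule k R)
  (p : Ideal R)

/-- `η` is the pull back of the ideal `p` along the curve `φ` of degree `e`, of degree `- δ`. -/
structure IsPr {K : Type w} [CommRing K] (e : ℕ) (δ : ℤ) (φ : R → MvPolynomial (Fin 2) K)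
    (η : p →+ MvPolynomial (Fin 2) K) : Prop where
  lin : ∀ (r : R) (x : p), η (r • x) = φ r * η x
  deg : ∀ j, ∀ x : p, (x : R) ∈ 𝒜 j → ∀ m : ℕ, (m : ℤ) + δ = e * j → (η x).IsHomogeneous m
  zero : ∀ j : ℕ, ∀ x : p, (x : R) ∈ 𝒜 j → (e * j : ℤ) < δ → η x = 0
  bpf : ∀ a : Fin 2 → K, a ≠ 0 → ∃ x : p, eval a (η x) ≠ 0

end pairs

section main

variable {k : Type*} [Field k] {R : Type u} [CommRing R] [Algebra k R] {𝒜 : ℕ → Submodule k R}
  [GradedAlgebra 𝒜] {p : Ideal R}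

/-- Local generators of the ideal along the curve `φ`. -/
def LGen {K : Type w} [CommRing K] (p : Ideal R) (𝒜 : ℕ → Submodule k R)
    (φ : R → MvPolynomial (Fin 2) K) : Prop :=
  ∀ c : Fin 2 → K, c ≠ 0 → ∃ (i j : ℕ) (a b : R), a ∈ 𝒜 i ∧ b ∈ 𝒜 j ∧ a ∈ p ∧
    (∀ x ∈ p, ∃ r, b * x = r * a) ∧ eval c (φ b) ≠ 0

omit [GradedAlgebra 𝒜] in
/-- Locally principal ideals have local generators along base point free curves. -/
theorem lgen_of_isInv (hinv : IsInv 𝒜 p) {K : Type w} [Field K]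
    (φ : R →+* MvPolynomial (Fin 2) K)
    (hb : ∀ a : Fin 2 → K, a ≠ 0 → ∃ j > 0, ∃ r ∈ 𝒜 j, eval a (φ r) ≠ 0) : LGen p 𝒜 φ := by
  obtain ⟨T, a, b, da, db, ha, hbb, hap, hgen, hpow⟩ := hinv
  intro c hc
  by_contra hcon
  push Not at hcon
  obtain ⟨j, hj, r, hr, hne⟩ := hb c hc
  obtain ⟨N, hN⟩ := hpow j hj r hr
  have h1 : Ideal.span (Set.range b) ≤ RingHom.ker ((eval c).comp φ) := by
    rw [Ideal.span_le]
    rintro _ ⟨t, rfl⟩
    exact hcon (da t) (db t) (a t) (b t) (ha t) (hbb t) (hap t) (hgen t)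
  have h2 := h1 hN
  rw [RingHom.mem_ker, map_pow] at h2
  exact hne (eq_zero_of_pow_eq_zero h2)

/-- The rank one relation. -/
theorem IsPr.rank_one {K : Type w} [Field K] {φ : R →+* MvPolynomial (Fin 2) K}
    {η η' : p →+ MvPolynomial (Fin 2) K} (h : ∀ (r : R) (x : p), η (r • x) = φ r * η x)
    (h' : ∀ (r : R) (x : p), η' (r • x) = φ r * η' x) {a b : R} (ha : a ∈ p)
    (hgen : ∀ x ∈ p, ∃ r, b * x = r * a) (hb : φ b ≠ 0) (x : p) :
    η x * η' ⟨a, ha⟩ = η' x * η ⟨a, ha⟩ := by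
  obtain ⟨r, hr⟩ := hgen x x.2
  have h1 : b • x = r • (⟨a, ha⟩ : p) := Subtype.ext hr
  have h2 := congrArg η h1
  have h3 := congrArg η' h1
  rw [h, h] at h2
  rw [h', h'] at h3
  apply mul_left_cancel₀ hb
  rw [← mul_assoc, ← mul_assoc, h2, h3]
  ring

theorem lgen_ne {K : Type w} [Field K] {φ : R →+* MvPolynomial (Fin 2) K}
    {η : p →+ MvPolynomial (Fin 2) K} (h : ∀ (r : R) (x : p), η (r • x) = φ r * η x)
    {a b : R} (ha : a ∈ p)
    (hgen : ∀ x ∈ p, ∃ r, b * x = r * a) (hb : φ b ≠ 0) (h0 : ∃ x, η x ≠ 0) : η ⟨a, ha⟩ ≠ 0 := by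
  obtain ⟨x, hx⟩ := h0
  obtain ⟨r, hr⟩ := hgen x x.2
  have h1 : b • x = r • (⟨a, ha⟩ : p) := Subtype.ext hr
  have h2 := congrArg η h1
  rw [h, h] at h2
  intro h3
  rw [h3, mul_zero] at h2
  exact hx ((mul_eq_zero.1 h2).resolve_left hb)

omit [GradedAlgebra 𝒜] in
theorem IsPr.homog {K : Type w} [Field K] {e : ℕ} {δ : ℤ} {φ : R → MvPolynomial (Fin 2) K}
    {η : p →+ MvPolynomial (Fin 2) K} (h : IsPr 𝒜 p e δ φ η) {j : ℕ} {x : p}
    (hx : (x : R) ∈ 𝒜 j) (hne : η x ≠ 0) : ∃ m : ℕ, (m : ℤ) + δ = e * j ∧ (η x).IsHomogeneous m := by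
  have h1 : δ ≤ e * j := by
    by_contra hcon
    exact hne (h.zero j x hx (by omega))
  obtain ⟨m, hm⟩ := Int.eq_ofNat_of_zero_le (sub_nonneg.2 h1)
  exact ⟨m, by omega, h.deg j x hx m (by omega)⟩

theorem vec10_ne' {K : Type w} [Field K] : (![1, 0] : Fin 2 → K) ≠ 0 :=
  fun h => one_ne_zero (congrFun h 0)

omit [GradedAlgebra 𝒜] in
/-- **Uniqueness of the degree.** -/
theorem IsPr.le {K : Type w} [Field K] [IsAlgClosed K] {e : ℕ} {δ δ' : ℤ}
    {φ : R →+* MvPolynomial (Fin 2) K} (hφ : LGen p 𝒜 φ)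
    {η η' : p →+ MvPolynomial (Fin 2) K} (h : IsPr 𝒜 p e δ φ η) (h' : IsPr 𝒜 p e δ' φ η') :
    δ ≤ δ' := by
  obtain ⟨i, j, a, b, hai, hbj, ha, hgen, hb⟩ := hφ ![1, 0] vec10_ne'
  have hb0 : φ b ≠ 0 := fun h => hb (by rw [h, map_zero])
  have hex : ∃ x, η x ≠ 0 := by
    obtain ⟨x, hx⟩ := h.bpf ![1, 0] vec10_ne'
    exact ⟨x, fun h => hx (by rw [h, map_zero])⟩
  have hex' : ∃ x, η' x ≠ 0 := by
    obtain ⟨x, hx⟩ := h'.bpf ![1, 0] vec10_ne'
    exact ⟨x, fun h => hx (by rw [h, map_zero])⟩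
  have hA := lgen_ne h.lin ha hgen hb0 hex
  have hA' := lgen_ne h'.lin ha hgen hb0 hex'
  obtain ⟨m, hm, hmh⟩ := h.homog (x := ⟨a, ha⟩) hai hA
  obtain ⟨m', hm', hmh'⟩ := h'.homog (x := ⟨a, ha⟩) hai hA'
  by_contra hlt
  obtain ⟨c, hc, hc0⟩ := pz_compare (fun x => η x) (fun x => η' x) m m' _ _ hmh hmh' hA hA'
    (IsPr.rank_one h.lin h'.lin ha hgen hb0) (by omega)
  obtain ⟨x, hx⟩ := h'.bpf c hc
  exact hx (hc0 x)

omit [GradedAlgebra 𝒜] in
theorem IsPr.eq {K : Type w} [Field K] [IsAlgClosed K] {e : ℕ} {δ δ' : ℤ}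
    {φ : R →+* MvPolynomial (Fin 2) K} (hφ : LGen p 𝒜 φ)
    {η η' : p →+ MvPolynomial (Fin 2) K} (h : IsPr 𝒜 p e δ φ η) (h' : IsPr 𝒜 p e δ' φ η') :
    δ = δ' := le_antisymm (h.le hφ h') (h'.le hφ h)

omit [GradedAlgebra 𝒜] in
/-- A curve which does not meet `V(p)` has degree zero. -/
theorem isPr_self {K : Type w} [Field K] {e : ℕ} (φ : R →+* MvPolynomial (Fin 2) K)
    (hdeg : ∀ j, ∀ r ∈ 𝒜 j, (φ r).IsHomogeneous (e * j))
    (hm : ∀ a : Fin 2 → K, a ≠ 0 → ∃ r ∈ p, eval a (φ r) ≠ 0) :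
    IsPr 𝒜 p e 0 φ ((φ : R →+ MvPolynomial (Fin 2) K).comp
      (p.subtype : p →+ R)) where
  lin r x := map_mul φ r x
  deg j x hx m hm := by
    obtain rfl : m = e * j := by
      rw [add_zero] at hm
      exact_mod_cast hm
    exact hdeg j x hx
  zero j x _ hlt := by
    exfalso
    have : (0 : ℤ) ≤ e * j := by positivity
    omega
  bpf a ha := by
    obtain ⟨r, hr, hne⟩ := hm a ha
    exact ⟨⟨r, hr⟩, hne⟩

omit [GradedAlgebra 𝒜] in
/-- A curve of nonzero degree meets `V(p)`. -/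
theorem IsPr.meets {K : Type w} [Field K] [IsAlgClosed K] {e : ℕ} {δ : ℤ}
    {φ : R →+* MvPolynomial (Fin 2) K} (hφ : LGen p 𝒜 φ)
    (hdeg : ∀ j, ∀ r ∈ 𝒜 j, (φ r).IsHomogeneous (e * j))
    {η : p →+ MvPolynomial (Fin 2) K} (h : IsPr 𝒜 p e δ φ η) (hδ : δ ≠ 0) :
    ∃ a : Fin 2 → K, a ≠ 0 ∧ ∀ r ∈ p, eval a (φ r) = 0 := by
  by_contra hcon
  push Not at hcon
  exact hδ (h.eq hφ (isPr_self φ hdeg hcon))

/-- **Existence of pairs.** -/
theorem exists_isPr [IsDomain R] (hh : p.IsHomogeneous 𝒜) (h0 : p ≠ ⊥) {K : Type w} [Field K]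
    [IsAlgClosed K] {e : ℕ} (φ : R →+* MvPolynomial (Fin 2) K)
    (hdeg : ∀ j, ∀ r ∈ 𝒜 j, (φ r).IsHomogeneous (e * j)) (hφ : LGen p 𝒜 φ) :
    ∃ (δ : ℤ) (η : p →+ MvPolynomial (Fin 2) K), IsPr 𝒜 p e δ φ η := by
  classical
  obtain ⟨i, j, a, b, hai, hbj, ha, hgen, hb⟩ := hφ ![1, 0] vec10_ne'
  have hb0 : φ b ≠ 0 := fun h => hb (by rw [h, map_zero])
  have hbR : b ≠ 0 := fun h => hb0 (by rw [h, map_zero])
  have ha0 : a ≠ 0 := by
    rintro rfl
    obtain ⟨x, hx, hx0⟩ := Submodule.exists_mem_ne_zero_of_ne_bot h0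
    obtain ⟨r, hr⟩ := hgen x hx
    rw [mul_zero] at hr
    exact (mul_ne_zero hbR hx0) hr
  choose ρ hρ using fun x : p => hgen x x.2
  have hρu : ∀ (x : p) (r : R), b * x = r * a → ρ x = r := by
    intro x r hr
    apply mul_right_cancel₀ ha0
    rw [← hρ, hr]
  have hρadd : ∀ x y, ρ (x + y) = ρ x + ρ y := fun x y => hρu _ _ (by
    rw [Submodule.coe_add, mul_add, hρ, hρ, add_mul])
  have hρmul : ∀ (r : R) (x : p), ρ (r • x) = r * ρ x := fun r x => hρu _ _ (by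
    rw [SetLike.val_smul, smul_eq_mul, mul_left_comm, hρ, mul_assoc])
  have hρa : ρ ⟨a, ha⟩ = b := hρu _ _ rfl
  -- degrees
  have hρd : ∀ n (x : p), (x : R) ∈ 𝒜 n → ∀ m : ℕ, m + i = j + n → ρ x ∈ 𝒜 m := by
    intro n x hx m hm
    have h1 : ρ x * a ∈ 𝒜 (m + i) := by
      rw [← hρ, hm]
      exact SetLike.mul_mem_graded hbj hx
    have h2 : ∀ l, l ≠ m → (DirectSum.decompose 𝒜 (ρ x) l : R) = 0 := by
      intro l hl
      have h3 : (DirectSum.decompose 𝒜 (ρ x * a) (l + i) : R) =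
          (DirectSum.decompose 𝒜 (ρ x) l : R) * a :=
        DirectSum.coe_decompose_mul_add_of_right_mem 𝒜 hai
      rw [DirectSum.decompose_of_mem_ne 𝒜 h1 (by omega)] at h3
      exact (mul_eq_zero.1 h3.symm).resolve_right ha0
    rw [← DirectSum.sum_support_decompose 𝒜 (ρ x)]
    refine sum_mem fun l _ => ?_
    by_cases hl : l = m
    · subst hl
      exact SetLike.coe_mem _
    · rw [h2 l hl]
      exact zero_mem _
  have hρz : ∀ n (x : p), (x : R) ∈ 𝒜 n → j + n < i → ρ x = 0 := by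
    intro n x hx hlt
    have h1 : ρ x * a ∈ 𝒜 (j + n) := by
      rw [← hρ]
      exact SetLike.mul_mem_graded hbj hx
    rw [← DirectSum.sum_support_decompose 𝒜 (ρ x)]
    refine Finset.sum_eq_zero fun l _ => ?_
    have h3 : (DirectSum.decompose 𝒜 (ρ x * a) (l + i) : R) =
        (DirectSum.decompose 𝒜 (ρ x) l : R) * a :=
      DirectSum.coe_decompose_mul_add_of_right_mem 𝒜 hai
    rw [DirectSum.decompose_of_mem_ne 𝒜 h1 (by omega)] at h3
    exact (mul_eq_zero.1 h3.symm).resolve_right ha0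
  -- the gcd, on homogeneous elements
  let I := {z : ℕ × p // (z.2 : R) ∈ 𝒜 z.1}
  obtain ⟨g, G, hG, hG0, hGd, hmax⟩ := pz_exists_gcd (fun z : I => φ (ρ z.1.2))
    (fun z => e * (j + z.1.1 - i)) (fun z => by
      by_cases hlt : j + z.1.1 < i
      · rw [hρz _ _ z.2 hlt, map_zero]
        exact isHomogeneous_zero _ _ _
      · exact hdeg _ _ (hρd _ _ z.2 _ (by omega)))
    ⟨⟨(i, ⟨a, ha⟩), hai⟩, by
      change φ (ρ ⟨a, ha⟩) ≠ 0
      rw [hρa]
      exact hb0⟩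
  have hcomp : ∀ (x : p) (n : ℕ), (DirectSum.decompose 𝒜 (x : R) n : R) ∈ p := fun x n => hh n x.2
  have hGall : ∀ x : p, G ∣ φ (ρ x) := by
    intro x
    have h1 : x = ∑ n ∈ (DirectSum.decompose 𝒜 (x : R)).support,
        (⟨(DirectSum.decompose 𝒜 (x : R) n : R), hcomp x n⟩ : p) := by
      apply Subtype.ext
      rw [AddSubmonoidClass.coe_finsetSum]
      exact (DirectSum.sum_support_decompose 𝒜 (x : R)).symm
    let ρ' : p →+ R := AddMonoidHom.mk' ρ hρadd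
    have h2 : φ (ρ x) = ∑ n ∈ (DirectSum.decompose 𝒜 (x : R)).support,
        φ (ρ ⟨(DirectSum.decompose 𝒜 (x : R) n : R), hcomp x n⟩) := by
      conv_lhs => rw [h1]
      change φ (ρ' _) = _
      rw [map_sum, map_sum]
      rfl
    rw [h2]
    exact Finset.dvd_sum fun n _ => hGd ⟨(n, ⟨_, hcomp x n⟩), SetLike.coe_mem _⟩
  choose η₀ hη₀ using hGall
  have hηu : ∀ x q, φ (ρ x) = G * q → η₀ x = q := fun x q hq =>
    mul_left_cancel₀ hG0 ((hη₀ x).symm.trans hq)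
  let η : p →+ MvPolynomial (Fin 2) K := AddMonoidHom.mk' η₀ fun x y => hηu _ _ (by
    rw [hρadd, map_add, hη₀ x, hη₀ y, mul_add])
  refine ⟨(g : ℤ) + e * i - e * j, η, ?_, ?_, ?_, ?_⟩
  · intro r x
    apply hηu
    rw [hρmul, map_mul, hη₀ x]
    change _ = G * (φ r * η₀ x)
    ring
  · intro n x hx m hm
    change (η₀ x).IsHomogeneous m
    by_cases hlt : j + n < i
    · rw [hηu x 0 (by rw [hρz n x hx hlt, map_zero, mul_zero])]
      exact isHomogeneous_zero _ _ _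
    · apply pz_homog_quot hG hG0
      rw [← hη₀]
      have h1 := hdeg _ _ (hρd n x hx (j + n - i) (by omega))
      have h2 : e * (j + n - i) = g + m := by
        have h3 : ((j + n - i : ℕ) : ℤ) = j + n - i := by omega
        have h4 : ((e * (j + n - i) : ℕ) : ℤ) = ((g + m : ℕ) : ℤ) := by
          rw [Nat.cast_mul, h3]
          push_cast
          linear_combination -hm
        exact_mod_cast h4
      rw [← h2]
      exact h1
  · intro n x hx hlt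
    change η₀ x = 0
    apply hηu
    rw [mul_zero]
    by_cases hlt' : j + n < i
    · rw [hρz n x hx hlt', map_zero]
    · by_contra hne
      have h1 := hdeg _ _ (hρd n x hx (j + n - i) (by omega))
      obtain ⟨q, hq⟩ : G ∣ φ (ρ x) := ⟨_, hη₀ x⟩
      have hq0 : q ≠ 0 := by
        rintro rfl
        exact hne (by rw [hq, mul_zero])
      have h2 := totalDegree_mul_of_isDomain hG0 hq0
      rw [← hq, hG.totalDegree hG0, h1.totalDegree hne] at h2
      have h3 : ((j + n - i : ℕ) : ℤ) = j + n - i := by omega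
      have h4 : ((e * (j + n - i) : ℕ) : ℤ) = ((g + q.totalDegree : ℕ) : ℤ) := by
        exact_mod_cast h2
      rw [Nat.cast_mul, h3] at h4
      push_cast at h4
      have h5 : (0 : ℤ) ≤ (q.totalDegree : ℤ) := Int.natCast_nonneg _
      have h6 : (e : ℤ) * (j + n - i) = e * j + e * n - e * i := by ring
      rw [h6] at h4
      omega
  · intro c hc
    obtain ⟨z, hz⟩ := hmax (fun z => η₀ z.1.2) (fun z => hη₀ _) c hc
    exact ⟨z.1.2, hz⟩

end main

end Vale.Agent.P292.Dv
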