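import Vale.Agent.P292.D.PairB
import Vale.Agent.P292.D.T4Defs

/-! # D-pairs on closed rational curves: specialisation. -/

namespace Vale.Agent.P292.Dv

open MvPolynomial Vale.Agent.P292

universe u v w

section closed

variable {K : Type v} [Field K] [IsAlgClosed K] (O : ValuationSubring K) {κ : Type w} [Field κ]
  (π : O →+* κ) (hπ : Function.Surjective π)

include hπ in
/-- The residue field of a valuation ring of an algebraically closed field is algebraically
closed. -/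
theorem pz_isAlgClosed : IsAlgClosed κ := by
  refine IsAlgClosed.of_exists_root _ fun p hp hirr => ?_
  obtain ⟨q, hq, hqd, hqm⟩ := Polynomial.lifts_and_natDegree_eq_and_monic
    (f := π) (p := p) ((Polynomial.mem_lifts _).2
      (Polynomial.map_surjective π hπ p)) hp
  have hdeg : (q.map O.subtype).degree ≠ 0 := by
    rw [Polynomial.degree_map_eq_of_injective Subtype.val_injective]
    intro h2
    have h3 : q.natDegree = 0 := Polynomial.natDegree_eq_of_degree_eq_some h2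
    rw [hqd] at h3
    have h4 := hirr.natDegree_pos
    rw [h3] at h4
    exact lt_irrefl _ h4
  obtain ⟨x, hx⟩ := IsAlgClosed.exists_root _ hdeg
  have hx1 : IsIntegral O x := ⟨q, hqm, by
    rw [Polynomial.IsRoot, Polynomial.eval_map] at hx
    exact hx⟩
  obtain ⟨y, rfl⟩ := IsIntegrallyClosed.isIntegral_iff.1 hx1
  refine ⟨π y, ?_⟩
  rw [← hq, Polynomial.eval_map, Polynomial.eval₂_at_apply]
  have h4 : q.eval y = 0 := by
    apply Subtype.val_injective
    rw [Polynomial.IsRoot, Polynomial.eval_map] at hx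
    have h5 : Polynomial.eval₂ O.subtype (O.subtype y) q = 0 := hx
    rw [Polynomial.eval₂_at_apply] at h5
    exact h5
  rw [h4, map_zero]

end closed

/-- A specialisation of a domain, dominated by a valuation ring whose residue field contains
the target. -/
theorem pz_dominate {A : Type v} [CommRing A] [IsDomain A] {κ : Type w} [Field κ] (π : A →+* κ)
    {Ω : Type u} [Field Ω] (ι : A →+* Ω) (hι : Function.Injective ι) :
    ∃ (Ω' : Type (max u w)) (_ : Field Ω') (_ : IsAlgClosed Ω') (j : Ω →+* Ω')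
      (O : ValuationSubring Ω') (κ' : Type (max u w)) (_ : Field κ') (_ : IsAlgClosed κ')
      (π' : O →+* κ') (l : κ →+* κ') (i : A →+* O), Function.Surjective π' ∧
      (∀ a, (i a : Ω') = j (ι a)) ∧ ∀ a, π' (i a) = l (π a) := by
  classical
  let B := MvPolynomial κ A
  let ρ : B →+* κ := MvPolynomial.eval₂Hom π id
  have hρ : Function.Surjective ρ := fun c => ⟨X c, MvPolynomial.eval₂Hom_X' _ _ _⟩
  let F := FractionRing (MvPolynomial κ Ω)
  let Ω' := AlgebraicClosure F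
  let j₀ : MvPolynomial κ Ω →+* Ω' := (algebraMap F Ω').comp (algebraMap (MvPolynomial κ Ω) F)
  have hj₀ : Function.Injective j₀ :=
    (algebraMap F Ω').injective.comp (IsFractionRing.injective (MvPolynomial κ Ω) F)
  let j₁ : B →+* Ω' := j₀.comp (MvPolynomial.map ι)
  have hj₁ : Function.Injective j₁ := hj₀.comp (MvPolynomial.map_injective ι hι)
  have : (RingHom.ker ρ).IsPrime := RingHom.ker_isPrime ρ
  obtain ⟨O, hO⟩ := exists_valuationSubring_prime j₁ hj₁ (RingHom.ker ρ)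
  let i₁ : B →+* O := j₁.codRestrict O.toSubring fun b => (hO b).1
  have hi₁ : ∀ b, (i₁ b : Ω') = j₁ b := fun b => rfl
  let κ' := IsLocalRing.ResidueField O
  let π' : O →+* κ' := IsLocalRing.residue O
  have hπ' : Function.Surjective π' := IsLocalRing.residue_surjective
  have hker : RingHom.ker ρ ≤ RingHom.ker (π'.comp i₁) := by
    intro b hb
    rw [RingHom.mem_ker, RingHom.comp_apply]
    rw [IsLocalRing.residue_eq_zero_iff, ValuationSubring.valuation_lt_one_iff]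
    exact (hO b).2.1 hb
  let l : κ →+* κ' := (RingHom.liftOfSurjective ρ hρ ⟨π'.comp i₁, hker⟩)
  have hl : ∀ b, l (ρ b) = π' (i₁ b) := fun b => by
    exact RingHom.liftOfSurjective_comp_apply ρ hρ ⟨π'.comp i₁, hker⟩ b
  refine ⟨Ω', inferInstance, inferInstance, j₀.comp MvPolynomial.C, O, κ', inferInstance,
    pz_isAlgClosed O π' hπ', π', l, i₁.comp MvPolynomial.C, hπ', fun a => ?_, fun a => ?_⟩
  · rw [RingHom.comp_apply, hi₁]
    change j₀ (MvPolynomial.map ι (C a)) = j₀ (C (ι a))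
    rw [map_C]
  · rw [RingHom.comp_apply, ← hl]
    change l (MvPolynomial.eval₂Hom π id (C a)) = _
    rw [MvPolynomial.eval₂Hom_C]

/-- Scaling a point into the valuation ring. -/
theorem pz_scale {Ω : Type u} [Field Ω] (O : ValuationSubring Ω) {κ : Type w} [Field κ]
    (π : O →+* κ) {a : Fin 2 → Ω} (ha : a ≠ 0) :
    ∃ (c : Ω) (b : Fin 2 → O), (∀ l, (b l : Ω) = c * a l) ∧ (fun l => π (b l)) ≠ 0 := by
  have h0 : a 0 ≠ 0 ∨ a 1 ≠ 0 := by
    by_contra hcon
    push Not at hcon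
    apply ha
    ext l
    fin_cases l
    · exact hcon.1
    · exact hcon.2
  by_cases h1 : a 0 ≠ 0 ∧ a 1 / a 0 ∈ O
  · refine ⟨(a 0)⁻¹, ![1, ⟨a 1 / a 0, h1.2⟩], fun l => ?_, fun h => ?_⟩
    · fin_cases l
      · simp [h1.1]
      · simp only [Fin.mk_one, Matrix.cons_val_one, Matrix.cons_val_fin_one]
        rw [div_eq_inv_mul]
    · have := congrFun h 0
      simp at this
  · have h2 : a 1 ≠ 0 := by
      by_contra h2
      apply h1
      rcases h0 with h0 | h0
      · refine ⟨h0, ?_⟩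
        rw [h2, zero_div]
        exact O.zero_mem
      · exact absurd h2 h0
    have h3 : a 0 / a 1 ∈ O := by
      by_cases h4 : a 0 = 0
      · rw [h4, zero_div]
        exact O.zero_mem
      · rcases O.mem_or_inv_mem (a 1 / a 0) with h5 | h5
        · exact absurd ⟨h4, h5⟩ h1
        · rwa [inv_div] at h5
    refine ⟨(a 1)⁻¹, ![⟨a 0 / a 1, h3⟩, 1], fun l => ?_, fun h => ?_⟩
    · fin_cases l
      · simp only [Fin.zero_eta, Matrix.cons_val_zero]
        rw [div_eq_inv_mul]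
      · simp [h2]
    · have := congrFun h 1
      simp at this

/-- If the specialisation of a family of forms has no common zero, neither has the generic
member. -/
theorem pz_generic {A : Type v} [CommRing A] [IsDomain A] {κ : Type w} [Field κ] [IsAlgClosed κ]
    (π : A →+* κ) {Ω : Type u} [Field Ω] (ι : A →+* Ω) (hι : Function.Injective ι)
    {I : Type*} (Φ : I → MvPolynomial (Fin 2) A) (d : I → ℕ) (hd : ∀ i, (Φ i).IsHomogeneous (d i))
    (h : ∀ a : Fin 2 → κ, a ≠ 0 → ∃ i, eval a (MvPolynomial.map π (Φ i)) ≠ 0)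
    (a : Fin 2 → Ω) (ha : a ≠ 0) : ∃ i, eval a (MvPolynomial.map ι (Φ i)) ≠ 0 := by
  obtain ⟨Ω', _, _, j, O, κ', _, _, π', l, i, hπ', hi, hl⟩ := pz_dominate π ι hι
  have hja : (fun m => j (a m)) ≠ 0 := fun h0 => ha (funext fun m => by
    have := congrFun h0 m
    simpa using this)
  obtain ⟨c, b, hb, hb0⟩ := pz_scale O π' hja
  obtain ⟨t, ht⟩ := pz_base_change (fun i => MvPolynomial.map π (Φ i)) h l _ hb0
  refine ⟨t, fun h0 => ht ?_⟩
  have h1 : eval b (MvPolynomial.map i (Φ t)) = 0 := by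
    apply Subtype.val_injective
    change O.subtype _ = O.subtype 0
    rw [MvPolynomial.map_eval, MvPolynomial.map_map, map_zero]
    have h2 : (O.subtype.comp i) = j.comp ι := RingHom.ext hi
    have h3 : (⇑O.subtype ∘ b) = fun m => c * j (a m) := funext hb
    rw [h2, h3, ni7_eval_smul ((hd t).map _)]
    have h4 : eval (fun m => j (a m)) (MvPolynomial.map (j.comp ι) (Φ t)) =
        j (eval a (MvPolynomial.map ι (Φ t))) := by
      rw [MvPolynomial.map_eval, MvPolynomial.map_map]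
      rfl
    rw [h4, h0, map_zero, mul_zero]
  have h5 : (MvPolynomial.map l (MvPolynomial.map π (Φ t))) =
      MvPolynomial.map π' (MvPolynomial.map i (Φ t)) := by
    have h7 : l.comp π = π'.comp i := RingHom.ext fun x => (hl x).symm
    rw [MvPolynomial.map_map, MvPolynomial.map_map, h7]
  rw [h5]
  have h6 := congrArg π' h1
  rw [MvPolynomial.map_eval, map_zero] at h6
  exact h6

section main

variable {k : Type*} [Field k] {R : Type u} [CommRing R] [Algebra k R] {𝒜 : ℕ → Submodule k R}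
  [GradedAlgebra 𝒜] {p : Ideal R}

omit [GradedAlgebra 𝒜] in
/-- Base change of pairs. -/
theorem IsPr.base_change {K : Type v} [Field K] [IsAlgClosed K] {κ : Type w} [Field κ]
    (j : K →+* κ) {e : ℕ} {δ : ℤ} {φ : R →+* MvPolynomial (Fin 2) K}
    {η : p →+ MvPolynomial (Fin 2) K} (h : IsPr 𝒜 p e δ φ η) :
    IsPr 𝒜 p e δ ((MvPolynomial.map j).comp φ)
      ((MvPolynomial.map j : MvPolynomial (Fin 2) K →+* MvPolynomial (Fin 2) κ).toAddMonoidHom.comp
        η) where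
  lin r x := by
    change MvPolynomial.map j (η (r • x)) = MvPolynomial.map j (φ r) * MvPolynomial.map j (η x)
    rw [h.lin, map_mul]
  deg n x hx m hm := (h.deg n x hx m hm).map j
  zero n x hx hlt := by
    change MvPolynomial.map j (η x) = 0
    rw [h.zero n x hx hlt, map_zero]
  bpf := pz_base_change (fun x => η x) h.bpf j

omit [GradedAlgebra 𝒜] in
theorem LGen.base_change {K : Type v} [Field K] [IsAlgClosed K] {κ : Type w} [Field κ]
    (j : K →+* κ) {φ : R →+* MvPolynomial (Fin 2) K} (h : LGen p 𝒜 φ) :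
    LGen p 𝒜 ((MvPolynomial.map j).comp φ) := by
  let I := {z : R // ∃ (i j : ℕ) (a : R), a ∈ 𝒜 i ∧ z ∈ 𝒜 j ∧ a ∈ p ∧
    ∀ x ∈ p, ∃ r, z * x = r * a}
  intro c hc
  obtain ⟨z, hz⟩ := pz_base_change (fun z : I => φ z.1) (fun c hc => by
    obtain ⟨i, j, a, b, h1, h2, h3, h4, h5⟩ := h c hc
    exact ⟨⟨b, i, j, a, h1, h2, h3, h4⟩, h5⟩) j c hc
  obtain ⟨i, j, a, h1, h2, h3, h4⟩ := z.2
  exact ⟨i, j, a, z.1, h1, h2, h3, h4, hz⟩

omit [GradedAlgebra 𝒜] in
theorem LGen.generic {A : Type v} [CommRing A] [IsDomain A] {κ : Type w} [Field κ] [IsAlgClosed κ]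
    (π : A →+* κ) {Ω : Type*} [Field Ω] (ι : A →+* Ω) (hι : Function.Injective ι)
    (Φ : R →+* MvPolynomial (Fin 2) A) {e : ℕ}
    (hdeg : ∀ j, ∀ r ∈ 𝒜 j, (Φ r).IsHomogeneous (e * j))
    (h : LGen p 𝒜 ((MvPolynomial.map π).comp Φ)) : LGen p 𝒜 ((MvPolynomial.map ι).comp Φ) := by
  let I := {z : ℕ × R // ∃ (i : ℕ) (a : R), a ∈ 𝒜 i ∧ z.2 ∈ 𝒜 z.1 ∧ a ∈ p ∧
    ∀ x ∈ p, ∃ r, z.2 * x = r * a}
  intro c hc
  obtain ⟨z, hz⟩ := pz_generic π ι hι (fun z : I => Φ z.1.2) (fun z => e * z.1.1)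
    (fun z => by
      obtain ⟨i, a, -, h2, -⟩ := z.2
      exact hdeg _ _ h2) (fun c hc => by
    obtain ⟨i, j, a, b, h1, h2, h3, h4, h5⟩ := h c hc
    exact ⟨⟨(j, b), i, a, h1, h2, h3, h4⟩, h5⟩) c hc
  obtain ⟨i, a, h1, h2, h3, h4⟩ := z.2
  exact ⟨i, z.1.1, a, z.1.2, h1, h2, h3, h4, hz⟩

omit [GradedAlgebra 𝒜] in
/-- **Specialisation of pairs.** -/
theorem IsPr.special [IsNoetherianRing R] {K : Type v} [Field K] [IsAlgClosed K]
    (O : ValuationSubring K) {κ : Type w} [Field κ] (π : O →+* κ) (hπ : Function.Surjective π)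
    {e : ℕ} {δ : ℤ} (Φ : R →+* MvPolynomial (Fin 2) O)
    {η : p →+ MvPolynomial (Fin 2) K}
    (h : IsPr 𝒜 p e δ ((MvPolynomial.map O.subtype).comp Φ) η)
    (hL : LGen p 𝒜 ((MvPolynomial.map π).comp Φ)) :
    ∃ η' : p →+ MvPolynomial (Fin 2) κ, IsPr 𝒜 p e δ ((MvPolynomial.map π).comp Φ) η' := by
  classical
  have hinj : Function.Injective (MvPolynomial.map (σ := Fin 2) O.subtype) :=
    MvPolynomial.map_injective _ Subtype.val_injective
  obtain ⟨S, hS⟩ : (⊤ : Submodule R p).FG := IsNoetherian.noetherian _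
  -- the content
  obtain ⟨x₁, hx₁⟩ := h.bpf ![1, 0] vec10_ne'
  have hx₁0 : η x₁ ≠ 0 := fun h0 => hx₁ (by rw [h0, map_zero])
  have hS0 : ∃ s ∈ S, η s ≠ 0 := by
    by_contra hcon
    push Not at hcon
    have hz : ∀ x : p, η x = 0 := by
     intro x
     have : x ∈ Submodule.span R (S : Set p) := by rw [hS]; trivial
     induction this using Submodule.span_induction with
     | mem s hs => exact hcon s hs
     | zero => exact map_zero _
     | add a b _ _ ha hb => rw [map_add, ha, hb, add_zero]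
     | smul r a _ ha => rw [h.lin, ha, mul_zero]
    exact hx₁0 (hz x₁)
  let T : Finset K := S.biUnion fun s => (η s).support.image fun m => coeff m (η s)
  have hT : ∀ c ∈ T, c ≠ 0 := by
    intro c hc
    simp only [T, Finset.mem_biUnion, Finset.mem_image] at hc
    obtain ⟨s, -, m, hm, rfl⟩ := hc
    exact mem_support_iff.1 hm
  have hTne : T.Nonempty := by
    obtain ⟨s, hs, hs0⟩ := hS0
    obtain ⟨m, hm⟩ := ne_zero_iff.1 hs0
    exact ⟨coeff m (η s), Finset.mem_biUnion.2 ⟨s, hs, Finset.mem_image_of_mem _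
      (mem_support_iff.2 hm)⟩⟩
  obtain ⟨c, hcT, hcmax⟩ := Finset.exists_max_image T (fun c => O.valuation c) hTne
  have hc0 : c ≠ 0 := hT c hcT
  have hint : ∀ y : K, O.valuation y ≤ O.valuation c → c⁻¹ * y ∈ O := by
    intro y hy
    rw [← ValuationSubring.valuation_le_one_iff, map_mul, map_inv₀]
    exact (inv_mul_le_iff₀ (zero_lt_iff.2 ((Valuation.ne_zero_iff _).2 hc0))).2 (by rwa [mul_one])
  have hmemS : ∀ s ∈ S, ∃ q : MvPolynomial (Fin 2) O,
      MvPolynomial.map O.subtype q = C c⁻¹ * η s := by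
    intro s hs
    have h1 : C c⁻¹ * η s ∈ (MvPolynomial.map (σ := Fin 2) O.subtype).range := by
      rw [RingHom.mem_range, ← Set.mem_range, mem_range_map_iff_coeffs_subset]
      intro y hy
      obtain ⟨m, -, rfl⟩ := mem_coeffs_iff.1 (Finset.mem_coe.1 hy)
      rw [coeff_C_mul]
      refine ⟨⟨c⁻¹ * coeff m (η s), hint _ ?_⟩, rfl⟩
      by_cases hm : coeff m (η s) = 0
      · rw [hm, map_zero]
        exact zero_le
      · exact hcmax _ (Finset.mem_biUnion.2 ⟨s, hs, Finset.mem_image_of_mem _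
          (mem_support_iff.2 hm)⟩)
    exact h1
  have hmem : ∀ x : p, ∃ q : MvPolynomial (Fin 2) O,
      MvPolynomial.map O.subtype q = C c⁻¹ * η x := by
    intro x
    have : x ∈ Submodule.span R (S : Set p) := by rw [hS]; trivial
    induction this using Submodule.span_induction with
    | mem s hs => exact hmemS s hs
    | zero => exact ⟨0, by rw [map_zero, map_zero, mul_zero]⟩
    | add a b _ _ ha hb =>
      obtain ⟨q, hq⟩ := ha
      obtain ⟨q', hq'⟩ := hb
      exact ⟨q + q', by rw [map_add, map_add, hq, hq', mul_add]⟩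
    | smul r a _ ha =>
      obtain ⟨q, hq⟩ := ha
      refine ⟨Φ r * q, ?_⟩
      rw [map_mul, hq, h.lin]
      change MvPolynomial.map O.subtype (Φ r) * (C c⁻¹ * η a) =
        C c⁻¹ * (MvPolynomial.map O.subtype (Φ r) * η a)
      ring
  choose H₀ hH₀ using hmem
  have hHu : ∀ x q, MvPolynomial.map O.subtype q = C c⁻¹ * η x → H₀ x = q := fun x q hq =>
    hinj ((hH₀ x).trans hq.symm)
  let H : p →+ MvPolynomial (Fin 2) O := AddMonoidHom.mk' H₀ fun x y => hHu _ _ (by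
    rw [map_add, hH₀, hH₀, map_add, mul_add])
  have hHlin : ∀ (r : R) (x : p), H₀ (r • x) = Φ r * H₀ x := fun r x => hHu _ _ (by
    rw [map_mul, hH₀, h.lin]
    change MvPolynomial.map O.subtype (Φ r) * (C c⁻¹ * η x) =
        C c⁻¹ * (MvPolynomial.map O.subtype (Φ r) * η x)
    ring)
  have hHdeg : ∀ n (x : p), (x : R) ∈ 𝒜 n → ∀ m : ℕ, (m : ℤ) + δ = e * n →
      (H₀ x).IsHomogeneous m := by
    intro n x hx m hm
    apply IsHomogeneous.of_map (f := O.subtype) Subtype.val_injective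
    rw [hH₀]
    have := (isHomogeneous_C (Fin 2) c⁻¹).mul (h.deg n x hx m hm)
    rwa [zero_add] at this
  have hHz : ∀ n : ℕ, ∀ x : p, (x : R) ∈ 𝒜 n → (e * n : ℤ) < δ → H₀ x = 0 := by
    intro n x hx hlt
    apply hHu
    rw [h.zero n x hx hlt, map_zero, mul_zero]
  let η' : p →+ MvPolynomial (Fin 2) κ :=
    (MvPolynomial.map π : MvPolynomial (Fin 2) O →+* MvPolynomial (Fin 2) κ).toAddMonoidHom.comp H
  have hη' : ∀ x, η' x = MvPolynomial.map π (H₀ x) := fun x => rfl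
  have hlin' : ∀ (r : R) (x : p), η' (r • x) = ((MvPolynomial.map π).comp Φ) r * η' x := by
    intro r x
    rw [hη', hη', hHlin, map_mul]
    rfl
  have hne : ∃ x, η' x ≠ 0 := by
    simp only [T, Finset.mem_biUnion, Finset.mem_image] at hcT
    obtain ⟨s, hs, m, hm, hcm⟩ := hcT
    refine ⟨s, fun h0 => ?_⟩
    have h1 := congrArg (coeff m) h0
    rw [hη', coeff_map, coeff_zero] at h1
    have h2 : coeff m (H₀ s) = 1 := by
      apply Subtype.val_injective
      have h3 := congrArg (coeff m) (hH₀ s)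
      rw [coeff_map, coeff_C_mul, hcm, inv_mul_cancel₀ hc0] at h3
      exact h3
    rw [h2, map_one] at h1
    exact one_ne_zero h1
  refine ⟨η', hlin', ?_, ?_, ?_⟩
  · intro n x hx m hm
    exact (hHdeg n x hx m hm).map π
  · intro n x hx hlt
    rw [hη', hHz n x hx hlt, map_zero]
  · intro d hd
    by_contra hcon
    push Not at hcon
    obtain ⟨i, j, a, b, hai, hbj, ha, hgen, hb⟩ := hL d hd
    have hb0 : ((MvPolynomial.map π).comp Φ) b ≠ 0 := fun h => hb (by rw [h, map_zero])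
    have hA := lgen_ne hlin' ha hgen hb0 hne
    have hAH : (H₀ ⟨a, ha⟩).IsHomogeneous (H₀ ⟨a, ha⟩).totalDegree := by
      by_cases hlt : (e * i : ℤ) < δ
      · exfalso
        apply hA
        rw [hη', hHz i ⟨a, ha⟩ hai hlt, map_zero]
      · obtain ⟨m, hm⟩ := Int.eq_ofNat_of_zero_le (sub_nonneg.2 (not_lt.1 hlt))
        have h1 := hHdeg i ⟨a, ha⟩ hai m (by omega)
        rwa [h1.totalDegree (fun h0 => hA (by rw [hη', h0, map_zero]))]
    obtain ⟨d', hd', hd0⟩ := pz_lift O π hπ hAH (by rw [← hη']; exact hA) hd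
      (by rw [← hη']; exact hcon _)
    have hbd : eval d' (Φ b) ≠ 0 := by
      intro h0
      apply hb
      have h1 := congrArg π h0
      rw [MvPolynomial.map_eval, map_zero] at h1
      have h2 : (⇑π ∘ d') = d := funext hd'
      rw [h2] at h1
      exact h1
    have hall : ∀ x : p, eval d' (H₀ x) = 0 := by
      intro x
      obtain ⟨r, hr⟩ := hgen x x.2
      have h1 : b • x = r • (⟨a, ha⟩ : p) := Subtype.ext hr
      have h2 := congrArg H₀ h1
      rw [hHlin, hHlin] at h2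
      have h3 := congrArg (eval d') h2
      rw [map_mul, map_mul, hd0, mul_zero] at h3
      exact (mul_eq_zero.1 h3).resolve_left hbd
    have hd'0 : (fun l => (d' l : K)) ≠ 0 := by
      intro h0
      apply hd
      ext l
      have h1 : d' l = 0 := Subtype.ext (congrFun h0 l)
      rw [← hd', h1, map_zero]
      rfl
    obtain ⟨x, hx⟩ := h.bpf _ hd'0
    apply hx
    have h1 := congrArg O.subtype (hall x)
    rw [MvPolynomial.map_eval, map_zero, hH₀, map_mul, eval_C] at h1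
    exact (mul_eq_zero.1 h1).resolve_left (inv_ne_zero hc0)

omit [GradedAlgebra 𝒜] in
/-- **The degree is invariant under specialisation.** -/
theorem IsPr.degree_eq [IsNoetherianRing R] {A : Type v} [CommRing A] [IsDomain A] {κ : Type w}
    [Field κ] [IsAlgClosed κ] (π : A →+* κ) {Ω : Type*} [Field Ω] [IsAlgClosed Ω] (ι : A →+* Ω)
    (hι : Function.Injective ι) (Φ : R →+* MvPolynomial (Fin 2) A) {e : ℕ} {δ₁ δ₂ : ℤ}
    {η₁ : p →+ MvPolynomial (Fin 2) Ω} {η₂ : p →+ MvPolynomial (Fin 2) κ}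
    (h₁ : IsPr 𝒜 p e δ₁ ((MvPolynomial.map ι).comp Φ) η₁)
    (h₂ : IsPr 𝒜 p e δ₂ ((MvPolynomial.map π).comp Φ) η₂)
    (hL : LGen p 𝒜 ((MvPolynomial.map π).comp Φ)) : δ₁ = δ₂ := by
  obtain ⟨Ω', _, _, j, O, κ', _, _, π', l, i, hπ', hi, hl⟩ := pz_dominate π ι hι
  have e1 : (MvPolynomial.map j).comp ((MvPolynomial.map ι).comp Φ) =
      (MvPolynomial.map O.subtype).comp ((MvPolynomial.map (σ := Fin 2) i).comp Φ) := by
    ext1 r
    have h7 : j.comp ι = O.subtype.comp i := RingHom.ext fun x => (hi x).symm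
    simp only [RingHom.comp_apply]
    rw [MvPolynomial.map_map, MvPolynomial.map_map, h7]
  have e2 : (MvPolynomial.map l).comp ((MvPolynomial.map π).comp Φ) =
      (MvPolynomial.map π').comp ((MvPolynomial.map (σ := Fin 2) i).comp Φ) := by
    ext1 r
    have h7 : l.comp π = π'.comp i := RingHom.ext fun x => (hl x).symm
    simp only [RingHom.comp_apply]
    rw [MvPolynomial.map_map, MvPolynomial.map_map, h7]
  have h3 := h₁.base_change j
  rw [e1] at h3
  have h4 := h₂.base_change l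
  rw [e2] at h4
  have h5 := hL.base_change l
  rw [e2] at h5
  obtain ⟨η', h6⟩ := h3.special O π' hπ' _ h5
  exact h6.eq h5 h4

end main

section final

variable {R : Type u} [CommRing R] [Algebra ℂ R] {𝒜 : ℕ → Submodule ℂ R} [GradedAlgebra 𝒜]

omit [GradedAlgebra 𝒜] in
/-- From `IsPair` to `IsPr`. -/
theorem IsPair.toPr {p : Ideal R} {K : Type v} [Field K] [Algebra ℂ K] {e δ : ℕ}
    {φ : R →ₐ[ℂ] MvPolynomial (Fin 2) K} {η : p →ₗ[ℂ] MvPolynomial (Fin 2) K}
    (h : IsPair 𝒜 p e δ φ η) : IsPr 𝒜 p e δ (φ : R →+* MvPolynomial (Fin 2) K) η.toAddMonoidHom where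
  lin := h.lin
  deg j x hx m hm := h.degη j x hx m (by exact_mod_cast hm)
  zero j x hx hlt := h.zeroη j x hx (by exact_mod_cast hlt)
  bpf := h.bpfη

omit [GradedAlgebra 𝒜] in
/-- From `IsPr` to `HasPair`. -/
theorem IsPr.hasPair {p : Ideal R} {K : Type v} [Field K] [Algebra ℂ K] {e δ : ℕ}
    {φ : R →ₐ[ℂ] MvPolynomial (Fin 2) K} {η : p →+ MvPolynomial (Fin 2) K}
    (h : IsPr 𝒜 p e δ (φ : R →+* MvPolynomial (Fin 2) K) η)
    (hdeg : ∀ j, ∀ r ∈ 𝒜 j, (φ r).IsHomogeneous (e * j))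
    (hb : ∀ a : Fin 2 → K, a ≠ 0 → ∃ j > 0, ∃ r ∈ 𝒜 j, eval a (φ r) ≠ 0) :
    HasPair 𝒜 p e δ φ := by
  refine ⟨{ toFun := η, map_add' := η.map_add, map_smul' := fun c x => ?_ }, hdeg, hb, h.lin,
    fun j x hx m hm => h.deg j x hx m (by exact_mod_cast hm),
    fun j x hx hlt => h.zero j x hx (by exact_mod_cast hlt), h.bpf⟩
  have h1 : c • x = (algebraMap ℂ R c) • x := (algebraMap_smul R c x).symm
  rw [h1, h.lin, RingHom.id_apply]
  change φ (algebraMap ℂ R c) * η x = c • η x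
  rw [AlgHom.commutes, Algebra.smul_def]

/-- S1: the generic member of a family through a curve with a pair has a pair. -/
theorem hasPair_of_spec [IsDomain R] [IsNoetherianRing R] {p : Ideal R}
    (hh : p.IsHomogeneous 𝒜) (hp : IsInv 𝒜 p) {A : Type v} [CommRing A] [IsDomain A]
    [Algebra ℂ A] {κ : Type w} [Field κ] [IsAlgClosed κ] [Algebra ℂ κ] (π : A →ₐ[ℂ] κ)
    {Ω : Type u} [Field Ω] [IsAlgClosed Ω] [Algebra ℂ Ω] (ι : A →ₐ[ℂ] Ω)
    (hι : Function.Injective ι) {e δ : ℕ} (Φ : R →ₐ[ℂ] MvPolynomial (Fin 2) A)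
    (hdeg : ∀ j, ∀ r ∈ 𝒜 j, (Φ r).IsHomogeneous (e * j))
    (h : HasPair 𝒜 p e δ ((mapAlgHom π).comp Φ)) :
    HasPair 𝒜 p e δ ((mapAlgHom ι).comp Φ) := by
  obtain ⟨η, hη⟩ := h
  have hL : LGen p 𝒜 ((MvPolynomial.map (π : A →+* κ)).comp (Φ : R →+* MvPolynomial (Fin 2) A)) :=
    lgen_of_isInv hp _ hη.bpf
  have hLΩ := hL.generic (π : A →+* κ) (ι : A →+* Ω) hι (Φ : R →+* MvPolynomial (Fin 2) A) hdeg
  have hdegΩ : ∀ j, ∀ r ∈ 𝒜 j, (((mapAlgHom ι).comp Φ) r).IsHomogeneous (e * j) :=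
    fun j r hr => (hdeg j r hr).map _
  have h0 : p ≠ ⊥ := by
    rintro rfl
    obtain ⟨x, hx⟩ := hη.bpfη ![1, 0] vec10_ne'
    apply hx
    rw [Subsingleton.elim x 0, map_zero, map_zero]
  obtain ⟨δ', η', h'⟩ := exists_isPr hh h0 _ hdegΩ hLΩ
  obtain rfl : δ' = δ := h'.degree_eq (π : A →+* κ) (ι : A →+* Ω) hι
    (Φ : R →+* MvPolynomial (Fin 2) A) hη.toPr hL
  refine IsPr.hasPair h' hdegΩ ?_
  intro a ha
  let I := {z : ℕ × R // 0 < z.1 ∧ z.2 ∈ 𝒜 z.1}
  obtain ⟨z, hz⟩ := pz_generic (π : A →+* κ) (ι : A →+* Ω) hι (fun z : I => Φ z.1.2)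
    (fun z => e * z.1.1) (fun z => hdeg _ _ z.2.2) (fun a ha => by
      obtain ⟨j, hj, r, hr, hne⟩ := hη.bpf a ha
      exact ⟨⟨(j, r), hj, hr⟩, hne⟩) a ha
  exact ⟨z.1.1, z.2.1, z.1.2, z.2.2, hz⟩

/-- S2: pairs specialise to base point free specialisations. -/
theorem hasPair_spec [IsDomain R] [IsNoetherianRing R] {p : Ideal R}
    (hh : p.IsHomogeneous 𝒜) (hp : IsInv 𝒜 p) {A : Type v} [CommRing A] [IsDomain A]
    [Algebra ℂ A] {κ : Type w} [Field κ] [IsAlgClosed κ] [Algebra ℂ κ] (π : A →ₐ[ℂ] κ)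
    {Ω : Type u} [Field Ω] [IsAlgClosed Ω] [Algebra ℂ Ω] (ι : A →ₐ[ℂ] Ω)
    (hι : Function.Injective ι) {e δ : ℕ} (Φ : R →ₐ[ℂ] MvPolynomial (Fin 2) A)
    (hdeg : ∀ j, ∀ r ∈ 𝒜 j, (Φ r).IsHomogeneous (e * j))
    (hcurve : IsCurve 𝒜 e ((mapAlgHom π).comp Φ))
    (h : HasPair 𝒜 p e δ ((mapAlgHom ι).comp Φ)) :
    HasPair 𝒜 p e δ ((mapAlgHom π).comp Φ) := by
  obtain ⟨η, hη⟩ := h
  have hb : ∀ a : Fin 2 → κ, a ≠ 0 → ∃ j > 0, ∃ r ∈ 𝒜 j,
      eval a (((mapAlgHom π).comp Φ) r) ≠ 0 := by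
    intro a ha
    obtain ⟨j, hj, r, hr, hne⟩ := c1_isNV_pt hcurve a ha
    exact ⟨j, hj, r, hr, hne⟩
  have hL : LGen p 𝒜 ((MvPolynomial.map (π : A →+* κ)).comp (Φ : R →+* MvPolynomial (Fin 2) A)) :=
    lgen_of_isInv hp _ hb
  have hdegκ : ∀ j, ∀ r ∈ 𝒜 j, (((mapAlgHom π).comp Φ) r).IsHomogeneous (e * j) :=
    fun j r hr => (hdeg j r hr).map _
  have h0 : p ≠ ⊥ := by
    rintro rfl
    obtain ⟨x, hx⟩ := hη.bpfη ![1, 0] vec10_ne'
    apply hx
    rw [Subsingleton.elim x 0, map_zero, map_zero]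
  obtain ⟨δ', η', h'⟩ := exists_isPr hh h0 _ hdegκ hL
  obtain rfl : (δ : ℤ) = δ' := hη.toPr.degree_eq (π : A →+* κ) (ι : A →+* Ω) hι
    (Φ : R →+* MvPolynomial (Fin 2) A) h' hL
  exact IsPr.hasPair h' hdegκ hb

omit [GradedAlgebra 𝒜] in
/-- S3: a curve of positive degree meets the divisor. -/
theorem HasPair.meets {p : Ideal R} (hp : IsInv 𝒜 p) {K : Type v} [Field K]
    [IsAlgClosed K] [Algebra ℂ K] {e δ : ℕ} (hδ : 0 < δ) {φ : R →ₐ[ℂ] MvPolynomial (Fin 2) K}
    (h : HasPair 𝒜 p e δ φ) : Meets φ p := by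
  obtain ⟨η, hη⟩ := h
  obtain ⟨a, ha, h0⟩ := hη.toPr.meets (lgen_of_isInv hp _ hη.bpf) hη.deg (by omega)
  exact ⟨a, ha, fun r hr => h0 r hr⟩

end final

end Vale.Agent.P292.Dv
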