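import Vale.Agent.P292.Bn.N9

/-! # Additivity of the Euler characteristic of a pair of subspaces. -/

namespace Vale.Agent.P292.Dv

open Module Submodule Vale.Agent.P292.Mo

section

variable {k : Type*} [Field k] {V W : Type*} [AddCommGroup V] [Module k V] [AddCommGroup W]
  [Module k W]

theorem cx_map (f : V →ₗ[k] W) (Y X : Submodule k V) :
    cod (Y.map f) (X.map f) = cod (Y ⊔ LinearMap.ker f) X ∧
      (Fc (Y.map f) (X.map f) ↔ Fc (Y ⊔ LinearMap.ker f) X) := by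
  have hle : Y ⊔ LinearMap.ker f ≤ (Y.map f).comap f := by
    refine sup_le (Submodule.le_comap_map f Y) fun x hx => ?_
    rw [Submodule.mem_comap, LinearMap.mem_ker.1 hx]
    exact Submodule.zero_mem _
  let g : (V ⧸ (Y ⊔ LinearMap.ker f)) →ₗ[k] (W ⧸ Y.map f) :=
    (Y ⊔ LinearMap.ker f).mapQ (Y.map f) f hle
  have hg : Function.Injective g := by
    rw [← LinearMap.ker_eq_bot, Submodule.ker_mapQ, Submodule.comap_map_eq,
      Submodule.mkQ_map_self]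
  have h : (X.map (Y ⊔ LinearMap.ker f).mkQ).map g = (X.map f).map (Y.map f).mkQ := by
    rw [← Submodule.map_comp, ← Submodule.map_comp]
    congr 1
  let e : ↥(X.map (Y ⊔ LinearMap.ker f).mkQ) ≃ₗ[k] ↥((X.map (Y ⊔ LinearMap.ker f).mkQ).map g) :=
    Submodule.equivMapOfInjective g hg _
  rw [h] at e
  exact ⟨(LinearEquiv.finrank_eq e).symm, ⟨fun h => by
    have : Module.Finite k _ := h
    exact Module.Finite.equiv e.symm, fun h => by
    have : Module.Finite k _ := h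
    exact Module.Finite.equiv e⟩⟩

theorem cx_map_bot (f : V →ₗ[k] W) (X : Submodule k V) :
    finrank k ↥(X.map f) = cod (LinearMap.ker f) X ∧
      (Module.Finite k ↥(X.map f) ↔ Fc (LinearMap.ker f) X) := by
  have h1 := cx_map f ⊥ X
  rw [Submodule.map_bot, bot_sup_eq] at h1
  have h2 := cod_bot (X.map f)
  exact ⟨h2.1.symm.trans h1.1, h2.2.symm.trans h1.2⟩

/-- The two defects of distributivity agree. -/
theorem cx_defect (D L Z : Submodule k V) :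
    cod ((D ⊓ L) ⊔ Z) ((D ⊔ Z) ⊓ (L ⊔ Z)) = cod ((D ⊓ Z) ⊔ (L ⊓ Z)) ((D ⊔ L) ⊓ Z) ∧
      (Fc ((D ⊓ L) ⊔ Z) ((D ⊔ Z) ⊓ (L ⊔ Z)) ↔ Fc ((D ⊓ Z) ⊔ (L ⊓ Z)) ((D ⊔ L) ⊓ Z)) := by
  set M := L ⊔ (D ⊓ Z) with hM
  -- the left side
  have a1 : (D ⊔ Z) ⊓ (L ⊔ Z) = (D ⊓ (L ⊔ Z)) ⊔ ((D ⊓ L) ⊔ Z) := by
    apply le_antisymm
    · rintro x ⟨h1, h2⟩
      obtain ⟨d, hd, z, hz, rfl⟩ := Submodule.mem_sup.1 h1
      have hd' : d ∈ L ⊔ Z := by
        have : d = (d + z) - z := by abel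
        rw [this]
        exact Submodule.sub_mem _ h2 (Submodule.mem_sup_right hz)
      exact Submodule.add_mem _ (Submodule.mem_sup_left ⟨hd, hd'⟩)
        (Submodule.mem_sup_right (Submodule.mem_sup_right hz))
    · refine sup_le (le_inf (inf_le_left.trans le_sup_left) inf_le_right) (sup_le ?_ ?_)
      · exact le_inf (inf_le_left.trans le_sup_left) (inf_le_right.trans le_sup_left)
      · exact le_inf le_sup_right le_sup_right
  have e1 := cod_sup (D := (D ⊓ L) ⊔ Z) (L := D ⊓ (L ⊔ Z))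
  rw [← a1] at e1
  -- from `(D ⊓ L) ⊔ Z` to `(D ⊓ L) ⊔ (D ⊓ Z)`
  have e2 := cod_eq_of_inf (D := (D ⊓ L) ⊔ (D ⊓ Z)) (D' := (D ⊓ L) ⊔ Z) (L := D ⊓ (L ⊔ Z))
    (sup_le_sup le_rfl inf_le_right) (by
      rintro x ⟨h1, h2⟩
      obtain ⟨d, hd, z, hz, rfl⟩ := Submodule.mem_sup.1 h1
      have hz' : z ∈ D := by
        have : z = (d + z) - d := by abel
        rw [this]
        exact Submodule.sub_mem _ h2.1 hd.1
      exact Submodule.add_mem _ (Submodule.mem_sup_left hd) (Submodule.mem_sup_right ⟨hz', hz⟩))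
  have e3 := cod_eq_of_inf (D := (D ⊓ L) ⊔ (D ⊓ Z)) (D' := M) (L := D ⊓ (L ⊔ Z))
    (sup_le_sup inf_le_right le_rfl) (by
      rintro x ⟨h1, h2⟩
      obtain ⟨l, hl, z, hz, rfl⟩ := Submodule.mem_sup.1 h1
      have hl' : l ∈ D := by
        have : l = (l + z) - z := by abel
        rw [this]
        exact Submodule.sub_mem _ h2.1 hz.1
      exact Submodule.add_mem _ (Submodule.mem_sup_left ⟨hl', hl⟩) (Submodule.mem_sup_right hz))
  have e4 := cod_sup (D := M) (L := D ⊓ (L ⊔ Z))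
  -- the right side
  have f1 := cod_eq_of_inf (D := (D ⊓ Z) ⊔ (L ⊓ Z)) (D' := M) (L := (D ⊔ L) ⊓ Z)
    (sup_le le_sup_right (inf_le_left.trans le_sup_left)) (by
      rintro x ⟨h1, h2⟩
      obtain ⟨l, hl, z, hz, rfl⟩ := Submodule.mem_sup.1 h1
      have hl' : l ∈ Z := by
        have : l = (l + z) - z := by abel
        rw [this]
        exact Submodule.sub_mem _ h2.2 hz.2
      exact Submodule.add_mem _ (Submodule.mem_sup_right ⟨hl, hl'⟩) (Submodule.mem_sup_left hz))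
  have f2 := cod_sup (D := M) (L := (D ⊔ L) ⊓ Z)
  have g1 : (D ⊓ (L ⊔ Z)) ⊔ M = ((D ⊔ L) ⊓ Z) ⊔ M := by
    apply le_antisymm
    · refine sup_le ?_ le_sup_right
      rintro x ⟨h1, h2⟩
      obtain ⟨l, hl, z, hz, rfl⟩ := Submodule.mem_sup.1 h2
      have hz' : z ∈ D ⊔ L := by
        have : z = (l + z) - l := by abel
        rw [this]
        exact Submodule.sub_mem _ (Submodule.mem_sup_left h1) (Submodule.mem_sup_right hl)
      exact Submodule.add_mem _ (Submodule.mem_sup_right (Submodule.mem_sup_left hl))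
        (Submodule.mem_sup_left ⟨hz', hz⟩)
    · refine sup_le ?_ le_sup_right
      rintro x ⟨h1, h2⟩
      obtain ⟨d, hd, l, hl, rfl⟩ := Submodule.mem_sup.1 h1
      have hd' : d ∈ L ⊔ Z := by
        have : d = (d + l) - l := by abel
        rw [this]
        exact Submodule.sub_mem _ (Submodule.mem_sup_right h2) (Submodule.mem_sup_left hl)
      exact Submodule.add_mem _ (Submodule.mem_sup_left ⟨hd, hd'⟩)
        (Submodule.mem_sup_right (Submodule.mem_sup_left hl))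
  rw [g1] at e4
  exact ⟨(e1.1.trans (e2.1.symm.trans (e3.1.trans (e4.1.symm.trans (f2.1.trans f1.1.symm))))),
    (e1.2.trans (e2.2.symm.trans (e3.2.trans (e4.2.symm.trans (f2.2.trans f1.2.symm)))))⟩

/-- **Additivity of the Euler characteristic.** -/
theorem cx_add (f : V →ₗ[k] W) {D L S : Submodule k V} (hD : D ≤ S) (hL : L ≤ S)
    (h1 : Module.Finite k ↥(D ⊓ L ⊓ LinearMap.ker f))
    (h2 : Fc ((D ⊓ LinearMap.ker f) ⊔ (L ⊓ LinearMap.ker f)) (S ⊓ LinearMap.ker f))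
    (h3 : Module.Finite k ↥(D.map f ⊓ L.map f)) (h4 : Fc (D.map f ⊔ L.map f) (S.map f)) :
    Module.Finite k ↥(D ⊓ L) ∧ Fc (D ⊔ L) S ∧
    (finrank k ↥(D ⊓ L) : ℤ) - cod (D ⊔ L) S =
      ((finrank k ↥(D ⊓ L ⊓ LinearMap.ker f) : ℤ) -
        cod ((D ⊓ LinearMap.ker f) ⊔ (L ⊓ LinearMap.ker f)) (S ⊓ LinearMap.ker f)) +
      ((finrank k ↥(D.map f ⊓ L.map f) : ℤ) - cod (D.map f ⊔ L.map f) (S.map f)) := by
  set Z := LinearMap.ker f with hZ
  have hDL : D ⊔ L ≤ S := sup_le hD hL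
  -- `D.map f ⊓ L.map f`
  have m1 : D.map f ⊓ L.map f = ((D ⊔ Z) ⊓ (L ⊔ Z)).map f := by
    apply le_antisymm
    · rintro _ ⟨⟨d, hd, rfl⟩, ⟨l, hl, hld⟩⟩
      refine ⟨d, ⟨Submodule.mem_sup_left hd, ?_⟩, rfl⟩
      have : d = l + (d - l) := by abel
      rw [this]
      exact Submodule.add_mem _ (Submodule.mem_sup_left hl) (Submodule.mem_sup_right (by
        rw [hZ, LinearMap.mem_ker, map_sub, hld, sub_self]))
    · rintro _ ⟨x, ⟨h1, h2⟩, rfl⟩
      obtain ⟨d, hd, z, hz, rfl⟩ := Submodule.mem_sup.1 h1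
      refine ⟨⟨d, hd, ?_⟩, ?_⟩
      · rw [map_add, LinearMap.mem_ker.1 hz, add_zero]
      · obtain ⟨l, hl, z', hz', hlz⟩ := Submodule.mem_sup.1 h2
        exact ⟨l, hl, by rw [← hlz, map_add, LinearMap.mem_ker.1 hz', add_zero]⟩
  have m2 : D.map f ⊔ L.map f = (D ⊔ L).map f := (Submodule.map_sup D L f).symm
  -- `a''`
  have A := cx_map_bot f ((D ⊔ Z) ⊓ (L ⊔ Z))
  rw [← m1] at A
  have FA : Fc Z ((D ⊔ Z) ⊓ (L ⊔ Z)) := A.2.1 h3
  have cA := Fc.of_add (D := Z) (E := (D ⊓ L) ⊔ Z) (L := (D ⊔ Z) ⊓ (L ⊔ Z)) le_sup_right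
    (sup_le (le_inf (inf_le_left.trans le_sup_left) (inf_le_right.trans le_sup_left))
      (le_inf le_sup_right le_sup_right)) FA
  have cA' := cod_add (D := Z) (E := (D ⊓ L) ⊔ Z) (L := (D ⊔ Z) ⊓ (L ⊔ Z)) le_sup_right
    (sup_le (le_inf (inf_le_left.trans le_sup_left) (inf_le_right.trans le_sup_left))
      (le_inf le_sup_right le_sup_right)) cA.1 cA.2
  have cA'' := cod_sup (D := Z) (L := D ⊓ L)
  -- `a`
  have B1 := cod_eq_of_inf (D := D ⊓ L ⊓ Z) (D' := Z) (L := D ⊓ L) inf_le_right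
    (le_inf inf_le_right inf_le_left)
  have B2 := cod_bot (D ⊓ L ⊓ Z)
  have B3 := cod_bot (D ⊓ L)
  have FB : Fc Z (D ⊓ L) := cA''.2.1 cA.1
  have cB := cod_add (D := ⊥) (E := D ⊓ L ⊓ Z) (L := D ⊓ L) bot_le inf_le_left (B2.2.2 h1)
    (B1.2.2 FB)
  -- `b''`
  have C1 := cx_map f (D ⊔ L) S
  rw [← m2] at C1
  have FC : Fc (D ⊔ L ⊔ Z) S := C1.2.1 h4
  -- `b'`
  have hsub : (D ⊓ Z) ⊔ (L ⊓ Z) ≤ (D ⊔ L) ⊓ Z :=
    sup_le (inf_le_inf le_sup_left le_rfl) (inf_le_inf le_sup_right le_rfl)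
  have hsub' : (D ⊔ L) ⊓ Z ≤ S ⊓ Z := inf_le_inf hDL le_rfl
  have D1 := Fc.of_add hsub hsub' h2
  have D2 := cod_add hsub hsub' D1.1 D1.2
  have D3 := cod_eq_of_inf (D := (D ⊔ L) ⊓ Z) (D' := D ⊔ L) (L := S ⊓ Z) inf_le_left
    (le_inf inf_le_left (inf_le_right.trans inf_le_right))
  -- `b`
  have E1 := cod_eq_of_inf (D := (S ⊓ Z) ⊔ (D ⊔ L)) (D' := D ⊔ L ⊔ Z) (L := S)
    (sup_le (inf_le_right.trans le_sup_right) le_sup_left) (by
      rintro x ⟨h5, h6⟩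
      obtain ⟨y, hy, z, hz, rfl⟩ := Submodule.mem_sup.1 h5
      have hz' : z ∈ S := by
        have : z = (y + z) - y := by abel
        rw [this]
        exact Submodule.sub_mem _ h6 (hDL hy)
      exact Submodule.add_mem _ (Submodule.mem_sup_right hy)
        (Submodule.mem_sup_left ⟨hz', hz⟩))
  have E2 := cod_sup (D := D ⊔ L) (L := S ⊓ Z)
  have E3 := cod_add (D := D ⊔ L) (E := (S ⊓ Z) ⊔ (D ⊔ L)) (L := S) le_sup_right
    (sup_le inf_le_left hDL) (E2.2.2 (D3.2.1 D1.2)) (E1.2.2 FC)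
  have G := cx_defect D L Z
  refine ⟨B3.2.1 cB.1, E3.1, ?_⟩
  rw [← B3.1, ← B2.1, A.1, C1.1, cB.2, E3.2, D2.2, cA'.2, cA''.1, B1.1, E2.1, E1.1, D3.1, ← G.1]
  push_cast
  ring

end

end Vale.Agent.P292.Dv
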