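import Vale.Agent.P292.D.T2Defs

/-! # P292, Part III, block T2, R5: a pair is a homomorphism of the Rees algebra. -/

namespace Vale.Agent.P292.Dv

open TensorProduct
open Vale.Agent.P292.Mo

universe u v w

namespace ReesHom

variable {R : Type v} [CommRing R]

/-- `y` is the value at `f`. -/
def Rel {B : Type w} [CommRing B] (a b : R) (φ : R →+* B) (s : B) (f : Polynomial R) (y : B) :
    Prop :=
  ∃ (N : ℕ) (g : Polynomial R), Polynomial.C b ^ N * f =
    Polynomial.compRingHom (Polynomial.C a * Polynomial.X) g ∧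
    φ b ^ N * y = Polynomial.eval₂RingHom φ s g

section

variable {B : Type w} [CommRing B] {a b : R} {φ : R →+* B} {s : B}

theorem comp_inj [IsDomain R] (ha : a ≠ 0) :
    Function.Injective (Polynomial.compRingHom (Polynomial.C a * Polynomial.X)) := by
  intro g g' h
  ext n
  have h1 := congrArg (fun p => Polynomial.coeff p n) h
  simp only [Polynomial.coe_compRingHom_apply, Polynomial.comp_C_mul_X_coeff] at h1
  exact mul_right_cancel₀ (pow_ne_zero n ha) h1

theorem Rel.unique [IsDomain R] (ha : a ≠ 0) (hb : IsUnit (φ b)) {f : Polynomial R} {y y' : B}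
    (h : Rel a b φ s f y) (h' : Rel a b φ s f y') : y = y' := by
  obtain ⟨N, g, h1, h2⟩ := h
  obtain ⟨N', g', h1', h2'⟩ := h'
  have h3 : Polynomial.C b ^ N' * g = Polynomial.C b ^ N * g' := by
    apply comp_inj ha
    have hC : Polynomial.compRingHom (Polynomial.C a * Polynomial.X) (Polynomial.C b) =
        Polynomial.C b := by
      rw [Polynomial.coe_compRingHom_apply, Polynomial.C_comp]
    rw [map_mul, map_mul, map_pow, map_pow, hC, ← h1, ← h1']
    ring
  have h4 := congrArg (Polynomial.eval₂RingHom φ s) h3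
  have hC : Polynomial.eval₂RingHom φ s (Polynomial.C b) = φ b := by
    rw [Polynomial.coe_eval₂RingHom, Polynomial.eval₂_C]
  rw [map_mul, map_mul, map_pow, map_pow, hC, ← h2, ← h2'] at h4
  have h5 : φ b ^ N' * φ b ^ N * y = φ b ^ N' * φ b ^ N * y' := by
    rw [mul_assoc, h4]
    ring
  exact ((hb.pow N').mul (hb.pow N)).mul_left_cancel h5

theorem Rel.add {f f' : Polynomial R} {y y' : B} (h : Rel a b φ s f y)
    (h' : Rel a b φ s f' y') : Rel a b φ s (f + f') (y + y') := by
  obtain ⟨N, g, h1, h2⟩ := h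
  obtain ⟨N', g', h1', h2'⟩ := h'
  refine ⟨N + N', Polynomial.C b ^ N' * g + Polynomial.C b ^ N * g', ?_, ?_⟩
  · have hC : Polynomial.compRingHom (Polynomial.C a * Polynomial.X) (Polynomial.C b) =
        Polynomial.C b := by
      rw [Polynomial.coe_compRingHom_apply, Polynomial.C_comp]
    rw [map_add, map_mul, map_mul, map_pow, map_pow, hC, ← h1, ← h1', pow_add]
    ring
  · have hC : Polynomial.eval₂RingHom φ s (Polynomial.C b) = φ b := by
      rw [Polynomial.coe_eval₂RingHom, Polynomial.eval₂_C]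
    rw [map_add, map_mul, map_mul, map_pow, map_pow, hC, ← h2, ← h2', pow_add]
    ring

theorem Rel.mul {f f' : Polynomial R} {y y' : B} (h : Rel a b φ s f y)
    (h' : Rel a b φ s f' y') : Rel a b φ s (f * f') (y * y') := by
  obtain ⟨N, g, h1, h2⟩ := h
  obtain ⟨N', g', h1', h2'⟩ := h'
  refine ⟨N + N', g * g', ?_, ?_⟩
  · rw [map_mul, ← h1, ← h1', pow_add]
    ring
  · rw [map_mul, ← h2, ← h2', pow_add]
    ring

theorem Rel.C (r : R) : Rel a b φ s (Polynomial.C r) (φ r) := by
  refine ⟨0, Polynomial.C r, ?_, ?_⟩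
  · rw [Polynomial.coe_compRingHom_apply, Polynomial.C_comp, pow_zero, one_mul]
  · rw [Polynomial.coe_eval₂RingHom, Polynomial.eval₂_C, pow_zero, one_mul]

theorem pow_rel {J : Ideal R} (hab : ∀ x ∈ J, ∃ r, b * x = r * a) (m : ℕ) :
    ∀ x ∈ J ^ m, ∃ r, b ^ m * x = r * a ^ m := by
  induction m with
  | zero => exact fun x _ => ⟨x, by rw [pow_zero, pow_zero, one_mul, mul_one]⟩
  | succ m ih =>
    intro x hx
    rw [pow_succ] at hx
    refine Submodule.mul_induction_on hx (fun y hy z hz => ?_) (fun y z hy hz => ?_)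
    · obtain ⟨r, hr⟩ := ih y hy
      obtain ⟨r', hr'⟩ := hab z hz
      refine ⟨r * r', ?_⟩
      rw [pow_succ, pow_succ, show b ^ m * b * (y * z) = (b ^ m * y) * (b * z) by ring, hr, hr']
      ring
    · obtain ⟨r, hr⟩ := hy
      obtain ⟨r', hr'⟩ := hz
      exact ⟨r + r', by rw [mul_add, hr, hr', add_mul]⟩

theorem Rel.exists {J : Ideal R} (hab : ∀ x ∈ J, ∃ r, b * x = r * a) (hb : IsUnit (φ b))
    {f : Polynomial R} (hf : f ∈ reesAlgebra J) : ∃ y, Rel a b φ s f y := by
  classical
  rw [f.as_sum_support]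
  have key : ∀ S : Finset ℕ, ∃ y, Rel a b φ s (∑ i ∈ S, Polynomial.monomial i (f.coeff i)) y := by
    intro S
    induction S using Finset.induction_on with
    | empty =>
      refine ⟨0, ?_⟩
      rw [Finset.sum_empty]
      have h := Rel.C (a := a) (b := b) (φ := φ) (s := s) 0
      rwa [map_zero, map_zero] at h
    | insert i S hi ih =>
      obtain ⟨y, hy⟩ := ih
      rw [Finset.sum_insert hi]
      obtain ⟨r, hr⟩ := pow_rel hab i (f.coeff i) (hf i)
      obtain ⟨c, hc⟩ := (hb.pow i).exists_right_inv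
      refine ⟨c * (φ r * s ^ i) + y, Rel.add ⟨i, Polynomial.monomial i r, ?_, ?_⟩ hy⟩
      · rw [Polynomial.coe_compRingHom_apply, Polynomial.monomial_comp, mul_pow,
          ← Polynomial.C_pow, ← Polynomial.C_pow, ← Polynomial.C_mul_X_pow_eq_monomial,
          ← mul_assoc, ← mul_assoc, ← Polynomial.C_mul, ← Polynomial.C_mul, hr]
      · rw [Polynomial.coe_eval₂RingHom, Polynomial.eval₂_monomial, ← mul_assoc, hc, one_mul]
  exact key _

end

end ReesHom

open ReesHom in
/-- R5. A pair is a homomorphism of the Rees algebra. -/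
theorem exists_rees_hom {k : Type u} [Field k] {R : Type v} [CommRing R] [Algebra k R]
    [IsDomain R] (J : Ideal R) {a : J} {b : R} (ha : (a : R) ≠ 0)
    (hab : ∀ x ∈ J, ∃ r, b * x = r * a) {B : Type w} [CommRing B] [Algebra k B] (φ : R →ₐ[k] B)
    (η : J →ₗ[k] B) (hη : ∀ (r : R) (x : J), η (r • x) = φ r * η x) (hb : IsUnit (φ b)) :
    ∃ Φ : reesAlgebra J →ₐ[k] B, (∀ r, Φ (algebraMap R (reesAlgebra J) r) = φ r) ∧
      ∀ x, Φ (rT J x) = η x := by
  classical
  have hb' : IsUnit ((φ : R →+* B) b) := hb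
  choose F hF using fun f : reesAlgebra J => Rel.exists (s := η a) hab hb' f.2
  have huniq : ∀ (f : reesAlgebra J) (y : B), Rel (a : R) b (φ : R →+* B) (η a) f y → F f = y :=
    fun f y h => Rel.unique ha hb' (hF f) h
  have hC : ∀ r, F (algebraMap R (reesAlgebra J) r) = φ r := fun r => huniq _ _ (Rel.C r)
  let Φ : reesAlgebra J →ₐ[k] B :=
    { toFun := F
      map_one' := by
        have h := hC 1
        rwa [map_one, map_one] at h
      map_mul' := fun f g => huniq _ _ ((hF f).mul (hF g))
      map_zero' := by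
        have h := hC 0
        rwa [map_zero, map_zero] at h
      map_add' := fun f g => huniq _ _ ((hF f).add (hF g))
      commutes' := fun c => by
        have h := hC (algebraMap k R c)
        rw [AlgHom.commutes] at h
        rw [← h, ← IsScalarTower.algebraMap_apply k R (reesAlgebra J) c] }
  refine ⟨Φ, hC, fun x => huniq _ _ ?_⟩
  obtain ⟨r, hr⟩ := hab x x.2
  refine ⟨1, Polynomial.monomial 1 r, ?_, ?_⟩
  · change Polynomial.C b ^ 1 * Polynomial.monomial 1 (x : R) = _
    rw [Polynomial.coe_compRingHom_apply, Polynomial.monomial_comp, pow_one, pow_one,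
      ← Polynomial.C_mul_X_pow_eq_monomial, pow_one, ← mul_assoc, ← mul_assoc,
      ← Polynomial.C_mul, ← Polynomial.C_mul, hr]
  · rw [Polynomial.coe_eval₂RingHom, Polynomial.eval₂_monomial, pow_one, pow_one]
    have h1 : b • x = r • a := Subtype.ext hr
    change φ b * η x = φ r * η a
    rw [← hη, ← hη, h1]

end Vale.Agent.P292.Dv
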