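import Vale.Agent.P292.D.T2Defs
import Vale.Agent.P292.D.PairChi0
import Vale.Agent.P292.D.ReesHom

/-! # R6: derivations of the Rees algebra. -/

namespace Vale.Agent.P292.Dv

open Module Submodule Vale.Agent.P292.Mo

universe u v w

section abs

variable {k : Type u} [Field k] {K : Type w} [Field K] [Algebra k K]
variable {V W : Type*} [AddCommGroup V] [Module k V] [AddCommGroup W] [Module k W]

/-- The abstract form. -/
theorem rc_abstract (f : V →ₗ[k] W) (E : K →ₗ[k] V) (hE : Function.Injective E)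
    {D L S : Submodule k V} (hD : D ≤ S) (hL : L ≤ S) (I M : Submodule k K)
    (eS : S ⊓ LinearMap.ker f = (⊤ : Submodule k K).map E)
    (eD : D ⊓ LinearMap.ker f = I.map E) (eL : L ⊓ LinearMap.ker f = M.map E)
    (h1 : Module.Finite k ↥(I ⊓ M)) (h2 : Module.Finite k (K ⧸ (I ⊔ M)))
    (h3 : Module.Finite k ↥(D.map f ⊓ L.map f)) (h4 : Fc (D.map f ⊔ L.map f) (S.map f)) :
    Module.Finite k ↥(D ⊓ L) ∧ Fc (D ⊔ L) S ∧
    (finrank k ↥(D ⊓ L) : ℤ) - cod (D ⊔ L) S =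
      ((finrank k ↥(I ⊓ M) : ℤ) - finrank k (K ⧸ (I ⊔ M))) +
      ((finrank k ↥(D.map f ⊓ L.map f) : ℤ) - cod (D.map f ⊔ L.map f) (S.map f)) := by
  have e1 : D ⊓ L ⊓ LinearMap.ker f = (I ⊓ M).map E := by
    rw [Submodule.map_inf _ hE, ← eD, ← eL, inf_inf_distrib_right]
  have e2 : (D ⊓ LinearMap.ker f) ⊔ (L ⊓ LinearMap.ker f) = (I ⊔ M).map E := by
    rw [eD, eL, Submodule.map_sup]
  let e : ↥(I ⊓ M) ≃ₗ[k] ↥((I ⊓ M).map E) := Submodule.equivMapOfInjective E hE _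
  have f1 : Module.Finite k ↥(D ⊓ L ⊓ LinearMap.ker f) := by
    rw [e1]
    exact Module.Finite.equiv e
  have g1 : finrank k ↥(D ⊓ L ⊓ LinearMap.ker f) = finrank k ↥(I ⊓ M) := by
    rw [e1]
    exact (LinearEquiv.finrank_eq e).symm
  have ct := cod_top (I ⊔ M)
  have ci := cod_map_inj hE (I ⊔ M) ⊤
  have f2 : Fc ((D ⊓ LinearMap.ker f) ⊔ (L ⊓ LinearMap.ker f)) (S ⊓ LinearMap.ker f) := by
    rw [e2, eS, ci.2, ct.2]
    exact h2
  have g2 : cod ((D ⊓ LinearMap.ker f) ⊔ (L ⊓ LinearMap.ker f)) (S ⊓ LinearMap.ker f) =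
      finrank k (K ⧸ (I ⊔ M)) := by
    rw [e2, eS, ci.1, ct.1]
  have h5 := cx_add f hD hL f1 f2 h3 h4
  rw [g1, g2] at h5
  exact h5

end abs

section

variable {k : Type u} [Field k] {R : Type v} [CommRing R] [Algebra k R]

theorem rT_smul (J : Ideal R) (r : R) (x : J) :
    rT J (r • x) = algebraMap R (reesAlgebra J) r * rT J x := by
  apply Subtype.ext
  rw [Subalgebra.coe_mul]
  change Polynomial.monomial 1 (r * (x : R)) = Polynomial.C r * Polynomial.monomial 1 (x : R)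
  rw [Polynomial.C_mul_monomial]

theorem rT_add (J : Ideal R) (x y : J) : rT J (x + y) = rT J x + rT J y := by
  apply Subtype.ext
  rw [Subalgebra.coe_add]
  change Polynomial.monomial 1 ((x : R) + (y : R)) = _
  rw [map_add]
  rfl

/-- Induction on the Rees algebra. -/
theorem rees_induction {J : Ideal R} {p : reesAlgebra J → Prop}
    (h1 : ∀ r, p (algebraMap R (reesAlgebra J) r)) (h2 : ∀ x, p (rT J x))
    (hadd : ∀ s t, p s → p t → p (s + t)) (hmul : ∀ s t, p s → p t → p (s * t))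
    (s : reesAlgebra J) : p s := by
  have key : ∀ (q : Polynomial R)
      (hq : q ∈ Algebra.adjoin R (Submodule.map (Polynomial.monomial 1 : R →ₗ[R] Polynomial R) J :
        Set (Polynomial R))), ∀ hq' : q ∈ reesAlgebra J, p ⟨q, hq'⟩ := by
    intro q hq
    induction hq using Algebra.adjoin_induction with
    | mem q hq =>
      intro hq'
      obtain ⟨x, hx, rfl⟩ := hq
      exact h2 ⟨x, hx⟩
    | algebraMap r => exact fun _ => h1 r
    | add a b ha hb iha ihb =>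
      intro hq'
      rw [adjoin_monomial_eq_reesAlgebra] at ha hb
      exact hadd ⟨a, ha⟩ ⟨b, hb⟩ (iha ha) (ihb hb)
    | mul a b ha hb iha ihb =>
      intro hq'
      rw [adjoin_monomial_eq_reesAlgebra] at ha hb
      exact hmul ⟨a, ha⟩ ⟨b, hb⟩ (iha ha) (ihb hb)
  obtain ⟨q, hq⟩ := s
  refine key q ?_ hq
  rw [adjoin_monomial_eq_reesAlgebra]
  exact hq

/-- Homogeneous induction on the Rees algebra. -/
theorem rees_induction_homog {𝒜 : ℕ → Submodule k R} [GradedAlgebra 𝒜] {J : Ideal R}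
    (hJ : J.IsHomogeneous 𝒜) (C : ℕ × ℕ → Submodule k (reesAlgebra J))
    (h1 : ∀ j, ∀ r ∈ 𝒜 j, algebraMap R (reesAlgebra J) r ∈ C (j, 0))
    (h2 : ∀ j, ∀ x : J, (x : R) ∈ 𝒜 j → rT J x ∈ C (j, 1))
    (hmul : ∀ m n, ∀ s ∈ C m, ∀ t ∈ C n, s * t ∈ C (m + n)) (n : ℕ × ℕ) : rgr 𝒜 J n ≤ C n := by
  classical
  have key : ∀ m, ∀ c ∈ J ^ m, ∀ j, ∃ s ∈ C (j, m),
      (s : Polynomial R) = Polynomial.monomial m ((DirectSum.decompose 𝒜 c j : 𝒜 j) : R) := by
    intro m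
    induction m with
    | zero =>
      intro c _ j
      exact ⟨_, h1 j _ (SetLike.coe_mem _), rfl⟩
    | succ m ih =>
      intro c hc
      rw [pow_succ] at hc
      refine Submodule.mul_induction_on (C := fun c => ∀ j, ∃ s ∈ C (j, m + 1),
        (s : Polynomial R) = Polynomial.monomial (m + 1)
          ((DirectSum.decompose 𝒜 c j : 𝒜 j) : R)) hc ?_ ?_
      · intro x hx y hy j
        -- the product
        choose s hs hs' using fun i => ih x hx i
        have hy' : ∀ i, ((DirectSum.decompose 𝒜 y i : 𝒜 i) : R) ∈ J := fun i => hJ i hy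
        refine ⟨∑ i ∈ Finset.HasAntidiagonal.antidiagonal j, s i.1 * rT J ⟨_, hy' i.2⟩, ?_, ?_⟩
        · refine Submodule.sum_mem _ fun i hi => ?_
          have h3 := hmul _ _ _ (hs i.1) _ (h2 i.2 ⟨_, hy' i.2⟩ (SetLike.coe_mem _))
          have h4 : ((i.1, m) : ℕ × ℕ) + (i.2, 1) = (j, m + 1) := by
            rw [Prod.mk_add_mk, Finset.HasAntidiagonal.mem_antidiagonal.1 hi]
          rwa [h4] at h3
        · have h5 : ((DirectSum.decompose 𝒜 (x * y) j : 𝒜 j) : R) =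
              ∑ i ∈ Finset.HasAntidiagonal.antidiagonal j, ((DirectSum.decompose 𝒜 x i.1 : 𝒜 i.1) : R) *
                ((DirectSum.decompose 𝒜 y i.2 : 𝒜 i.2) : R) := by
            rw [DirectSum.decompose_mul, DirectSum.coe_mul_apply_eq_sum_antidiagonal]
          rw [h5, map_sum, AddSubmonoidClass.coe_finsetSum]
          refine Finset.sum_congr rfl fun i _ => ?_
          rw [Subalgebra.coe_mul, hs', ← Polynomial.monomial_mul_monomial]
          rfl
      · intro x y hx hy j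
        obtain ⟨s, hs, hs'⟩ := hx j
        obtain ⟨t, ht, ht'⟩ := hy j
        refine ⟨s + t, Submodule.add_mem _ hs ht, ?_⟩
        rw [Subalgebra.coe_add, hs', ht', DirectSum.decompose_add, DirectSum.add_apply,
          Submodule.coe_add, map_add]
  rintro f ⟨c, hc, hf⟩
  have hcJ : c ∈ J ^ n.2 := by
    have h3 := f.2
    rw [hf, reesAlgebra.monomial_mem] at h3
    exact h3
  obtain ⟨s, hs, hs'⟩ := key n.2 c hcJ n.1
  have h4 : s = f := Subtype.ext (by rw [hs', hf, DirectSum.decompose_of_mem_same 𝒜 hc])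
  rw [← h4]
  exact hs

/-- Derivations of the Rees algebra exist. -/
theorem rc_exists_der [IsDomain R] {J : Ideal R} {K : Type w} [Field K] [Algebra k K]
    (R5 : ∀ {a : J} {b : R} (_ : (a : R) ≠ 0)
      (_ : ∀ x ∈ J, ∃ r, b * x = r * a) {B : Type w} [CommRing B] [Algebra k B] (φ : R →ₐ[k] B)
      (η : J →ₗ[k] B) (_ : ∀ (r : R) (x : J), η (r • x) = φ r * η x) (_ : IsUnit (φ b)),
      ∃ Φ : reesAlgebra J →ₐ[k] B, (∀ r, Φ (algebraMap R (reesAlgebra J) r) = φ r) ∧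
        ∀ x, Φ (rT J x) = η x)
    {φ : R →ₐ[k] K} {η : J →ₗ[k] K} (hη : ∀ (r : R) (x : J), η (r • x) = φ r * η x)
    {Φ : reesAlgebra J →ₐ[k] K} (hΦ : ∀ r, Φ (algebraMap R (reesAlgebra J) r) = φ r)
    (hΦT : ∀ x, Φ (rT J x) = η x) {a : J} {b : R} (hab : ∀ x ∈ J, ∃ r, b * x = r * a)
    (hb : φ b ≠ 0) (ha : η a ≠ 0) {δ : R →ₗ[k] K} (hδ : δ ∈ DerS φ) (z : K) :
    ∃ δ' ∈ DerS Φ, (∀ r, δ' (algebraMap R (reesAlgebra J) r) = δ r) ∧ δ' (rT J a) = z := by
  classical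
  have ha0 : (a : R) ≠ 0 := fun h => ha (by
    have : a = 0 := Subtype.ext h
    rw [this, map_zero])
  -- the homomorphism to the dual numbers
  let B := TrivSqZeroExt K K
  let φB : R →ₐ[k] B := AlgHom.ofLinearMap
    { toFun := fun r => (φ r, δ r)
      map_add' := fun r s => by
        refine TrivSqZeroExt.ext ?_ ?_
        · exact map_add φ r s
        · exact map_add δ r s
      map_smul' := fun c r => by
        refine TrivSqZeroExt.ext ?_ ?_
        · exact map_smul φ c r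
        · exact map_smul δ c r }
    (by
      refine TrivSqZeroExt.ext ?_ ?_
      · exact map_one φ
      · change δ 1 = 0
        have h := hδ 1 1
        rw [mul_one, map_one φ, one_mul] at h
        exact (left_eq_add.1 h))
    (fun r s => by
      refine TrivSqZeroExt.ext ?_ ?_
      · exact map_mul φ r s
      · rw [TrivSqZeroExt.snd_mul]
        change δ (r * s) = φ r • δ s + MulOpposite.op (φ s) • δ r
        rw [hδ, smul_eq_mul, op_smul_eq_mul, mul_comm (δ r)])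
  have hφB1 : ∀ r, (φB r).fst = φ r := fun r => rfl
  have hφB2 : ∀ r, (φB r).snd = δ r := fun r => rfl
  have hbu : IsUnit (φB b) := by
    rw [TrivSqZeroExt.isUnit_iff_isUnit_fst]
    exact IsUnit.mk0 _ hb
  obtain ⟨c, hc⟩ := hbu
  choose r hr using fun x : J => hab x x.2
  have huniq : ∀ s t : R, s * (a : R) = t * a → s = t := fun s t h => mul_right_cancel₀ ha0 h
  let y : B := (η a, z)
  let ηB : J →ₗ[k] B :=
    { toFun := fun x => ↑c⁻¹ * (φB (r x) * y)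
      map_add' := fun x x' => by
        have h1 : r (x + x') = r x + r x' := huniq _ _ (by
          rw [← hr, add_mul, ← hr, ← hr, ← mul_add]
          rfl)
        rw [h1, map_add]
        ring
      map_smul' := fun m x => by
        have h1 : r (m • x) = m • r x := huniq _ _ (by
          rw [← hr, smul_mul_assoc, ← hr]
          change b * (m • (x : R)) = _
          rw [mul_smul_comm])
        rw [h1, map_smul, RingHom.id_apply, smul_mul_assoc, mul_smul_comm] }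
  have hηB : ∀ x, ηB x = ↑c⁻¹ * (φB (r x) * y) := fun _ => rfl
  have hlin : ∀ (s : R) (x : J), ηB (s • x) = φB s * ηB x := by
    intro s x
    have h1 : r (s • x) = s * r x := huniq _ _ (by
      rw [← hr, mul_assoc, ← hr]
      change b * (s * (x : R)) = _
      ring)
    rw [hηB, hηB, h1, map_mul]
    ring
  obtain ⟨Ψ, h1, h2⟩ := R5 ha0 hab φB ηB hlin ⟨c, hc⟩
  have hra : r a = b := huniq _ _ (by rw [← hr])
  have h2a : Ψ (rT J a) = y := by
    rw [h2, hηB, hra, ← hc, ← mul_assoc, Units.inv_mul, one_mul]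
  have hfst : ∀ s, (Ψ s).fst = Φ s := by
    intro s
    refine rees_induction (p := fun s => (Ψ s).fst = Φ s) ?_ ?_ ?_ ?_ s
    · intro t
      rw [h1, hΦ]
      exact hφB1 t
    · intro x
      rw [h2, hΦT, hηB, TrivSqZeroExt.fst_mul, TrivSqZeroExt.fst_mul, hφB1]
      have h3 : (↑c⁻¹ : B).fst * φ b = 1 := by
        have h4 := congrArg TrivSqZeroExt.fst (Units.inv_mul c)
        rw [TrivSqZeroExt.fst_mul, hc, hφB1] at h4
        exact h4
      have h5 : φ b * η x = φ (r x) * η a := by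
        rw [← hη, ← hη]
        congr 1
        exact Subtype.ext (hr x)
      change (↑c⁻¹ : B).fst * (φ (r x) * η a) = η x
      rw [← h5, ← mul_assoc, h3, one_mul]
    · intro s t hs ht
      rw [map_add, map_add, TrivSqZeroExt.fst_add, hs, ht]
    · intro s t hs ht
      rw [map_mul, map_mul, TrivSqZeroExt.fst_mul, hs, ht]
  let δ' : reesAlgebra J →ₗ[k] K :=
    { toFun := fun s => (Ψ s).snd
      map_add' := fun s t => by rw [map_add, TrivSqZeroExt.snd_add]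
      map_smul' := fun m s => by rw [map_smul, TrivSqZeroExt.snd_smul, RingHom.id_apply] }
  refine ⟨δ', ?_, ?_, ?_⟩
  · intro s t
    change (Ψ (s * t)).snd = Φ s * (Ψ t).snd + Φ t * (Ψ s).snd
    rw [map_mul, TrivSqZeroExt.snd_mul, hfst, hfst, smul_eq_mul, op_smul_eq_mul,
      mul_comm (Ψ s).snd]
  · intro s
    change (Ψ _).snd = δ s
    rw [h1, hφB2]
  · change (Ψ _).snd = z
    rw [h2a]
    rfl

/-- The relation between the values on the second generators. -/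
theorem rc_rel {J : Ideal R} {K : Type w} [Field K] [Algebra k K] {Φ : reesAlgebra J →ₐ[k] K}
    {a x : J} {b r : R} (h : b * (x : R) = r * a) {δ : reesAlgebra J →ₗ[k] K} (hδ : δ ∈ DerS Φ) :
    Φ (algebraMap R _ b) * δ (rT J x) + Φ (rT J x) * δ (algebraMap R _ b) =
      Φ (algebraMap R _ r) * δ (rT J a) + Φ (rT J a) * δ (algebraMap R _ r) := by
  have h1 : b • x = r • a := Subtype.ext h
  have h2 := congrArg δ ((rT_smul J b x).symm.trans ((congrArg (rT J) h1).trans (rT_smul J r a)))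
  rwa [hδ, hδ] at h2

/-- R6, relative to R5. -/
theorem chi_rees_of [IsDomain R] {𝒜 : ℕ → Submodule k R} [GradedAlgebra 𝒜]
    {P : R →ₗ[k] R →ₗ[k] R} {J : Ideal R} (hJ : J.IsHomogeneous 𝒜)
    {K : Type w} [Field K] [Algebra k K] {N : ℕ} {A₀ A₁ : Subalgebra k K} {u v : K}
    (R5 : ∀ {a : J} {b : R} (_ : (a : R) ≠ 0)
      (_ : ∀ x ∈ J, ∃ r, b * x = r * a) {B : Type w} [CommRing B] [Algebra k B] (φ : R →ₐ[k] B)
      (η : J →ₗ[k] B) (_ : ∀ (r : R) (x : J), η (r • x) = φ r * η x) (_ : IsUnit (φ b)),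
      ∃ Φ : reesAlgebra J →ₐ[k] B, (∀ r, Φ (algebraMap R (reesAlgebra J) r) = φ r) ∧
        ∀ x, Φ (rT J x) = η x)
    {φ : R →ₐ[k] K} {η : J →ₗ[k] K} (h : IsGP 𝒜 P J N A₀ A₁ u v φ η)
    {Φ : reesAlgebra J →ₐ[k] K} (hΦ : ∀ r, Φ (algebraMap R (reesAlgebra J) r) = φ r)
    (hΦT : ∀ x, Φ (rT J x) = η x) (I : Submodule k K) (hI : ∀ a ∈ I, a ∈ A₀)
    (hIm : ∀ a ∈ A₀, ∀ b ∈ I, a * b ∈ I)
    (f1 : FiniteDimensional k ↥(T0 𝒜 φ I A₁ u)) (f2 : FiniteDimensional k ↥(ObS 𝒜 φ I A₁ u))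
    (f3 : FiniteDimensional k ↥(I ⊓ Subalgebra.toSubmodule A₁))
    (f4 : FiniteDimensional k (K ⧸ (I ⊔ Subalgebra.toSubmodule A₁))) :
    FiniteDimensional k ↥(T0G (rgr 𝒜 J) Φ I A₁ (UU u v)) ∧
    FiniteDimensional k ↥(ObG (rgr 𝒜 J) Φ I A₁ (UU u v)) ∧
    (Module.finrank k ↥(T0G (rgr 𝒜 J) Φ I A₁ (UU u v)) : ℤ) -
      Module.finrank k ↥(ObG (rgr 𝒜 J) Φ I A₁ (UU u v)) =
    (Module.finrank k ↥(T0 𝒜 φ I A₁ u) : ℤ) - Module.finrank k ↥(ObS 𝒜 φ I A₁ u) +
      (Module.finrank k ↥(I ⊓ Subalgebra.toSubmodule A₁) -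
        Module.finrank k (K ⧸ (I ⊔ Subalgebra.toSubmodule A₁))) := by
  classical
  have hlin := h.lin
  have hu := h.mp.u_ne
  obtain ⟨i0, j0, a0, b0, hj0, ha0, hb0, hab0, hφb0, hφb0i, hηa0, hηa0i⟩ := h.loc0
  obtain ⟨i1, j1, a1, b1, hj1, ha1, hb1, hab1, hφb1, hφb1i, hηa1, hηa1i⟩ := h.loc1
  -- values in the charts
  have hφ0 : ∀ r, φ r ∈ A₀ := h.mp.mem0
  have hη0 : ∀ x : J, η x ∈ A₀ := by
    intro x
    have h1 : x = ∑ n ∈ (DirectSum.decompose 𝒜 (x : R)).support,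
        (⟨((DirectSum.decompose 𝒜 (x : R) n : 𝒜 n) : R), hJ n x.2⟩ : J) := by
      apply Subtype.ext
      rw [AddSubmonoidClass.coe_finsetSum]
      exact (DirectSum.sum_support_decompose 𝒜 (x : R)).symm
    rw [h1, map_sum]
    exact sum_mem fun n _ => (h.secη n _ (SetLike.coe_mem _)).1
  have hΦ0 : ∀ s, Φ s ∈ A₀ := by
    intro s
    refine rees_induction (p := fun s => Φ s ∈ A₀) (fun r => ?_) (fun x => ?_)
      (fun s t hs ht => ?_) (fun s t hs ht => ?_) s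
    · rw [hΦ]; exact hφ0 r
    · rw [hΦT]; exact hη0 x
    · rw [map_add]; exact A₀.add_mem hs ht
    · rw [map_mul]; exact A₀.mul_mem hs ht
  -- separation and the two criteria
  have hsep : ∀ δ ∈ DerS Φ, (∀ r, δ (algebraMap R _ r) = 0) → (∀ x, δ (rT J x) = 0) → δ = 0 := by
    intro δ hδ h1 h2
    ext s
    refine rees_induction (p := fun s => δ s = 0) h1 h2 (fun s t hs ht => ?_)
      (fun s t hs ht => ?_) s
    · rw [map_add, hs, ht, add_zero]
    · rw [hδ, hs, ht, mul_zero, mul_zero, add_zero]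
  have hc0 : ∀ I : Submodule k K, (∀ a ∈ A₀, ∀ b ∈ I, a * b ∈ I) → ∀ δ ∈ DerS Φ,
      (∀ r, δ (algebraMap R _ r) ∈ I) → (∀ x, δ (rT J x) ∈ I) → ∀ s, δ s ∈ I := by
    intro I hIm δ hδ h1 h2 s
    refine rees_induction (p := fun s => δ s ∈ I) h1 h2 (fun s t hs ht => ?_)
      (fun s t hs ht => ?_) s
    · rw [map_add]; exact I.add_mem hs ht
    · rw [hδ]; exact I.add_mem (hIm _ (hΦ0 s) _ ht) (hIm _ (hΦ0 t) _ hs)
  have hc1 : ∀ δ ∈ DerS Φ, (∀ j, ∀ r ∈ 𝒜 j, u ^ j * δ (algebraMap R _ r) ∈ A₁) →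
      (∀ j, ∀ x : J, (x : R) ∈ 𝒜 j → u ^ j * v * δ (rT J x) ∈ A₁) →
      ∀ n, ∀ s ∈ rgr 𝒜 J n, UU u v n * δ s ∈ A₁ := by
    intro δ hδ h1 h2 n
    let C : ℕ × ℕ → Submodule k (reesAlgebra J) := fun n =>
      ((Subalgebra.toSubmodule A₁).comap (LinearMap.mulLeft k (UU u v n) ∘ₗ Φ.toLinearMap)) ⊓
      ((Subalgebra.toSubmodule A₁).comap (LinearMap.mulLeft k (UU u v n) ∘ₗ δ))
    have hC : ∀ n s, s ∈ C n ↔ UU u v n * Φ s ∈ A₁ ∧ UU u v n * δ s ∈ A₁ := fun n s => Iff.rfl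
    have hmem : rgr 𝒜 J n ≤ C n := by
      refine rees_induction_homog hJ C ?_ ?_ ?_ n
      · intro j r hr
        rw [hC, hΦ]
        have e : UU u v (j, 0) = u ^ j := by rw [UU, pow_zero, mul_one]
        rw [e]
        exact ⟨(h.mp.sec j r hr).2, h1 j r hr⟩
      · intro j x hx
        rw [hC, hΦT]
        have e : UU u v (j, 1) = u ^ j * v := by rw [UU, pow_one]
        rw [e]
        exact ⟨(h.secη j x hx).2, h2 j x hx⟩
      · intro m n s hs t ht
        rw [hC] at hs ht ⊢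
        have e : UU u v (m + n) = UU u v m * UU u v n := by
          simp only [UU, Prod.fst_add, Prod.snd_add, pow_add]
          ring
        rw [e, map_mul, hδ]
        constructor
        · have : UU u v m * UU u v n * (Φ s * Φ t) = (UU u v m * Φ s) * (UU u v n * Φ t) := by ring
          rw [this]
          exact A₁.mul_mem hs.1 ht.1
        · have : UU u v m * UU u v n * (Φ s * δ t + Φ t * δ s) =
              (UU u v m * Φ s) * (UU u v n * δ t) + (UU u v n * Φ t) * (UU u v m * δ s) := by ring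
          rw [this]
          exact A₁.add_mem (A₁.mul_mem hs.1 ht.2) (A₁.mul_mem ht.1 hs.2)
    exact fun s hs => (hmem hs).2
  -- the restriction
  let f : (reesAlgebra J →ₗ[k] K) →ₗ[k] (R →ₗ[k] K) :=
    { toFun := fun δ => δ ∘ₗ (IsScalarTower.toAlgHom k R (reesAlgebra J)).toLinearMap
      map_add' := fun _ _ => rfl
      map_smul' := fun _ _ => rfl }
  have hf : ∀ δ r, f δ r = δ (algebraMap R _ r) := fun _ _ => rfl
  have hfS : ∀ δ ∈ DerS Φ, f δ ∈ DerS φ := by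
    intro δ hδ r s
    rw [hf, hf, hf, map_mul, hδ, hΦ, hΦ]
  have hext0 : ∀ δ ∈ DerS φ, ∀ z, ∃ δ' ∈ DerS Φ, f δ' = δ ∧ δ' (rT J a0) = z := by
    intro δ hδ z
    obtain ⟨δ', h1, h2, h3⟩ := rc_exists_der R5 hlin hΦ hΦT hab0 hφb0 hηa0 hδ z
    exact ⟨δ', h1, LinearMap.ext h2, h3⟩
  -- the Euler derivation
  obtain ⟨E1, hE1, hE1f, hE1a⟩ := hext0 0 (zero_mem _) (η a0)
  have hE1r : ∀ r, E1 (algebraMap R _ r) = 0 := fun r => by
    rw [← hf, hE1f, LinearMap.zero_apply]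
  have hker : ∀ δ ∈ DerS Φ, (∀ r, δ (algebraMap R _ r) = 0) → ∀ x,
      δ (rT J x) = (δ (rT J a0) / η a0) * η x := by
    intro δ hδ h1 x
    obtain ⟨r, hr⟩ := hab0 x x.2
    have h2 := rc_rel (Φ := Φ) hr hδ
    rw [h1, h1, mul_zero, mul_zero, add_zero, add_zero, hΦ, hΦ] at h2
    have h3 : φ b0 * η x = φ r * η a0 := by
      rw [← hlin, ← hlin]
      congr 1
      exact Subtype.ext hr
    field_simp
    refine mul_left_cancel₀ hφb0 ?_
    linear_combination η a0 * h2 - δ (rT J a0) * h3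
  have hE1x : ∀ x, E1 (rT J x) = η x := by
    intro x
    rw [hker E1 hE1 hE1r x, hE1a, div_self hηa0, one_mul]
  let E : K →ₗ[k] (reesAlgebra J →ₗ[k] K) :=
    { toFun := fun z => LinearMap.mulLeft k z ∘ₗ E1
      map_add' := fun z z' => by
        ext s
        change (z + z') * E1 s = z * E1 s + z' * E1 s
        ring
      map_smul' := fun c z => by
        ext s
        change (c • z) * E1 s = c • (z * E1 s)
        rw [smul_mul_assoc] }
  have hEa : ∀ z s, E z s = z * E1 s := fun _ _ => rfl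
  have hEd : ∀ z, E z ∈ DerS Φ := by
    intro z s t
    rw [hEa, hEa, hEa, hE1]
    ring
  have hEinj : Function.Injective E := by
    rw [injective_iff_map_eq_zero]
    intro z hz
    have h1 := LinearMap.congr_fun hz (rT J a0)
    rw [hEa, hE1a, LinearMap.zero_apply] at h1
    exact (mul_eq_zero.1 h1).resolve_right hηa0
  have hEf : ∀ z, f (E z) = 0 := by
    intro z
    ext r
    rw [hf, hEa, hE1r, mul_zero, LinearMap.zero_apply]
  have hEker : ∀ δ ∈ DerS Φ, f δ = 0 → δ = E (δ (rT J a0) / η a0) := by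
    intro δ hδ h1
    have h1' : ∀ r, δ (algebraMap R _ r) = 0 := fun r => by rw [← hf, h1, LinearMap.zero_apply]
    have h2 := hsep (δ - E (δ (rT J a0) / η a0)) (sub_mem hδ (hEd _)) (fun r => by
      rw [LinearMap.sub_apply, h1', hEa, hE1r, mul_zero, sub_zero]) (fun x => by
      rw [LinearMap.sub_apply, hker δ hδ h1' x, hEa, hE1x, sub_self])
    exact sub_eq_zero.1 h2
  -- the data
  have hD : Der0 Φ I ≤ DerS Φ := fun δ hδ => hδ.1
  have hL : Der1G (rgr 𝒜 J) Φ A₁ (UU u v) ≤ DerS Φ := fun δ hδ => hδ.1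
  have eS : DerS Φ ⊓ LinearMap.ker f = (⊤ : Submodule k K).map E := by
    ext δ
    constructor
    · rintro ⟨h1, h2⟩
      exact ⟨_, trivial, (hEker δ h1 h2).symm⟩
    · rintro ⟨z, -, rfl⟩
      exact ⟨hEd z, hEf z⟩
  have eD : Der0 Φ I ⊓ LinearMap.ker f = I.map E := by
    ext δ
    constructor
    · rintro ⟨h1, h2⟩
      refine ⟨_, ?_, (hEker δ h1.1 h2).symm⟩
      rw [div_eq_mul_inv, mul_comm]
      exact hIm _ hηa0i _ (h1.2 _)
    · rintro ⟨z, hz, rfl⟩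
      refine ⟨⟨hEd z, fun s => ?_⟩, hEf z⟩
      rw [hEa, mul_comm]
      refine hIm _ ?_ _ hz
      exact hc0 (Subalgebra.toSubmodule A₀) (fun a ha b hb => A₀.mul_mem ha hb) E1 hE1
        (fun r => by rw [hE1r]; exact A₀.zero_mem) (fun x => by rw [hE1x]; exact hη0 x) s
  have eL : Der1G (rgr 𝒜 J) Φ A₁ (UU u v) ⊓ LinearMap.ker f =
      (Subalgebra.toSubmodule A₁).map E := by
    ext δ
    constructor
    · rintro ⟨h1, h2⟩
      have h3 := hEker δ h1.1 h2
      refine ⟨_, ?_, h3.symm⟩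
      set z := δ (rT J a0) / η a0
      have h4 := h1.2 (i1, 1) (rT J a1) ⟨a1, ha1, rfl⟩
      rw [h3, hEa, hE1x] at h4
      have e : UU u v (i1, 1) = u ^ i1 * v := by rw [UU, pow_one]
      rw [e] at h4
      have h5 := A₁.mul_mem hηa1i h4
      have h6 : (u ^ i1 * v * η a1)⁻¹ * (u ^ i1 * v * (z * η a1)) = z := by
        have := pow_ne_zero i1 hu
        have := h.v_ne
        field_simp
      rw [h6] at h5
      exact h5
    · rintro ⟨z, hz, rfl⟩
      refine ⟨⟨hEd z, hc1 _ (hEd z) (fun j r _ => ?_) fun j x hx => ?_⟩, hEf z⟩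
      · rw [hEa, hE1r, mul_zero, mul_zero]
        exact A₁.zero_mem
      · rw [hEa, hE1x]
        have : u ^ j * v * (z * η x) = z * (u ^ j * v * η x) := by ring
        rw [this]
        exact A₁.mul_mem hz (h.secη j x hx).2
  have mS : (DerS Φ).map f = DerS φ := by
    ext δ
    constructor
    · rintro ⟨δ', h1, rfl⟩
      exact hfS _ h1
    · intro hδ
      obtain ⟨δ', h1, h2, -⟩ := hext0 δ hδ 0
      exact ⟨δ', h1, h2⟩
  have mD : (Der0 Φ I).map f = Der0 φ I := by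
    ext δ
    constructor
    · rintro ⟨δ', h1, rfl⟩
      exact ⟨hfS _ h1.1, fun r => h1.2 _⟩
    · rintro ⟨hδ, hv⟩
      obtain ⟨δ', h1, h2, h3⟩ := hext0 δ hδ 0
      have h2' : ∀ r, δ' (algebraMap R _ r) = δ r := fun r => by rw [← hf, h2]
      refine ⟨δ', ⟨h1, hc0 I hIm δ' h1 (fun r => by rw [h2']; exact hv r) fun x => ?_⟩, h2⟩
      obtain ⟨r, hr⟩ := hab0 x x.2
      have h4 := rc_rel (Φ := Φ) hr h1
      rw [h2', h2', h3, mul_zero, zero_add, hΦ, hΦT, hΦT] at h4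
      have h5 : δ' (rT J x) = (φ b0)⁻¹ * (η a0 * δ r - η x * δ b0) := by
        rw [eq_inv_mul_iff_mul_eq₀ hφb0]
        linear_combination h4
      rw [h5]
      exact hIm _ hφb0i _ (I.sub_mem (hIm _ (hη0 _) _ (hv _)) (hIm _ (hη0 _) _ (hv _)))
  have mL : (Der1G (rgr 𝒜 J) Φ A₁ (UU u v)).map f = Der1 𝒜 φ A₁ u := by
    ext δ
    constructor
    · rintro ⟨δ', h1, rfl⟩
      refine ⟨hfS _ h1.1, fun n r hr => ?_⟩
      have h2 := h1.2 (n, 0) (algebraMap R _ r) ⟨r, hr, rfl⟩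
      have e : UU u v (n, 0) = u ^ n := by rw [UU, pow_zero, mul_one]
      rw [e] at h2
      exact h2
    · rintro ⟨hδ, hv⟩
      obtain ⟨δ', h1, h2, h3⟩ := rc_exists_der R5 hlin hΦ hΦT hab1 hφb1 hηa1 hδ 0
      refine ⟨δ', ⟨h1, hc1 δ' h1 (fun j r hr => by rw [h2]; exact hv j r hr) fun n x hx => ?_⟩,
        LinearMap.ext h2⟩
      -- a homogeneous quotient
      obtain ⟨r, hr⟩ := hab1 x x.2
      have hbx : b1 * (x : R) ∈ 𝒜 (j1 + n) := SetLike.mul_mem_graded hb1 hx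
      obtain ⟨r', m, hr', hm, hrr⟩ : ∃ r' : R, ∃ m : ℕ, r' ∈ 𝒜 m ∧
          (r' = 0 ∨ m + i1 = j1 + n) ∧ b1 * (x : R) = r' * a1 := by
        by_cases hi : i1 ≤ j1 + n
        · refine ⟨(DirectSum.decompose 𝒜 r (j1 + n - i1) : R), _, SetLike.coe_mem _,
            Or.inr (Nat.sub_add_cancel hi), ?_⟩
          rw [← DirectSum.decompose_of_mem_same 𝒜 hbx, hr,
            ← DirectSum.coe_decompose_mul_of_right_mem_of_le 𝒜 ha1 hi]
        · refine ⟨0, 0, zero_mem _, Or.inl rfl, ?_⟩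
          rw [← DirectSum.decompose_of_mem_same 𝒜 hbx, hr,
            DirectSum.coe_decompose_mul_of_right_mem_of_not_le 𝒜 ha1 hi, zero_mul]
      have h4 := rc_rel (Φ := Φ) hrr h1
      rw [h2, h2, h3, mul_zero, zero_add, hΦ, hΦT, hΦT] at h4
      have hu1 := pow_ne_zero j1 hu
      have h5 : u ^ n * v * δ' (rT J x) = (u ^ j1 * φ b1)⁻¹ *
          (u ^ (j1 + n) * v * (η a1 * δ r') - (u ^ n * v * η x) * (u ^ j1 * δ b1)) := by
        rw [eq_inv_mul_iff_mul_eq₀ (mul_ne_zero hu1 hφb1), pow_add]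
        linear_combination (u ^ j1 * u ^ n * v) * h4
      rw [h5]
      refine A₁.mul_mem hφb1i (A₁.sub_mem ?_ (A₁.mul_mem (h.secη n x hx).2 (hv _ _ hb1)))
      rcases hm with rfl | hm
      · rw [map_zero, mul_zero, mul_zero]
        exact A₁.zero_mem
      · rw [← hm, pow_add]
        have : u ^ m * u ^ i1 * v * (η a1 * δ r') = (u ^ i1 * v * η a1) * (u ^ m * δ r') := by ring
        rw [this]
        exact A₁.mul_mem (h.secη i1 a1 ha1).2 (hv m r' hr')
  have key := rc_abstract f E hEinj hD hL I (Subalgebra.toSubmodule A₁) eS eD eL f3 f4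
    (by rw [mD, mL]; exact f1) (by rw [mD, mL, mS]; exact f2)
  rw [mD, mL, mS] at key
  refine ⟨key.1, key.2.1, ?_⟩
  have h6 := key.2.2
  have e1 : (Module.finrank k ↥(T0G (rgr 𝒜 J) Φ I A₁ (UU u v)) : ℤ) =
      finrank k ↥(Der0 Φ I ⊓ Der1G (rgr 𝒜 J) Φ A₁ (UU u v)) := rfl
  have e2 : (Module.finrank k ↥(ObG (rgr 𝒜 J) Φ I A₁ (UU u v)) : ℤ) =
      cod (Der0 Φ I ⊔ Der1G (rgr 𝒜 J) Φ A₁ (UU u v)) (DerS Φ) := rfl
  have e3 : (Module.finrank k ↥(T0 𝒜 φ I A₁ u) : ℤ) =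
      finrank k ↥(Der0 φ I ⊓ Der1 𝒜 φ A₁ u) := rfl
  have e4 : (Module.finrank k ↥(ObS 𝒜 φ I A₁ u) : ℤ) =
      cod (Der0 φ I ⊔ Der1 𝒜 φ A₁ u) (DerS φ) := rfl
  rw [e1, e2, e3, e4, h6]
  ring

/-- R6 (D/ReesChi.lean). Derivations of the Rees algebra. -/
theorem chi_rees [IsDomain R] {𝒜 : ℕ → Submodule k R} [GradedAlgebra 𝒜]
    {P : R →ₗ[k] R →ₗ[k] R} {J : Ideal R} (hJ : J.IsHomogeneous 𝒜)
    {K : Type w} [Field K] [Algebra k K] {N : ℕ} {A₀ A₁ : Subalgebra k K} {u v : K}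
    {φ : R →ₐ[k] K} {η : J →ₗ[k] K} (h : IsGP 𝒜 P J N A₀ A₁ u v φ η)
    {Φ : reesAlgebra J →ₐ[k] K} (hΦ : ∀ r, Φ (algebraMap R (reesAlgebra J) r) = φ r)
    (hΦT : ∀ x, Φ (rT J x) = η x) (I : Submodule k K) (hI : ∀ a ∈ I, a ∈ A₀)
    (hIm : ∀ a ∈ A₀, ∀ b ∈ I, a * b ∈ I)
    (f1 : FiniteDimensional k ↥(T0 𝒜 φ I A₁ u)) (f2 : FiniteDimensional k ↥(ObS 𝒜 φ I A₁ u))
    (f3 : FiniteDimensional k ↥(I ⊓ Subalgebra.toSubmodule A₁))
    (f4 : FiniteDimensional k (K ⧸ (I ⊔ Subalgebra.toSubmodule A₁))) :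
    FiniteDimensional k ↥(T0G (rgr 𝒜 J) Φ I A₁ (UU u v)) ∧
    FiniteDimensional k ↥(ObG (rgr 𝒜 J) Φ I A₁ (UU u v)) ∧
    (Module.finrank k ↥(T0G (rgr 𝒜 J) Φ I A₁ (UU u v)) : ℤ) -
      Module.finrank k ↥(ObG (rgr 𝒜 J) Φ I A₁ (UU u v)) =
    (Module.finrank k ↥(T0 𝒜 φ I A₁ u) : ℤ) - Module.finrank k ↥(ObS 𝒜 φ I A₁ u) +
      (Module.finrank k ↥(I ⊓ Subalgebra.toSubmodule A₁) -
        Module.finrank k (K ⧸ (I ⊔ Subalgebra.toSubmodule A₁))) :=
  chi_rees_of hJ (fun ha hab _ _ _ φ η hη hb => exists_rees_hom J ha hab φ η hη hb) h hΦ hΦT I hI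
    hIm f1 f2 f3 f4

end

end Vale.Agent.P292.Dv
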