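import Mathlib

/-! # P292, Part III, block T2, leaf R3: the Rees algebra is of finite type. -/

namespace Vale.Agent.P292.Dv

universe u v

/-- R3 (D/ReesFt.lean). -/
theorem finiteType_rees {k : Type u} [Field k] {R : Type v} [CommRing R] [Algebra k R]
    [Algebra.FiniteType k R] (J : Ideal R) :
    Algebra.FiniteType k (reesAlgebra J) := by
  have : IsNoetherianRing R := Algebra.FiniteType.isNoetherianRing k R
  have h : Algebra.FiniteType R (reesAlgebra J) :=
    (reesAlgebra J).fg_iff_finiteType.1 (reesAlgebra.fg (IsNoetherian.noetherian J))
  exact Algebra.FiniteType.trans (inferInstance : Algebra.FiniteType k R) h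

end Vale.Agent.P292.Dv
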