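import Vale.Agent.P292.D.T2Defs

/-! # P292, Part III, T2, leaf R2: the bigrading of the Rees algebra. -/

namespace Vale.Agent.P292.Dv

universe u v w

variable {k : Type u} [Field k] {R : Type v} [CommRing R] [Algebra k R]

theorem r2_mem {𝒜 : ℕ → Submodule k R} {J : Ideal R} {i : ℕ × ℕ} {f : reesAlgebra J} :
    f ∈ rgr 𝒜 J i ↔ ∃ c ∈ 𝒜 i.1, (f : Polynomial R) = Polynomial.monomial i.2 c := Iff.rfl

theorem r2_gradedMonoid (𝒜 : ℕ → Submodule k R) [GradedAlgebra 𝒜] (J : Ideal R) :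
    SetLike.GradedMonoid (rgr 𝒜 J) where
  one_mem := ⟨1, SetLike.GradedOne.one_mem, by simp⟩
  mul_mem := by
    rintro i j a b ⟨c, hc, h⟩ ⟨c', hc', h'⟩
    exact ⟨c * c', SetLike.GradedMul.mul_mem hc hc', by
      rw [MulMemClass.coe_mul, h, h', Polynomial.monomial_mul_monomial, Prod.snd_add]⟩

/-- The component of an element of the Rees algebra. -/
theorem r2_comp_mem (𝒜 : ℕ → Submodule k R) [GradedAlgebra 𝒜] {J : Ideal R}
    (hJ : J.IsHomogeneous 𝒜) (f : reesAlgebra J) (i : ℕ × ℕ) :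
    Polynomial.monomial i.2 ((DirectSum.decompose 𝒜 ((f : Polynomial R).coeff i.2) i.1 : 𝒜 i.1) : R) ∈
      reesAlgebra J := by
  rw [reesAlgebra.monomial_mem]
  have h1 : (f : Polynomial R).coeff i.2 ∈ J ^ i.2 := (mem_reesAlgebra_iff J _).1 f.2 i.2
  have h2 : (J ^ i.2).IsHomogeneous 𝒜 := by
    generalize i.2 = n
    induction n with
    | zero =>
      rw [pow_zero, Ideal.one_eq_top]
      exact Ideal.IsHomogeneous.top 𝒜
    | succ n ih =>
      rw [pow_succ]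
      exact ih.mul hJ
  exact h2 i.1 h1

/-- The component of bidegree `i`. -/
noncomputable def r2Comp (𝒜 : ℕ → Submodule k R) [GradedAlgebra 𝒜] {J : Ideal R}
    (hJ : J.IsHomogeneous 𝒜) (i : ℕ × ℕ) : reesAlgebra J →+ reesAlgebra J where
  toFun f := ⟨Polynomial.monomial i.2
    ((DirectSum.decompose 𝒜 ((f : Polynomial R).coeff i.2) i.1 : 𝒜 i.1) : R),
    r2_comp_mem 𝒜 hJ f i⟩
  map_zero' := by
    apply Subtype.ext
    simp
  map_add' f g := by
    apply Subtype.ext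
    simp

theorem r2Comp_coe (𝒜 : ℕ → Submodule k R) [GradedAlgebra 𝒜] {J : Ideal R}
    (hJ : J.IsHomogeneous 𝒜) (i : ℕ × ℕ) (f : reesAlgebra J) :
    ((r2Comp 𝒜 hJ i f : reesAlgebra J) : Polynomial R) = Polynomial.monomial i.2
      ((DirectSum.decompose 𝒜 ((f : Polynomial R).coeff i.2) i.1 : 𝒜 i.1) : R) := rfl

theorem r2Comp_mem (𝒜 : ℕ → Submodule k R) [GradedAlgebra 𝒜] {J : Ideal R}
    (hJ : J.IsHomogeneous 𝒜) (i : ℕ × ℕ) (f : reesAlgebra J) :
    r2Comp 𝒜 hJ i f ∈ rgr 𝒜 J i := ⟨_, SetLike.coe_mem _, rfl⟩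

theorem r2Comp_same (𝒜 : ℕ → Submodule k R) [GradedAlgebra 𝒜] {J : Ideal R}
    (hJ : J.IsHomogeneous 𝒜) {i : ℕ × ℕ} {f : reesAlgebra J} (hf : f ∈ rgr 𝒜 J i) :
    r2Comp 𝒜 hJ i f = f := by
  obtain ⟨c, hc, h⟩ := hf
  apply Subtype.ext
  rw [r2Comp_coe, h, Polynomial.coeff_monomial_same, DirectSum.decompose_of_mem_same 𝒜 hc]

theorem r2Comp_ne (𝒜 : ℕ → Submodule k R) [GradedAlgebra 𝒜] {J : Ideal R}
    (hJ : J.IsHomogeneous 𝒜) {i j : ℕ × ℕ} (hij : i ≠ j) {f : reesAlgebra J}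
    (hf : f ∈ rgr 𝒜 J j) : r2Comp 𝒜 hJ i f = 0 := by
  obtain ⟨c, hc, h⟩ := hf
  apply Subtype.ext
  rw [r2Comp_coe, h, ZeroMemClass.coe_zero]
  by_cases h2 : i.2 = j.2
  · have h1 : j.1 ≠ i.1 := fun h1 => hij (Prod.ext h1.symm h2)
    rw [h2, Polynomial.coeff_monomial_same, DirectSum.decompose_of_mem_ne 𝒜 hc h1, map_zero]
  · rw [Polynomial.coeff_monomial, if_neg (fun h3 => h2 h3.symm), DirectSum.decompose_zero]
    simp

theorem r2_isInternal (𝒜 : ℕ → Submodule k R) [GradedAlgebra 𝒜] {J : Ideal R}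
    (hJ : J.IsHomogeneous 𝒜) : DirectSum.IsInternal (rgr 𝒜 J) := by
  classical
  have key : ∀ (x : DirectSum (ℕ × ℕ) fun i => rgr 𝒜 J i) (i : ℕ × ℕ),
      r2Comp 𝒜 hJ i (DirectSum.coeAddMonoidHom (rgr 𝒜 J) x) = ((x i : rgr 𝒜 J i) : reesAlgebra J) := by
    intro x i
    induction x using DirectSum.induction_on with
    | zero => simp
    | of j y =>
      rw [DirectSum.coeAddMonoidHom_of]
      by_cases h : i = j
      · subst h
        rw [DirectSum.of_eq_same, r2Comp_same 𝒜 hJ y.2]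
      · rw [DirectSum.of_eq_of_ne _ _ _ h, r2Comp_ne 𝒜 hJ h y.2]
        rfl
    | add x y hx hy =>
      rw [map_add, map_add, hx, hy]
      rfl
  refine ⟨fun x y hxy => ?_, fun f => ?_⟩
  · refine DFinsupp.ext fun i => ?_
    apply Subtype.ext
    exact (key x i).symm.trans ((congrArg (r2Comp 𝒜 hJ i) hxy).trans (key y i))
  · refine ⟨∑ m ∈ (f : Polynomial R).support,
      ∑ n ∈ (DirectSum.decompose 𝒜 ((f : Polynomial R).coeff m)).support,
        DirectSum.of (fun i => rgr 𝒜 J i) (n, m) ⟨r2Comp 𝒜 hJ (n, m) f, r2Comp_mem 𝒜 hJ _ f⟩, ?_⟩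
    apply Subtype.ext
    rw [map_sum, AddSubmonoidClass.coe_finsetSum]
    conv_rhs => rw [Polynomial.as_sum_support (f : Polynomial R)]
    refine Finset.sum_congr rfl fun m _ => ?_
    rw [map_sum, AddSubmonoidClass.coe_finsetSum]
    conv_rhs => rw [← DirectSum.sum_support_decompose 𝒜 ((f : Polynomial R).coeff m), map_sum]
    refine Finset.sum_congr rfl fun n _ => ?_
    rw [DirectSum.coeAddMonoidHom_of]
    rfl

/-- R2. The bigrading of the Rees algebra. -/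
theorem exists_gradedAlgebra_rgr (𝒜 : ℕ → Submodule k R) [GradedAlgebra 𝒜] (J : Ideal R)
    (hJ : J.IsHomogeneous 𝒜) : Nonempty (GradedAlgebra (rgr 𝒜 J)) := by
  exact ⟨{ r2_gradedMonoid 𝒜 J, (r2_isInternal 𝒜 hJ).chooseDecomposition with }⟩

end Vale.Agent.P292.Dv
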