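import Vale.Agent.P292.D.T2Defs

/-! # R4: where the ideal is generated by one element, the Rees algebra is a torus bundle. -/

namespace Vale.Agent.P292.Dv

open Polynomial

universe u v w

/-- Where the ideal is generated by `a`, the Rees algebra maps to polynomials in `a T`. -/
theorem rs_theta {R : Type v} [CommRing R] [IsDomain R] (J : Ideal R) {a : J} {b : R}
    (ha : (a : R) ≠ 0) (hb0 : b ≠ 0) (hab : ∀ x ∈ J, ∃ r, b * x = r * a) :
    ∃ θ : reesAlgebra J →ₐ[R] Polynomial (Localization.Away b), ∀ (x : J) (r : R),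
      b * x = r * a → C (algebraMap R (Localization.Away b) b) * θ (rT J x) =
        C (algebraMap R (Localization.Away b) r) * X := by
  set F := FractionRing R
  set L := Localization.Away b
  have hinjF : Function.Injective (algebraMap R F) := IsFractionRing.injective R F
  have hbF : IsUnit (algebraMap R F b) :=
    (isUnit_iff_ne_zero.2 fun h => hb0 (hinjF (by rw [h, map_zero])))
  have haF : algebraMap R F a ≠ 0 := fun h => ha (hinjF (by rw [h, map_zero]))
  let g : L →+* F := IsLocalization.Away.lift b hbF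
  have hg : ∀ r, g (algebraMap R L r) = algebraMap R F r := fun r =>
    IsLocalization.Away.lift_eq b hbF r
  have hginj : Function.Injective g := by
    rw [injective_iff_map_eq_zero]
    intro z hz
    obtain ⟨n, r, hr⟩ := IsLocalization.Away.surj b z
    have h1 := congrArg g hr
    rw [map_mul, hz, zero_mul, hg] at h1
    have h2 : r = 0 := hinjF (by rw [map_zero]; exact h1.symm)
    rw [h2, map_zero] at hr
    exact ((IsLocalization.Away.algebraMap_pow_isUnit b n : IsUnit _).mul_left_eq_zero).1 hr
  let gA : L →ₐ[R] F := { g with commutes' := hg }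
  let M : L[X] →ₐ[R] F[X] := Polynomial.mapAlgHom gA
  have hMapp : ∀ p, M p = p.map g := fun p => rfl
  have hM : Function.Injective M := Polynomial.map_injective g hginj
  let σ : R[X] →ₐ[R] F[X] := Polynomial.aeval (C (algebraMap R F a)⁻¹ * X)
  have hσ : ∀ x : R, σ (monomial 1 x) = C (algebraMap R F x * (algebraMap R F a)⁻¹) * X := by
    intro x
    change Polynomial.aeval _ _ = _
    rw [Polynomial.aeval_monomial, pow_one, C_mul, mul_assoc]
    rfl
  have key : ∀ (x : J) (r : R), b * x = r * a →
      C (algebraMap R F b) * σ (monomial 1 (x : R)) = C (algebraMap R F r) * X := by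
    intro x r h
    have h1 : algebraMap R F b * (algebraMap R F x * (algebraMap R F a)⁻¹) =
        algebraMap R F r := by
      rw [← mul_assoc, ← map_mul, h, map_mul, mul_assoc, mul_inv_cancel₀ haF, mul_one]
    rw [hσ, ← mul_assoc, ← C_mul, h1]
  have hrange : ∀ f : reesAlgebra J, (σ.comp (reesAlgebra J).val) f ∈ M.range := by
    intro f
    have h1 : (f : R[X]) ∈ M.range.comap σ := by
      have h2 : reesAlgebra J ≤ M.range.comap σ := by
        rw [← adjoin_monomial_eq_reesAlgebra, Algebra.adjoin_le_iff]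
        rintro _ ⟨x, hx, rfl⟩
        obtain ⟨r, hr⟩ := hab x hx
        change σ (monomial 1 x) ∈ M.range
        refine ⟨C (IsLocalization.Away.invSelf b * algebraMap R L r) * X, ?_⟩
        change M _ = _
        rw [hMapp, Polynomial.map_mul, map_C, map_X, map_mul, hg]
        have h3 : g (IsLocalization.Away.invSelf b) * algebraMap R F b = 1 := by
          rw [← hg, ← map_mul, mul_comm, IsLocalization.Away.mul_invSelf, map_one]
        rw [C_mul, mul_assoc, ← key ⟨x, hx⟩ r hr, ← mul_assoc, ← C_mul, h3, C_1, one_mul]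
      exact h2 f.2
    exact h1
  set e := AlgEquiv.ofInjective M hM with he
  refine ⟨(e.symm : M.range →ₐ[R] L[X]).comp
    ((σ.comp (reesAlgebra J).val).codRestrict M.range hrange), fun x r h => hM ?_⟩
  have h1 : ∀ f, M (((e.symm : M.range →ₐ[R] L[X]).comp
    ((σ.comp (reesAlgebra J).val).codRestrict M.range hrange)) f) =
      (σ.comp (reesAlgebra J).val) f := by
    intro f
    have h2 : (e (((e.symm : M.range →ₐ[R] L[X]).comp
      ((σ.comp (reesAlgebra J).val).codRestrict M.range hrange)) f) : F[X]) =
        (σ.comp (reesAlgebra J).val) f := by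
      simp
    exact h2
  rw [map_mul, h1, map_mul, hMapp, hMapp, hMapp, map_C, map_C, map_X, hg, hg]
  exact key x r h

variable {k : Type u} [Field k] {R : Type v} [CommRing R] [Algebra k R]

/-- Two homomorphisms of the Rees algebra agree if they agree on `R` and on `J T`. -/
theorem rs_ext {J : Ideal R} {B : Type w} [CommRing B] [Algebra k B]
    {f g : reesAlgebra J →ₐ[k] B}
    (h0 : ∀ r, f (algebraMap R (reesAlgebra J) r) = g (algebraMap R (reesAlgebra J) r))
    (h1 : ∀ x, f (rT J x) = g (rT J x)) : f = g := by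
  have key : ∀ (p : R[X]) (hp : p ∈ Algebra.adjoin R
      (Submodule.map (monomial 1 : R →ₗ[R] R[X]) J : Set R[X])) (hp' : p ∈ reesAlgebra J),
      f ⟨p, hp'⟩ = g ⟨p, hp'⟩ := by
    intro p hp
    induction hp using Algebra.adjoin_induction with
    | mem x hx =>
      intro hp'
      obtain ⟨y, hy, rfl⟩ := hx
      exact h1 ⟨y, hy⟩
    | algebraMap r => intro hp'; exact h0 r
    | add x y hx hy ihx ihy =>
      intro hp'
      rw [adjoin_monomial_eq_reesAlgebra] at hx hy
      have h2 : (⟨x + y, hp'⟩ : reesAlgebra J) = ⟨x, hx⟩ + ⟨y, hy⟩ := rfl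
      rw [h2, map_add, map_add, ihx, ihy]
    | mul x y hx hy ihx ihy =>
      intro hp'
      rw [adjoin_monomial_eq_reesAlgebra] at hx hy
      have h2 : (⟨x * y, hp'⟩ : reesAlgebra J) = ⟨x, hx⟩ * ⟨y, hy⟩ := rfl
      rw [h2, map_mul, map_mul, ihx, ihy]
  ext x
  exact key x.1 (by rw [adjoin_monomial_eq_reesAlgebra]; exact x.2) x.2

/-- R4. Where `J` is generated by `a`, the Rees algebra is a torus bundle. -/
theorem smooth_rees [IsDomain R] (J : Ideal R) {a : J} {b : R} (ha : (a : R) ≠ 0) (hb0 : b ≠ 0)
    (hab : ∀ x ∈ J, ∃ r, b * x = r * a) (hb : Algebra.FormallySmooth k (Localization.Away b)) :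
    Algebra.FormallySmooth k
      (Localization.Away (algebraMap R (reesAlgebra J) b * rT J a)) := by
  obtain ⟨θ, hθ⟩ := rs_theta J ha hb0 hab
  set s : reesAlgebra J := algebraMap R (reesAlgebra J) b * rT J a with hs
  refine .of_comp_surjective fun B _ _ I hI f => ?_
  have hnil : IsNilpotent I := ⟨2, hI⟩
  have hunit : ∀ x : B, IsUnit (Ideal.Quotient.mk I x) → IsUnit x := fun x hx =>
    (IsNilpotent.isUnit_quotient_mk_iff hnil).mp hx
  let ψ : reesAlgebra J →ₐ[k] B ⧸ I :=
    f.comp (IsScalarTower.toAlgHom k (reesAlgebra J) (Localization.Away s))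
  have hψ : ∀ x, ψ x = f (algebraMap (reesAlgebra J) (Localization.Away s) x) := fun x => rfl
  have hψs : IsUnit (ψ s) := (IsLocalization.Away.algebraMap_isUnit s).map f
  have hψb : IsUnit (ψ (algebraMap R (reesAlgebra J) b)) := by
    rw [hs, map_mul] at hψs
    exact isUnit_of_mul_isUnit_left hψs
  let φ : R →ₐ[k] B ⧸ I := ψ.comp (IsScalarTower.toAlgHom k R (reesAlgebra J))
  have hφ : ∀ r, φ r = ψ (algebraMap R (reesAlgebra J) r) := fun r => rfl
  let φb : Localization.Away b →ₐ[k] B ⧸ I :=
    IsLocalization.liftAlgHom (M := Submonoid.powers b) (f := φ) (by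
      rintro ⟨_, n, rfl⟩
      change IsUnit (φ (b ^ n))
      rw [map_pow]
      exact hψb.pow n)
  have hφb : ∀ r, φb (algebraMap R _ r) = φ r := fun r => IsLocalization.lift_eq _ r
  obtain ⟨Φb, hΦb⟩ := Algebra.FormallySmooth.comp_surjective k (Localization.Away b) I hI φb
  have hΦb' : ∀ z, Ideal.Quotient.mk I (Φb z) = φb z := fun z => DFunLike.congr_fun hΦb z
  obtain ⟨y, hy⟩ := Ideal.Quotient.mk_surjective (ψ (rT J a))
  -- the lift
  let ev : (Localization.Away b)[X] →ₐ[k] B :=
    { Polynomial.eval₂RingHom (Φb : Localization.Away b →+* B) y with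
      commutes' := fun c => by
        change Polynomial.eval₂ (Φb : Localization.Away b →+* B) y (algebraMap k _ c) = _
        rw [Polynomial.algebraMap_apply, Polynomial.eval₂_C]
        exact Φb.commutes c }
  have hev : ∀ p, ev p = Polynomial.eval₂ (Φb : Localization.Away b →+* B) y p := fun p => rfl
  let Φ : reesAlgebra J →ₐ[k] B := ev.comp (θ.restrictScalars k)
  have hΦ : ∀ x, Φ x = ev (θ x) := fun x => rfl
  have hΦψ : (Ideal.Quotient.mkₐ k I).comp Φ = ψ := by
    refine rs_ext (fun r => ?_) (fun x => ?_)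
    · change Ideal.Quotient.mk I (ev (θ (algebraMap R (reesAlgebra J) r))) = _
      rw [AlgHom.commutes, hev, Polynomial.algebraMap_apply, Polynomial.eval₂_C]
      change Ideal.Quotient.mk I (Φb _) = _
      rw [hΦb', hφb]
      exact hφ r
    · obtain ⟨r, hr⟩ := hab x x.2
      have h1 := hθ x r hr
      have h2 := congrArg (fun p => Ideal.Quotient.mk I (ev p)) h1
      simp only [map_mul] at h2
      have h3 : ∀ z : R, Ideal.Quotient.mk I (ev (C (algebraMap R (Localization.Away b) z))) =
          ψ (algebraMap R (reesAlgebra J) z) := by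
        intro z
        rw [hev, Polynomial.eval₂_C]
        change Ideal.Quotient.mk I (Φb _) = _
        rw [hΦb', hφb]
        exact hφ z
      have h4 : Ideal.Quotient.mk I (ev X) = ψ (rT J a) := by
        rw [hev, Polynomial.eval₂_X, hy]
      rw [h3, h3, h4, ← map_mul] at h2
      have h5 : algebraMap R (reesAlgebra J) r * rT J a =
          algebraMap R (reesAlgebra J) b * rT J x := by
        apply Subtype.ext
        change Polynomial.C r * monomial 1 (a : R) = Polynomial.C b * monomial 1 (x : R)
        rw [C_mul_monomial, C_mul_monomial, hr]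
      rw [h5, map_mul] at h2
      exact hψb.mul_left_cancel h2
  have hΦs : IsUnit (Φ s) := by
    apply hunit
    have h1 : Ideal.Quotient.mk I (Φ s) = ψ s := DFunLike.congr_fun hΦψ s
    rw [h1]
    exact hψs
  let Φs : Localization.Away s →ₐ[k] B :=
    IsLocalization.liftAlgHom (M := Submonoid.powers s) (f := Φ) (by
      rintro ⟨_, n, rfl⟩
      change IsUnit (Φ (s ^ n))
      rw [map_pow]
      exact hΦs.pow n)
  have hΦs' : ∀ x, Φs (algebraMap (reesAlgebra J) _ x) = Φ x := fun x => IsLocalization.lift_eq _ x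
  refine ⟨Φs, IsLocalization.algHom_ext (Submonoid.powers s) ?_⟩
  ext x
  have h1 : Ideal.Quotient.mk I (Φ x) = ψ x := DFunLike.congr_fun hΦψ x
  change Ideal.Quotient.mk I (Φs (algebraMap (reesAlgebra J) _ x)) =
    f (algebraMap (reesAlgebra J) _ x)
  rw [hΦs', h1]
  rfl

end Vale.Agent.P292.Dv
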