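import Vale.Agent.P292.D.FamG
import Vale.Agent.P292.D.ChiMark
import Vale.Agent.P292.D.ReesHom
import Vale.Agent.P292.D.ReesGr
import Vale.Agent.P292.D.ReesFt
import Vale.Agent.P292.D.ReesSm
import Vale.Agent.P292.D.ReesChi

/-! # P292, Part III, block T2, B1: a family of pairs with fixed values at the marks. -/

namespace Vale.Agent.P292.Dv

open TensorProduct
open Vale.Agent.P292.Mo

universe u v w

namespace PairOut

section gens

variable {k : Type u} [Field k] {R : Type v} [CommRing R] [Algebra k R]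

theorem rT_add (J : Ideal R) (x y : J) : rT J (x + y) = rT J x + rT J y := by
  apply Subtype.ext
  change Polynomial.monomial 1 ((x + y : J) : R) = Polynomial.monomial 1 (x : R) +
    Polynomial.monomial 1 (y : R)
  rw [Submodule.coe_add, map_add]

/-- Induction on the elements of the Rees algebra. -/
theorem rees_ind (J : Ideal R) {p : reesAlgebra J → Prop}
    (h1 : ∀ r, p (algebraMap R (reesAlgebra J) r)) (h2 : ∀ x, p (rT J x))
    (ha : ∀ f g, p f → p g → p (f + g)) (hm : ∀ f g, p f → p g → p (f * g)) (f : reesAlgebra J) :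
    p f := by
  have key : ∀ q : Polynomial R, q ∈ Algebra.adjoin R
      (Submodule.map (Polynomial.monomial 1 : R →ₗ[R] Polynomial R) J : Set (Polynomial R)) →
      ∃ f : reesAlgebra J, (f : Polynomial R) = q ∧ p f := by
    intro q hq
    induction hq using Algebra.adjoin_induction with
    | mem q hq =>
      obtain ⟨x, hx, rfl⟩ := hq
      exact ⟨rT J ⟨x, hx⟩, rfl, h2 ⟨x, hx⟩⟩
    | algebraMap r => exact ⟨algebraMap R (reesAlgebra J) r, rfl, h1 r⟩
    | add f g _ _ hf hg =>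
      obtain ⟨f', rfl, pf⟩ := hf
      obtain ⟨g', rfl, pg⟩ := hg
      exact ⟨f' + g', Subalgebra.coe_add _ f' g', ha f' g' pf pg⟩
    | mul f g _ _ hf hg =>
      obtain ⟨f', rfl, pf⟩ := hf
      obtain ⟨g', rfl, pg⟩ := hg
      exact ⟨f' * g', Subalgebra.coe_mul _ f' g', hm f' g' pf pg⟩
  obtain ⟨f', h, pf⟩ := key f (by
    rw [adjoin_monomial_eq_reesAlgebra]
    exact f.2)
  have h3 : f' = f := Subtype.ext h
  rw [← h3]
  exact pf

variable (𝒜 : ℕ → Submodule k R) [GradedAlgebra 𝒜]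

/-- Induction on the elements of the Rees algebra, with homogeneous generators. -/
theorem rees_ind_hom {J : Ideal R} (hJ : J.IsHomogeneous 𝒜) {p : reesAlgebra J → Prop}
    (h0 : p 0)
    (h1 : ∀ n, ∀ r ∈ 𝒜 n, p (algebraMap R (reesAlgebra J) r))
    (h2 : ∀ n, ∀ x : J, (x : R) ∈ 𝒜 n → p (rT J x))
    (ha : ∀ f g, p f → p g → p (f + g)) (hm : ∀ f g, p f → p g → p (f * g)) (f : reesAlgebra J) :
    p f := by
  classical
  refine rees_ind J (fun r => ?_) (fun x => ?_) ha hm f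
  · rw [← DirectSum.sum_support_decompose 𝒜 r, map_sum]
    exact Finset.sum_induction _ p ha h0 (fun i _ => h1 i _ (SetLike.coe_mem _))
  · have hx : x = ∑ i ∈ (DirectSum.decompose 𝒜 (x : R)).support,
        (⟨(DirectSum.decompose 𝒜 (x : R) i : R), hJ i x.2⟩ : J) := by
      apply Subtype.ext
      rw [AddSubmonoidClass.coe_finsetSum]
      exact (DirectSum.sum_support_decompose 𝒜 (x : R)).symm
    have hs : ∀ (s : Finset ℕ) (g : ℕ → J), rT J (∑ i ∈ s, g i) = ∑ i ∈ s, rT J (g i) := by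
      intro s g
      induction s using Finset.induction_on with
      | empty =>
        rw [Finset.sum_empty, Finset.sum_empty]
        apply Subtype.ext
        change Polynomial.monomial 1 ((0 : J) : R) = 0
        rw [Submodule.coe_zero, map_zero]
      | insert a s has ih => rw [Finset.sum_insert has, Finset.sum_insert has, rT_add, ih]
    rw [hx, hs]
    exact Finset.sum_induction _ p ha h0 (fun i _ => h2 i _ (SetLike.coe_mem _))

end gens

section deg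

variable {k : Type u} [Field k] {R : Type v} [CommRing R] [Algebra k R]
  {𝒜 : ℕ → Submodule k R}

theorem algebraMap_mem_rgr (J : Ideal R) {n : ℕ} {r : R} (hr : r ∈ 𝒜 n) :
    algebraMap R (reesAlgebra J) r ∈ rgr 𝒜 J (n, 0) :=
  ⟨r, hr, rfl⟩

theorem rT_mem_rgr (J : Ideal R) {n : ℕ} {x : J} (hx : (x : R) ∈ 𝒜 n) :
    rT J x ∈ rgr 𝒜 J (n, 1) :=
  ⟨x, hx, rfl⟩

theorem UU_zero {K : Type w} [Field K] (u v : K) : UU u v 0 = 1 := by simp [UU]

theorem UU_add {K : Type w} [Field K] (u v : K) (a b : ℕ × ℕ) :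
    UU u v (a + b) = UU u v a * UU u v b := by
  simp only [UU, Prod.fst_add, Prod.snd_add, pow_add]
  ring

theorem UU_ne {K : Type w} [Field K] {u v : K} (hu : u ≠ 0) (hv : v ≠ 0) (a : ℕ × ℕ) :
    UU u v a ≠ 0 := mul_ne_zero (pow_ne_zero _ hu) (pow_ne_zero _ hv)

end deg

section main

variable {k : Type u} [Field k] {R : Type v} [CommRing R] [Algebra k R]
  {𝒜 : ℕ → Submodule k R} [GradedAlgebra 𝒜] {P : R →ₗ[k] R →ₗ[k] R} {J : Ideal R}
  {K : Type w} [Field K] [Algebra k K] {N : ℕ} {A₀ A₁ : Subalgebra k K} {u v : K}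
  {φ : R →ₐ[k] K} {η : J →ₗ[k] K}

/-- The homomorphism of the Rees algebra is regular on both charts. -/
theorem sec_rees (hJ : J.IsHomogeneous 𝒜) (h : IsGP 𝒜 P J N A₀ A₁ u v φ η)
    [GradedAlgebra (rgr 𝒜 J)]
    {Φ : reesAlgebra J →ₐ[k] K} (hΦ : ∀ r, Φ (algebraMap R (reesAlgebra J) r) = φ r)
    (hΦT : ∀ x, Φ (rT J x) = η x) (n : ℕ × ℕ) (f : reesAlgebra J) (hf : f ∈ rgr 𝒜 J n) :
    Φ f ∈ SecG A₀ A₁ (UU u v n) := by
  refine mem_SecG.2 ⟨?_, ?_⟩
  · refine rees_ind_hom 𝒜 hJ (p := fun f => Φ f ∈ A₀) ?_ ?_ ?_ ?_ ?_ f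
    · rw [map_zero]
      exact zero_mem _
    · intro n r hr
      rw [hΦ]
      exact (h.mp.sec n r hr).1
    · intro n x hx
      rw [hΦT]
      exact (h.secη n x hx).1
    · intro f g hf hg
      rw [map_add]
      exact add_mem hf hg
    · intro f g hf hg
      rw [map_mul]
      exact mul_mem hf hg
  · rw [← twG_apply (rgr 𝒜 J) (UU u v) (UU_zero u v) (UU_add u v) Φ hf]
    refine rees_ind_hom 𝒜 hJ (p := fun f => twG (rgr 𝒜 J) (UU u v) (UU_zero u v) (UU_add u v) Φ f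
      ∈ A₁) ?_ ?_ ?_ ?_ ?_ f
    · rw [map_zero]
      exact zero_mem _
    · intro n r hr
      rw [twG_apply (rgr 𝒜 J) (UU u v) (UU_zero u v) (UU_add u v) Φ (algebraMap_mem_rgr J hr), hΦ]
      have := (h.mp.sec n r hr).2
      simpa [UU] using this
    · intro n x hx
      rw [twG_apply (rgr 𝒜 J) (UU u v) (UU_zero u v) (UU_add u v) Φ (rT_mem_rgr J hx), hΦT]
      have := (h.secη n x hx).2
      simpa [UU] using this
    · intro f g hf hg
      rw [map_add]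
      exact add_mem hf hg
    · intro f g hf hg
      rw [map_mul]
      exact mul_mem hf hg

end main

end PairOut

section

variable {k : Type u} [Field k] {R : Type v} [CommRing R] [Algebra k R]
  {𝒜 : ℕ → Submodule k R} [GradedAlgebra 𝒜] {P : R →ₗ[k] R →ₗ[k] R} {J : Ideal R}
  {K : Type w} [Field K] [Algebra k K] {N : ℕ} {A₀ A₁ : Subalgebra k K} {u v : K}
  {φ : R →ₐ[k] K} {η : J →ₗ[k] K}

open PairOut in
/-- B1 (D/PairOut.lean). From R1-R7: a nontrivial family of pairs with fixed values at the marks. -/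
theorem famOutG_of_num [IsAlgClosed k] [IsDomain R] (hP : IsPM 𝒜 P) (hJ : J.IsHomogeneous 𝒜)
    (cd : IsCD A₀ A₁) (h : IsGP 𝒜 P J N A₀ A₁ u v φ η) {m : ℕ} {c : Fin m → (A₀ →ₐ[k] k)}
    (hc : Function.Injective c)
    (hnum : 0 < N * (2 * chi0 A₀ A₁ + idx A₁ u - 2 * m) + 2 * (chi0 A₀ A₁ - m)) :
    ∃ Φ : reesAlgebra J →ₐ[k] K, (∀ r, Φ (algebraMap R (reesAlgebra J) r) = φ r) ∧
      (∀ x, Φ (rT J x) = η x) ∧ FamOutG (rgr 𝒜 J) A₀ A₁ (UU u v) Φ (markI c) := by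
  classical
  obtain ⟨hG⟩ := exists_gradedAlgebra_rgr 𝒜 J hJ
  have hft := hP.finiteType
  have hft' : Algebra.FiniteType k (reesAlgebra J) := finiteType_rees J
  obtain ⟨i0, j0, a0, b0, hj0, ha0, hb0, hab0, hφb0, hφb0', hηa0, hηa0'⟩ := h.loc0
  obtain ⟨i1, j1, a1, b1, hj1, ha1, hb1, hab1, hφb1, hφb1', hηa1, hηa1'⟩ := h.loc1
  have ne_of : ∀ a : J, η a ≠ 0 → (a : R) ≠ 0 := by
    intro a ha h0
    apply ha
    have : a = 0 := Subtype.ext h0
    rw [this, map_zero]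
  have ne_of' : ∀ b : R, φ b ≠ 0 → b ≠ 0 := by
    intro b hb h0
    apply hb
    rw [h0, map_zero]
  obtain ⟨Φ, hΦ, hΦT⟩ := exists_rees_hom J (ne_of a0 hηa0) hab0 φ η h.lin (isUnit_iff_ne_zero.2 hφb0)
  refine ⟨Φ, hΦ, hΦT, ?_⟩
  obtain ⟨x, d, g, x', d', g', fr0, fr1⟩ := h.frames
  obtain ⟨e1, e2, e3⟩ := chi_der hP cd h.mp fr0 fr1 hc
  obtain ⟨e4, e5, e6⟩ := chi_markI cd hc
  have hI : ∀ a ∈ markI c, a ∈ A₀ := fun a ha => (mem_markI.1 ha).1
  have hIm : ∀ a ∈ A₀, ∀ b ∈ markI c, a * b ∈ markI c := by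
    intro a ha b hb
    obtain ⟨h1, h2⟩ := mem_markI.1 hb
    refine mem_markI.2 ⟨mul_mem ha h1, fun l => ?_⟩
    have : (⟨a * b, mul_mem ha h1⟩ : A₀) = ⟨a, ha⟩ * ⟨b, h1⟩ := rfl
    rw [this, map_mul, h2, mul_zero]
  obtain ⟨g1, g2, g3⟩ := chi_rees_of hJ
    (fun ha hab _ _ _ φ η hη hb => exists_rees_hom J ha hab φ η hη hb) h hΦ hΦT (markI c)
    hI hIm e1 e2 e4 e5
  refine exists_family_gr (rgr 𝒜 J) (UU_ne h.mp.u_ne h.v_ne) (UU_zero u v) (UU_add u v)
    (sec_rees hJ h hΦ hΦT) ?_ ?_ (markI c) hI hIm ?_ g2 ?_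
  · refine ⟨(j0, 0) + (i0, 1), algebraMap R (reesAlgebra J) b0 * rT J a0,
      SetLike.mul_mem_graded (algebraMap_mem_rgr J hb0) (rT_mem_rgr J ha0),
      smooth_rees J (ne_of a0 hηa0) (ne_of' b0 hφb0) hab0 (hP.smooth j0 hj0 b0 hb0), ?_, ?_⟩
    · rw [map_mul, hΦ, hΦT]
      exact mul_ne_zero hφb0 hηa0
    · rw [map_mul, hΦ, hΦT, mul_inv]
      exact mul_mem hφb0' hηa0'
  · refine ⟨(j1, 0) + (i1, 1), algebraMap R (reesAlgebra J) b1 * rT J a1,
      SetLike.mul_mem_graded (algebraMap_mem_rgr J hb1) (rT_mem_rgr J ha1),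
      smooth_rees J (ne_of a1 hηa1) (ne_of' b1 hφb1) hab1 (hP.smooth j1 hj1 b1 hb1), ?_, ?_⟩
    · rw [map_mul, hΦ, hΦT]
      exact mul_ne_zero hφb1 hηa1
    · rw [map_mul, hΦ, hΦT]
      have : UU u v ((j1, 0) + (i1, 1)) * (φ b1 * η a1) = (u ^ j1 * φ b1) * (u ^ i1 * v * η a1) := by
        simp only [UU, Prod.mk_add_mk, pow_add, zero_add, pow_one]
        ring
      rw [this, mul_inv]
      exact mul_mem hφb1' hηa1'
  · intro n
    have := (cd.chi_Sec (UU_ne h.mp.u_ne h.v_ne n) 1).1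
    have h2 : Sec A₀ A₁ (UU u v n) 1 = SecG A₀ A₁ (UU u v n) := by
      change SecG A₀ A₁ (UU u v n ^ 1) = _
      rw [pow_one]
    rw [← h2]
    exact this
  · rw [e6] at g3
    have : (Module.finrank k ↥(ObG (rgr 𝒜 J) Φ (markI c) A₁ (UU u v)) : ℤ) <
        Module.finrank k ↥(T0G (rgr 𝒜 J) Φ (markI c) A₁ (UU u v)) := by
      have hr : (N : ℤ) * (2 * chi0 A₀ A₁ + idx A₁ u - 2 * m) =
          2 * N * chi0 A₀ A₁ + N * idx A₁ u - 2 * m * N := by ring
      rw [hr, ← e3] at hnum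
      linarith
    exact_mod_cast this

end

end Vale.Agent.P292.Dv
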