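import Vale.Agent.P292.Bn.N16

/-! # Smooth closed points are locally integral. -/

namespace Vale.Agent.P292.Dv

open Vale.Agent.P292 Vale.Agent.P292.Mo

universe u v w

/-- Tangent coordinates at a closed point. -/
theorem rd_coord {k : Type u} [Field k] {R : Type v} [CommRing R] [Algebra k R]
    [IsNoetherianRing R] (w : R →ₐ[k] k) :
    ∃ (N : ℕ) (x : Fin N → R), (∀ l, w (x l) = 0) ∧
      (∀ r, w r = 0 → ∃ c : Fin N → k, r - ∑ l, c l • x l ∈ RingHom.ker w ^ 2) ∧
      ∀ v : Fin N → k, ∃ δ : R →ₗ[k] k, (∀ r s, δ (r * s) = w r * δ s + w s * δ r) ∧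
        ∀ l, δ (x l) = v l := by
  classical
  set 𝔪 : Ideal R := RingHom.ker w with h𝔪
  let M2 : Submodule k R := (𝔪 ^ 2).restrictScalars k
  let T : Submodule k (R ⧸ M2) := (𝔪.restrictScalars k).map M2.mkQ
  have hmem : ∀ r, r - algebraMap k R (w r) ∈ 𝔪 := by
    intro r
    rw [h𝔪, RingHom.mem_ker, map_sub, AlgHom.commutes, Algebra.algebraMap_self, RingHom.id_apply,
      sub_self]
  -- finite dimension
  obtain ⟨S, hS⟩ := (IsNoetherian.noetherian 𝔪 : 𝔪.FG)
  have hTfin : FiniteDimensional k T := by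
    have h1 : T ≤ Submodule.span k ((S.image M2.mkQ : Finset (R ⧸ M2)) : Set (R ⧸ M2)) := by
      rintro _ ⟨r, hr, rfl⟩
      have hr' : r ∈ Submodule.span R (S : Set R) := by
        rw [hS]
        exact hr
      refine Submodule.span_induction (p := fun r _ => M2.mkQ r ∈
        Submodule.span k ((S.image M2.mkQ : Finset (R ⧸ M2)) : Set (R ⧸ M2))) ?_ ?_ ?_ ?_ hr'
      · intro x hx
        refine Submodule.subset_span ?_
        rw [Finset.coe_image]
        exact ⟨x, hx, rfl⟩
      · rw [map_zero]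
        exact Submodule.zero_mem _
      · intro x y _ _ hx hy
        rw [map_add]
        exact Submodule.add_mem _ hx hy
      · intro a x hx hx'
        have hx𝔪 : x ∈ 𝔪 := by
          rw [← hS]
          exact hx
        have h2 : M2.mkQ (a • x) = w a • M2.mkQ x := by
          rw [← map_smul, ← sub_eq_zero, ← map_sub, Submodule.mkQ_apply,
            Submodule.Quotient.mk_eq_zero]
          have h3 : a • x - w a • x = (a - algebraMap k R (w a)) * x := by
            rw [smul_eq_mul, Algebra.smul_def]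
            ring
          rw [h3]
          change _ ∈ 𝔪 ^ 2
          rw [pow_two]
          exact Ideal.mul_mem_mul (hmem a) hx𝔪
        rw [h2]
        exact Submodule.smul_mem _ _ hx'
    have h2 : FiniteDimensional k
        (Submodule.span k ((S.image M2.mkQ : Finset (R ⧸ M2)) : Set (R ⧸ M2))) :=
      FiniteDimensional.span_finset k _
    exact Submodule.finiteDimensional_of_le h1
  let β := Module.finBasis k T
  have hβ : ∀ l, ∃ x, x ∈ 𝔪 ∧ M2.mkQ x = (β l : R ⧸ M2) := by
    intro l
    obtain ⟨x, hx, hx'⟩ := (β l).2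
    exact ⟨x, hx, hx'⟩
  choose x hx hxβ using hβ
  refine ⟨Module.finrank k T, x, hx, ?_, ?_⟩
  · intro r hr
    have hrT : M2.mkQ r ∈ T := ⟨r, hr, rfl⟩
    refine ⟨fun l => β.repr ⟨_, hrT⟩ l, ?_⟩
    have h1 := congrArg Subtype.val (β.sum_repr ⟨_, hrT⟩)
    rw [AddSubmonoidClass.coe_finsetSum] at h1
    have h2 : M2.mkQ (r - ∑ l, (β.repr ⟨_, hrT⟩ l) • x l) = 0 := by
      rw [map_sub, map_sum, sub_eq_zero]
      refine Eq.trans h1.symm (Finset.sum_congr rfl fun l _ => ?_)
      rw [map_smul, hxβ]
      rfl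
    rw [Submodule.mkQ_apply, Submodule.Quotient.mk_eq_zero] at h2
    exact h2
  · intro v
    let ℓ : T →ₗ[k] k := β.constr k v
    let π : R →ₗ[k] R := LinearMap.id - (Algebra.linearMap k R).comp w.toLinearMap
    have hπ : ∀ r, π r = r - algebraMap k R (w r) := fun r => rfl
    let θ : R →ₗ[k] T := (M2.mkQ.comp π).codRestrict T fun r => ⟨π r, hmem r, rfl⟩
    refine ⟨ℓ.comp θ, ?_, ?_⟩
    · intro r s
      have h1 : θ (r * s) = w r • θ s + w s • θ r := by
        apply Subtype.val_injective
        change M2.mkQ (π (r * s)) = w r • M2.mkQ (π s) + w s • M2.mkQ (π r)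
        rw [← map_smul M2.mkQ (w r), ← map_smul M2.mkQ (w s), ← map_add M2.mkQ, ← sub_eq_zero,
          ← map_sub M2.mkQ, Submodule.mkQ_apply, Submodule.Quotient.mk_eq_zero]
        have h3 : π (r * s) - (w r • π s + w s • π r) =
            (r - algebraMap k R (w r)) * (s - algebraMap k R (w s)) := by
          rw [hπ, hπ, hπ, map_mul, map_mul, Algebra.smul_def, Algebra.smul_def]
          ring
        rw [h3]
        change _ ∈ 𝔪 ^ 2
        rw [pow_two]
        exact Ideal.mul_mem_mul (hmem r) (hmem s)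
      change ℓ (θ (r * s)) = w r * ℓ (θ s) + w s * ℓ (θ r)
      rw [h1, map_add, map_smul, map_smul, smul_eq_mul, smul_eq_mul]
    · intro l
      have h1 : θ (x l) = β l := by
        apply Subtype.val_injective
        change M2.mkQ (π (x l)) = _
        have hwx : w (x l) = 0 := hx l
        rw [hπ, hwx, map_zero, sub_zero, hxβ]
      change ℓ (θ (x l)) = v l
      rw [h1]
      exact β.constr_basis k v l

/-- Leading forms. -/
theorem rd_lead {k : Type u} [Field k] {R : Type v} [CommRing R] [Algebra k R]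
    (w : R →ₐ[k] k) {N : ℕ} (x : Fin N → R) (hx : ∀ l, w (x l) = 0)
    (hspan : ∀ r, w r = 0 → ∃ c : Fin N → k, r - ∑ l, c l • x l ∈ RingHom.ker w ^ 2) (i : ℕ) :
    ∀ r ∈ RingHom.ker w ^ i, ∃ p : MvPolynomial (Fin N) k, p.IsHomogeneous i ∧
      r - MvPolynomial.aeval x p ∈ RingHom.ker w ^ (i + 1) := by
  classical
  have hxp : ∀ i (p : MvPolynomial (Fin N) k), p.IsHomogeneous i →
      MvPolynomial.aeval x p ∈ RingHom.ker w ^ i := by
    intro i p hp
    rw [MvPolynomial.aeval_def, MvPolynomial.eval₂_eq]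
    refine sum_mem fun m hm => Ideal.mul_mem_left _ _ ?_
    have h1 : ∑ l ∈ m.support, m l = i := by
      have h3 := hp (MvPolynomial.mem_support_iff.mp hm)
      rw [← h3, Finsupp.weight_apply, Finsupp.sum]
      simp
    rw [← h1, ← Finset.prod_pow_eq_pow_sum]
    exact Ideal.prod_mem_prod fun l _ => Ideal.pow_mem_pow (hx l) _
  induction i with
  | zero =>
    intro r _
    refine ⟨MvPolynomial.C (w r), MvPolynomial.isHomogeneous_C _ _, ?_⟩
    rw [MvPolynomial.aeval_C, zero_add, pow_one, RingHom.mem_ker, map_sub, AlgHom.commutes,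
      Algebra.algebraMap_self, RingHom.id_apply, sub_self]
  | succ i ih =>
    intro r hr
    rw [pow_succ] at hr
    refine Submodule.mul_induction_on hr ?_ ?_
    · intro a ha b hb
      obtain ⟨p, hp, hap⟩ := ih a ha
      obtain ⟨c, hc⟩ := hspan b hb
      refine ⟨p * ∑ l, MvPolynomial.C (c l) * MvPolynomial.X l, ?_, ?_⟩
      · refine hp.mul (MvPolynomial.IsHomogeneous.sum _ _ _ fun l _ => ?_)
        exact (MvPolynomial.isHomogeneous_X _ _).C_mul _
      · have h1 : MvPolynomial.aeval x (∑ l, MvPolynomial.C (c l) * MvPolynomial.X l) =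
            ∑ l, c l • x l := by
          rw [map_sum]
          refine Finset.sum_congr rfl fun l _ => ?_
          rw [map_mul, MvPolynomial.aeval_C, MvPolynomial.aeval_X, Algebra.smul_def]
        rw [map_mul, h1]
        have h2 : a * b - MvPolynomial.aeval x p * ∑ l, c l • x l =
            (a - MvPolynomial.aeval x p) * b + MvPolynomial.aeval x p * (b - ∑ l, c l • x l) := by
          ring
        rw [h2]
        refine Ideal.add_mem _ ?_ ?_
        · rw [pow_succ]
          exact Ideal.mul_mem_mul hap hb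
        · have h3 := Ideal.mul_mem_mul (hxp i p hp) hc
          rw [← pow_add] at h3
          exact h3
    · rintro a b ⟨p, hp, hap⟩ ⟨q, hq, hbq⟩
      refine ⟨p + q, hp.add hq, ?_⟩
      rw [map_add]
      have h2 : a + b - (MvPolynomial.aeval x p + MvPolynomial.aeval x q) =
          (a - MvPolynomial.aeval x p) + (b - MvPolynomial.aeval x q) := by ring
      rw [h2]
      exact Ideal.add_mem _ hap hbq

/-- Values of forms on arcs. -/
theorem rd_form {k : Type u} [Field k] {N : ℕ} (i : ℕ) (p : MvPolynomial (Fin N) k)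
    (hp : p.IsHomogeneous i) (v : Fin N → k) (f : Fin N → Polynomial k)
    (hf : ∀ l, (f l).coeff 0 = v l) : ∃ q : Polynomial k,
      MvPolynomial.aeval (fun l => Polynomial.X * f l) p =
        Polynomial.X ^ i * (Polynomial.C (MvPolynomial.eval v p) + Polynomial.X * q) := by
  have h1 : MvPolynomial.aeval (fun l => Polynomial.X * f l) p =
      Polynomial.X ^ i * MvPolynomial.aeval f p := by
    rw [MvPolynomial.aeval_def, MvPolynomial.aeval_def, MvPolynomial.eval₂_eq,
      MvPolynomial.eval₂_eq, Finset.mul_sum]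
    refine Finset.sum_congr rfl fun e he => ?_
    have hde : ∑ l ∈ e.support, e l = i := by
      have h3 := hp (MvPolynomial.mem_support_iff.mp he)
      rw [← h3, Finsupp.weight_apply, Finsupp.sum]
      simp
    have h4 : ∏ l ∈ e.support, ((Polynomial.X : Polynomial k) * f l) ^ e l =
        Polynomial.X ^ i * ∏ l ∈ e.support, f l ^ e l := by
      simp only [mul_pow]
      rw [Finset.prod_mul_distrib, Finset.prod_pow_eq_pow_sum, hde]
    rw [h4]
    ring
  have h2 : (MvPolynomial.aeval f p : Polynomial k).coeff 0 = MvPolynomial.eval v p := by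
    rw [← Polynomial.constantCoeff_apply, ← MvPolynomial.coe_aeval_eq_eval, RingHom.coe_coe]
    have h7 : ((Polynomial.constantCoeff : Polynomial k →+* k)).comp
        ((MvPolynomial.aeval f : MvPolynomial (Fin N) k →ₐ[k] Polynomial k) :
          MvPolynomial (Fin N) k →+* _) =
        ((MvPolynomial.aeval v : MvPolynomial (Fin N) k →ₐ[k] k) :
          MvPolynomial (Fin N) k →+* k) := by
      refine MvPolynomial.ringHom_ext (fun r => ?_) (fun l => ?_)
      · simp
      · simp [hf]
    exact DFunLike.congr_fun h7 _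
  refine ⟨(MvPolynomial.aeval f p : Polynomial k).divX, ?_⟩
  rw [h1, ← h2, add_comm, Polynomial.X_mul, Polynomial.divX_mul_X_add]

/-- Smooth closed points are locally integral. -/
theorem reg_dom {k : Type u} [Field k] [Infinite k] {R : Type v} [CommRing R] [Algebra k R]
    [IsNoetherianRing R] (w : R →ₐ[k] k) (s : R) (hs : w s ≠ 0)
    (hsm : Algebra.FormallySmooth k (Localization.Away s)) {a b : R} (hab : a * b = 0) :
    ∃ c, w c ≠ 0 ∧ (c * a = 0 ∨ c * b = 0) := by
  classical
  by_contra hcon
  push Not at hcon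
  obtain ⟨N, x, hx, hspan, hδ⟩ := rd_coord w
  -- orders
  have hord : ∀ r : R, (∀ c, w c ≠ 0 → c * r ≠ 0) →
      ∃ (i : ℕ) (p : MvPolynomial (Fin N) k), p.IsHomogeneous i ∧ p ≠ 0 ∧
        r - MvPolynomial.aeval x p ∈ RingHom.ker w ^ (i + 1) := by
    intro r hr
    have hex : ∃ i, r ∉ RingHom.ker w ^ i := by
      by_contra h
      push Not at h
      have h1 : r ∈ (⨅ i : ℕ, RingHom.ker w ^ i • ⊤ : Submodule R R) := by
        rw [Submodule.mem_iInf]
        intro i
        rw [smul_eq_mul, Ideal.mul_top]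
        exact h i
      obtain ⟨c, hc⟩ := (Ideal.mem_iInf_smul_pow_eq_bot_iff (RingHom.ker w) r).mp h1
      refine hr (1 - (c : R)) ?_ ?_
      · have h2 : w (c : R) = 0 := c.2
        rw [map_sub, map_one, h2, sub_zero]
        exact one_ne_zero
      · have h2 : (c : R) * r = r := hc
        rw [sub_mul, one_mul, h2, sub_self]
    obtain ⟨i, hi⟩ : ∃ i, Nat.find hex = i + 1 := by
      refine Nat.exists_eq_succ_of_ne_zero fun h => ?_
      have h1 := Nat.find_spec hex
      rw [h, pow_zero, Ideal.one_eq_top] at h1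
      exact h1 trivial
    have h1 : r ∉ RingHom.ker w ^ (i + 1) := by
      rw [← hi]
      exact Nat.find_spec hex
    have h2 : r ∈ RingHom.ker w ^ i := by
      by_contra h
      exact Nat.find_min hex (by omega) h
    obtain ⟨p, hp, hrp⟩ := rd_lead w x hx hspan i r h2
    refine ⟨i, p, hp, ?_, hrp⟩
    rintro rfl
    rw [map_zero, sub_zero] at hrp
    exact h1 hrp
  obtain ⟨i, p, hp, hp0, hap⟩ := hord a fun c hc => (hcon c hc).1
  obtain ⟨j, q, hq, hq0, hbq⟩ := hord b fun c hc => (hcon c hc).2
  obtain ⟨v, hv⟩ : ∃ v, MvPolynomial.eval v (p * q) ≠ 0 := by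
    by_contra h
    push Not at h
    exact mul_ne_zero hp0 hq0 (MvPolynomial.funext fun x => by rw [h x, map_zero])
  obtain ⟨δ, hδ1, hδ2⟩ := hδ v
  obtain ⟨γ, hγ⟩ := indep_arc w δ hδ1 s hs hsm (i + j + 1)
  choose g hg using hγ
  set mk := Ideal.Quotient.mk (Ideal.span {(Polynomial.X : Polynomial k) ^ (i + j + 1)}) with hmk
  -- powers of the maximal ideal
  have hpow : ∀ m, ∀ r ∈ RingHom.ker w ^ m, ∃ h, γ r = mk (Polynomial.X ^ m * h) := by
    intro m r hr
    have h1 : RingHom.ker w ≤ (Ideal.span {mk Polynomial.X}).comap γ := by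
      intro z hz
      rw [Ideal.mem_comap, hg z]
      have hz' : w z = 0 := hz
      rw [hz', map_zero, zero_add]
      have h2 : Polynomial.C (δ z) * Polynomial.X + Polynomial.X ^ 2 * g z =
          Polynomial.X * (Polynomial.C (δ z) + Polynomial.X * g z) := by ring
      rw [h2, map_mul]
      exact Ideal.mul_mem_right _ _ (Ideal.mem_span_singleton_self _)
    have h2 : RingHom.ker w ^ m ≤ (Ideal.span {mk Polynomial.X} ^ m).comap γ :=
      (Ideal.pow_right_mono h1 m).trans (Ideal.le_comap_pow _ m)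
    have h3 := h2 hr
    rw [Ideal.mem_comap, Ideal.span_singleton_pow, Ideal.mem_span_singleton] at h3
    obtain ⟨h, hh⟩ := h3
    obtain ⟨h, rfl⟩ := Ideal.Quotient.mk_surjective h
    exact ⟨h, by rw [hh, map_mul, map_pow]⟩
  have hval : ∀ (i : ℕ) (p : MvPolynomial (Fin N) k) (r : R), p.IsHomogeneous i →
      r - MvPolynomial.aeval x p ∈ RingHom.ker w ^ (i + 1) →
      ∃ h, γ r = mk (Polynomial.X ^ i * (Polynomial.C (MvPolynomial.eval v p) +
        Polynomial.X * h)) := by
    intro i p r hp hr
    obtain ⟨h, hh⟩ := hpow _ _ hr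
    obtain ⟨h', hh'⟩ := rd_form i p hp v (fun l => Polynomial.C (v l) + Polynomial.X * g (x l))
      (fun l => by simp)
    have h1 : γ (MvPolynomial.aeval x p) = mk (MvPolynomial.aeval (fun l => Polynomial.X *
        (Polynomial.C (v l) + Polynomial.X * g (x l))) p) := by
      have h3 : γ.comp (MvPolynomial.aeval x) = (Ideal.Quotient.mkₐ k (Ideal.span
          {(Polynomial.X : Polynomial k) ^ (_ + 1)})).comp
          (MvPolynomial.aeval (fun l => Polynomial.X *
            (Polynomial.C (v l) + Polynomial.X * g (x l)))) := by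
        refine MvPolynomial.algHom_ext fun l => ?_
        rw [AlgHom.comp_apply, AlgHom.comp_apply, MvPolynomial.aeval_X, MvPolynomial.aeval_X,
          hg (x l), hδ2 l, hx l, Ideal.Quotient.mkₐ_eq_mk]
        congr 1
        rw [map_zero]
        ring
      exact DFunLike.congr_fun h3 p
    refine ⟨h' + h, ?_⟩
    have h2 : r = (r - MvPolynomial.aeval x p) + MvPolynomial.aeval x p := by ring
    rw [h2, map_add, hh, h1, hh', ← map_add]
    congr 1
    ring
  obtain ⟨h, hh⟩ := hval i p a hp hap
  obtain ⟨h', hh'⟩ := hval j q b hq hbq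
  have h1 : γ (a * b) = 0 := by rw [hab, map_zero]
  rw [map_mul, hh, hh', ← map_mul, hmk, Ideal.Quotient.eq_zero_iff_mem,
    Ideal.mem_span_singleton, Polynomial.X_pow_dvd_iff] at h1
  have h2 := h1 (i + j) (Nat.lt_succ_self _)
  have h3 : Polynomial.X ^ i * (Polynomial.C (MvPolynomial.eval v p) + Polynomial.X * h) *
      (Polynomial.X ^ j * (Polynomial.C (MvPolynomial.eval v q) + Polynomial.X * h')) =
      ((Polynomial.C (MvPolynomial.eval v p) + Polynomial.X * h) *
        (Polynomial.C (MvPolynomial.eval v q) + Polynomial.X * h')) * Polynomial.X ^ (i + j) := by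
    ring
  rw [h3, Polynomial.coeff_mul_X_pow', if_pos le_rfl, Nat.sub_self, Polynomial.mul_coeff_zero] at h2
  simp only [Polynomial.coeff_add, Polynomial.coeff_C_zero, Polynomial.mul_coeff_zero,
    Polynomial.coeff_X_zero, zero_mul, add_zero] at h2
  rw [map_mul] at hv
  exact hv h2

end Vale.Agent.P292.Dv
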