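import Vale.Agent.P292.Bn.N16

/-! # Systems of forms on the line: transfer from large characteristic to the complex numbers. -/

namespace Vale.Agent.P292.Dv

open MvPolynomial Filter Vale.Agent.P292.Mo

/-- Values of polynomials with complex coefficients in the ultraproduct. -/
theorem sb_aeval_eq {S : Type} {U : Ultrafilter S} {k : S → Type} [∀ s, Field (k s)] {Ω : Type}
    [Field Ω] {g : (∀ s, k s) →+* Ω} (h : IsUltraProd U k g)
    {B : S → Subring ℂ} {π : ∀ s, B s →+* k s}
    (hB : ∀ c : ℂ, ∀ᶠ s in (U : Filter S), c ∈ B s) [Algebra ℂ Ω]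
    (hj : ∀ (c : ℂ) (f : ∀ s, k s),
      (∀ᶠ s in (U : Filter S), ∀ hc : c ∈ B s, f s = π s ⟨c, hc⟩) → g f = algebraMap ℂ Ω c)
    {ι : Type} [Fintype ι] (G : MvPolynomial ι ℂ) (β : ι → ∀ s, k s) (v : ∀ s, k s)
    (hv : ∀ᶠ s in (U : Filter S), ∀ G' : MvPolynomial ι (B s),
      map (B s).subtype G' = G → eval (fun i => β i s) (map (π s) G') = v s) :
    aeval (fun i => g (β i)) G = g v := by
  classical
  let θ : ℂ → ∀ s, k s := fun c s => if hc : c ∈ B s then π s ⟨c, hc⟩ else 0
  have hθ : ∀ (c : ℂ) (s : S) (hc : c ∈ B s), θ c s = π s ⟨c, hc⟩ := fun c s hc => dif_pos hc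
  have hθj : ∀ c, algebraMap ℂ Ω c = g (θ c) := fun c =>
    (hj c (θ c) (Eventually.of_forall fun s hc => hθ c s hc)).symm
  have h1 : aeval (fun i => g (β i)) G =
      g (∑ m ∈ G.support, θ (coeff m G) * ∏ i, β i ^ m i) := by
    rw [aeval_def, eval₂_eq', map_sum]
    refine Finset.sum_congr rfl fun m _ => ?_
    rw [map_mul, map_prod, hθj]
    simp only [map_pow]
  rw [h1]
  refine h.congr ?_
  have h2 : ∀ᶠ s in (U : Filter S), ∀ c ∈ G.coeffs, c ∈ B s := by
    rw [Filter.eventually_all_finset]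
    exact fun c _ => hB c
  filter_upwards [hv, h2] with s hs1 hs2
  obtain ⟨G', hG'⟩ : ∃ G' : MvPolynomial ι (B s), map (B s).subtype G' = G := by
    have : G ∈ Set.range (map (B s).subtype : MvPolynomial ι (B s) →+* _) := by
      rw [MvPolynomial.mem_range_map_iff_coeffs_subset]
      intro c hc
      exact ⟨⟨c, hs2 c hc⟩, rfl⟩
    exact this
  rw [← hs1 G' hG', eval_map, eval₂_eq']
  have hsup : G'.support = G.support := by
    rw [← hG', support_map_of_injective]
    exact Subtype.val_injective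
  rw [hsup, Finset.sum_apply]
  refine Finset.sum_congr rfl fun m _ => ?_
  rw [Pi.mul_apply, Finset.prod_apply]
  have h3 : coeff m G = (coeff m G' : B s) := by
    rw [← hG', coeff_map]
    rfl
  have h4 : coeff m G ∈ B s := by rw [h3]; exact (coeff m G').2
  rw [hθ _ s h4]
  congr 1
  congr 1
  exact Subtype.ext h3

/-- Transfer to an algebraically closed field of characteristic zero. -/
theorem sb_ultra {ι : Type} [Fintype ι] (L : Finset (MvPolynomial ι ℂ)) (m : ι → ℕ)
    (𝒥 : Set (Set ι))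
    (H : ∀ T : Finset ℂ, ∃ (B : Subring ℂ) (k : Type) (_ : Field k) (_ : IsAlgClosed k)
        (π : B →+* k) (ψ : ι → MvPolynomial (Fin 2) k), (T : Set ℂ) ⊆ B ∧
        (∀ i, (ψ i).IsHomogeneous (m i)) ∧
        (∀ J ∈ 𝒥, ∀ a : Fin 2 → k, a ≠ 0 → ∃ i ∈ J, eval a (ψ i) ≠ 0) ∧
        (∀ G : MvPolynomial ι B, map B.subtype G ∈ L → aeval ψ (map π G) = 0)) :
    ∃ (Ω : Type) (_ : Field Ω) (_ : IsAlgClosed Ω) (_ : Algebra ℂ Ω)
      (Ψ : ι → MvPolynomial (Fin 2) Ω), (∀ i, (Ψ i).IsHomogeneous (m i)) ∧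
      (∀ J ∈ 𝒥, ∀ a : Fin 2 → Ω, a ≠ 0 → ∃ i ∈ J, eval a (Ψ i) ≠ 0) ∧
      ∀ G ∈ L, aeval Ψ G = 0 := by
  classical
  let S : Type := Finset ℂ
  choose B k ik ia π ψ h1 h3 h4 h5 using H
  let U : Ultrafilter S := Ultrafilter.of atTop
  have hev : ∀ s₀ : S, ∀ᶠ s in (U : Filter S), s₀ ≤ s := fun s₀ =>
    Ultrafilter.of_le _ (eventually_ge_atTop s₀)
  have hB : ∀ c : ℂ, ∀ᶠ s in (U : Filter S), c ∈ B s := by
    intro c
    filter_upwards [hev {c}] with s hs
    exact h1 s (hs (Finset.mem_singleton_self c))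
  obtain ⟨Ω, _, g, hg⟩ := exists_isUltraProd U k
  obtain ⟨j, hj⟩ := hg.exists_embed B π hB
  let _ : Algebra ℂ Ω := j.toAlgebra
  have hj' : ∀ (c : ℂ) (f : ∀ s, k s),
      (∀ᶠ s in (U : Filter S), ∀ hc : c ∈ B s, f s = π s ⟨c, hc⟩) → g f = algebraMap ℂ Ω c := hj
  have hac : IsAlgClosed Ω := hg.isAlgClosed
  have hΩ : Infinite Ω := IsAlgClosed.instInfinite
  let Ψ : ι → MvPolynomial (Fin 2) Ω := fun i =>
    ∑ n ∈ box (m i), monomial n (g fun s => coeff n (ψ s i))
  have hbox : ∀ s i n, n ∉ box (m i) → coeff n (ψ s i) = 0 := by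
    intro s i n hn
    by_contra hne
    have h7 := h3 s i hne
    apply hn
    have h8 : n 0 + n 1 = m i := by
      rw [← h7, Finsupp.weight_apply, Finsupp.sum_fintype _ _ (fun i => by simp),
        Fin.sum_univ_two]
      simp
    exact mem_box (by omega) (by omega)
  have hΨ : ∀ i n, coeff n (Ψ i) = g fun s => coeff n (ψ s i) := by
    intro i n
    change coeff n (∑ n ∈ box (m i), monomial n (g fun s => coeff n (ψ s i))) = _
    rw [coeff_sum]
    simp only [coeff_monomial]
    rw [Finset.sum_ite_eq']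
    split_ifs with hm
    · rfl
    · have : (fun s => coeff n (ψ s i)) = 0 := by
        funext s
        exact hbox s i n hm
      rw [this, map_zero]
  have heval : ∀ (i : ι) (α : Fin 2 → ∀ s, k s), eval (fun l => g (α l)) (Ψ i) =
      g fun s => eval (fun l => α l s) (ψ s i) := by
    intro i α
    have h7 : ∀ n, n ∉ box (m i) → coeff n (Ψ i) = 0 := by
      intro n hn
      rw [hΨ, show (fun s => coeff n (ψ s i)) = 0 from funext fun s => hbox s i n hn, map_zero]
    rw [eval_box h7]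
    have : (fun s => eval (fun l => α l s) (ψ s i)) = ∑ n ∈ box (m i),
        (fun s => coeff n (ψ s i)) * (α 0 ^ n 0 * α 1 ^ n 1) := by
      funext s
      rw [eval_box (hbox s i)]
      simp
    rw [this, map_sum]
    refine Finset.sum_congr rfl fun n _ => ?_
    rw [map_mul, map_mul, map_pow, map_pow, hΨ]
  have hpoly := fun (G : MvPolynomial ι ℂ) (β : ι → ∀ s, k s) (v : ∀ s, k s) =>
    sb_aeval_eq hg hB hj' G β v
  have hlift : ∀ a : Fin 2 → Ω, ∃ α : Fin 2 → ∀ s, k s, a = fun l => g (α l) := by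
    intro a
    choose α hα using fun l => hg.surj (a l)
    exact ⟨α, funext fun l => (hα l).symm⟩
  refine ⟨Ω, inferInstance, hac, inferInstance, Ψ, ?_, ?_, ?_⟩
  · intro i n hn
    rw [hΨ, hg.ne_zero] at hn
    obtain ⟨s, hs1⟩ := hn.exists
    exact h3 s i hs1
  · intro J hJ a ha
    by_contra hcon
    push Not at hcon
    obtain ⟨α, rfl⟩ := hlift a
    have h7 : ∀ i : J, ∀ᶠ s in (U : Filter S), eval (fun l => α l s) (ψ s i) = 0 := by
      intro i
      rw [← hg.zero, ← heval]
      exact hcon i i.2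
    have h8 := Filter.eventually_all.mpr h7
    have h9 : ∀ᶠ s in (U : Filter S), (fun l => α l s) ≠ 0 := by
      rw [Ultrafilter.eventually_not]
      intro h10
      apply ha
      funext l
      rw [Pi.zero_apply, hg.zero]
      filter_upwards [h10] with s hs
      exact congrFun hs l
    obtain ⟨s, hs1, hs2⟩ := (h8.and h9).exists
    obtain ⟨i, hiJ, hi⟩ := h4 s J hJ _ hs2
    exact hi (hs1 ⟨i, hiJ⟩)
  · intro G hG
    refine MvPolynomial.funext fun a => ?_
    obtain ⟨α, rfl⟩ := hlift a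
    rw [map_zero]
    have h8 : eval (fun l => g (α l)) (aeval Ψ G) =
        aeval (fun i => g fun s => eval (fun l => α l s) (ψ s i)) G := by
      have : ((aeval (fun l => g (α l)) : MvPolynomial (Fin 2) Ω →ₐ[Ω] Ω).restrictScalars ℂ).comp
          (aeval Ψ : MvPolynomial ι ℂ →ₐ[ℂ] MvPolynomial (Fin 2) Ω) =
          aeval (fun i => g fun s => eval (fun l => α l s) (ψ s i)) := by
        refine MvPolynomial.algHom_ext fun i => ?_
        rw [AlgHom.comp_apply, aeval_X, aeval_X]
        exact heval i α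
      rw [← this]
      rfl
    rw [h8, hpoly G _ 0, map_zero]
    refine Eventually.of_forall fun s G' hG' => ?_
    have h9 := h5 s G' (by rw [hG']; exact hG)
    have h10 := congrArg (eval fun l => α l s) h9
    rw [map_zero] at h10
    rw [Pi.zero_apply, ← h10]
    have : ((eval fun l => α l s).comp
        (aeval (ψ s) : MvPolynomial ι (k s) →ₐ[k s] MvPolynomial (Fin 2) (k s)).toRingHom) =
        eval (fun i => eval (fun l => α l s) (ψ s i)) := by
      refine MvPolynomial.ringHom_ext (fun c => ?_) fun i => ?_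
      · simp
      · simp
    rw [← this]
    rfl

end Vale.Agent.P292.Dv
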