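import Vale.Agent.P292.D.SpBack

/-! # Systems of forms on the line: descent to the complex numbers. -/

namespace Vale.Agent.P292.Dv

open MvPolynomial

/-- Forms without common zeros: powers of the coordinates are in the ideal. -/
theorem sd_pow_mem {Ω : Type} [Field Ω] [IsAlgClosed Ω] {κ : Type} [Fintype κ]
    (Ψ : κ → MvPolynomial (Fin 2) Ω) (h : ∀ a : Fin 2 → Ω, a ≠ 0 → ∃ i, eval a (Ψ i) ≠ 0)
    (l : Fin 2) : ∃ (N : ℕ) (c : κ → MvPolynomial (Fin 2) Ω), ∑ i, c i * Ψ i = X l ^ N := by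
  have h1 : (X l : MvPolynomial (Fin 2) Ω) ∈ (Ideal.span (Set.range Ψ)).radical := by
    rw [← vanishingIdeal_zeroLocus_eq_radical (K := Ω), mem_vanishingIdeal_iff]
    intro a ha
    rw [mem_zeroLocus_iff] at ha
    rw [aeval_X]
    by_contra hne
    obtain ⟨i, hi⟩ := h a (fun h0 => hne (by rw [h0]; rfl))
    exact hi (ha _ (Ideal.subset_span ⟨i, rfl⟩))
  obtain ⟨N, hN⟩ := h1
  obtain ⟨c, hc⟩ := Ideal.mem_span_range_iff_exists_fun.mp hN
  exact ⟨N, c, hc⟩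

/-- Descent. -/
theorem sd_descent {ι : Type} [Fintype ι] (L : Finset (MvPolynomial ι ℂ)) (m : ι → ℕ)
    (𝒥 : Set (Set ι)) {Ω : Type} [Field Ω] [IsAlgClosed Ω] [Algebra ℂ Ω]
    (Ψ : ι → MvPolynomial (Fin 2) Ω) (h1 : ∀ i, (Ψ i).IsHomogeneous (m i))
    (h2 : ∀ J ∈ 𝒥, ∀ a : Fin 2 → Ω, a ≠ 0 → ∃ i ∈ J, eval a (Ψ i) ≠ 0)
    (h3 : ∀ G ∈ L, aeval Ψ G = 0) :
    ∃ ψ : ι → MvPolynomial (Fin 2) ℂ, (∀ i, (ψ i).IsHomogeneous (m i)) ∧
      (∀ J ∈ 𝒥, ∀ a : Fin 2 → ℂ, a ≠ 0 → ∃ i ∈ J, eval a (ψ i) ≠ 0) ∧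
      ∀ G ∈ L, aeval ψ G = 0 := by
  classical
  have h4 : ∀ (J : 𝒥) (l : Fin 2), ∃ (N : ℕ) (c : J.1 → MvPolynomial (Fin 2) Ω),
      ∑ i, c i * Ψ i.1 = X l ^ N := by
    intro J l
    refine sd_pow_mem (fun i : J.1 => Ψ i.1) ?_ l
    intro a ha
    obtain ⟨i, hi, hne⟩ := h2 J.1 J.2 a ha
    exact ⟨⟨i, hi⟩, hne⟩
  choose N c hc using h4
  let cf : Finset Ω := (Finset.univ.biUnion fun i => (Ψ i).coeffs) ∪
    Finset.univ.biUnion fun J : 𝒥 => Finset.univ.biUnion fun l : Fin 2 =>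
      Finset.univ.biUnion fun i : J.1 => (c J l i).coeffs
  let A : Subalgebra ℂ Ω := Algebra.adjoin ℂ (cf : Set Ω)
  have hsub : (cf : Set Ω) ⊆ A := Algebra.subset_adjoin
  have hft : Algebra.FiniteType ℂ A :=
    (Subalgebra.fg_iff_finiteType A).mp (Subalgebra.fg_adjoin_finset cf)
  obtain ⟨M, hM⟩ := Ideal.exists_maximal A
  obtain ⟨χ, -⟩ := Vale.Agent.P292.exists_algHom_of_isMaximal (R := A) M
  have hinj : Function.Injective (MvPolynomial.map (algebraMap A Ω) :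
      MvPolynomial (Fin 2) A →+* MvPolynomial (Fin 2) Ω) :=
    MvPolynomial.map_injective _ Subtype.val_injective
  have hlift : ∀ p : MvPolynomial (Fin 2) Ω, (∀ x ∈ p.coeffs, x ∈ cf) →
      ∃ p' : MvPolynomial (Fin 2) A, MvPolynomial.map (algebraMap A Ω) p' = p := by
    intro p hp
    have : p ∈ Set.range (MvPolynomial.map (algebraMap A Ω) :
        MvPolynomial (Fin 2) A →+* MvPolynomial (Fin 2) Ω) := by
      rw [MvPolynomial.mem_range_map_iff_coeffs_subset]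
      intro x hx
      exact ⟨⟨x, hsub (hp x hx)⟩, rfl⟩
    exact this
  have h5 : ∀ i, ∃ p' : MvPolynomial (Fin 2) A, MvPolynomial.map (algebraMap A Ω) p' = Ψ i := by
    intro i
    refine hlift _ fun x hx => ?_
    exact Finset.mem_union_left _ (Finset.mem_biUnion.mpr ⟨i, Finset.mem_univ _, hx⟩)
  have h6 : ∀ (J : 𝒥) (l : Fin 2) (i : J.1), ∃ p' : MvPolynomial (Fin 2) A,
      MvPolynomial.map (algebraMap A Ω) p' = c J l i := by
    intro J l i
    refine hlift _ fun x hx => ?_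
    refine Finset.mem_union_right _ (Finset.mem_biUnion.mpr ⟨J, Finset.mem_univ _, ?_⟩)
    refine Finset.mem_biUnion.mpr ⟨l, Finset.mem_univ _, ?_⟩
    exact Finset.mem_biUnion.mpr ⟨i, Finset.mem_univ _, hx⟩
  choose Ψ' hΨ' using h5
  choose c' hc' using h6
  refine ⟨fun i => MvPolynomial.map (χ : A →+* ℂ) (Ψ' i), ?_, ?_, ?_⟩
  · intro i
    have h7 : (Ψ' i).IsHomogeneous (m i) := by
      intro n hn
      refine h1 i ?_
      rw [← hΨ', coeff_map]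
      exact fun h0 => hn (Subtype.val_injective h0)
    exact h7.map _
  · intro J hJ a ha
    by_contra hcon
    push Not at hcon
    apply ha
    funext l
    have h7 : ∑ i, c' ⟨J, hJ⟩ l i * Ψ' i.1 = X l ^ N ⟨J, hJ⟩ l := by
      apply hinj
      rw [map_sum, map_pow, map_X, ← hc ⟨J, hJ⟩ l]
      refine Finset.sum_congr rfl fun i _ => ?_
      rw [map_mul, hΨ', hc']
    have h8 := congrArg (fun p => eval a (MvPolynomial.map (χ : A →+* ℂ) p)) h7
    simp only [map_sum, map_mul, map_pow, map_X, eval_X] at h8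
    rw [Finset.sum_eq_zero (fun i _ => by rw [hcon i.1 i.2, mul_zero])] at h8
    exact eq_zero_of_pow_eq_zero h8.symm
  · intro G hG
    have h7 : aeval Ψ' G = 0 := by
      apply hinj
      rw [map_zero, ← h3 G hG]
      have : ((MvPolynomial.mapAlgHom A.val : MvPolynomial (Fin 2) A →ₐ[ℂ]
          MvPolynomial (Fin 2) Ω)).comp (aeval Ψ') = aeval Ψ := by
        refine MvPolynomial.algHom_ext fun i => ?_
        rw [AlgHom.comp_apply, aeval_X, aeval_X]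
        exact hΨ' i
      rw [← this]
      rfl
    have h8 : ((MvPolynomial.mapAlgHom χ : MvPolynomial (Fin 2) A →ₐ[ℂ]
          MvPolynomial (Fin 2) ℂ)).comp (aeval Ψ') =
          aeval fun i => MvPolynomial.map (χ : A →+* ℂ) (Ψ' i) := by
      refine MvPolynomial.algHom_ext fun i => ?_
      rw [AlgHom.comp_apply, aeval_X, aeval_X]
      rfl
    rw [← h8, AlgHom.comp_apply, h7, map_zero]

/-- Transfer of systems of forms on the line to the complex numbers. -/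
theorem sb_transfer {ι : Type} [Fintype ι] (L : Finset (MvPolynomial ι ℂ)) (m : ι → ℕ)
    (𝒥 : Set (Set ι))
    (H : ∀ T : Finset ℂ, ∃ (B : Subring ℂ) (k : Type) (_ : Field k) (_ : IsAlgClosed k)
        (π : B →+* k) (ψ : ι → MvPolynomial (Fin 2) k), (T : Set ℂ) ⊆ B ∧
        (∀ i, (ψ i).IsHomogeneous (m i)) ∧
        (∀ J ∈ 𝒥, ∀ a : Fin 2 → k, a ≠ 0 → ∃ i ∈ J, eval a (ψ i) ≠ 0) ∧
        (∀ G : MvPolynomial ι B, map B.subtype G ∈ L → aeval ψ (map π G) = 0)) :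
    ∃ ψ : ι → MvPolynomial (Fin 2) ℂ, (∀ i, (ψ i).IsHomogeneous (m i)) ∧
      (∀ J ∈ 𝒥, ∀ a : Fin 2 → ℂ, a ≠ 0 → ∃ i ∈ J, eval a (ψ i) ≠ 0) ∧
      ∀ G ∈ L, aeval ψ G = 0 := by
  obtain ⟨Ω, _, _, _, Ψ, h1, h2, h3⟩ := sb_ultra L m 𝒥 H
  exact sd_descent L m 𝒥 Ψ h1 h2 h3

end Vale.Agent.P292.Dv
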