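import Vale.Agent.P292.D.SpFinal
import Vale.Agent.P292.D.SpCover
import Vale.Agent.P292.D.LFMain

/-! # T5 for a homogeneous prime divisor. -/

namespace Vale.Agent.P292.Dv

open Vale.Agent.P292

universe u

/-- **Block T5** for a homogeneous prime divisor: the characteristic `p` statement gives a curve
of degree one or two which is positive on the divisor. -/
theorem pos_of_dvr {R : Type u} [CommRing R] [Algebra ℂ R] {𝒜 : ℕ → Submodule ℂ R}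
    [GradedAlgebra 𝒜] {P : R →ₗ[ℂ] R →ₗ[ℂ] R} (hX : IsContactFano 𝒜 P)
    [IsDomain R] (hdim : 3 ≤ Algebra.trdeg ℂ R) (mori : MoriD) (𝔭 : Ideal R) [𝔭.IsPrime]
    (hdvr : IsDiscreteValuationRing (Localization.AtPrime 𝔭)) (hh : 𝔭.IsHomogeneous 𝒜)
    (h0 : 𝔭 ≠ ⊥) : IsInv 𝒜 𝔭 ∧ Pos 𝒜 𝔭 ℂ := by
  have := hX.finiteType
  have hinv : IsInv 𝒜 𝔭 := isInv_of_forall 𝔭 fun y hy => isInv_of_dvr hX 𝔭 hdvr hh y hy
  refine ⟨hinv, pos_of_moriD hX hdim mori 𝔭 hh hinv h0 ?_⟩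
  obtain ⟨k, hk, r, hr, hr𝔭⟩ := exists_notMem_of_dvr hX
    (le_cdim_of_le_trdeg (n := 3) (by exact_mod_cast hdim)) 𝔭 hdvr
  have hr0 : Ideal.Quotient.mk 𝔭 r ≠ 0 := fun h => hr𝔭 (Ideal.Quotient.eq_zero_iff_mem.mp h)
  obtain ⟨p, hp⟩ := Vale.Agent.P292.exists_point_ne_zero (Ideal.Quotient.mk 𝔭 r) hr0
  refine ⟨p.comp (Ideal.Quotient.mkₐ ℂ 𝔭), fun hv => hp (hv k hk r hr), fun x hx => ?_⟩
  change p (Ideal.Quotient.mk 𝔭 x) = 0
  rw [Ideal.Quotient.eq_zero_iff_mem.mpr hx, map_zero]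

end Vale.Agent.P292.Dv
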