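import Vale.Agent.P292.Bn.N16
import Vale.Agent.P292.D.Defs

/-! # Spreading out: locally principal ideals. -/

namespace Vale.Agent.P292.Dv

open MvPolynomial Vale.Agent.P292 Vale.Agent.P292.Mo

universe u v w

/-- Membership in the ideal generated by classes of polynomials. -/
theorem si_mem_of_span {k : Type u} [Field k] {M L : ℕ} (D : Dat k M L) {ι : Type w}
    (g : ι → MvPolynomial (Fin M) k) {p : MvPolynomial (Fin M) k}
    (h : p ∈ Ideal.span (Set.range (Sum.elim D.F g))) :
    D.q p ∈ Ideal.span (Set.range fun i => D.q (g i)) := by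
  have h1 : Ideal.span (Set.range (Sum.elim D.F g)) ≤
      (Ideal.span (Set.range fun i => D.q (g i))).comap D.q := by
    rw [Ideal.span_le]
    rintro _ ⟨i, rfl⟩
    rw [SetLike.mem_coe, Ideal.mem_comap]
    rcases i with i | i
    · have h2 : D.q (D.F i) = 0 := Ideal.Quotient.eq_zero_iff_mem.mpr (Ideal.subset_span ⟨i, rfl⟩)
      rw [Sum.elim_inl, h2]
      exact Submodule.zero_mem _
    · exact Ideal.subset_span ⟨i, rfl⟩
  exact h1 h

section zero

variable {R : Type u} [CommRing R] [Algebra ℂ R] {𝒜 : ℕ → Submodule ℂ R} [GradedAlgebra 𝒜]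
  {P : R →ₗ[ℂ] R →ₗ[ℂ] R}

/-- Certificates of membership in the ideal generated by the values of polynomials. -/
theorem si_span_of_mem {M L : ℕ} {D : Dat ℂ M L}
    {ev : MvPolynomial (Fin M) ℂ →ₐ[ℂ] R} (hD : IsPres 𝒜 P D ev) {ι : Type w} [Fintype ι]
    (g : ι → MvPolynomial (Fin M) ℂ) {p : MvPolynomial (Fin M) ℂ}
    (h : ev p ∈ Ideal.span (Set.range fun i => ev (g i))) :
    p ∈ Ideal.span (Set.range (Sum.elim D.F g)) := by
  obtain ⟨c, hc⟩ := Ideal.mem_span_range_iff_exists_fun.mp h
  choose c' hc' using fun i => hD.surj (c i)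
  have h1 : p - ∑ i, c' i * g i ∈ D.I := by
    rw [← hD.ker, map_sub, map_sum, ← hc, sub_eq_zero]
    exact Finset.sum_congr rfl fun i _ => by rw [map_mul, hc']
  have h2 : D.I ≤ Ideal.span (Set.range (Sum.elim D.F g)) := by
    rw [Dat.I]
    apply Ideal.span_mono
    rintro _ ⟨l, rfl⟩
    exact ⟨Sum.inl l, rfl⟩
  have h3 : p = (p - ∑ i, c' i * g i) + ∑ i, c' i * g i := by ring
  rw [h3]
  refine Ideal.add_mem _ (h2 h1) (sum_mem fun i _ => Ideal.mul_mem_left _ _ ?_)
  exact Ideal.subset_span ⟨Sum.inr i, rfl⟩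

/-- Locally principal ideals spread out. -/
theorem si_inv_spread {M L : ℕ} {D : Dat ℂ M L}
    {ev : MvPolynomial (Fin M) ℂ →ₐ[ℂ] R} (hD : IsPres 𝒜 P D ev) {N : ℕ}
    (g : Fin N → MvPolynomial (Fin M) ℂ) (𝔭 : Ideal R)
    (hgp : 𝔭 = Ideal.span (Set.range fun l => ev (g l))) (hinv : IsInv 𝒜 𝔭) :
    ∃ A₀ : Subalgebra ℤ ℂ, A₀.FG ∧ ∀ A : Subalgebra ℤ ℂ, A₀ ≤ A →
      ∀ (D' : Dat A M L) (g' : Fin N → MvPolynomial (Fin M) A),
        D'.map (algebraMap A ℂ) = D → (∀ l, MvPolynomial.map (algebraMap A ℂ) (g' l) = g l) →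
        ∀ (k : Type v) [Field k] (j : A →+* k), (D'.map j).IsOK →
          IsInv (D'.map j).gr
            (Ideal.span (Set.range fun l => (D'.map j).q (MvPolynomial.map j (g' l)))) := by
  classical
  obtain ⟨T, a, b, da, db, ha, hb, hap, hbp, hrad⟩ := hinv
  choose A1 hA1 hA1' using fun t => hD.lift (da t) (a t) (ha t)
  choose B1 hB1 hB1' using fun t => hD.lift (db t) (b t) (hb t)
  have c1 : ∀ t, A1 t ∈ Ideal.span (Set.range (Sum.elim D.F g)) := by
    intro t
    apply si_span_of_mem hD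
    rw [hA1', ← hgp]
    exact hap t
  have c2 : ∀ t l, B1 t * g l ∈ Ideal.span (Set.range (Sum.elim D.F fun _ : Unit => A1 t)) := by
    intro t l
    apply si_span_of_mem hD
    have h1 : ev (g l) ∈ 𝔭 := by
      rw [hgp]
      exact Ideal.subset_span ⟨l, rfl⟩
    obtain ⟨r, hr⟩ := hbp t _ h1
    rw [map_mul, hB1', hr, Set.range_const, hA1']
    exact Ideal.mul_mem_left _ _ (Ideal.subset_span rfl)
  have c3 : ∀ i, ∃ n, (X i : MvPolynomial (Fin M) ℂ) ^ n ∈
      Ideal.span (Set.range (Sum.elim D.F B1)) := by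
    intro i
    obtain ⟨n, hn⟩ := hrad (D.d i) (hD.ok.pos i) (ev (X i)) (hD.hom i)
    refine ⟨n, ?_⟩
    apply si_span_of_mem hD
    rw [map_pow]
    have : (fun t => ev (B1 t)) = b := funext hB1'
    rw [this]
    exact hn
  choose n hn using c3
  obtain ⟨F1, hF1, e1⟩ := exists_lift_poly A1
  obtain ⟨F2, hF2, e2⟩ := exists_lift_poly B1
  obtain ⟨F3, hF3, e3⟩ := exists_fg_of_forall _ fun t => mem_spread.{_, v, _} _ _ (c1 t)
  obtain ⟨F4, hF4, e4⟩ := exists_fg_of_forall _ fun tl : Fin T × Fin N =>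
    mem_spread.{_, v, _} _ _ (c2 tl.1 tl.2)
  obtain ⟨F5, hF5, e5⟩ := exists_fg_of_forall _ fun i => mem_spread.{_, v, _} _ _ (hn i)
  refine ⟨F1 ⊔ (F2 ⊔ (F3 ⊔ (F4 ⊔ F5))), hF1.sup (hF2.sup (hF3.sup (hF4.sup hF5))), ?_⟩
  intro A hA D' g' hD' hg' k _ j hOK
  have g1 := e1 A (le_trans le_sup_left hA)
  have g2 := e2 A ((le_sup_left.trans le_sup_right).trans hA)
  have g3 := e3 A (((le_sup_left.trans le_sup_right).trans le_sup_right).trans hA)
  have g4 := e4 A ((((le_sup_left.trans le_sup_right).trans le_sup_right).trans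
    le_sup_right).trans hA)
  have g5 := e5 A ((((le_sup_right.trans le_sup_right).trans le_sup_right).trans
    le_sup_right).trans hA)
  choose A' hA' using g1
  choose B' hB' using g2
  have hF' : ∀ l, MvPolynomial.map (algebraMap A ℂ) (D'.F l) = D.F l := by
    intro l
    rw [← hD']
    rfl
  have hdD : (D'.map j).d = D.d := by rw [← hD']; rfl
  have hgr : ∀ {p : MvPolynomial (Fin M) A} {m : ℕ},
      IsWeightedHomogeneous D.d (MvPolynomial.map (algebraMap A ℂ) p) m →
      (D'.map j).q (MvPolynomial.map j p) ∈ (D'.map j).gr m := by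
    intro p m hp
    refine Submodule.mem_map_of_mem ?_
    refine asm_wh_map j (asm_wh_of_map (j := algebraMap A ℂ) Subtype.val_injective ?_)
    rw [hdD]
    exact hp
  refine ⟨T, fun t => (D'.map j).q (MvPolynomial.map j (A' t)),
    fun t => (D'.map j).q (MvPolynomial.map j (B' t)), da, db, ?_, ?_, ?_, ?_, ?_⟩
  · intro t
    exact hgr (by rw [hA' t]; exact hA1 t)
  · intro t
    exact hgr (by rw [hB' t]; exact hB1 t)
  · intro t
    have h1 := (g3 t (Sum.elim D'.F g') (A' t) (by rintro (i | i); exacts [hF' i, hg' i])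
      (hA' t)).2 k j
    apply si_mem_of_span (D'.map j)
    convert h1 using 3
    funext i
    rcases i with i | i <;> rfl
  · intro t x hx
    have h0 : ∀ l, (D'.map j).q (MvPolynomial.map j (B' t)) *
        (D'.map j).q (MvPolynomial.map j (g' l)) ∈
        Ideal.span {(D'.map j).q (MvPolynomial.map j (A' t))} := by
      intro l
      have h1 := (g4 (t, l) (Sum.elim D'.F fun _ : Unit => A' t) (B' t * g' l)
        (by rintro (i | i); exacts [hF' i, hA' t]) (by rw [map_mul, hB' t, hg' l])).2 k j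
      have h2 := si_mem_of_span (D'.map j) (fun _ : Unit => MvPolynomial.map j (A' t))
        (p := MvPolynomial.map j (B' t * g' l)) (by
          convert h1 using 3
          funext i
          rcases i with i | i <;> rfl)
      rw [Set.range_const, map_mul, map_mul] at h2
      exact h2
    have h3 : (D'.map j).q (MvPolynomial.map j (B' t)) * x ∈
        Ideal.span {(D'.map j).q (MvPolynomial.map j (A' t))} := by
      refine Submodule.span_induction (p := fun x _ => (D'.map j).q (MvPolynomial.map j (B' t)) * x ∈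
        Ideal.span {(D'.map j).q (MvPolynomial.map j (A' t))}) ?_ ?_ ?_ ?_ hx
      · rintro _ ⟨l, rfl⟩
        exact h0 l
      · rw [mul_zero]
        exact Submodule.zero_mem _
      · intro x y _ _ hx hy
        rw [mul_add]
        exact Ideal.add_mem _ hx hy
      · intro r x _ hx
        rw [smul_eq_mul, mul_left_comm]
        exact Ideal.mul_mem_left _ _ hx
    obtain ⟨r, hr⟩ := Ideal.mem_span_singleton'.mp h3
    exact ⟨r, hr.symm⟩
  · intro m hm r hr
    obtain ⟨f, hf, rfl⟩ := hr
    let J : Ideal (D'.map j).Rg :=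
      (Ideal.span (Set.range fun t => (D'.map j).q (MvPolynomial.map j (B' t)))).radical
    have h1 : ∀ i, (D'.map j).q (X i) ∈ J := by
      intro i
      refine ⟨n i, ?_⟩
      have h2 := (g5 i (Sum.elim D'.F B') (X i ^ n i)
        (by rintro (l | l); exacts [hF' l, hB' l]) (by rw [map_pow, map_X])).2 k j
      rw [← map_pow]
      apply si_mem_of_span (D'.map j)
      rw [map_pow, map_X] at h2
      convert h2 using 3
      funext l
      rcases l with l | l <;> rfl
    have h2 : (D'.map j).q f ∈ J := by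
      rw [← Ideal.Quotient.eq_zero_iff_mem]
      have h3 := asm_eval_zero (algebraMap k ((D'.map j).Rg ⧸ J)) hm hf
        (z := fun i => Ideal.Quotient.mk J ((D'.map j).q (X i)))
        (fun i => Ideal.Quotient.eq_zero_iff_mem.mpr (h1 i))
      rw [← h3]
      have h4 : ((Ideal.Quotient.mkₐ k J).comp (D'.map j).q) =
          aeval fun i => Ideal.Quotient.mk J ((D'.map j).q (X i)) := by
        refine MvPolynomial.algHom_ext fun i => ?_
        rw [aeval_X]
        rfl
      have h5 := congrArg (fun φ => φ f) h4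
      exact h5
    exact h2

end zero

end Vale.Agent.P292.Dv
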