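import Vale.Agent.P292.D.Loc4
import Vale.Agent.P292.D.T4LinePole

/-! # Part III, E3, part 1: charts and scaling of the second component. -/

namespace Vale.Agent.P292.Dv

open Vale.Agent.P292.Mo Vale.Agent.P292.Mo.Sc Vale.Agent.P292.Mo.Fm

universe u v w

section gen

variable {k : Type u} [Field k] {R : Type v} [CommRing R] [Algebra k R] {𝒜 : ℕ → Submodule k R}
  [GradedAlgebra 𝒜] {p : Ideal R}

/-- A homogeneous ideal of a Noetherian ring is generated by finitely many homogeneous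
elements. -/
theorem t4_genFin [IsNoetherianRing R] (hp : p.IsHomogeneous 𝒜) :
    ∃ S : Finset (ℕ × R), (∀ s ∈ S, s.2 ∈ 𝒜 s.1 ∧ s.2 ∈ p) ∧
      ∀ P : ℕ → R → Prop, (∀ s ∈ S, P s.1 s.2) → (∀ j, P j 0) →
      (∀ j x y, x ∈ 𝒜 j → x ∈ p → y ∈ 𝒜 j → y ∈ p → P j x → P j y → P j (x + y)) →
      (∀ i j r x, r ∈ 𝒜 i → x ∈ 𝒜 j → x ∈ p → P j x → P (i + j) (r * x)) →
      ∀ j x, x ∈ 𝒜 j → x ∈ p → P j x := by
  classical
  obtain ⟨s, hs⟩ := (isNoetherianRing_iff_ideal_fg R).mp inferInstance p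
  let T : Finset (Σ _ : R, ℕ) := s.sigma fun r => (DirectSum.decompose 𝒜 r).support
  refine ⟨T.image fun z => (z.2, (DirectSum.decompose 𝒜 z.1 z.2 : R)), ?_, ?_⟩
  · intro z hz
    obtain ⟨y, hy, rfl⟩ := Finset.mem_image.mp hz
    exact ⟨SetLike.coe_mem _, mem_of_homog hp
      (hs ▸ Ideal.subset_span (Finset.mem_sigma.mp hy).1) _⟩
  intro P h1 h0 h2 h3
  have key : ∀ x, x ∈ Ideal.span (s : Set R) → x ∈ p ∧ ∀ j, P j (DirectSum.decompose 𝒜 x j : R) := by
    intro x hx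
    induction hx using Submodule.span_induction with
    | mem g hg =>
      refine ⟨hs ▸ Ideal.subset_span hg, fun j => ?_⟩
      by_cases h : j ∈ (DirectSum.decompose 𝒜 g).support
      · exact h1 (j, (DirectSum.decompose 𝒜 g j : R)) (Finset.mem_image.mpr
          ⟨⟨g, j⟩, Finset.mem_sigma.mpr ⟨hg, h⟩, rfl⟩)
      · have h4 : (DirectSum.decompose 𝒜 g j : R) = 0 := by
          rw [DFinsupp.notMem_support_iff.mp h]; rfl
        rw [h4]; exact h0 j
    | zero =>
      refine ⟨zero_mem _, fun j => ?_⟩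
      rw [DirectSum.decompose_zero]
      exact h0 j
    | add x y _ _ hx hy =>
      refine ⟨add_mem hx.1 hy.1, fun j => ?_⟩
      rw [DirectSum.decompose_add, DirectSum.add_apply, Submodule.coe_add]
      exact h2 j _ _ (SetLike.coe_mem _) (mem_of_homog hp hx.1 j) (SetLike.coe_mem _)
        (mem_of_homog hp hy.1 j) (hx.2 j) (hy.2 j)
    | smul r x _ hx =>
      refine ⟨p.mul_mem_left _ hx.1, fun j => ?_⟩
      rw [smul_eq_mul]
      have h5 : ∀ r : R, r * x ∈ p := fun r => p.mul_mem_left _ hx.1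
      induction r using DirectSum.Decomposition.inductionOn 𝒜 generalizing j with
      | zero => rw [zero_mul, DirectSum.decompose_zero]; exact h0 j
      | @homogeneous i r =>
        rcases Nat.lt_or_ge j i with h | h
        · rw [DirectSum.coe_decompose_mul_of_left_mem_of_not_le 𝒜 r.2 (by omega)]
          exact h0 j
        · rw [DirectSum.coe_decompose_mul_of_left_mem_of_le 𝒜 r.2 h]
          have h6 := h3 i (j - i) _ _ r.2 (SetLike.coe_mem (DirectSum.decompose 𝒜 x (j - i)))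
            (mem_of_homog hp hx.1 _) (hx.2 _)
          rwa [Nat.add_sub_cancel' h] at h6
      | add a b ha hb =>
        rw [add_mul, DirectSum.decompose_add, DirectSum.add_apply, Submodule.coe_add]
        exact h2 j _ _ (SetLike.coe_mem _) (mem_of_homog hp (h5 a) j) (SetLike.coe_mem _)
          (mem_of_homog hp (h5 b) j) (ha j) (hb j)
  intro j x hx hx'
  have h4 := (key x (hs ▸ hx')).2 j
  rwa [DirectSum.decompose_of_mem_same 𝒜 hx] at h4

end gen

section chart

variable (k : Type u) [Field k]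

/-- The chart at the point where the coordinate `t` vanishes. -/
noncomputable def ch (t : Fin 2) : MvPolynomial (Fin 2) k →ₐ[k] Polynomial k :=
  MvPolynomial.aeval fun i => if i = t then Polynomial.X else 1

variable {k}

theorem prod_ch {S : Type*} [CommRing S] (z : S) (t : Fin 2) (m : Fin 2 →₀ ℕ) :
    ∏ i, (if i = t then z else 1) ^ m i = z ^ m t := by
  rw [Finset.prod_eq_single t]
  · rw [if_pos rfl]
  · intro i _ hi
    rw [if_neg hi, one_pow]
  · intro h
    exact absurd (Finset.mem_univ t) h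

theorem coeff_ch (f : MvPolynomial (Fin 2) k) (t : Fin 2) (i : ℕ) :
    (ch k t f).coeff i = ∑ d ∈ f.support, if d t = i then f.coeff d else 0 := by
  classical
  rw [ch, MvPolynomial.aeval_def, MvPolynomial.eval₂_eq', Polynomial.finset_sum_coeff]
  refine Finset.sum_congr rfl fun d _ => ?_
  rw [prod_ch, Polynomial.algebraMap_eq, Polynomial.coeff_C_mul_X_pow]
  by_cases h : d t = i
  · rw [if_pos h, if_pos h.symm]
  · rw [if_neg h, if_neg (Ne.symm h)]

variable {f : MvPolynomial (Fin 2) k} {δ n : ℕ}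

theorem coeff_ch_of (hf : ∀ m, f.coeff m ≠ 0 → m 0 + m 1 + δ = n) (t : Fin 2) {m : Fin 2 →₀ ℕ}
    (hm : m 0 + m 1 + δ = n) : (ch k t f).coeff (m t) = f.coeff m := by
  classical
  rw [coeff_ch, Finset.sum_eq_single m]
  · rw [if_pos rfl]
  · intro q hq hqm
    rw [if_neg]
    intro h2
    apply hqm
    have h3 := hf q (MvPolynomial.mem_support_iff.1 hq)
    have h4 : t = 0 ∨ t = 1 := by
      fin_cases t
      · exact Or.inl rfl
      · exact Or.inr rfl
    have h5 : q 0 = m 0 ∧ q 1 = m 1 := by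
      rcases h4 with rfl | rfl
      · exact ⟨h2, by omega⟩
      · exact ⟨by omega, h2⟩
    ext i
    fin_cases i
    · exact h5.1
    · exact h5.2
  · intro h
    rw [if_pos rfl, MvPolynomial.notMem_support_iff.1 h]

theorem exists_of_coeff_ch {t : Fin 2} {i : ℕ} (h : (ch k t f).coeff i ≠ 0) :
    ∃ m, m t = i ∧ f.coeff m ≠ 0 := by
  classical
  rw [coeff_ch] at h
  obtain ⟨m, hm, hne⟩ := Finset.exists_ne_zero_of_sum_ne_zero h
  by_cases h1 : m t = i
  · exact ⟨m, h1, MvPolynomial.mem_support_iff.1 hm⟩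
  · rw [if_neg h1] at hne
    exact absurd rfl hne

theorem ch_ne_zero (hf : ∀ m, f.coeff m ≠ 0 → m 0 + m 1 + δ = n) (t : Fin 2) (h : f ≠ 0) :
    ch k t f ≠ 0 := by
  obtain ⟨m, hm⟩ := MvPolynomial.ne_zero_iff.mp h
  intro h0
  apply hm
  rw [← coeff_ch_of hf t (hf m hm), h0, Polynomial.coeff_zero]

end chart

section scal

variable {k : Type u} [Field k] {R : Type v} [CommRing R] [Algebra k R] {𝒜 : ℕ → Submodule k R}
  [GradedAlgebra 𝒜] {p : Ideal R}

theorem swapL_injective : Function.Injective (swapL k) := by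
  intro f g h
  ext m i
  rw [← coeff_swapL, ← coeff_swapL, h]

theorem expand_injective {B : Type*} [CommRing B] [Algebra k B] (c : ℕ) (hc : 0 < c) :
    Function.Injective (expand k (B := B) c hc) := by
  intro f g h
  ext i
  rw [← expand_coeff_mul (k := k) c hc f, ← expand_coeff_mul (k := k) c hc g, h]

theorem coeff_expand_swapL {f : MvPolynomial (Fin 2) (LaurentSeries k)} {c : ℕ} {hc : 0 < c}
    {i : ℤ} {m : Fin 2 →₀ ℕ}
    (h : ((expand k c hc (swapL k f)).coeff i).coeff m ≠ 0) : f.coeff m ≠ 0 := by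
  by_cases hdv : (c : ℤ) ∣ i
  · obtain ⟨b, rfl⟩ := hdv
    rw [expand_coeff_mul, coeff_swapL] at h
    intro h0
    rw [h0] at h
    exact h rfl
  · rw [expand_coeff_of_not_dvd _ _ _ _ hdv] at h
    exact absurd (MvPolynomial.coeff_zero m) h

/-- Scaling of the second component. -/
theorem exists_scaled_eta [IsNoetherianRing R] (hp : p.IsHomogeneous 𝒜)
    {F : R →ₐ[k] MvPolynomial (Fin 2) (LaurentSeries k)}
    {η : ℕ → R → MvPolynomial (Fin 2) (LaurentSeries k)} (hη : IsEta 𝒜 p F η) {e δ : ℕ}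
    (hdegη : ∀ j x, x ∈ 𝒜 j → x ∈ p → ∀ m, (η j x).coeff m ≠ 0 → m 0 + m 1 + δ = e * j)
    (hne : ∃ j x, x ∈ 𝒜 j ∧ x ∈ p ∧ η j x ≠ 0) {c : ℕ} {hc : 0 < c} {μ : ℕ}
    {φ : R →ₐ[k] PowerSeries (MvPolynomial (Fin 2) k)}
    (hφ : ∀ n, ∀ r ∈ 𝒜 n, ofPS k _ (φ r) =
        HahnSeries.single (μ * n : ℤ) 1 * expand k c hc (swapL k (F r))) :
    ∃ ζ : ℕ → R → PowerSeries (MvPolynomial (Fin 2) k), IsEta 𝒜 p φ ζ ∧
      (∀ j x, x ∈ 𝒜 j → x ∈ p → ∀ m, (PowerSeries.constantCoeff (ζ j x)).coeff m ≠ 0 →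
        m 0 + m 1 + δ = e * j) ∧
      ∃ j x, x ∈ 𝒜 j ∧ x ∈ p ∧ PowerSeries.constantCoeff (ζ j x) ≠ 0 := by
  classical
  let E : MvPolynomial (Fin 2) (LaurentSeries k) →ₐ[k] LaurentSeries (MvPolynomial (Fin 2) k) :=
    (expand k c hc).comp (swapL k)
  have hEinj : Function.Injective E := fun f g h =>
    swapL_injective (expand_injective (k := k) (B := MvPolynomial (Fin 2) k) c hc h)
  have hφE : ∀ n, ∀ r ∈ 𝒜 n, ((ofPS k (MvPolynomial (Fin 2) k)).comp φ) r =
      HahnSeries.single (μ * n : ℤ) 1 * E (F r) := hφ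
  obtain ⟨H, hHdef⟩ : ∃ H : ℕ → R → LaurentSeries (MvPolynomial (Fin 2) k),
      ∀ j x, H j x = HahnSeries.single (μ * j : ℤ) 1 * E (η j x) := ⟨_, fun _ _ => rfl⟩
  have hH : IsEta 𝒜 p ((ofPS k (MvPolynomial (Fin 2) k)).comp φ) H := by
    refine ⟨fun j x y hx hx' hy hy' => ?_, fun i j r x hr hx hx' => ?_⟩
    · rw [hHdef, hHdef, hHdef, hη.add j x y hx hx' hy hy', map_add, mul_add]
    · rw [hHdef, hHdef, hη.mul i j r x hr hx hx', hφE i r hr, map_mul]
      have h1 : (HahnSeries.single (μ * (i + j : ℕ) : ℤ) (1 : MvPolynomial (Fin 2) k)) =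
          HahnSeries.single (μ * i : ℤ) 1 * HahnSeries.single (μ * j : ℤ) 1 := by
        rw [HahnSeries.single_mul_single, one_mul]
        congr 1
        push_cast
        ring
      rw [h1]
      ring
  obtain ⟨S, hS, hgen⟩ := t4_genFin hp
  obtain ⟨N, hN⟩ : ∃ N : ℕ, ∀ s ∈ S, ∀ i : ℤ, i < 0 → (H s.1 s.2).coeff (i - N) = 0 := by
    refine ⟨∑ s ∈ S, (H s.1 s.2).order.natAbs, fun s hs i hi => ?_⟩
    apply HahnSeries.coeff_eq_zero_of_lt_order
    have h1 : (H s.1 s.2).order.natAbs ≤ ∑ s ∈ S, (H s.1 s.2).order.natAbs :=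
      Finset.single_le_sum (f := fun s : ℕ × R => (H s.1 s.2).order.natAbs)
        (fun _ _ => Nat.zero_le _) hs
    omega
  have hint : ∀ j x, x ∈ 𝒜 j → x ∈ p →
      HahnSeries.single (N : ℤ) 1 * H j x ∈ (ofPS k (MvPolynomial (Fin 2) k)).range := by
    refine hgen _ ?_ ?_ ?_ ?_
    · intro s hs
      rw [mem_range_ofPS]
      intro i hi
      rw [single_mul_coeff]
      exact hN s hs i hi
    · intro j
      rw [hH.zero, mul_zero]
      exact zero_mem _
    · intro j x y hx hx' hy hy' h1 h2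
      rw [hH.add j x y hx hx' hy hy', mul_add]
      exact add_mem h1 h2
    · intro i j r x hr hx hx' h1
      rw [hH.mul i j r x hr hx hx', mul_left_comm]
      exact mul_mem ⟨φ r, rfl⟩ h1
  have h1 : ∀ j x, ∃ y : PowerSeries (MvPolynomial (Fin 2) k), x ∈ 𝒜 j → x ∈ p →
      ofPS k (MvPolynomial (Fin 2) k) y = HahnSeries.single (N : ℤ) 1 * H j x := by
    intro j x
    by_cases h : x ∈ 𝒜 j ∧ x ∈ p
    · obtain ⟨y, hy⟩ := hint j x h.1 h.2
      exact ⟨y, fun _ _ => hy⟩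
    · exact ⟨0, fun h1 h2 => absurd ⟨h1, h2⟩ h⟩
  choose H₁ hH₁ using h1
  have hinj : Function.Injective (ofPS k (MvPolynomial (Fin 2) k)) := ofPS_injective
  have hE₁ : IsEta 𝒜 p φ H₁ := by
    refine ⟨fun j x y hx hx' hy hy' => hinj ?_, fun i j r x hr hx hx' => hinj ?_⟩
    · rw [hH₁ j _ ((𝒜 j).add_mem hx hy) (p.add_mem hx' hy'), map_add, hH₁ j x hx hx',
        hH₁ j y hy hy', hH.add j x y hx hx' hy hy', mul_add]
    · rw [hH₁ (i + j) _ (SetLike.mul_mem_graded hr hx) (p.mul_mem_left _ hx'), map_mul,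
        hH₁ j x hx hx', hH.mul i j r x hr hx hx', mul_left_comm]
      rfl
  have hdeg₁ : ∀ j x, x ∈ 𝒜 j → x ∈ p → ∀ i m, (PowerSeries.coeff i (H₁ j x)).coeff m ≠ 0 →
      m 0 + m 1 + δ = e * j := by
    intro j x hx hx' i m hm
    have h2 := ofPS_coeff_nat (k := k) (H₁ j x) i
    rw [hH₁ j x hx hx', single_mul_coeff, hHdef, single_mul_coeff] at h2
    rw [← h2] at hm
    exact hdegη j x hx hx' m (coeff_expand_swapL (hc := hc) hm)
  obtain ⟨M, hM⟩ := exists_genIn hp
  obtain ⟨b, hb, hb'⟩ := exists_ord (β := 0) hM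
    (fun j r _ => by rw [zero_mul, pow_zero]; exact one_dvd _) hE₁ (by
    obtain ⟨j, x, hx, hx', h⟩ := hne
    refine ⟨j, x, hx, hx', fun h0 => h (hEinj ?_)⟩
    have h2 := hH₁ j x hx hx'
    rw [h0, map_zero, hHdef, ← mul_assoc, HahnSeries.single_mul_single, one_mul] at h2
    have h3 := congrArg (fun y => HahnSeries.single (-(N + μ * j) : ℤ)
      (1 : MvPolynomial (Fin 2) k) * y) h2
    simp only [mul_zero] at h3
    rw [← mul_assoc, HahnSeries.single_mul_single, neg_add_cancel, one_mul] at h3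
    rw [map_zero, h3]
    exact (one_mul _).symm)
  obtain ⟨ζ, hζ, hζ'⟩ := eta_div (F := φ) (s := (1 : PowerSeries (MvPolynomial (Fin 2) k)))
    (t := 1) (u := PowerSeries.X ^ b) one_ne_zero (pow_ne_zero _ PowerSeries.X_ne_zero)
    (fun j r _ => by rw [one_pow, one_mul]) hE₁ (fun j x hx hx' => by
      have h2 := hb j x hx hx'
      rw [zero_mul, zero_add, zero_mul, pow_zero] at h2
      rw [one_pow, one_mul]
      exact h2)
  have hζ₁ : ∀ j x, x ∈ 𝒜 j → x ∈ p → PowerSeries.constantCoeff (ζ j x) =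
      PowerSeries.coeff b (H₁ j x) := by
    intro j x hx hx'
    have h2 := hζ' j x hx hx'
    rw [one_mul, one_pow, one_mul] at h2
    rw [h2, PowerSeries.coeff_X_pow_mul', if_pos le_rfl, Nat.sub_self,
      PowerSeries.coeff_zero_eq_constantCoeff]
  refine ⟨ζ, hζ, fun j x hx hx' m hm => ?_, ?_⟩
  · rw [hζ₁ j x hx hx'] at hm
    exact hdeg₁ j x hx hx' b m hm
  · obtain ⟨j, x, hx, hx', h⟩ := hb'
    refine ⟨j, x, hx, hx', ?_⟩
    rw [hζ₁ j x hx hx']
    rwa [zero_mul, zero_add, zero_mul, pow_zero, one_mul] at h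

end scal

end Vale.Agent.P292.Dv
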