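import Vale.Agent.P292.Bn.N16
import Vale.Agent.P292.D.T4Defs

/-! # Frames with exactly `cdim R` elements at every point outside the vertex. -/

namespace Vale.Agent.P292.Dv

open MvPolynomial TensorProduct

universe u

variable {R : Type u} [CommRing R] [Algebra ℂ R] {𝒜 : ℕ → Submodule ℂ R} [GradedAlgebra 𝒜]
  {P : R →ₗ[ℂ] R →ₗ[ℂ] R}

/-- Every point outside the vertex has a homogeneous frame with `cdim R` elements. -/
theorem t4_rk (hX : IsContactFano 𝒜 P) [IsDomain R] (y : R →ₐ[ℂ] ℂ) (hy : Mo.NV 𝒜 y) :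
    Mo.HasRk 𝒜 P y (cdim R) := by
  obtain ⟨N, x, k, g, l, hx, hgl, hg, hdet, hc⟩ := exists_chart_kd hX y hy
  have hg0 : g ≠ 0 := fun h => hg (by rw [h, map_zero])
  have hdet0 : Matrix.det (Matrix.of fun i j => P (x i) (x j)) ≠ 0 :=
    fun h => hdet (by rw [h, map_zero])
  set ι : R →ₐ[ℂ] FractionRing R := IsScalarTower.toAlgHom ℂ R (FractionRing R) with hι
  have hιinj : Function.Injective ι := IsFractionRing.injective R (FractionRing R)
  obtain ⟨e⟩ := fr_chart_equiv hX ι (fun h => hg0 (hιinj (by rw [h, map_zero])))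
    (fun h => hdet0 (hιinj (by rw [h, map_zero]))) hc
  have hN : cdim R = N := by
    rw [cdim, e.finrank_eq, Module.finrank_fin_fun]
  rw [hN]
  refine ⟨x, k, g, ⟨hx, ⟨l, hgl⟩, hc⟩, ?_⟩
  rw [map_mul]
  exact mul_ne_zero hg hdet

end Vale.Agent.P292.Dv
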