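import Vale.Agent.P292.Bn.N16
import Vale.Agent.P292.D.T4Defs
import Vale.Agent.P292.D.T4Rk
import Vale.Agent.P292.D.T4FrFin
import Vale.Agent.P292.D.T4IsPM
import Vale.Agent.P292.D.GapU1

/-! # T4, G3: the morphism and the frames of a closed rational curve. -/

namespace Vale.Agent.P292.Dv

open MvPolynomial TensorProduct

universe u

namespace T4Geo

/-- Dehomogenisation. -/
noncomputable def dh (F : MvPolynomial (Fin 2) ℂ) : Polynomial ℂ := aeval ![Polynomial.X, 1] F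

theorem dh_eval (F : MvPolynomial (Fin 2) ℂ) (z : ℂ) : (dh F).eval z = eval ![z, 1] F := by
  have h : ((Polynomial.aeval z : Polynomial ℂ →ₐ[ℂ] ℂ).comp
      (aeval ![Polynomial.X, 1] : MvPolynomial (Fin 2) ℂ →ₐ[ℂ] Polynomial ℂ))
      = MvPolynomial.aeval ![z, 1] := by
    refine MvPolynomial.algHom_ext fun j => ?_
    fin_cases j <;> simp
  have := AlgHom.congr_fun h F
  rw [AlgHom.comp_apply, Polynomial.coe_aeval_eq_eval, MvPolynomial.aeval_eq_eval] at this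
  exact this

theorem dh_expand (F : MvPolynomial (Fin 2) ℂ) :
    dh F = ∑ d ∈ F.support, Polynomial.C (coeff d F) * Polynomial.X ^ (d 0) := by
  rw [dh, aeval_def, eval₂_eq']
  refine Finset.sum_congr rfl fun d _ => ?_
  rw [Fin.prod_univ_two]
  simp

theorem deg_eq {F : MvPolynomial (Fin 2) ℂ} {n : ℕ} (hF : F.IsHomogeneous n) {d : Fin 2 →₀ ℕ}
    (hd : d ∈ F.support) : d 0 + d 1 = n := by
  have h1 := hF (mem_support_iff.1 hd)
  rw [Finsupp.weight_apply, Finsupp.sum_fintype _ _ (by simp)] at h1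
  simpa only [Pi.one_apply, smul_eq_mul, mul_one, Fin.sum_univ_two] using h1

theorem dh_natDegree {F : MvPolynomial (Fin 2) ℂ} {n : ℕ} (hF : F.IsHomogeneous n) :
    (dh F).natDegree ≤ n := by
  rw [dh_expand]
  refine Polynomial.natDegree_sum_le_of_forall_le _ _ fun d hd => ?_
  refine (Polynomial.natDegree_C_mul_X_pow_le _ _).trans ?_
  have := deg_eq hF hd
  omega

theorem dh_coeff {F : MvPolynomial (Fin 2) ℂ} {n : ℕ} (hF : F.IsHomogeneous n) :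
    (dh F).coeff n = eval ![1, 0] F := by
  rw [dh_expand, Polynomial.finset_sum_coeff, eval_eq']
  refine Finset.sum_congr rfl fun d hd => ?_
  rw [Polynomial.coeff_C_mul_X_pow, Fin.prod_univ_two]
  have h1 := deg_eq hF hd
  by_cases h : d 1 = 0
  · rw [if_pos (by omega), h]
    simp
  · rw [if_neg (by omega)]
    simp [h]

theorem dh_mul (F F' : MvPolynomial (Fin 2) ℂ) : dh (F * F') = dh F * dh F' := map_mul _ _ _

section

variable {t : FractionRing (Polynomial ℂ)}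

theorem transc (ht : t = algebraMap (Polynomial ℂ) _ Polynomial.X) : Transcendental ℂ t := by
  rw [ht, transcendental_algebraMap_iff (IsFractionRing.injective (Polynomial ℂ)
    (FractionRing (Polynomial ℂ)))]
  exact Polynomial.transcendental_X ℂ

theorem aeval_t (ht : t = algebraMap (Polynomial ℂ) _ Polynomial.X) (p : Polynomial ℂ) :
    Polynomial.aeval t p = algebraMap (Polynomial ℂ) (FractionRing (Polynomial ℂ)) p := by
  rw [ht, Polynomial.aeval_algebraMap_apply, Polynomial.aeval_X_left_apply]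

theorem t_sub_ne (ht : t = algebraMap (Polynomial ℂ) _ Polynomial.X) (l : ℂ) :
    t - algebraMap ℂ _ l ≠ 0 := by
  have := Mo.idxic_aeval_ne (transc ht) (Polynomial.X_sub_C_ne_zero l)
  rwa [map_sub, Polynomial.aeval_X, Polynomial.aeval_C] at this

theorem unit_mem (ht : t = algebraMap (Polynomial ℂ) _ Polynomial.X) {G : Polynomial ℂ} {l : ℂ}
    {F : MvPolynomial (Fin 2) ℂ} {m : ℕ} (hF : F.IsHomogeneous m)
    (h1 : eval ![1, 0] F ≠ 0) (hz : ∀ z, G.eval z = 0 → eval ![z, 1] F ≠ 0) :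
    (((t - algebraMap ℂ _ l)⁻¹) ^ m *
      algebraMap (Polynomial ℂ) (FractionRing (Polynomial ℂ)) (dh F))⁻¹ ∈ Mo.B1 t G := by
  have hc : (dh F).coeff m ≠ 0 := by rwa [dh_coeff hF]
  have hne : dh F ≠ 0 := fun h => hc (by rw [h, Polynomial.coeff_zero])
  refine ⟨(Polynomial.X - Polynomial.C l) ^ m, dh F, ?_, ?_, ?_, ?_⟩
  · exact Mo.idxic_aeval_ne (transc ht) hne
  · refine (Polynomial.isCoprime_iff_aeval_ne_zero_of_isAlgClosed ℂ ℂ _ _).2 fun ρ => ?_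
    by_contra hcon
    push Not at hcon
    obtain ⟨h2, h3⟩ := hcon
    rw [Polynomial.coe_aeval_eq_eval] at h2 h3
    apply hz ρ h3
    rw [← dh_eval]
    exact h2
  · rw [Polynomial.natDegree_pow, Polynomial.natDegree_X_sub_C, mul_one]
    exact Polynomial.le_natDegree_of_ne_zero hc
  · rw [Mo.F5a_aeval_pow, aeval_t ht, mul_inv, inv_pow, inv_inv, div_eq_mul_inv]

end

end T4Geo

open T4Geo in
/-- The morphism and the frames. -/
theorem t4_geo {R : Type u} [CommRing R] [Algebra ℂ R] {𝒜 : ℕ → Submodule ℂ R} [GradedAlgebra 𝒜]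
    {P : R →ₗ[ℂ] R →ₗ[ℂ] R} (hX : IsContactFano 𝒜 P) [IsDomain R] {e : ℕ}
    {φ : R →ₐ[ℂ] MvPolynomial (Fin 2) ℂ} (hφ : IsCurve 𝒜 e φ)
    {t : FractionRing (Polynomial ℂ)} (ht : t = algebraMap (Polynomial ℂ) _ Polynomial.X)
    {φ' : R →ₐ[ℂ] FractionRing (Polynomial ℂ)}
    (hφ' : ∀ r, φ' r = algebraMap (Polynomial ℂ) _ (aeval ![Polynomial.X, 1] (φ r))) :
    ∃ (G : Polynomial ℂ) (l : ℂ)
      (x : Fin (cdim R) → R) (d : Fin (cdim R) → ℕ) (g : R)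
      (x' : Fin (cdim R) → R) (d' : Fin (cdim R) → ℕ) (g' : R), G ≠ 0 ∧ G.eval l ≠ 0 ∧
      Mo.IsMp 𝒜 (Mo.B0 t G) (Mo.B1 t G) (((t - algebraMap ℂ _ l)⁻¹) ^ e) φ' ∧
      Mo.IsFr0 𝒜 P (Mo.B0 t G) φ' x d g ∧
      Mo.IsFr1 𝒜 P (Mo.B1 t G) (((t - algebraMap ℂ _ l)⁻¹) ^ e) φ' x' d' g' := by
  classical
  have hP : Mo.IsPM 𝒜 P := t4_isPM hX
  have htr := transc ht
  have hφd : ∀ r, φ' r = algebraMap (Polynomial ℂ) _ (dh (φ r)) := hφ'
  have hNV : ∀ a : Fin 2 → ℂ, a ≠ 0 → Mo.NV 𝒜 (pt φ a) := by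
    intro a ha
    obtain ⟨n, hn, r, hr, h⟩ := hφ.bpf a ha
    refine ⟨n, hn, r, hr, ?_⟩
    rw [pt_apply]
    rwa [aeval_eq_eval] at h
  have hne01 : (![0, 1] : Fin 2 → ℂ) ≠ 0 := fun h => one_ne_zero (congrFun h 1)
  -- the first frame
  obtain ⟨x, d, g, hfr, hgd⟩ := t4_rk hX (pt φ ![0, 1]) (hNV _ hne01)
  rw [map_mul, pt_apply, pt_apply] at hgd
  obtain ⟨n₀, hn₀, r₀, hr₀, hr₀0⟩ := hNV _ hne01
  rw [pt_apply] at hr₀0
  have hdh : ∀ F : MvPolynomial (Fin 2) ℂ, eval ![0, 1] F ≠ 0 → dh F ≠ 0 := by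
    intro F hF h
    apply hF
    rw [← dh_eval, h, Polynomial.eval_zero]
  have hd0 : dh (φ (Mo.brM P x).det) ≠ 0 := hdh _ (right_ne_zero_of_mul hgd)
  have hg0 : dh (φ g) ≠ 0 := hdh _ (left_ne_zero_of_mul hgd)
  have hr0 : dh (φ r₀) ≠ 0 := hdh _ hr₀0
  set G : Polynomial ℂ := dh (φ (Mo.brM P x).det) * dh (φ r₀) with hG
  have hG0 : G ≠ 0 := mul_ne_zero hd0 hr0
  obtain ⟨l, hl⟩ := Mo.crv_exists_l hG0
  have hts := t_sub_ne ht l
  have halg : ∀ p : Polynomial ℂ, p ≠ 0 →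
      algebraMap (Polynomial ℂ) (FractionRing (Polynomial ℂ)) p ≠ 0 := by
    intro p hp h
    rw [← aeval_t ht] at h
    exact Mo.idxic_aeval_ne htr hp h
  have hGinv : (algebraMap (Polynomial ℂ) (FractionRing (Polynomial ℂ)) G)⁻¹ ∈ Mo.B0 t G := by
    rw [← aeval_t ht]
    exact Mo.crv_inv_mem_B0 t G
  have hpol : ∀ p : Polynomial ℂ,
      algebraMap (Polynomial ℂ) (FractionRing (Polynomial ℂ)) p ∈ Mo.B0 t G := by
    intro p
    rw [← aeval_t ht]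
    exact Mo.aeval_mem_B0 t G p
  -- the points of the second chart
  let Y : Set (R →ₐ[ℂ] ℂ) := insert (pt φ ![1, 0]) ((fun z => pt φ ![z, 1]) '' {z | G.eval z = 0})
  have hYfin : Y.Finite := by
    refine Set.Finite.insert _ (Set.Finite.image _ ?_)
    refine (G.roots.toFinset.finite_toSet).subset fun z hz => ?_
    rw [Finset.mem_coe, Multiset.mem_toFinset, Polynomial.mem_roots hG0]
    exact hz
  have hYNV : ∀ y ∈ Y, Mo.NV 𝒜 y := by
    rintro y (rfl | ⟨z, _, rfl⟩)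
    · exact hNV _ fun h => one_ne_zero (congrFun h 0)
    · exact hNV _ fun h => one_ne_zero (congrFun h 1)
  obtain ⟨x', d', g', hfr', hY⟩ := t4_frame_finset hP Y hYfin hYNV
    (fun y hy => t4_rk hX y (hYNV y hy))
  have : Finite Y := hYfin
  obtain ⟨n₁, hn₁, r₁, hr₁, hr₁0⟩ := Mo.ga_avoid (fun y : Y => (y : R →ₐ[ℂ] ℂ))
    (fun y => hYNV y y.2)
  have hY1 : (pt φ ![1, 0]) ∈ Y := Set.mem_insert _ _
  have hYz : ∀ z, G.eval z = 0 → pt φ ![z, 1] ∈ Y := fun z hz =>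
    Set.mem_insert_of_mem _ ⟨z, hz, rfl⟩
  have hdne : ∀ {n : ℕ} {r : R}, r ∈ 𝒜 n → pt φ ![1, 0] r ≠ 0 → dh (φ r) ≠ 0 := by
    intro n r hr h h0
    apply h
    rw [pt_apply, ← dh_coeff (hφ.degree n r hr), h0, Polynomial.coeff_zero]
  have hunit : ∀ {n : ℕ} {r : R}, r ∈ 𝒜 n → (∀ y ∈ Y, y r ≠ 0) →
      ((((t - algebraMap ℂ _ l)⁻¹) ^ e) ^ n * φ' r)⁻¹ ∈ Mo.B1 t G := by
    intro n r hr h
    rw [← pow_mul, hφd]
    refine unit_mem ht (hφ.degree n r hr) ?_ fun z hz => ?_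
    · have := h _ hY1
      rwa [pt_apply] at this
    · have := h _ (hYz z hz)
      rwa [pt_apply] at this
  have hdet' : (Mo.brM P x').det ≠ 0 := by
    intro h
    apply hY _ hY1
    rw [h, mul_zero, map_zero]
  obtain ⟨m, hm, hmem⟩ := Mo.F5b_det hP hfr'.hom hdet'
  obtain ⟨lg, hlg⟩ := hfr'.ghom
  refine ⟨G, l, x, d, g, x', d', g', hG0, hl, ⟨?_, ?_, ?_, ?_⟩, ⟨hfr, ?_, ?_, ?_⟩,
    ⟨hfr', ?_, ?_, ?_⟩⟩
  · exact pow_ne_zero _ (inv_ne_zero hts)
  · intro n r hr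
    rw [Mo.mem_Sec, hφd]
    refine ⟨hpol _, ?_⟩
    rw [← pow_mul, ← aeval_t ht]
    exact Mo.F5a_mem_B1 htr hl _ (dh_natDegree (hφ.degree n r hr))
  · refine ⟨n₀, hn₀, r₀, hr₀, ?_, ?_⟩
    · rw [hφd]
      exact halg _ hr0
    · have h1 : (φ' r₀)⁻¹ = (algebraMap (Polynomial ℂ) (FractionRing (Polynomial ℂ)) G)⁻¹ *
          algebraMap (Polynomial ℂ) _ (dh (φ (Mo.brM P x).det)) := by
        have h2 := halg _ hd0
        have h3 := halg _ hr0
        rw [hφd, hG, map_mul]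
        field_simp
      rw [h1]
      exact mul_mem hGinv (hpol _)
  · refine ⟨n₁, hn₁, r₁, hr₁, ?_, ?_⟩
    · rw [hφd]
      exact halg _ (hdne hr₁ (hr₁0 ⟨_, hY1⟩))
    · exact hunit hr₁ fun y hy => hr₁0 ⟨y, hy⟩
  · rw [hφd]
    exact halg _ hg0
  · rw [hφd]
    exact halg _ hd0
  · have h1 : (φ' (Mo.brM P x).det)⁻¹ =
        (algebraMap (Polynomial ℂ) (FractionRing (Polynomial ℂ)) G)⁻¹ *
        algebraMap (Polynomial ℂ) _ (dh (φ r₀)) := by
      have h2 := halg _ hd0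
      have h3 := halg _ hr0
      rw [hφd, hG, map_mul]
      field_simp
    rw [h1]
    exact mul_mem hGinv (hpol _)
  · rw [hφd]
    refine halg _ (hdne hlg fun h => hY _ hY1 ?_)
    rw [map_mul, h, zero_mul]
  · rw [hφd]
    refine halg _ (hdne hmem fun h => hY _ hY1 ?_)
    rw [map_mul, h, mul_zero]
  · rw [← hm, zpow_natCast]
    refine hunit hmem fun y hy h => hY y hy ?_
    rw [map_mul, h, mul_zero]

end Vale.Agent.P292.Dv
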