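import Vale.Agent.P292.D.T4DataH1
import Vale.Agent.P292.D.T4Geo

/-! # G3: the data of a closed curve. -/

namespace Vale.Agent.P292.Dv

open Polynomial Vale.Agent.P292.Mo

universe u

namespace DataH

theorem aeval_t (q : Polynomial ℂ) :
    aeval (algebraMap (Polynomial ℂ) (FractionRing (Polynomial ℂ)) X) q =
      algebraMap (Polynomial ℂ) (FractionRing (Polynomial ℂ)) q := by
  have : (aeval (algebraMap (Polynomial ℂ) (FractionRing (Polynomial ℂ)) X) :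
      Polynomial ℂ →ₐ[ℂ] FractionRing (Polynomial ℂ)) =
      IsScalarTower.toAlgHom ℂ (Polynomial ℂ) (FractionRing (Polynomial ℂ)) := by
    ext
    simp
  rw [this]
  rfl

theorem transc_t :
    Transcendental ℂ (algebraMap (Polynomial ℂ) (FractionRing (Polynomial ℂ)) X) := by
  rw [transcendental_iff_injective]
  intro a b h
  rw [aeval_t, aeval_t] at h
  exact IsFractionRing.injective _ _ h

theorem adjoin_t : IntermediateField.adjoin ℂ
    {algebraMap (Polynomial ℂ) (FractionRing (Polynomial ℂ)) X} = ⊤ := by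
  rw [eq_top_iff]
  intro x _
  obtain ⟨a, b, -, rfl⟩ := IsFractionRing.div_surjective (A := Polynomial ℂ) x
  rw [IntermediateField.mem_adjoin_simple_iff]
  exact ⟨a, b, by rw [aeval_t, aeval_t]⟩

end DataH

open DataH

variable {R : Type u} [CommRing R] [Algebra ℂ R] {𝒜 : ℕ → Submodule ℂ R} [GradedAlgebra 𝒜]
  {P : R →ₗ[ℂ] R →ₗ[ℂ] R}

/-- G3: the data of a closed curve, `K` is the field of fractions of `ℂ[t]`. -/
theorem t4_data (hX : IsContactFano 𝒜 P) [IsDomain R] {e : ℕ} (he : 0 < e)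
    {φ : R →ₐ[ℂ] MvPolynomial (Fin 2) ℂ} (hφ : IsCurve 𝒜 e φ) :
    ∃ (A₀ A₁ : Subalgebra ℂ (FractionRing (Polynomial ℂ))) (u : FractionRing (Polynomial ℂ))
      (x : Fin (cdim R) → R) (d : Fin (cdim R) → ℕ) (g : R)
      (x' : Fin (cdim R) → R) (d' : Fin (cdim R) → ℕ) (g' : R)
      (φ' : R →ₐ[ℂ] FractionRing (Polynomial ℂ)),
      (∀ r, φ' r = algebraMap (Polynomial ℂ) _ (MvPolynomial.aeval ![Polynomial.X, 1] (φ r))) ∧
      Mo.IsCD A₀ A₁ ∧ Mo.IsMp 𝒜 A₀ A₁ u φ' ∧ Mo.IsFr0 𝒜 P A₀ φ' x d g ∧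
      Mo.IsFr1 𝒜 P A₁ u φ' x' d' g' ∧ Mo.idx A₁ u = e ∧ Mo.chi0 A₀ A₁ = 1 ∧
      (∀ n, ∀ a, a ∈ Mo.Sec A₀ A₁ u n ↔
        ∃ q : Polynomial ℂ, q.natDegree ≤ e * n ∧ a = algebraMap (Polynomial ℂ) _ q) := by
  have hφ' : ∀ r, (((IsScalarTower.toAlgHom ℂ (Polynomial ℂ) (FractionRing (Polynomial ℂ))).comp
      (MvPolynomial.aeval ![Polynomial.X, 1])).comp φ) r =
      algebraMap (Polynomial ℂ) _ (MvPolynomial.aeval ![Polynomial.X, 1] (φ r)) := fun r => rfl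
  obtain ⟨G, l, x, d, g, x', d', g', hG, hl, hMp, h0, h1⟩ := t4_geo hX hφ rfl hφ'
  rw [inv_pow] at hMp h1
  refine ⟨_, _, _, x, d, g, x', d', g', _, hφ', cd_line transc_t adjoin_t hG, hMp, h0, h1,
    idx_line transc_t adjoin_t hG hl e, chi0_line transc_t adjoin_t hG hl, fun n a => ?_⟩
  rw [mem_sec transc_t hG hl]
  simp only [aeval_t]

end Vale.Agent.P292.Dv
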