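import Vale.Agent.P292.D.T2Defs
import Vale.Agent.P292.D.LineQ3

/-! # G3: the curve algebra of the line. -/

namespace Vale.Agent.P292.Dv

open Polynomial Vale.Agent.P292.Mo

universe u w

namespace DataH

variable {k : Type u} [Field k] {K : Type w} [Field K] [Algebra k K]

theorem ic_eq (B : Subalgebra k K) (hpir : IsPrincipalIdealRing B)
    (hfr : ∀ x : K, ∃ a ∈ B, ∃ b ∈ B, b ≠ 0 ∧ x = a / b) : IC B = B := by
  have hF : IsFractionRing B K := IsFractionRing.of_field B K fun z => by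
    obtain ⟨a, ha, b, hb, -, h⟩ := hfr z
    exact ⟨⟨a, ha⟩, ⟨b, hb⟩, h⟩
  have hI : IsIntegrallyClosed B := inferInstance
  apply le_antisymm
  · intro x hx
    rw [mem_IC_iff] at hx
    obtain ⟨y, rfl⟩ := (IsIntegrallyClosed.isIntegral_iff (R := B)).1 hx
    exact y.2
  · intro x hx
    exact le_IC B hx

theorem aeval_inj {t : K} (ht : Transcendental k t) {a b : k[X]} (h : aeval t a = aeval t b) :
    a = b := (transcendental_iff_injective.1 ht) h

/-- The sections on the line are the polynomials of bounded degree. -/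
theorem mem_sec {t : K} (ht : Transcendental k t) {g : k[X]} (hg : g ≠ 0) {l : k}
    (hl : g.eval l ≠ 0) (e n : ℕ) (a : K) :
    a ∈ Sec (B0 t g) (B1 t g) (((t - algebraMap k K l) ^ e)⁻¹) n ↔
      ∃ q : k[X], q.natDegree ≤ e * n ∧ a = aeval t q := by
  have htl : t - algebraMap k K l = aeval t (X - C l) := by simp
  have hX : (X - C l : k[X]) ≠ 0 := X_sub_C_ne_zero l
  have htl0 : t - algebraMap k K l ≠ 0 := crv_ne_C ht l
  rw [mem_Sec]
  constructor
  · rintro ⟨h0, h1⟩
    obtain ⟨p, m, rfl⟩ := crv_mem_B0 (crv_ne ht hg) h0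
    obtain ⟨a', b', hb', hc, hd, h⟩ := ClosedIC1.mem_B1.1 h1
    have hg0 := crv_ne ht hg
    have h2 : aeval t (p * b') = aeval t ((X - C l) ^ (e * n) * g ^ m * a') := by
      rw [map_mul, map_mul, map_mul, map_pow, map_pow, ← htl, pow_mul]
      have hT : ((t - algebraMap k K l) ^ e) ^ n ≠ 0 := pow_ne_zero _ (pow_ne_zero _ htl0)
      have hgm : aeval t g ^ m ≠ 0 := pow_ne_zero _ hg0
      generalize ((t - algebraMap k K l) ^ e) = T at h hT ⊢
      rw [inv_pow] at h
      generalize T ^ n = T' at h hT ⊢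
      generalize aeval t g ^ m = G at h hgm ⊢
      generalize aeval t b' = b1 at h hb' ⊢
      field_simp at h
      linear_combination h
    have h3 := aeval_inj ht h2
    have h4 : g ^ m ∣ p := by
      have h5 : g ^ m ∣ p * b' := by
        rw [h3]
        exact ⟨(X - C l) ^ (e * n) * a', by ring⟩
      exact (hc.symm.pow_left).dvd_of_dvd_mul_right h5
    obtain ⟨q, rfl⟩ := h4
    have h6 : q * b' = (X - C l) ^ (e * n) * a' := by
      apply mul_left_cancel₀ (pow_ne_zero m hg)
      linear_combination h3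
    refine ⟨q, ?_, ?_⟩
    · by_cases hq : q = 0
      · simp [hq]
      have hb0 : b' ≠ 0 := fun h => hb' (by rw [h, map_zero])
      have ha0 : a' ≠ 0 := by
        rintro rfl
        rw [mul_zero] at h6
        exact mul_ne_zero hq hb0 h6
      have h7 := congrArg natDegree h6
      rw [natDegree_mul hq hb0, natDegree_mul (pow_ne_zero _ hX) ha0, natDegree_pow,
        natDegree_X_sub_C, mul_one] at h7
      omega
    · rw [map_mul, map_pow, mul_div_cancel_left₀ _ (pow_ne_zero m hg0)]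
  · rintro ⟨q, hq, rfl⟩
    refine ⟨crv_aeval_mem (crv_t_mem_B0 t g) q, ClosedIC1.mem_B1.2 ⟨q, (X - C l) ^ (e * n), ?_, ?_, ?_, ?_⟩⟩
    · rw [map_pow, ← htl]
      exact pow_ne_zero _ htl0
    · refine IsCoprime.pow_left ?_
      rw [(irreducible_X_sub_C l).coprime_iff_not_dvd, dvd_iff_isRoot]
      exact hl
    · rw [natDegree_pow, natDegree_X_sub_C, mul_one]
      exact hq
    · rw [map_pow, ← htl, inv_pow, ← pow_mul, div_eq_inv_mul]

theorem frac_of_top {t : K} (htop : IntermediateField.adjoin k {t} = ⊤) (x : K) :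
    x ∈ IntermediateField.adjoin k {t} := by
  rw [htop]
  trivial

theorem ic0 {t : K} (ht : Transcendental k t) (htop : IntermediateField.adjoin k {t} = ⊤)
    {g : k[X]} (hg : g ≠ 0) : IC (B0 t g) = B0 t g :=
  ic_eq _ (crv_B0_pir (crv_ne ht hg)) fun x => crv_B0_frac t g x (frac_of_top htop x)

theorem ic1 [Infinite k] {t : K} (ht : Transcendental k t)
    (htop : IntermediateField.adjoin k {t} = ⊤)
    {g : k[X]} (hg : g ≠ 0) : IC (B1 t g) = B1 t g :=
  ic_eq _ (crv_B1_pir ht hg) fun x => crv_B1_frac ht hg x (frac_of_top htop x)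

theorem cd_line [IsAlgClosed k] {t : K} (ht : Transcendental k t)
    (htop : IntermediateField.adjoin k {t} = ⊤) {g : k[X]} (hg : g ≠ 0) :
    IsCD (B0 t g) (B1 t g) := by
  have hs : Function.Surjective (algebraMap (IntermediateField.adjoin k {t}) K) :=
    fun x => ⟨⟨x, frac_of_top htop x⟩, rfl⟩
  have h1 : FiniteDimensional (IntermediateField.adjoin k {t}) K :=
    Module.Finite.of_surjective (Algebra.linearMap _ K) hs
  have h2 : Algebra.IsSeparable (IntermediateField.adjoin k {t}) K := ⟨fun x => by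
    obtain ⟨y, rfl⟩ := hs x
    exact isSeparable_algebraMap y⟩
  have h3 := isCD_IC ht hg
  rw [ic0 ht htop hg, ic1 ht htop hg] at h3
  exact h3

theorem sup_line {t : K} (ht : Transcendental k t)
    (htop : IntermediateField.adjoin k {t} = ⊤) {g : k[X]} (hg : g ≠ 0) :
    Subalgebra.toSubmodule (B0 t g) ⊔ Subalgebra.toSubmodule (B1 t g) = ⊤ := by
  rw [eq_top_iff]
  intro x _
  obtain ⟨a, ha, b, hb, hab⟩ := b0_add_b1 ht hg (frac_of_top htop x)
  rw [hab]
  exact Submodule.add_mem_sup ha hb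

theorem finrank_sec {t : K} (ht : Transcendental k t) {g : k[X]} (hg : g ≠ 0) {l : k}
    (hl : g.eval l ≠ 0) (e n : ℕ) :
    Module.finrank k ↥(Sec (B0 t g) (B1 t g) (((t - algebraMap k K l) ^ e)⁻¹) n) = e * n + 1 := by
  have h1 : Sec (B0 t g) (B1 t g) (((t - algebraMap k K l) ^ e)⁻¹) n =
      (degreeLT k (e * n + 1)).map (aeval t : k[X] →ₐ[k] K).toLinearMap := by
    ext a
    rw [mem_sec ht hg hl, Submodule.mem_map]
    constructor
    · rintro ⟨q, hq, rfl⟩
      exact ⟨q, by rw [degreeLT_succ_eq_degreeLE]; exact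
        mem_degreeLE.2 (natDegree_le_iff_degree_le.1 hq), rfl⟩
    · rintro ⟨q, hq, rfl⟩
      rw [degreeLT_succ_eq_degreeLE] at hq
      exact ⟨q, natDegree_le_iff_degree_le.2 (mem_degreeLE.1 hq), rfl⟩
  rw [h1, ← (Submodule.equivMapOfInjective (aeval t : k[X] →ₐ[k] K).toLinearMap
    (transcendental_iff_injective.1 ht) (degreeLT k (e * n + 1))).finrank_eq,
    (degreeLTEquiv k (e * n + 1)).finrank_eq, Module.finrank_fin_fun]

theorem chi0_line {t : K} (ht : Transcendental k t)
    (htop : IntermediateField.adjoin k {t} = ⊤) {g : k[X]} (hg : g ≠ 0) {l : k}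
    (hl : g.eval l ≠ 0) : chi0 (B0 t g) (B1 t g) = 1 := by
  have h1 := finrank_sec (K := K) ht hg hl 0 0
  have h2 : Sec (B0 t g) (B1 t g) (((t - algebraMap k K l) ^ 0)⁻¹) 0 =
      Subalgebra.toSubmodule (B0 t g) ⊓ Subalgebra.toSubmodule (B1 t g) := by
    ext a
    rw [mem_Sec, pow_zero, one_mul]
    rfl
  have h3 : Module.finrank k (K ⧸ (Subalgebra.toSubmodule (B0 t g) ⊔
      Subalgebra.toSubmodule (B1 t g))) = 0 := by
    rw [sup_line ht htop hg]
    have : Subsingleton (K ⧸ (⊤ : Submodule k K)) := Submodule.Quotient.subsingleton_iff.2 rfl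
    exact Module.finrank_zero_of_subsingleton
  rw [h2] at h1
  rw [chi0, h1, h3]
  simp

theorem idx_line [IsAlgClosed k] {t : K} (ht : Transcendental k t)
    (htop : IntermediateField.adjoin k {t} = ⊤) {g : k[X]} (hg : g ≠ 0) {l : k}
    (hl : g.eval l ≠ 0) (e : ℕ) : idx (B1 t g) (((t - algebraMap k K l) ^ e)⁻¹) = e := by
  have hu : ((t - algebraMap k K l) ^ e)⁻¹ ≠ 0 := inv_ne_zero (pow_ne_zero _ (crv_ne_C ht l))
  obtain ⟨-, -, h1⟩ := (cd_line ht htop hg).chi_Sec hu 1
  rw [finrank_sec ht hg hl, chi0_line ht htop hg hl] at h1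
  have hmem : ((t - algebraMap k K l) ^ e)⁻¹ ∈ B1 t g := by
    rw [← inv_pow]
    exact pow_mem (crv_s_mem_B1 ht hl) e
  have h2 : Subalgebra.toSubmodule (B0 t g) ⊔ (Subalgebra.toSubmodule (B1 t g)).comap
      (LinearMap.mulLeft k ((((t - algebraMap k K l) ^ e)⁻¹) ^ 1)) = ⊤ := by
    rw [eq_top_iff, ← sup_line ht htop hg]
    refine sup_le_sup le_rfl fun a ha => ?_
    rw [Submodule.mem_comap, pow_one]
    exact (B1 t g).mul_mem hmem ha
  rw [h2] at h1
  have h3 : Module.finrank k (K ⧸ (⊤ : Submodule k K)) = 0 := by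
    have : Subsingleton (K ⧸ (⊤ : Submodule k K)) := Submodule.Quotient.subsingleton_iff.2 rfl
    exact Module.finrank_zero_of_subsingleton
  rw [h3] at h1
  push_cast at h1
  linarith

end DataH

end Vale.Agent.P292.Dv
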