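import Vale.Agent.P292.D.T4Model
import Vale.Agent.P292.D.T4Pole
import Vale.Agent.P292.D.PairC

/-! # E5: conics which are positive on the divisor are algebraic over their ends. -/

namespace Vale.Agent.P292.Dv

open MvPolynomial Vale.Agent.P292

universe u v w w'

section

variable {R : Type u} [CommRing R] [Algebra ℂ R] {𝒜 : ℕ → Submodule ℂ R} [GradedAlgebra 𝒜]
  {P : R →ₗ[ℂ] R →ₗ[ℂ] R}

omit [GradedAlgebra 𝒜] in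
theorem e5_comp {A : Type v} {B : Type w} {C : Type w'} [CommRing A] [Algebra ℂ A] [CommRing B]
    [Algebra ℂ B] [CommRing C] [Algebra ℂ C] (φ₀ : R →ₐ[ℂ] MvPolynomial (Fin 2) A)
    (f : A →ₐ[ℂ] B) (g : B →ₐ[ℂ] C) :
    (mapAlgHom g).comp ((mapAlgHom f).comp φ₀) = (mapAlgHom (g.comp f)).comp φ₀ := by
  refine AlgHom.ext fun r => ?_
  change map (g : B →+* C) (map (f : A →+* B) (φ₀ r)) = map ((g.comp f : A →ₐ[ℂ] C) : A →+* C) (φ₀ r)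
  rw [map_map]
  rfl

omit [GradedAlgebra 𝒜] in
theorem e5_homog {A : Type v} {B : Type w} [CommRing A] [Algebra ℂ A] [CommRing B]
    [Algebra ℂ B] {φ₀ : R →ₐ[ℂ] MvPolynomial (Fin 2) A} {d : ℕ}
    (h : ∀ j, ∀ r ∈ 𝒜 j, (φ₀ r).IsHomogeneous (d * j)) (f : A →ₐ[ℂ] B) :
    ∀ j, ∀ r ∈ 𝒜 j, (((mapAlgHom f).comp φ₀) r).IsHomogeneous (d * j) := by
  intro j r hr m hm
  have h3 : coeff m (φ₀ r) ≠ 0 := by
    intro h2
    apply hm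
    change coeff m (map (f : A →+* B) (φ₀ r)) = 0
    rw [coeff_map, h2, map_zero]
  exact h j r hr h3

/-- E5, from E3, with an arbitrary algebraically closed field. -/
theorem e5_core (hX : IsContactFano 𝒜 P) {p : Ideal R} (hh : p.IsHomogeneous 𝒜)
    (hp : IsInv 𝒜 p)
    (hno : ∀ δ' > 0, ∀ φ : R →ₐ[ℂ] MvPolynomial (Fin 2) ℂ, ¬ HasPair 𝒜 p 1 δ' φ)
    {κ : Type v} [Field κ] [IsAlgClosed κ] [Algebra ℂ κ] (T : LaurentSeries ℂ →ₐ[ℂ] κ)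
    (E3 : ∀ (F : R →ₐ[ℂ] MvPolynomial (Fin 2) (LaurentSeries ℂ)),
      (∀ j, ∀ r ∈ 𝒜 j, (F r).IsHomogeneous (2 * j)) → ∀ (w₀ w₁ : R →ₐ[ℂ] ℂ),
      (∀ r, eval ![1, 0] (F r) = algebraMap ℂ (LaurentSeries ℂ) (w₀ r)) →
      (∀ r, eval ![0, 1] (F r) = algebraMap ℂ (LaurentSeries ℂ) (w₁ r)) →
      (∃ r m, coeff m (F r) ∉ Set.range (HahnSeries.ofPowerSeries ℤ ℂ)) →
      ∀ (δ : ℕ), 0 < δ → HasPair 𝒜 p 2 δ ((mapAlgHom T).comp F) →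
      ∃ δ' > 0, ∃ φ : R →ₐ[ℂ] MvPolynomial (Fin 2) ℂ, HasPair 𝒜 p 1 δ' φ)
    {K : Type u} [Field K] [IsAlgClosed K]
    [Algebra ℂ K] {φ : R →ₐ[ℂ] MvPolynomial (Fin 2) K} (h : IsCurve 𝒜 2 φ)
    {δ : ℕ} (hδ : 0 < δ) (hpair : HasPair 𝒜 p 2 δ φ) :
    ∀ r m, IsAlgebraic (ends φ) (coeff m (φ r)) := by
  intro r₀ m₀
  by_contra ha
  have := hX.domain
  have := hX.finiteType
  have : IsNoetherianRing R := Algebra.FiniteType.isNoetherianRing ℂ R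
  obtain ⟨φ₀, hφ₀⟩ := e4_model φ
  obtain ⟨c, hc, hcert⟩ := e4_bpf h φ₀ hφ₀
  obtain ⟨f, w₀, w₁, hfc, h0, h1, hpole⟩ := e4_family φ r₀ m₀ ha φ₀ hφ₀ c
    (fun _ E hE a hT => t4_pole E hE a hT c hc)
  have hinj : Function.Injective (cfs φ).val := Subtype.val_injective
  have hdeg₀ : ∀ j, ∀ r ∈ 𝒜 j, (φ₀ r).IsHomogeneous (2 * j) := by
    intro j r hr m hm
    have h2 : coeff m (φ r) ≠ 0 := by
      rw [← hφ₀]
      change coeff m (map ((cfs φ).val : cfs φ →+* K) (φ₀ r)) ≠ 0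
      rw [coeff_map]
      exact (map_ne_zero_iff _ hinj).mpr hm
    exact h.degree j r hr h2
  have hT : Function.Injective T := (T : LaurentSeries ℂ →+* κ).injective
  have hcurve : IsCurve 𝒜 2 ((mapAlgHom (T.comp f)).comp φ₀) := hcert (T.comp f) (by
    rw [AlgHom.comp_apply]
    exact (map_ne_zero_iff _ hT).mpr hfc)
  have hpairF : HasPair 𝒜 p 2 δ ((mapAlgHom T).comp ((mapAlgHom f).comp φ₀)) := by
    rw [e5_comp]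
    refine hasPair_spec hh hp (T.comp f) (cfs φ).val hinj φ₀ hdeg₀ hcurve ?_
    rw [hφ₀]
    exact hpair
  obtain ⟨δ', hδ', ψ, hψ⟩ := E3 ((mapAlgHom f).comp φ₀) (e5_homog hdeg₀ f) w₀ w₁ h0 h1 hpole
    δ hδ hpairF
  exact hno δ' hδ' ψ hψ

/-- E5, from E3. -/
theorem t4_algebraic_conic_of (hX : IsContactFano 𝒜 P) {p : Ideal R} (hh : p.IsHomogeneous 𝒜)
    (hp : IsInv 𝒜 p)
    (hno : ∀ δ' > 0, ∀ φ : R →ₐ[ℂ] MvPolynomial (Fin 2) ℂ, ¬ HasPair 𝒜 p 1 δ' φ)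
    (E3 : ∀ (F : R →ₐ[ℂ] MvPolynomial (Fin 2) (LaurentSeries ℂ)),
      (∀ j, ∀ r ∈ 𝒜 j, (F r).IsHomogeneous (2 * j)) → ∀ (w₀ w₁ : R →ₐ[ℂ] ℂ),
      (∀ r, eval ![1, 0] (F r) = algebraMap ℂ (LaurentSeries ℂ) (w₀ r)) →
      (∀ r, eval ![0, 1] (F r) = algebraMap ℂ (LaurentSeries ℂ) (w₁ r)) →
      (∃ r m, coeff m (F r) ∉ Set.range (HahnSeries.ofPowerSeries ℤ ℂ)) →
      ∀ (δ : ℕ), 0 < δ → HasPair 𝒜 p 2 δ ((mapAlgHom (IsScalarTower.toAlgHom ℂ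
        (LaurentSeries ℂ) (AlgebraicClosure (LaurentSeries ℂ)))).comp F) →
      ∃ δ' > 0, ∃ φ : R →ₐ[ℂ] MvPolynomial (Fin 2) ℂ, HasPair 𝒜 p 1 δ' φ)
    {K : Type u} [Field K] [IsAlgClosed K]
    [Algebra ℂ K] {φ : R →ₐ[ℂ] MvPolynomial (Fin 2) K} (h : IsCurve 𝒜 2 φ)
    {δ : ℕ} (hδ : 0 < δ) (hpair : HasPair 𝒜 p 2 δ φ) :
    ∀ r m, IsAlgebraic (ends φ) (coeff m (φ r)) :=
  e5_core hX hh hp hno (IsScalarTower.toAlgHom ℂ (LaurentSeries ℂ)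
    (AlgebraicClosure (LaurentSeries ℂ))) E3 h hδ hpair

end

end Vale.Agent.P292.Dv
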