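import Vale.Agent.P292.D.Dim2

/-! # Part III, G4: homogenisation of the family -/

namespace Vale.Agent.P292.Dv

open TensorProduct Vale.Agent.P292.Mo

universe u v w

section homog

/-- homogenisation inverts dehomogenisation -/
theorem g4_homogenize {A : Type u} [CommRing A] {n : ℕ} {p : MvPolynomial (Fin 2) A}
    (hp : p.IsHomogeneous n) :
    Polynomial.homogenize (MvPolynomial.aeval ![Polynomial.X, 1] p : Polynomial A) n = p := by
  classical
  have h1 : (MvPolynomial.aeval ![Polynomial.X, 1] p : Polynomial A) =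
      ∑ m ∈ p.support, Polynomial.monomial (m 0) (p.coeff m) := by
    conv_lhs => rw [p.as_sum, map_sum]
    refine Finset.sum_congr rfl fun m _ => ?_
    rw [MvPolynomial.aeval_monomial, Finsupp.prod_fintype _ _ (by simp), Fin.prod_univ_two]
    simp only [Matrix.cons_val_zero, Matrix.cons_val_one, one_pow, mul_one]
    rw [← Polynomial.C_mul_X_pow_eq_monomial]
    rfl
  conv_rhs => rw [p.as_sum]
  rw [h1, Polynomial.homogenize_finsetSum]
  refine Finset.sum_congr rfl fun m hm => ?_
  have h2 : m 0 + m 1 = n := by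
    have h3 := hp (MvPolynomial.mem_support_iff.1 hm)
    rw [Finsupp.weight_apply, Finsupp.sum_fintype _ _ (by simp), Fin.sum_univ_two] at h3
    simpa using h3
  rw [Polynomial.homogenize_monomial (by omega)]
  have h4 : (fun₀ | (0 : Fin 2) => m 0 | 1 => n - m 0 : Fin 2 →₀ ℕ) = m := by
    ext i
    fin_cases i
    · simp
    · simp
      omega
  rw [h4]

/-- the graded homogenisation of a homomorphism -/
theorem g4_twist {k : Type u} [Field k] {R : Type v} [CommRing R] [Algebra k R]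
    (𝒜 : ℕ → Submodule k R) [GradedAlgebra 𝒜] {A : Type w} [CommRing A] [Algebra k A] (e : ℕ)
    (f : R →ₐ[k] Polynomial A) (hf : ∀ j, ∀ r ∈ 𝒜 j, (f r).natDegree ≤ e * j) :
    ∃ Φ : R →ₐ[k] MvPolynomial (Fin 2) A,
      ∀ j, ∀ r ∈ 𝒜 j, Φ r = Polynomial.homogenize (f r) (e * j) := by
  classical
  let T : ℕ → Polynomial A →ₗ[k] MvPolynomial (Fin 2) A := fun j =>
    { toFun := fun p => Polynomial.homogenize p (e * j)
      map_add' := fun p q => Polynomial.homogenize_add _ _ _
      map_smul' := fun a p => by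
        rw [RingHom.id_apply, algebra_compatible_smul A a p, Polynomial.homogenize_smul,
          algebra_compatible_smul A a] }
  let F : ∀ j, (𝒜 j) →ₗ[k] MvPolynomial (Fin 2) A := fun j =>
    (T j) ∘ₗ f.toLinearMap ∘ₗ (𝒜 j).subtype
  have hF : ∀ j (r : 𝒜 j), F j r = Polynomial.homogenize (f (r : R)) (e * j) := fun j r => rfl
  let c₀ : (DirectSum ℕ fun j => 𝒜 j) →ₐ[k] MvPolynomial (Fin 2) A :=
    DirectSum.toAlgebra k (fun j => 𝒜 j) F (by
      rw [hF]
      change Polynomial.homogenize (f (1 : R)) (e * 0) = 1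
      rw [map_one, mul_zero, Polynomial.homogenize_one, pow_zero]) (by
      intro i j a b
      rw [hF, hF, hF]
      change Polynomial.homogenize (f ((a : R) * (b : R))) (e * (i + j)) = _
      rw [map_mul, mul_add, Polynomial.homogenize_mul _ _ (hf i a a.2) (hf j b b.2)])
  refine ⟨c₀.comp (DirectSum.decomposeAlgEquiv 𝒜).toAlgHom, fun j r hr => ?_⟩
  have e2 : (DirectSum.decomposeAlgEquiv 𝒜) r = DirectSum.of (fun j => 𝒜 j) j ⟨r, hr⟩ := by
    rw [DirectSum.decomposeAlgEquiv_apply, DirectSum.decompose_of_mem 𝒜 hr]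
  change c₀ ((DirectSum.decomposeAlgEquiv 𝒜) r) = _
  rw [e2]
  change DirectSum.toModule k ℕ _ F (DirectSum.lof k ℕ (fun j => 𝒜 j) j ⟨r, hr⟩) = _
  rw [DirectSum.toModule_lof]
  rfl

end homog

section poly

variable {k : Type u} [Field k] {D : Type v} [CommRing D] [Algebra k D]
  {K : Type w} [Field K] [Algebra k K] [Algebra (Polynomial k) K] [IsScalarTower k (Polynomial k) K]

/-- polynomials over `D` inside `D ⊗ K` -/
noncomputable def g4Θ (k : Type u) [Field k] (D : Type v) [CommRing D] [Algebra k D] (K : Type w)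
    [Field K] [Algebra k K] [Algebra (Polynomial k) K] : Polynomial D →ₐ[k] D ⊗[k] K :=
  (Polynomial.aeval ((1 : D) ⊗ₜ[k] (algebraMap (Polynomial k) K Polynomial.X)) :
    Polynomial D →ₐ[D] D ⊗[k] K).restrictScalars k

omit [IsScalarTower k (Polynomial k) K] in
theorem g4Θ_monomial (n : ℕ) (a : D) : g4Θ k D K (Polynomial.monomial n a) =
    a ⊗ₜ algebraMap (Polynomial k) K (Polynomial.X ^ n) := by
  change Polynomial.aeval ((1 : D) ⊗ₜ[k] (algebraMap (Polynomial k) K Polynomial.X)) _ = _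
  rw [Polynomial.aeval_monomial, Algebra.TensorProduct.tmul_pow, one_pow,
    Algebra.TensorProduct.algebraMap_apply, Algebra.TensorProduct.tmul_mul_tmul, one_mul,
    map_pow]
  simp

omit [IsScalarTower k (Polynomial k) K] in
theorem g4_coeff {l : K →ₗ[k] k} {i : ℕ}
    (hl : ∀ q : Polynomial k, l (algebraMap (Polynomial k) K q) = q.coeff i) (p : Polynomial D) :
    lamB D l (g4Θ k D K p) = p.coeff i := by
  induction p using Polynomial.induction_on' with
  | add p q hp hq => rw [map_add, map_add, hp, hq, Polynomial.coeff_add]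
  | monomial n a =>
    rw [g4Θ_monomial, lamB_tmul, hl, Polynomial.coeff_X_pow, Polynomial.coeff_monomial]
    by_cases h : i = n
    · rw [if_pos h, if_pos h.symm, one_smul]
    · rw [if_neg h, if_neg (fun h' => h h'.symm), zero_smul]

theorem g4Θ_map (q : Polynomial k) : g4Θ k D K (q.map (algebraMap k D)) =
    (1 : D) ⊗ₜ algebraMap (Polynomial k) K q := by
  induction q using Polynomial.induction_on' with
  | add p q hp hq => rw [Polynomial.map_add, map_add, hp, hq, map_add, tmul_add]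
  | monomial n a =>
    rw [Polynomial.map_monomial, g4Θ_monomial, ← Polynomial.C_mul_X_pow_eq_monomial, map_mul,
      ← Polynomial.algebraMap_eq, ← IsScalarTower.algebraMap_apply, ← Algebra.smul_def,
      tmul_smul, smul_tmul', Algebra.algebraMap_eq_smul_one]

/-- coordinates -/
theorem g4_exists_l [FaithfulSMul (Polynomial k) K] : ∃ l : ℕ → (K →ₗ[k] k), ∀ i,
    ∀ q : Polynomial k, l i (algebraMap (Polynomial k) K q) = q.coeff i := by
  let ι : Polynomial k →ₗ[k] K := (IsScalarTower.toAlgHom k (Polynomial k) K).toLinearMap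
  have hι : Function.Injective ι := FaithfulSMul.algebraMap_injective (Polynomial k) K
  obtain ⟨p, hp⟩ := ι.exists_leftInverse_of_injective (LinearMap.ker_eq_bot.2 hι)
  refine ⟨fun i => Polynomial.lcoeff k i ∘ₗ p, fun i q => ?_⟩
  have h1 : p (ι q) = q := LinearMap.congr_fun hp q
  change (p (ι q)).coeff i = q.coeff i
  rw [h1]

variable {R : Type*} [CommRing R] [Algebra k R] {𝒜 : ℕ → Submodule k R} [GradedAlgebra 𝒜]

/-- from the tensor family to the homogeneous family -/
theorem g4_main [FaithfulSMul (Polynomial k) K] {A₀ A₁ : Subalgebra k K} {u : K} {e : ℕ}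
    (hSec : ∀ n, ∀ a, a ∈ Sec A₀ A₁ u n ↔
      ∃ q : Polynomial k, q.natDegree ≤ e * n ∧ a = algebraMap (Polynomial k) K q)
    {φ' : R →ₐ[k] K} {φ : R →ₐ[k] MvPolynomial (Fin 2) k}
    (hφ : ∀ j, ∀ r ∈ 𝒜 j, (φ r).IsHomogeneous (e * j))
    (hφ' : ∀ r, φ' r = algebraMap (Polynomial k) K
      (MvPolynomial.aeval ![Polynomial.X, 1] (φ r)))
    (e₀ : D →ₐ[k] k) (Ψ : R →ₐ[k] D ⊗[k] K)
    (hΨ : ∀ n, ∀ r ∈ 𝒜 n, Ψ r ∈ InB D (Sec A₀ A₁ u n))
    (hval : ∀ r, ∀ l : K →ₗ[k] k, e₀ (lamB D l (Ψ r)) = l (φ' r))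
    (hadj : Algebra.adjoin k {a : D | ∃ r, ∃ l : K →ₗ[k] k, lamB D l (Ψ r) = a} = ⊤) :
    ∃ Φ : R →ₐ[k] MvPolynomial (Fin 2) D,
      (∀ j, ∀ r ∈ 𝒜 j, (Φ r).IsHomogeneous (e * j)) ∧
      (∀ r, MvPolynomial.map (e₀ : D →+* k) (Φ r) = φ r) ∧
      Algebra.adjoin k {c : D | ∃ r m, c = MvPolynomial.coeff m (Φ r)} = ⊤ := by
  classical
  obtain ⟨l, hl⟩ := g4_exists_l (k := k) (K := K)
  have hΘinj : Function.Injective (g4Θ k D K) := by
    intro p q hpq
    ext i
    rw [← g4_coeff (hl i) p, ← g4_coeff (hl i) q, hpq]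
  have hmem : ∀ n, ∀ r ∈ 𝒜 n, Ψ r ∈ (g4Θ k D K).range := by
    intro n r hr
    refine InB_induction D (p := fun y => y ∈ (g4Θ k D K).range) (zero_mem _) ?_
      (fun x y hx hy => add_mem hx hy) (hΨ n r hr)
    intro b v hv
    obtain ⟨q, -, rfl⟩ := (hSec n v).1 hv
    refine ⟨Polynomial.C b * q.map (algebraMap k D), ?_⟩
    change g4Θ k D K _ = _
    rw [map_mul, g4Θ_map, ← Polynomial.monomial_zero_left, g4Θ_monomial,
      Algebra.TensorProduct.tmul_mul_tmul, pow_zero, map_one, one_mul, mul_one]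
  have hmem' : ∀ r, Ψ r ∈ (g4Θ k D K).range := by
    intro r
    rw [← DirectSum.sum_support_decompose 𝒜 r, map_sum]
    exact sum_mem fun j _ => hmem j _ (SetLike.coe_mem _)
  let E := AlgEquiv.ofInjective (g4Θ k D K) hΘinj
  let f : R →ₐ[k] Polynomial D := E.symm.toAlgHom.comp (Ψ.codRestrict (g4Θ k D K).range hmem')
  have hf : ∀ r, g4Θ k D K (f r) = Ψ r := by
    intro r
    have h1 : E (E.symm (Ψ.codRestrict (g4Θ k D K).range hmem' r)) = Ψ.codRestrict _ hmem' r :=
      E.apply_symm_apply _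
    exact congrArg Subtype.val h1
  have hfc : ∀ r i, (f r).coeff i = lamB D (l i) (Ψ r) := fun r i => by
    rw [← hf, g4_coeff (hl i)]
  have hdeg : ∀ j, ∀ r ∈ 𝒜 j, (f r).natDegree ≤ e * j := by
    intro j r hr
    rw [Polynomial.natDegree_le_iff_coeff_eq_zero]
    intro i hi
    rw [hfc]
    refine hΨ j r hr (l i) fun v hv => ?_
    obtain ⟨q, hq, rfl⟩ := (hSec j v).1 hv
    rw [hl]
    exact Polynomial.coeff_eq_zero_of_natDegree_lt (lt_of_le_of_lt hq hi)
  obtain ⟨Φ, hΦ⟩ := g4_twist 𝒜 e f hdeg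
  refine ⟨Φ, ?_, ?_, ?_⟩
  · intro j r hr
    rw [hΦ j r hr]
    exact Polynomial.isHomogeneous_homogenize _
  · intro r
    have key : ∀ j, ∀ r ∈ 𝒜 j, MvPolynomial.map (e₀ : D →+* k) (Φ r) = φ r := by
      intro j r hr
      rw [hΦ j r hr, ← Polynomial.homogenize_map]
      have h1 : (f r).map (e₀ : D →+* k) = MvPolynomial.aeval ![Polynomial.X, 1] (φ r) := by
        ext i
        rw [Polynomial.coeff_map, hfc]
        change e₀ _ = _
        rw [hval, hφ', hl]
      rw [h1, g4_homogenize (hφ j r hr)]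
    rw [← DirectSum.sum_support_decompose 𝒜 r, map_sum, map_sum, map_sum]
    exact Finset.sum_congr rfl fun j _ => key j _ (SetLike.coe_mem _)
  · rw [eq_top_iff, ← hadj]
    refine Algebra.adjoin_le ?_
    rintro _ ⟨r, l', rfl⟩
    -- a functional is a combination of coefficients
    have key : ∀ p : Polynomial D, lamB D l' (g4Θ k D K p) ∈
        Submodule.span k {c : D | ∃ i, c = p.coeff i} := by
      intro p
      have h1 : g4Θ k D K p = ∑ i ∈ p.support,
          p.coeff i ⊗ₜ algebraMap (Polynomial k) K (Polynomial.X ^ i) := by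
        conv_lhs => rw [p.as_sum_support, map_sum]
        exact Finset.sum_congr rfl fun i _ => g4Θ_monomial i _
      rw [h1, map_sum]
      refine Submodule.sum_mem _ fun i _ => ?_
      rw [lamB_tmul]
      exact Submodule.smul_mem _ _ (Submodule.subset_span ⟨i, rfl⟩)
    have hle : ∀ r, ∀ i, (f r).coeff i ∈
        Algebra.adjoin k {c : D | ∃ r m, c = MvPolynomial.coeff m (Φ r)} := by
      have h1 : ∀ j, ∀ r ∈ 𝒜 j, ∀ i, (f r).coeff i ∈
          Algebra.adjoin k {c : D | ∃ r m, c = MvPolynomial.coeff m (Φ r)} := by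
        intro j r hr i
        rcases Nat.lt_or_ge (e * j) i with hi | hi
        · rw [Polynomial.coeff_eq_zero_of_natDegree_lt (lt_of_le_of_lt (hdeg j r hr) hi)]
          exact zero_mem _
        · refine Algebra.subset_adjoin
            ⟨r, Finsupp.single 0 i + Finsupp.single 1 (e * j - i), ?_⟩
          rw [hΦ j r hr, Polynomial.coeff_homogenize]
          simp [Nat.add_sub_of_le hi]
      intro r i
      rw [← DirectSum.sum_support_decompose 𝒜 r, map_sum, Polynomial.finsetSum_coeff]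
      exact sum_mem fun j _ => h1 j _ (SetLike.coe_mem _) i
    have h2 := key (f r)
    rw [hf] at h2
    have h3 : Submodule.span k {c : D | ∃ i, c = (f r).coeff i} ≤
        Subalgebra.toSubmodule (Algebra.adjoin k {c : D | ∃ r m, c = MvPolynomial.coeff m (Φ r)}) := by
      rw [Submodule.span_le]
      rintro _ ⟨i, rfl⟩
      exact hle r i
    exact h3 h2

end poly

end Vale.Agent.P292.Dv
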