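import Vale.Agent.P292.D.T4Defs

/-! # The model of a curve over the algebra of its coefficients (leaves E4, E5). -/

namespace Vale.Agent.P292.Dv

open MvPolynomial TensorProduct

universe u v w

variable {R : Type u} [CommRing R] [Algebra ℂ R] {𝒜 : ℕ → Submodule ℂ R}

/-- Descent of a linear combination to the field of fractions. -/
theorem e4_descend {D : Type v} [CommRing D] [IsDomain D] {K : Type u} [Field K] [Algebra D K]
    (hinj : Function.Injective (algebraMap D K)) {n : ℕ} (c : Fin n → MvPolynomial (Fin 2) K)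
    (f : Fin n → MvPolynomial (Fin 2) D) (g : MvPolynomial (Fin 2) D)
    (h : ∑ j, c j * map (algebraMap D K) (f j) = map (algebraMap D K) g) :
    ∃ (b : D) (q : Fin n → MvPolynomial (Fin 2) D), b ≠ 0 ∧ ∑ j, q j * f j = C b * g := by
  classical
  have hfs : FaithfulSMul D K := (faithfulSMul_iff_algebraMap_injective D K).2 hinj
  let _ : Algebra (FractionRing D) K := FractionRing.liftAlgebra D K
  have htower : IsScalarTower D (FractionRing D) K := FractionRing.isScalarTower_liftAlgebra D K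
  obtain ⟨l, hl⟩ := (Algebra.linearMap (FractionRing D) K).exists_leftInverse_of_injective
    (LinearMap.ker_eq_bot.2 (algebraMap (FractionRing D) K).injective)
  set L : K →ₗ[D] FractionRing D := l.restrictScalars D with hL
  have hL1 : L 1 = 1 := by
    have h1 := DFunLike.congr_fun hl 1
    simp only [LinearMap.comp_apply, Algebra.linearMap_apply, map_one, LinearMap.id_apply] at h1
    exact h1
  have hLalg : ∀ (x : K) (d : D), L (x * algebraMap D K d) = L x * algebraMap D _ d := by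
    intro x d
    rw [mul_comm, ← Algebra.smul_def, map_smul, Algebra.smul_def, mul_comm]
  set S : Finset (FractionRing D) :=
    Finset.univ.biUnion fun j => (c j).support.image (fun a => L (coeff a (c j))) with hS
  obtain ⟨b, hb⟩ := IsLocalization.exist_integer_multiples_of_finset (nonZeroDivisors D) S
  have hz : ∀ j a, ∃ z : D, algebraMap D (FractionRing D) z =
      algebraMap D _ (b : D) * L (coeff a (c j)) ∧ (a ∉ (c j).support → z = 0) := by
    intro j a
    by_cases ha : a ∈ (c j).support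
    · obtain ⟨z, hz⟩ := hb (L (coeff a (c j))) (by
        rw [hS]
        exact Finset.mem_biUnion.2 ⟨j, Finset.mem_univ _, Finset.mem_image.2 ⟨a, ha, rfl⟩⟩)
      refine ⟨z, ?_, fun h => absurd ha h⟩
      rw [hz, Algebra.smul_def]
    · refine ⟨0, ?_, fun _ => rfl⟩
      rw [notMem_support_iff] at ha
      rw [ha, map_zero, map_zero, mul_zero]
  choose z hz hz0 using hz
  have hco : ∀ j a, coeff a (∑ e ∈ (c j).support, monomial e (z j e)) = z j a := by
    intro j a
    rw [coeff_sum]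
    simp only [coeff_monomial]
    rw [Finset.sum_ite_eq']
    by_cases ha : a ∈ (c j).support
    · rw [if_pos ha]
    · rw [if_neg ha, hz0 j a ha]
  refine ⟨b, fun j => ∑ e ∈ (c j).support, monomial e (z j e), nonZeroDivisors.ne_zero b.2, ?_⟩
  ext m
  apply IsFractionRing.injective D (FractionRing D)
  rw [coeff_sum, coeff_C_mul, map_sum, map_mul]
  have h2 : algebraMap D (FractionRing D) (coeff m g) = L (coeff m (map (algebraMap D K) g)) := by
    rw [coeff_map]
    have := hLalg 1 (coeff m g)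
    rw [one_mul, hL1, one_mul] at this
    exact this.symm
  rw [h2, ← h, coeff_sum, map_sum, Finset.mul_sum]
  refine Finset.sum_congr rfl fun j _ => ?_
  rw [coeff_mul, coeff_mul, map_sum, map_sum, Finset.mul_sum]
  refine Finset.sum_congr rfl fun x _ => ?_
  rw [map_mul, hco, hz, coeff_map, hLalg, mul_assoc]

/-- The algebra of the coefficients is of finite type. -/
theorem e4_finiteType [Algebra.FiniteType ℂ R] {A : Type v} [CommRing A] [Algebra ℂ A]
    (φ : R →ₐ[ℂ] MvPolynomial (Fin 2) A) : Algebra.FiniteType ℂ (cfs φ) := by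
  classical
  obtain ⟨G, hG⟩ := Algebra.FiniteType.out (R := ℂ) (A := R)
  set S : Finset A := G.biUnion (fun g => (φ g).coeffs) with hS
  have h1 : cfs φ = Algebra.adjoin ℂ (S : Set A) := by
    refine le_antisymm (cfs_le φ hG _ fun r hr m => ?_) (Algebra.adjoin_le ?_)
    · by_cases hm : coeff m (φ r) = 0
      · rw [hm]
        exact Subalgebra.zero_mem _
      · refine Algebra.subset_adjoin ?_
        rw [hS, Finset.coe_biUnion]
        simp only [Set.mem_iUnion]
        exact ⟨r, hr, coeff_mem_coeffs m hm⟩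
    · intro a ha
      rw [hS] at ha
      simp only [Finset.coe_biUnion, Set.mem_iUnion, Finset.mem_coe] at ha
      obtain ⟨g, _, hg⟩ := ha
      rw [mem_coeffs_iff] at hg
      obtain ⟨m, _, rfl⟩ := hg
      exact coeff_mem_cfs φ g m
  rw [h1]
  exact (Subalgebra.fg_iff_finiteType _).mp (Subalgebra.fg_adjoin_finset _)

/-- The model of a curve over the algebra of its coefficients. -/
theorem e4_model {A : Type v} [CommRing A] [Algebra ℂ A]
    (φ : R →ₐ[ℂ] MvPolynomial (Fin 2) A) :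
    ∃ φ₀ : R →ₐ[ℂ] MvPolynomial (Fin 2) (cfs φ), (mapAlgHom (cfs φ).val).comp φ₀ = φ := by
  set M : MvPolynomial (Fin 2) (cfs φ) →ₐ[ℂ] MvPolynomial (Fin 2) A := mapAlgHom (cfs φ).val
    with hMdef
  have hM : Function.Injective M := MvPolynomial.map_injective _ Subtype.val_injective
  have hrange : ∀ r, φ r ∈ M.range := by
    intro r
    have : φ r ∈ Set.range (MvPolynomial.map (algebraMap (cfs φ) A)) := by
      rw [mem_range_map_iff_coeffs_subset]
      intro e he
      rw [Finset.mem_coe, mem_coeffs_iff] at he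
      obtain ⟨m, _, rfl⟩ := he
      exact ⟨⟨_, coeff_mem_cfs φ r m⟩, rfl⟩
    exact this
  set e := AlgEquiv.ofInjective M hM with he
  refine ⟨(e.symm : M.range →ₐ[ℂ] MvPolynomial (Fin 2) (cfs φ)).comp
    (φ.codRestrict M.range hrange), ?_⟩
  ext1 r
  have h1 : (e ((e.symm : M.range →ₐ[ℂ] MvPolynomial (Fin 2) (cfs φ)).comp
    (φ.codRestrict M.range hrange) r) : MvPolynomial (Fin 2) A) = φ r := by
    simp
  rw [← h1]
  rfl

/-- A nonzero element of the algebra of the coefficients outside whose zeros the model is base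
point free. -/
theorem e4_bpf {K : Type u} [Field K] [IsAlgClosed K] [Algebra ℂ K] {d : ℕ}
    {φ : R →ₐ[ℂ] MvPolynomial (Fin 2) K} (hφ : IsCurve 𝒜 d φ)
    (φ₀ : R →ₐ[ℂ] MvPolynomial (Fin 2) (cfs φ)) (hφ₀ : (mapAlgHom (cfs φ).val).comp φ₀ = φ) :
    ∃ h : cfs φ, h ≠ 0 ∧ ∀ {κ : Type w} [Field κ] [Algebra ℂ κ] (σ : cfs φ →ₐ[ℂ] κ),
      σ h ≠ 0 → IsCurve 𝒜 d ((mapAlgHom σ).comp φ₀) := by
  have hφr : ∀ r, map (algebraMap (cfs φ) K) (φ₀ r) = φ r := fun r => DFunLike.congr_fun hφ₀ r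
  have key : ∀ i : Fin 2, ∃ (b : cfs φ) (N n : ℕ) (q : Fin n → MvPolynomial (Fin 2) (cfs φ))
      (r : Fin n → R) (k : Fin n → ℕ), b ≠ 0 ∧ (∀ j, 0 < k j) ∧ (∀ j, r j ∈ 𝒜 (k j)) ∧
      ∑ j, q j * φ₀ (r j) = C b * X i ^ N := by
    intro i
    obtain ⟨N, n, c, r, k, hk, hr, h0⟩ := hφ.exists_pow i
    obtain ⟨b, q, hb, hq⟩ := e4_descend (D := cfs φ) (K := K) Subtype.val_injective c
      (fun j => φ₀ (r j)) (X i ^ N) (by
        rw [map_pow, map_X, ← h0]
        exact Finset.sum_congr rfl fun j _ => by rw [hφr])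
    exact ⟨b, N, n, q, r, k, hb, hk, hr, hq⟩
  choose b N n q r k hb hk hr hq using key
  refine ⟨b 0 * b 1, mul_ne_zero (hb 0) (hb 1), fun {κ} _ _ σ hσ => ⟨?_, ?_⟩⟩
  · intro j r hr m hm
    have hm' : coeff m (φ₀ r) ≠ 0 := by
      intro h
      apply hm
      change coeff m (map (σ : cfs φ →+* κ) (φ₀ r)) = 0
      rw [coeff_map, h, map_zero]
    refine hφ.degree j r hr ?_
    rw [← hφr, coeff_map]
    intro h3
    exact hm' (Subtype.ext h3)
  · intro x hx
    rw [map_mul] at hσ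
    have hb' : ∀ i, σ (b i) ≠ 0 := by
      intro i
      fin_cases i
      · exact left_ne_zero_of_mul hσ
      · exact right_ne_zero_of_mul hσ
    obtain ⟨i, hxi⟩ : ∃ i, x i ≠ 0 := by
      by_contra hcon
      push Not at hcon
      exact hx (funext hcon)
    by_contra hcon
    push Not at hcon
    have h6 : aeval x (mapAlgHom σ (∑ j, q i j * φ₀ (r i j))) = 0 := by
      rw [map_sum, map_sum]
      refine Finset.sum_eq_zero fun j _ => ?_
      rw [map_mul, map_mul]
      have h7 := hcon (k i j) (hk i j) (r i j) (hr i j)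
      rw [AlgHom.comp_apply] at h7
      rw [h7, mul_zero]
    rw [hq i, map_mul, map_mul, map_pow, map_pow] at h6
    have h8 : mapAlgHom σ (X i : MvPolynomial (Fin 2) (cfs φ)) = X i := by
      change map (σ : cfs φ →+* κ) (X i) = X i
      rw [map_X]
    have h9 : mapAlgHom σ (C (b i) : MvPolynomial (Fin 2) (cfs φ)) = C (σ (b i)) := by
      change map (σ : cfs φ →+* κ) (C (b i)) = C (σ (b i))
      rw [map_C]
      rfl
    rw [h8, h9, aeval_X, aeval_C] at h6
    exact mul_ne_zero (hb' i) (pow_ne_zero _ hxi) h6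

/-- The end of a family, over any algebra. -/
noncomputable def e4_pt {A : Type v} [CommRing A] [Algebra ℂ A]
    (φ : R →ₐ[ℂ] MvPolynomial (Fin 2) A) (a : Fin 2 → A) : R →ₐ[ℂ] A :=
  ((aeval a : MvPolynomial (Fin 2) A →ₐ[A] A).restrictScalars ℂ).comp φ

theorem e4_pt_apply {A : Type v} [CommRing A] [Algebra ℂ A]
    (φ : R →ₐ[ℂ] MvPolynomial (Fin 2) A) (a : Fin 2 → A) (r : R) :
    e4_pt φ a r = eval a (φ r) := by
  rw [e4_pt, AlgHom.comp_apply]
  exact aeval_eq_eval a ▸ rfl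

/-- The algebra of the ends, over any algebra. -/
noncomputable def e4_ends {A : Type v} [CommRing A] [Algebra ℂ A]
    (φ : R →ₐ[ℂ] MvPolynomial (Fin 2) A) : Subalgebra ℂ A :=
  (e4_pt φ ![1, 0]).range ⊔ (e4_pt φ ![0, 1]).range

theorem e4_ends_fg [Algebra.FiniteType ℂ R] {A : Type v} [CommRing A] [Algebra ℂ A]
    (φ : R →ₐ[ℂ] MvPolynomial (Fin 2) A) : (e4_ends φ).FG := by
  have h1 : (⊤ : Subalgebra ℂ R).FG := Algebra.FiniteType.out
  have h2 : ∀ a, ((e4_pt φ a).range).FG := fun a => by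
    rw [← Algebra.map_top]
    exact h1.map _
  exact (h2 _).sup (h2 _)

theorem e4_map_vec {A : Type v} {B : Type w} [CommRing A] [CommRing B] (f : A →+* B) (a b : ℕ)
    (p : MvPolynomial (Fin 2) A) :
    eval (![(a : B), (b : B)]) (map f p) = f (eval (![(a : A), (b : A)]) p) := by
  have h1 : (![(a : B), (b : B)]) = fun i => ((![a, b] i : ℕ) : B) := by
    funext i
    fin_cases i <;> rfl
  have h2 : (![(a : A), (b : A)]) = fun i => ((![a, b] i : ℕ) : A) := by
    funext i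
    fin_cases i <;> rfl
  rw [h1, h2]
  exact h_eval_nat f ![a, b] p

theorem e4_eval10 {A : Type v} {B : Type w} [CommRing A] [CommRing B] (f : A →+* B)
    (p : MvPolynomial (Fin 2) A) :
    eval (![(1 : B), 0]) (map f p) = f (eval (![(1 : A), 0]) p) := by
  have := e4_map_vec f 1 0 p
  simpa using this

theorem e4_eval01 {A : Type v} {B : Type w} [CommRing A] [CommRing B] (f : A →+* B)
    (p : MvPolynomial (Fin 2) A) :
    eval (![(0 : B), 1]) (map f p) = f (eval (![(0 : A), 1]) p) := by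
  have := e4_map_vec f 0 1 p
  simpa using this

/-- Over the algebra of the coefficients, the family has constant ends and a pole, if some
coefficient is transcendental over the ends. -/
theorem e4_family [Algebra.FiniteType ℂ R] {K : Type u} [Field K] [Algebra ℂ K]
    (φ : R →ₐ[ℂ] MvPolynomial (Fin 2) K) (r₀ : R) (m₀ : Fin 2 →₀ ℕ)
    (ha : ¬ IsAlgebraic (ends φ) (coeff m₀ (φ r₀)))
    (φ₀ : R →ₐ[ℂ] MvPolynomial (Fin 2) (cfs φ)) (hφ₀ : (mapAlgHom (cfs φ).val).comp φ₀ = φ)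
    (h : cfs φ)
    (E1 : Algebra.FiniteType ℂ (cfs φ) → ∀ E : Subalgebra ℂ (cfs φ), E.FG → ∀ a : cfs φ,
      Transcendental E a → ∃ f : cfs φ →ₐ[ℂ] LaurentSeries ℂ,
        (∀ x ∈ E, ∃ c : ℂ, f x = algebraMap ℂ (LaurentSeries ℂ) c) ∧
        f h ≠ 0 ∧ ∃ b : cfs φ, f b ∉ Set.range (HahnSeries.ofPowerSeries ℤ ℂ)) :
    ∃ (f : cfs φ →ₐ[ℂ] LaurentSeries ℂ) (w₀ w₁ : R →ₐ[ℂ] ℂ), f h ≠ 0 ∧
      (∀ r, eval ![1, 0] (mapAlgHom f (φ₀ r)) = algebraMap ℂ (LaurentSeries ℂ) (w₀ r)) ∧
      (∀ r, eval ![0, 1] (mapAlgHom f (φ₀ r)) = algebraMap ℂ (LaurentSeries ℂ) (w₁ r)) ∧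
      ∃ r m, coeff m (mapAlgHom f (φ₀ r)) ∉ Set.range (HahnSeries.ofPowerSeries ℤ ℂ) := by
  have hft := e4_finiteType φ
  have hφr : ∀ r, map (algebraMap (cfs φ) K) (φ₀ r) = φ r := fun r => DFunLike.congr_fun hφ₀ r
  have hco : ∀ r m, ((coeff m (φ₀ r) : cfs φ) : K) = coeff m (φ r) := fun r m => by
    rw [← hφr, coeff_map]
    rfl
  set a : cfs φ := coeff m₀ (φ₀ r₀) with hadef
  -- the ends
  have hle : (e4_ends φ₀).map (cfs φ).val ≤ ends φ := by
    rw [e4_ends, Algebra.map_sup, sup_le_iff]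
    constructor
    · rintro _ ⟨_, ⟨r, rfl⟩, rfl⟩
      refine Algebra.subset_adjoin (Or.inl ⟨r, ?_⟩)
      change pt φ ![1, 0] r = algebraMap (cfs φ) K (e4_pt φ₀ ![1, 0] r)
      rw [e4_pt_apply, ← e4_eval10, hφr, ← e4_pt_apply]
      rfl
    · rintro _ ⟨_, ⟨r, rfl⟩, rfl⟩
      refine Algebra.subset_adjoin (Or.inr ⟨r, ?_⟩)
      change pt φ ![0, 1] r = algebraMap (cfs φ) K (e4_pt φ₀ ![0, 1] r)
      rw [e4_pt_apply, ← e4_eval01, hφr, ← e4_pt_apply]
      rfl
  have hT : Transcendental (e4_ends φ₀) a := by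
    intro hcon
    apply ha
    let g : e4_ends φ₀ →+* ends φ :=
      (((cfs φ).val : cfs φ →+* K).comp (algebraMap (e4_ends φ₀) (cfs φ))).codRestrict
        (ends φ).toSubring (fun x => hle ⟨x.1, x.2, rfl⟩)
    have hg : Function.Injective g := fun x y hxy => by
      have h1 := congrArg Subtype.val hxy
      exact Subtype.ext (Subtype.ext h1)
    have h2 := hcon.ringHom_of_comp_eq g (((cfs φ).val : cfs φ →+* K)) hg (by
      ext x
      rfl)
    have h3 : ((cfs φ).val : cfs φ →+* K) a = coeff m₀ (φ r₀) := hco r₀ m₀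
    rwa [h3] at h2
  obtain ⟨f, hf, hfh, b, hb⟩ := E1 hft (e4_ends φ₀) (e4_ends_fg φ₀) a hT
  have hinj : Function.Injective (algebraMap ℂ (LaurentSeries ℂ)) :=
    (algebraMap ℂ (LaurentSeries ℂ)).injective
  have hw : ∀ v : R →ₐ[ℂ] cfs φ, (∀ r, v r ∈ e4_ends φ₀) →
      ∃ w : R →ₐ[ℂ] ℂ, ∀ r, f (v r) = algebraMap ℂ (LaurentSeries ℂ) (w r) := by
    intro v hv
    let ι : ℂ →ₐ[ℂ] LaurentSeries ℂ := Algebra.ofId ℂ (LaurentSeries ℂ)
    have hι : Function.Injective ι := hinj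
    have hr : ∀ r, (f.comp v) r ∈ ι.range := fun r => by
      obtain ⟨c, hc⟩ := hf _ (hv r)
      exact ⟨c, hc.symm⟩
    set e := AlgEquiv.ofInjective ι hι with he
    refine ⟨(e.symm : ι.range →ₐ[ℂ] ℂ).comp ((f.comp v).codRestrict ι.range hr), fun r => ?_⟩
    have h1 : (e ((e.symm : ι.range →ₐ[ℂ] ℂ).comp ((f.comp v).codRestrict ι.range hr) r) :
      LaurentSeries ℂ) = (f.comp v) r := by
      simp
    rw [← AlgHom.comp_apply, ← h1]
    rfl
  obtain ⟨w₀, hw₀⟩ := hw (e4_pt φ₀ ![1, 0]) (fun r =>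
    (le_sup_left : (e4_pt φ₀ ![1, 0]).range ≤ e4_ends φ₀) ⟨r, rfl⟩)
  obtain ⟨w₁, hw₁⟩ := hw (e4_pt φ₀ ![0, 1]) (fun r =>
    (le_sup_right : (e4_pt φ₀ ![0, 1]).range ≤ e4_ends φ₀) ⟨r, rfl⟩)
  refine ⟨f, w₀, w₁, hfh, fun r => ?_, fun r => ?_, ?_⟩
  · rw [← hw₀ r, e4_pt_apply]
    exact e4_eval10 (f : cfs φ →+* LaurentSeries ℂ) (φ₀ r)
  · rw [← hw₁ r, e4_pt_apply]
    exact e4_eval01 (f : cfs φ →+* LaurentSeries ℂ) (φ₀ r)
  · by_contra hcon
    push Not at hcon
    apply hb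
    -- the subalgebra of the power series
    let S : Subalgebra ℂ (LaurentSeries ℂ) :=
      { (HahnSeries.ofPowerSeries ℤ ℂ).range with
        algebraMap_mem' := fun c => ⟨algebraMap ℂ (PowerSeries ℂ) c, rfl⟩ }
    have hS : ∀ x : LaurentSeries ℂ, x ∈ S ↔ x ∈ Set.range (HahnSeries.ofPowerSeries ℤ ℂ) :=
      fun x => Iff.rfl
    have h1 : (cfs φ) ≤ (S.comap f).map (cfs φ).val := by
      refine (Algebra.adjoin_le ?_ :
        Algebra.adjoin ℂ {c | ∃ r m, c = coeff m (φ r)} ≤ (S.comap f).map (cfs φ).val)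
      rintro _ ⟨r, m, rfl⟩
      refine ⟨coeff m (φ₀ r), ?_, hco r m⟩
      change f (coeff m (φ₀ r)) ∈ S
      rw [hS]
      have h2 := hcon r m
      change coeff m (map (f : cfs φ →+* LaurentSeries ℂ) (φ₀ r)) ∈ _ at h2
      rwa [coeff_map] at h2
    obtain ⟨b', hb', hbb⟩ := h1 b.2
    have h3 : b' = b := Subtype.ext hbb
    rw [h3] at hb'
    exact (hS _).1 hb'

end Vale.Agent.P292.Dv
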