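import Vale.Agent.P292.D.T2Defs

/-! # P292, Part III, C8: the Frobenius twist of the standard charts. -/

namespace Vale.Agent.P292.Dv.TwGP

open Vale.Agent.P292.Mo

universe u v w

section ch

variable {k : Type u} [Field k] {K L : Type w} [Field K] [Algebra k K] [Field L] [Algebra k L]
  {σ : k ≃+* k} {τ : L ≃+* K} (hτ : IsSl σ τ)

include hτ

open Polynomial in
/-- Values of the twisted polynomial. -/
theorem aeval_map (g : Polynomial k) (x : L) :
    τ (Polynomial.aeval x (g.map (σ.symm : k →+* k))) = Polynomial.aeval (τ x) g := by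
  induction g using Polynomial.induction_on' with
  | add p q hp hq => rw [Polynomial.map_add, map_add, map_add, map_add, hp, hq]
  | monomial n a =>
    rw [Polynomial.map_monomial, Polynomial.aeval_monomial, Polynomial.aeval_monomial, map_mul,
      map_pow, hτ.al]
    congr 2
    exact σ.apply_symm_apply a

open Polynomial in
theorem aeval_map' (g : Polynomial k) (x : L) :
    Polynomial.aeval (τ x) (g.map (σ : k →+* k)) = τ (Polynomial.aeval x g) := by
  rw [← aeval_map hτ, Polynomial.map_map]
  congr 2
  have : (σ.symm : k →+* k).comp (σ : k →+* k) = RingHom.id k := by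
    ext x
    exact σ.symm_apply_apply x
  rw [this, Polynomial.map_id]

/-- The twist of the first chart of the line. -/
theorem B0_eq (t : L) (g : Polynomial k) :
    hτ.A (B0 (τ t) g) = B0 t (g.map (σ.symm : k →+* k)) := by
  apply le_antisymm
  · intro x hx
    rw [hτ.mem_A] at hx
    have key : ∀ y ∈ B0 (τ t) g, τ.symm y ∈ B0 t (g.map (σ.symm : k →+* k)) := by
      intro y hy
      refine Algebra.adjoin_induction (p := fun y _ => τ.symm y ∈ B0 t (g.map (σ.symm : k →+* k)))
        ?_ ?_ ?_ ?_ hy
      · intro z hz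
        rcases hz with rfl | hz
        · rw [τ.symm_apply_apply]
          exact Algebra.subset_adjoin (Or.inl rfl)
        · rw [Set.mem_singleton_iff] at hz
          subst hz
          rw [← aeval_map hτ, map_inv₀, τ.symm_apply_apply]
          exact Algebra.subset_adjoin (Or.inr rfl)
      · intro c
        have := hτ.sm (σ.symm c)
        rw [σ.apply_symm_apply] at this
        rw [this]
        exact Subalgebra.algebraMap_mem _ _
      · intro a b _ _ ha hb
        rw [map_add]
        exact add_mem ha hb
      · intro a b _ _ ha hb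
        rw [map_mul]
        exact mul_mem ha hb
    have := key _ hx
    rwa [τ.symm_apply_apply] at this
  · refine Algebra.adjoin_le ?_
    rintro z (rfl | hz)
    · exact Algebra.subset_adjoin (Or.inl rfl)
    · rw [Set.mem_singleton_iff] at hz
      subst hz
      change τ _ ∈ B0 (τ t) g
      rw [map_inv₀, aeval_map hτ]
      exact Algebra.subset_adjoin (Or.inr rfl)

/-- The twist of the second chart of the line. -/
theorem B1_eq (t : L) (g : Polynomial k) :
    hτ.A (B1 (τ t) g) = B1 t (g.map (σ.symm : k →+* k)) := by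
  have hmm : ∀ f : Polynomial k, (f.map (σ : k →+* k)).map (σ.symm : k →+* k) = f := by
    intro f
    rw [Polynomial.map_map]
    have : (σ.symm : k →+* k).comp (σ : k →+* k) = RingHom.id k := by
      ext x
      exact σ.symm_apply_apply x
    rw [this, Polynomial.map_id]
  have hmm' : ∀ f : Polynomial k, (f.map (σ.symm : k →+* k)).map (σ : k →+* k) = f := by
    intro f
    rw [Polynomial.map_map]
    have : (σ : k →+* k).comp (σ.symm : k →+* k) = RingHom.id k := by
      ext x
      exact σ.apply_symm_apply x
    rw [this, Polynomial.map_id]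
  ext x
  rw [hτ.mem_A]
  constructor
  · rintro ⟨a, b, hb, hc, hd, hx⟩
    refine ⟨a.map (σ.symm : k →+* k), b.map (σ.symm : k →+* k), ?_, ?_, ?_, ?_⟩
    · intro h0
      apply hb
      rw [← aeval_map hτ, h0, map_zero]
    · exact hc.map (Polynomial.mapRingHom (σ.symm : k →+* k))
    · exact (Polynomial.natDegree_map_le).trans
        (hd.trans (Polynomial.natDegree_map_eq_of_injective σ.symm.injective b).ge)
    · apply τ.injective
      rw [map_div₀, aeval_map hτ, aeval_map hτ, hx]
  · rintro ⟨a, b, hb, hc, hd, hx⟩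
    refine ⟨a.map (σ : k →+* k), b.map (σ : k →+* k), ?_, ?_, ?_, ?_⟩
    · rw [aeval_map' hτ]
      exact (map_ne_zero τ).2 hb
    · have := hc.map (Polynomial.mapRingHom (σ : k →+* k))
      rw [Polynomial.coe_mapRingHom, hmm'] at this
      exact this
    · exact (Polynomial.natDegree_map_le).trans
        (hd.trans (Polynomial.natDegree_map_eq_of_injective σ.injective b).ge)
    · rw [aeval_map' hτ, aeval_map' hτ, ← map_div₀, ← hx]

/-- The twist of the integral closure. -/
theorem IC_eq (B : Subalgebra k K) : hτ.A (IC B) = IC (hτ.A B) := by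
  ext x
  rw [hτ.mem_A]
  change IsIntegral B (τ x) ↔ IsIntegral (hτ.A B) x
  constructor
  · rintro ⟨f, hf, hfx⟩
    refine ⟨f.map ((hτ.R B).symm : B →+* hτ.A B), hf.map _, ?_⟩
    rw [Polynomial.eval₂_map]
    apply τ.injective
    rw [map_zero, ← hfx]
    change (τ : L →+* K) _ = _
    rw [Polynomial.hom_eval₂]
    have h1 : (τ : L →+* K).comp ((algebraMap (↥(hτ.A B)) L).comp
        ((hτ.R B).symm : B →+* hτ.A B)) = algebraMap (↥B) K := by
      ext y
      exact τ.apply_symm_apply y.1
    rw [h1]
    rfl
  · rintro ⟨f, hf, hfx⟩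
    refine ⟨f.map ((hτ.R B) : hτ.A B →+* B), hf.map _, ?_⟩
    rw [Polynomial.eval₂_map]
    have := congrArg (τ : L →+* K) hfx
    rw [map_zero, Polynomial.hom_eval₂] at this
    rw [← this]
    rfl

/-- The twist of the standard charts. -/
theorem isCh {t : L} {A₀ A₁ : Subalgebra k K} (h : IsCh (τ t) A₀ A₁) :
    IsCh t (hτ.A A₀) (hτ.A A₁) := by
  obtain ⟨g, hg, rfl, rfl⟩ := h
  refine ⟨g.map (σ.symm : k →+* k), ?_, ?_, ?_⟩
  · rwa [Ne, Polynomial.map_eq_zero]
  · rw [IC_eq hτ, B0_eq hτ]
  · rw [IC_eq hτ, B1_eq hτ]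

end ch

end Vale.Agent.P292.Dv.TwGP
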